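import Vale.Agent.P026.Count

/-! The zeta function of `O` restricted to primary elements.
Plan: `card_prim_norm` by multiplicativity / unique factorisation (split `ℓ ≡ 1`, inert `ℓ ≡ 2` mod 3), or an Euler product. -/

namespace Vale.Agent.P026

open scoped ComplexConjugate Real

namespace ZetaAux

open Classical in
/-- primary elements of norm `m` -/
noncomputable def S (m : ℕ) : Finset O := (ball m).filter fun n => Prim n ∧ nm n = m

theorem mem_S {m : ℕ} {n : O} : n ∈ S m ↔ Prim n ∧ nm n = m := by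
  classical
  simp only [S, Finset.mem_filter, mem_ball, and_iff_right_iff_imp]
  rintro ⟨-, h⟩
  rw [h]

open Classical in
theorem cnt {a : O} (ha : Prim a) (k : ℕ) :
    ((S (nm a * k)).filter (a ∣ ·)).card = (S k).card := by
  rw [← Finset.card_image_of_injective (S k) (mul_right_injective₀ ha.ne_zero)]
  congr 1
  ext n
  simp only [Finset.mem_filter, Finset.mem_image, mem_S]
  constructor
  · rintro ⟨⟨h1, h2⟩, c, rfl⟩
    rw [nm_mul] at h2
    exact ⟨c, ⟨ha.of_mul h1, Nat.eq_of_mul_eq_mul_left (nm_pos ha.ne_zero) h2⟩, rfl⟩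
  · rintro ⟨c, ⟨h1, h2⟩, rfl⟩
    exact ⟨⟨ha.mul h1, by rw [nm_mul, h2]⟩, dvd_mul_right _ _⟩

open Classical in
/-- elements of norm `l * k` divisible by the rational prime `l` -/
theorem cnt_rat {l : ℕ} (hl : l.Prime) {a : O} (ha : Prim a) (hal : Associated a (l : O)) (k : ℕ) :
    ((S (l * k)).filter ((l : O) ∣ ·)).card = if l ∣ k then (S (k / l)).card else 0 := by
  have hn : nm a = l * l := by rw [nm_of_associated hal, nm_natCast, pow_two]
  split_ifs with h
  · obtain ⟨k', rfl⟩ := h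
    rw [Nat.mul_div_cancel_left _ hl.pos, ← cnt ha k', hn, mul_assoc]
    congr 1
    ext n
    simp only [Finset.mem_filter, hal.dvd_iff_dvd_left]
  · rw [Finset.card_eq_zero, Finset.filter_eq_empty_iff]
    intro n hn' hd
    have := nm_dvd hd
    rw [(mem_S.1 hn').2, nm_natCast, pow_two] at this
    exact h (Nat.dvd_of_mul_dvd_mul_left hl.pos this)

theorem exists_root {l : ℕ} (hl : l.Prime) (h : l % 3 = 1) :
    ∃ x : ℤ, (l : ℤ) ∣ x ^ 2 + x + 1 := by
  have := Fact.mk hl
  obtain ⟨g, hg⟩ := exists_prime_orderOf_dvd_card (G := (ZMod l)ˣ) 3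
    (by rw [ZMod.card_units]; omega)
  have h3 : (g : ZMod l) ^ 3 = 1 := by
    rw [← Units.val_pow_eq_pow_val, ← hg, pow_orderOf_eq_one, Units.val_one]
  have h1 : (g : ZMod l) - 1 ≠ 0 := by
    intro h1
    have : g = 1 := Units.ext (sub_eq_zero.1 h1)
    rw [this, orderOf_one] at hg
    omega
  obtain ⟨x, hx⟩ := ZMod.intCast_surjective (g : ZMod l)
  refine ⟨x, (ZMod.intCast_zmod_eq_zero_iff_dvd _ _).1 ?_⟩
  push_cast
  rw [hx]
  exact mul_left_cancel₀ h1 (by linear_combination h3)

theorem not_prime_split {l : ℕ} (hl : l.Prime) (h : l % 3 = 1) : ¬ Prime (l : O) := by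
  intro hp
  obtain ⟨x, hx⟩ := exists_root hl h
  have h1 : (l : O) ∣ ((x : O) - om) * ((x : O) + 1 + om) := by
    have : ((x : O) - om) * ((x : O) + 1 + om) = ((x ^ 2 + x + 1 : ℤ) : O) := by
      push_cast; linear_combination -om_sq_add
    rw [this]
    obtain ⟨c, hc⟩ := hx
    exact ⟨c, by rw [hc]; push_cast; ring⟩
  have h2 : ∀ y : O, (l : O) ∣ y → y.im = 1 ∨ y.im = -1 → False := by
    intro y hy h'
    have : ((l : ℤ) : O) ∣ y := by exact_mod_cast hy
    have h4 := ((dvd_iff_int l y).1 this).2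
    have h5 : (l : ℤ) ∣ 1 := by
      rcases h' with h' | h'
      · rwa [h'] at h4
      · rwa [h', dvd_neg] at h4
    exact hl.one_lt.ne' (Nat.dvd_one.1 (by exact_mod_cast h5))
  rcases hp.dvd_or_dvd h1 with h3 | h3
  · exact h2 _ h3 (Or.inr (by simp [om]))
  · exact h2 _ h3 (Or.inl (by simp [om, QuadraticAlgebra.im_one]))

theorem exists_prime_over {l : ℕ} (hl : l.Prime) (h3 : l ≠ 3) :
    ∃ p : O, Prime p ∧ Prim p ∧ (nm p = l ∨ Associated p (l : O)) := by
  have h0 : (l : O) ≠ 0 := fun h => by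
    have := congrArg nm h
    rw [nm_natCast, nm_zero] at this
    exact hl.ne_zero (pow_eq_zero_iff two_ne_zero |>.1 this)
  have hu : ¬ IsUnit (l : O) := fun h => by
    rw [isUnit_iff_nm, nm_natCast] at h
    exact hl.one_lt.ne' (Nat.pow_eq_one.1 h |>.resolve_right two_ne_zero)
  obtain ⟨q, hq, hql⟩ := WfDvdMonoid.exists_irreducible_factor hu h0
  have hlam : ¬ lam ∣ q := fun h => by
    have := nm_dvd (h.trans hql)
    rw [nm_lam, nm_natCast] at this
    exact h3 ((Nat.prime_dvd_prime_iff_eq Nat.prime_three hl).1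
      (Nat.prime_three.dvd_of_dvd_pow this)).symm
  obtain ⟨u, p, hu', hp, rfl⟩ := exists_prim hlam
  have as : Associated (u * p) p := associated_unit_mul_left p u hu'
  have pp : Prime p := as.prime hq.prime
  obtain ⟨l', hl', -, h⟩ := nm_prime pp
  have hd : nm p ∣ l ^ 2 := by
    rw [← nm_natCast]; exact nm_dvd (as.symm.dvd.trans hql)
  have e : l' = l := by
    refine (Nat.prime_dvd_prime_iff_eq hl' hl).1 (hl'.dvd_of_dvd_pow (n := 2) ?_)
    rcases h with h | ⟨h, -⟩
    · exact h ▸ hd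
    · exact (dvd_pow_self l' two_ne_zero).trans (h ▸ hd)
  subst e
  exact ⟨p, pp, hp, h.imp_right And.right⟩

theorem rec_inert {l : ℕ} (hl : l.Prime) (h : l % 3 = 2) (k : ℕ) :
    (S (l * k)).card = if l ∣ k then (S (k / l)).card else 0 := by
  classical
  obtain ⟨p, pp, hp, h1 | h1⟩ := exists_prime_over hl (by omega)
  · have := hp.nm_mod; omega
  rw [← cnt_rat hl hp h1 k]
  congr 1
  refine (Finset.filter_true_of_mem fun n hn => ?_).symm
  have h2 : (l : O) ∣ n * star n := by
    rw [mul_star_self, (mem_S.1 hn).2]; push_cast; exact dvd_mul_right _ _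
  rcases (h1.prime pp).dvd_or_dvd h2 with h3 | ⟨c, h3⟩
  · exact h3
  · exact ⟨star c, by rw [← star_star n, h3, star_mul, star_natCast, mul_comm]⟩

theorem rec_split {l : ℕ} (hl : l.Prime) (h : l % 3 = 1) (k : ℕ) :
    (S (l * k)).card + (if l ∣ k then (S (k / l)).card else 0) = 2 * (S k).card := by
  classical
  obtain ⟨p, pp, hp, h1 | h1⟩ := exists_prime_over hl (by omega)
  swap
  · exact (not_prime_split hl h (h1.prime pp)).elim
  have hs : p * star p = l := by rw [mul_star_self, h1]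
  have pp' : Prime (star p) := (MulEquiv.prime_iff (starRingAut (R := O))).2 pp
  have hnd : ¬ p ∣ star p := fun hd => by
    have e := hp.eq_of_associated hp.star (pp.associated_of_dvd pp' hd)
    rw [← e] at hs
    have h4 := congrArg QuadraticAlgebra.im e
    rw [QuadraticAlgebra.im_star] at h4
    have h5 : p.im = 0 := by omega
    have h6 := nm_int p
    rw [h1, h5] at h6
    have h7 : l = p.re.natAbs * p.re.natAbs := by
      zify; rw [abs_mul_abs_self]; linarith
    exact (Nat.not_prime_mul (a := p.re.natAbs) (b := p.re.natAbs)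
      (fun h8 => by rw [h8] at h7; exact hl.one_lt.ne' h7)
      (fun h8 => by rw [h8] at h7; exact hl.one_lt.ne' h7)) (h7 ▸ hl)
  have hc : IsCoprime p (star p) := pp.irreducible.coprime_iff_not_dvd.2 hnd
  have c1 := cnt hp k
  have c2 := cnt hp.star k
  rw [nm_star] at c2
  rw [h1] at c1 c2
  have c3 := cnt_rat hl (hp.mul hp.star) (hs ▸ Associated.refl _) k
  have c4 := Finset.card_union_add_card_inter ((S (l * k)).filter (p ∣ ·))
    ((S (l * k)).filter (star p ∣ ·))
  have c5 : (S (l * k)).filter (p ∣ ·) ∪ (S (l * k)).filter (star p ∣ ·) = S (l * k) := by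
    rw [← Finset.filter_or]
    refine Finset.filter_true_of_mem fun n hn => ?_
    have h2 : p ∣ n * star n := by
      rw [mul_star_self, (mem_S.1 hn).2]; push_cast; rw [← hs, mul_assoc]; exact dvd_mul_right _ _
    rcases pp.dvd_or_dvd h2 with h3 | ⟨c, h3⟩
    · exact Or.inl h3
    · exact Or.inr ⟨star c, by rw [← star_star n, h3, star_mul, mul_comm]⟩
  have c6 : (S (l * k)).filter (p ∣ ·) ∩ (S (l * k)).filter (star p ∣ ·) =
      (S (l * k)).filter ((l : O) ∣ ·) := by
    rw [← Finset.filter_and]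
    refine Finset.filter_congr fun n _ => ?_
    rw [← hs]
    exact ⟨fun h => hc.mul_dvd h.1 h.2,
      fun h => ⟨(dvd_mul_right _ _).trans h, (dvd_mul_left _ _).trans h⟩⟩
  rw [c5, c6, c1, c2, c3] at c4
  omega

/-- the divisor sum -/
def R (m : ℕ) : ℤ := ∑ d ∈ m.divisors, legendreSym 3 d

theorem sum_dvd {l : ℕ} (hl : l.Prime) {k : ℕ} (hk : k ≠ 0) :
    ∑ d ∈ (l * k).divisors with l ∣ d, legendreSym 3 d = legendreSym 3 l * R k := by
  have : (l * k).divisors.filter (l ∣ ·) = k.divisors.image (l * ·) := by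
    ext d
    simp only [Finset.mem_filter, Nat.mem_divisors, Finset.mem_image]
    constructor
    · rintro ⟨⟨h1, -⟩, c, rfl⟩
      exact ⟨c, ⟨Nat.dvd_of_mul_dvd_mul_left hl.pos h1, hk⟩, rfl⟩
    · rintro ⟨c, ⟨h1, -⟩, rfl⟩
      exact ⟨⟨Nat.mul_dvd_mul_left _ h1, mul_ne_zero hl.ne_zero hk⟩, dvd_mul_right _ _⟩
  rw [this, Finset.sum_image (fun a _ b _ h => Nat.eq_of_mul_eq_mul_left hl.pos h), R,
    Finset.mul_sum]
  refine Finset.sum_congr rfl fun d _ => ?_
  push_cast
  exact legendreSym.mul 3 _ _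

theorem R_rec {l : ℕ} (hl : l.Prime) {k : ℕ} (hk : k ≠ 0) :
    R (l * k) = R k - (if l ∣ k then legendreSym 3 l * R (k / l) else 0) +
      legendreSym 3 l * R k := by
  have h1 := Finset.sum_filter_add_sum_filter_not (l * k).divisors (l ∣ ·)
    (fun d : ℕ => legendreSym 3 d)
  have h2 := Finset.sum_filter_add_sum_filter_not k.divisors (l ∣ ·)
    (fun d : ℕ => legendreSym 3 d)
  have h3 : (l * k).divisors.filter (fun d => ¬ l ∣ d) = k.divisors.filter (fun d => ¬ l ∣ d) := by
    ext d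
    simp only [Finset.mem_filter, Nat.mem_divisors]
    refine and_congr_left fun hd => ⟨fun h => ⟨?_, hk⟩,
      fun h => ⟨h.1.mul_left _, mul_ne_zero hl.ne_zero hk⟩⟩
    exact ((Nat.coprime_comm.1 (hl.coprime_iff_not_dvd.2 hd)).dvd_of_dvd_mul_left h.1)
  have h4 : ∑ d ∈ k.divisors with l ∣ d, legendreSym 3 d =
      if l ∣ k then legendreSym 3 l * R (k / l) else 0 := by
    split_ifs with h
    · obtain ⟨k', rfl⟩ := h
      rw [Nat.mul_div_cancel_left _ hl.pos, sum_dvd hl (right_ne_zero_of_mul hk)]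
    · refine Finset.sum_eq_zero fun d hd => ?_
      rw [Finset.mem_filter, Nat.mem_divisors] at hd
      exact (h (hd.2.trans hd.1.1)).elim
  rw [sum_dvd hl hk, h3] at h1
  rw [h4] at h2
  unfold R at *
  linarith

theorem leg_one {l : ℕ} (h : l % 3 = 1) : legendreSym 3 l = 1 := by
  rw [legendreSym.mod 3 l, show (l : ℤ) % (3 : ℕ) = 1 by omega, legendreSym.at_one]

theorem leg_two {l : ℕ} (h : l % 3 = 2) : legendreSym 3 l = -1 := by
  rw [legendreSym.mod 3 l, show (l : ℤ) % (3 : ℕ) = 2 by omega]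
  norm_num

theorem leg_zero {l : ℕ} (h : 3 ∣ l) : legendreSym 3 l = 0 := by
  rw [legendreSym.mod 3 l, show (l : ℤ) % (3 : ℕ) = 0 by omega, legendreSym.at_zero]

theorem card_S {m : ℕ} (hm : ¬3 ∣ m) : ((S m).card : ℤ) = R m := by
  induction m using Nat.strong_induction_on with
  | _ m ih =>
    by_cases h1 : m = 1
    · subst h1
      have : S 1 = {1} := by
        ext n
        rw [mem_S, Finset.mem_singleton]
        exact ⟨fun h => h.1.eq_one_of_isUnit (isUnit_iff_nm.2 h.2),
          fun h => h ▸ ⟨prim_one, nm_one⟩⟩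
      simp [this, R]
    obtain ⟨l, hl, k, rfl⟩ := Nat.exists_prime_and_dvd h1
    have hk : k ≠ 0 := by rintro rfl; simp at hm
    have hk3 : ¬ 3 ∣ k := fun h => hm (h.mul_left _)
    have hl3 : ¬ 3 ∣ l := fun h => hm (h.mul_right _)
    have hlt : k < l * k := lt_mul_of_one_lt_left (Nat.pos_of_ne_zero hk) hl.one_lt
    have i1 := ih k hlt hk3
    have i2 : l ∣ k → ((S (k / l)).card : ℤ) = R (k / l) := fun h =>
      ih _ ((Nat.div_le_self _ _).trans_lt hlt) fun h3 => hk3 (h3.trans (Nat.div_dvd_of_dvd h))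
    rw [R_rec hl hk]
    rcases (by omega : l % 3 = 1 ∨ l % 3 = 2) with h | h
    · have := rec_split hl h k
      rw [leg_one h]
      split_ifs at this ⊢ with hd
      · rw [← i1, ← i2 hd]; omega
      · rw [← i1]; omega
    · rw [rec_inert hl h k, leg_two h]
      split_ifs with hd
      · rw [i2 hd]; ring
      · simp

theorem S_empty {m : ℕ} (hm : 3 ∣ m) : S m = ∅ := by
  refine Finset.eq_empty_of_forall_notMem fun n hn => ?_
  have := (mem_S.1 hn).1.nm_mod
  rw [(mem_S.1 hn).2] at this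
  omega

theorem norm_leg (a : ℕ) : ‖(legendreSym 3 a : ℂ)‖ ≤ 1 := by
  rcases (by omega : a % 3 = 1 ∨ a % 3 = 2 ∨ 3 ∣ a) with h | h | h
  · simp [leg_one h]
  · simp [leg_two h]
  · simp [leg_zero h]

theorem LSeries_three (X : ℕ → ℂ) (hX : ∀ a b, X (a * b) = X a * X b) (hX1 : ∀ a, ‖X a‖ ≤ 1)
    {s : ℂ} (hs : 1 < s.re) :
    LSeries (fun a => if 3 ∣ a then 0 else X a) s = (1 - X 3 * 3 ^ (-s)) * LSeries X s := by
  have s1 : LSeriesSummable X s := LSeriesSummable_of_bounded_of_one_lt_re (fun n _ => hX1 n) hs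
  have s2 : LSeriesSummable (fun a => if 3 ∣ a then X a else 0) s :=
    LSeriesSummable_of_bounded_of_one_lt_re (m := 1)
      (fun n _ => by split_ifs; exacts [hX1 n, by simp]) hs
  have e1 : (fun a => if 3 ∣ a then 0 else X a) = X - fun a => if 3 ∣ a then X a else 0 := by
    funext a; simp only [Pi.sub_apply]; split_ifs <;> simp
  have e2 : LSeries (fun a => if 3 ∣ a then X a else 0) s = X 3 * 3 ^ (-s) * LSeries X s := by
    unfold LSeries
    rw [← (mul_right_injective₀ (three_ne_zero (α := ℕ))).tsum_eq, ← tsum_mul_left]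
    · refine tsum_congr fun k => ?_
      by_cases hk : k = 0
      · simp [hk]
      · rw [LSeries.term_of_ne_zero (by omega), LSeries.term_of_ne_zero hk,
          if_pos (dvd_mul_right _ _), hX, Nat.cast_mul, Complex.natCast_mul_natCast_cpow,
          Complex.cpow_neg]
        push_cast
        field_simp
    · intro a ha
      by_contra h
      refine ha ?_
      have h3 : ¬ 3 ∣ a := fun ⟨c, hc⟩ => h ⟨c, hc.symm⟩
      by_cases h0 : a = 0
      · simp [h0]
      · rw [LSeries.term_of_ne_zero h0, if_neg h3, zero_div]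
  rw [e1, LSeries_sub s1 s2, e2]
  ring

end ZetaAux

open ZetaAux

open Classical in
theorem card_prim_norm {m : ℕ} (hm : ¬3 ∣ m) :
    (((ball m).filter fun n => Prim n ∧ nm n = m).card : ℤ) =
      ∑ d ∈ m.divisors, legendreSym 3 d := card_S hm

theorem summable_norm_cpow {f : O → ℂ} (hf : ∀ n, ‖f n‖ ≤ 1) {s : ℂ} (hs : 1 < s.re) :
    Summable fun n : O => ‖f n * (nm n : ℂ) ^ (-s)‖ := by
  refine Summable.of_nonneg_of_le (fun _ => norm_nonneg _) (fun n => ?_) (summable_rpow hs)
  rw [norm_mul, Complex.norm_natCast_cpow_of_re_ne_zero _ (by rw [Complex.neg_re]; linarith),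
    Complex.neg_re]
  exact mul_le_of_le_one_left (by positivity) (hf n)

/-- `X` is any completely multiplicative function, e.g. a Dirichlet character -/
theorem zetaP (X : ℕ → ℂ) (hX : ∀ a b, X (a * b) = X a * X b) (hX1 : ∀ a, ‖X a‖ ≤ 1) {s : ℂ}
    (hs : 1 < s.re) :
    ∑' n : O, ind (Prim n) * X (nm n) * (nm n : ℂ) ^ (-s) =
      (1 - X 3 * 3 ^ (-s)) * LSeries X s * LSeries (fun a => X a * legendreSym 3 a) s := by
  classical
  have h1 : Summable fun n : O => ind (Prim n) * X (nm n) * (nm n : ℂ) ^ (-s) :=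
    (summable_norm_cpow (f := fun n => ind (Prim n) * X (nm n)) (fun n => by
      rw [norm_mul]; exact mul_le_one₀ (norm_ind_le _) (norm_nonneg _) (hX1 _)) hs).of_norm
  have s1 : LSeriesSummable (fun a => if 3 ∣ a then 0 else X a) s :=
    LSeriesSummable_of_bounded_of_one_lt_re (m := 1)
      (fun n _ => by split_ifs; exacts [by simp, hX1 n]) hs
  have s2 : LSeriesSummable (fun a => X a * legendreSym 3 a) s :=
    LSeriesSummable_of_bounded_of_one_lt_re (m := 1) (fun n _ => by
      rw [norm_mul]; exact mul_le_one₀ (hX1 _) (norm_nonneg _) (norm_leg _)) hs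
  rw [← LSeries_three X hX hX1 hs, ← LSeries_convolution' s1 s2,
    ← (h1.hasSum.tsum_fiberwise nm).tsum_eq, LSeries]
  refine tsum_congr fun m => ?_
  rw [tsum_subtype (nm ⁻¹' {m}) (fun n : O => ind (Prim n) * X (nm n) * (nm n : ℂ) ^ (-s)),
    tsum_eq_sum (s := S m)]
  · rw [Finset.sum_congr rfl (g := fun _ => X m * (m : ℂ) ^ (-s)), Finset.sum_const, nsmul_eq_mul]
    · by_cases h0 : m = 0
      · subst h0; simp [S_empty]
      rw [LSeries.term_of_ne_zero h0, LSeries.convolution_def, Complex.cpow_neg, div_eq_mul_inv,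
        ← mul_assoc]
      congr 1
      by_cases h3 : 3 ∣ m
      · rw [S_empty h3, Finset.card_empty, Nat.cast_zero, zero_mul]
        refine (Finset.sum_eq_zero fun p hp => ?_).symm
        rw [← (Nat.mem_divisorsAntidiagonal.1 hp).1] at h3
        rcases (Nat.Prime.dvd_mul Nat.prime_three).1 h3 with h | h
        · simp [h]
        · simp [leg_zero h]
      · have : ((S m).card : ℂ) = ((R m : ℤ) : ℂ) := by rw [← card_S h3]; simp
        rw [this, R, ← Nat.sum_divisorsAntidiagonal' (f := fun _ d => legendreSym 3 (d : ℕ)),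
          Int.cast_sum, Finset.sum_mul]
        refine Finset.sum_congr rfl fun p hp => ?_
        have e := (Nat.mem_divisorsAntidiagonal.1 hp).1
        rw [if_neg (fun h => h3 (e ▸ h.mul_right _)), ← e, hX]
        ring
    · intro n hn
      obtain ⟨a1, a2⟩ := mem_S.1 hn
      rw [Set.indicator_of_mem (show n ∈ nm ⁻¹' {m} from a2), ind_of a1, a2, one_mul]
  · intro n hn
    by_cases h : n ∈ nm ⁻¹' {m}
    · rw [Set.indicator_of_mem h, ind_of_not (fun hp => hn (mem_S.2 ⟨hp, h⟩)), zero_mul, zero_mul]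
    · exact Set.indicator_of_notMem h _

/-- Möbius inversion of Dirichlet series over primary elements -/
theorem zetaP_mul_mu (f : O → ℂ) (hf : ∀ a b, Prim a → Prim b → f (a * b) = f a * f b)
    (hf1 : f 1 = 1) (hf2 : ∀ a, ‖f a‖ ≤ 1) {s : ℂ} (hs : 1 < s.re) :
    (∑' n : O, ind (Prim n) * f n * (nm n : ℂ) ^ (-s)) *
      ∑' n : O, ind (Prim n) * mu n * f n * (nm n : ℂ) ^ (-s) = 1 := by
  classical
  have h1 := summable_norm_cpow (f := fun n => ind (Prim n) * f n) (fun n => by
    rw [norm_mul]; exact mul_le_one₀ (norm_ind_le _) (norm_nonneg _) (hf2 _)) hs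
  have h2 := summable_norm_cpow (f := fun n => ind (Prim n) * mu n * f n) (fun n => by
    rw [norm_mul, norm_mul]
    exact mul_le_one₀ (mul_le_one₀ (norm_ind_le _) (norm_nonneg _) (norm_mu_le _))
      (norm_nonneg _) (hf2 _)) hs
  have h3 := summable_mul_of_summable_norm h1 h2
  rw [tsum_mul_tsum_of_summable_norm h1 h2,
    ← (h3.hasSum.tsum_fiberwise (fun p : O × O => p.1 * p.2)).tsum_eq]
  have key : ∀ n : O, ∑' p : (fun p : O × O => p.1 * p.2) ⁻¹' {n},
      ind (Prim p.1.1) * f p.1.1 * (nm p.1.1 : ℂ) ^ (-s) *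
        (ind (Prim p.1.2) * mu p.1.2 * f p.1.2 * (nm p.1.2 : ℂ) ^ (-s)) =
      if n = 1 then 1 else 0 := by
    intro n
    rw [tsum_subtype ((fun p : O × O => p.1 * p.2) ⁻¹' {n}) (fun p : O × O =>
      ind (Prim p.1) * f p.1 * (nm p.1 : ℂ) ^ (-s) *
        (ind (Prim p.2) * mu p.2 * f p.2 * (nm p.2 : ℂ) ^ (-s)))]
    by_cases hn : Prim n
    · rw [tsum_eq_sum (s := (pdiv n ×ˢ pdiv n).filter fun p => p.1 * p.2 = n)]
      · rw [Finset.sum_bij (t := pdiv n) (g := fun e => mu e * (f n * (nm n : ℂ) ^ (-s)))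
          (fun p _ => p.2), ← Finset.sum_mul, sum_mu_pdiv hn]
        · split_ifs with h
          · rw [ind_of h, h, hf1, nm_one]; simp
          · rw [ind_of_not h, zero_mul]
        · intro p hp
          exact (Finset.mem_product.1 (Finset.mem_filter.1 hp).1).2
        · intro p hp q hq e
          have a1 := (Finset.mem_filter.1 hp).2
          have a2 := (Finset.mem_filter.1 hq).2
          have a3 : q.2 ≠ 0 := right_ne_zero_of_mul (a2 ▸ hn.ne_zero)
          rw [e, ← a2] at a1
          exact Prod.ext (mul_right_cancel₀ a3 a1) e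
        · intro e he
          obtain ⟨a1, c, rfl⟩ := (mem_pdiv hn.ne_zero).1 he
          exact ⟨(c, e), Finset.mem_filter.2 ⟨Finset.mem_product.2
            ⟨(mem_pdiv hn.ne_zero).2 ⟨a1.of_mul hn, dvd_mul_left _ _⟩, he⟩, mul_comm _ _⟩, rfl⟩
        · intro p hp
          obtain ⟨a1, a2⟩ := Finset.mem_filter.1 hp
          obtain ⟨a3, a4⟩ := Finset.mem_product.1 a1
          have a5 := ((mem_pdiv hn.ne_zero).1 a3).1
          have a6 := ((mem_pdiv hn.ne_zero).1 a4).1
          rw [Set.indicator_of_mem (show p ∈ (fun p : O × O => p.1 * p.2) ⁻¹' {n} from a2),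
            ind_of a5, ind_of a6, ← a2, hf _ _ a5 a6, nm_mul, Nat.cast_mul,
            Complex.natCast_mul_natCast_cpow]
          ring
      · intro p hp
        by_cases h : p ∈ (fun p : O × O => p.1 * p.2) ⁻¹' {n}
        · rw [Set.indicator_of_mem h]
          have h' : p.1 * p.2 = n := h
          by_cases a1 : Prim p.1
          · exact (hp (Finset.mem_filter.2 ⟨Finset.mem_product.2
              ⟨(mem_pdiv hn.ne_zero).2 ⟨a1, h' ▸ dvd_mul_right _ _⟩,
               (mem_pdiv hn.ne_zero).2 ⟨a1.of_mul (h' ▸ hn), h' ▸ dvd_mul_left _ _⟩⟩, h'⟩)).elim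
          · simp [ind_of_not a1]
        · exact Set.indicator_of_notMem h _
    · rw [if_neg (fun h : n = 1 => hn (h ▸ prim_one))]
      refine (tsum_congr fun p => ?_).trans tsum_zero
      by_cases h : p ∈ (fun p : O × O => p.1 * p.2) ⁻¹' {n}
      · rw [Set.indicator_of_mem h]
        have h' : p.1 * p.2 = n := h
        by_cases a1 : Prim p.1
        · have a2 : ¬ Prim p.2 := fun a2 => hn (h' ▸ a1.mul a2)
          simp [ind_of_not a2]
        · simp [ind_of_not a1]
      · exact Set.indicator_of_notMem h _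
  rw [tsum_congr key, tsum_ite_eq]

theorem tendsto_zetaP : ∃ c : ℂ, c ≠ 0 ∧ Filter.Tendsto
    (fun w : ℂ => (w - 1) * ∑' n : O, ind (Prim n) * (nm n : ℂ) ^ (-w))
    (nhdsWithin 1 {w | 1 < w.re}) (nhds c) := by
  let χ : DirichletCharacter ℂ 3 := (quadraticChar (ZMod 3)).ringHomComp (Int.castRingHom ℂ)
  have hχ : ∀ a : ℕ, χ a = legendreSym 3 a := fun a => by simp [χ, legendreSym]
  have hne : χ ≠ 1 := fun h => by
    have h1 := hχ 2
    rw [h, MulChar.one_apply (by decide), leg_two rfl] at h1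
    norm_num at h1
  refine ⟨(1 - 1 * 3 ^ (-1 : ℂ)) * 1 * χ.LFunction 1, ?_, ?_⟩
  · refine mul_ne_zero (mul_ne_zero ?_ one_ne_zero) (χ.LFunction_apply_one_ne_zero hne)
    rw [Complex.cpow_neg_one]; norm_num
  · have t1 : Filter.Tendsto (fun w : ℂ => 1 - 1 * (3 : ℂ) ^ (-w)) (nhdsWithin 1 {w | 1 < w.re})
        (nhds (1 - 1 * 3 ^ (-1 : ℂ))) := by
      refine Filter.Tendsto.mono_left (Continuous.tendsto ?_ 1) nhdsWithin_le_nhds
      exact continuous_const.sub (continuous_const.mul
        (continuous_neg.const_cpow (Or.inl (by norm_num))))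
    have t2 : Filter.Tendsto (fun w : ℂ => (w - 1) * riemannZeta w) (nhdsWithin 1 {w | 1 < w.re})
        (nhds 1) := riemannZeta_residue_one.mono_left (nhdsWithin_mono _ fun w hw h => by
          have h1 : w = 1 := h
          have h2 : 1 < w.re := hw
          rw [h1] at h2; simp at h2)
    have t3 : Filter.Tendsto χ.LFunction (nhdsWithin 1 {w | 1 < w.re}) (nhds (χ.LFunction 1)) :=
      ((χ.differentiable_LFunction hne).continuous.tendsto 1).mono_left nhdsWithin_le_nhds
    refine ((t1.mul t2).mul t3).congr' ?_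
    filter_upwards [self_mem_nhdsWithin] with w hw
    have := zetaP 1 (fun _ _ => by simp) (fun _ => by simp) hw
    simp only [Pi.one_apply, mul_one, one_mul] at this
    rw [this, LSeries_one_eq_riemannZeta hw, χ.LFunction_eq_LSeries hw, funext hχ]
    ring

end Vale.Agent.P026
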