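import Vale.Agent.P026.Final1
import Vale.Agent.P026.Final2

/-! FINAL 3: the zero-free half plane.
Plans.
* `exists_twist`: `χ' = χ * changeLevel (3 ∣ q) χ₃`, `χ₃ = (quadraticChar (ZMod 3)).ringHomComp (Int.castRingHom ℂ)`; both sides vanish on non-units.
* `zero_free_six`: `mellin_zero_free` with `a n = ind (IsP n) * mu n * χ (nm n)`, `Z = LFunction χ * LFunction χ'`, `mob_char`; `zetaP` (with `χ 3 = 0`), `zetaP_mul_mu` with `f n = χ (nm n)`
  (`f n = 0` if `2 ∣ n`, so `ind (Prim n)` may be replaced by `ind (IsP n)`), `LFunction_eq_LSeries`.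
* `zero_free`: `LFunction_changeLevel` to level `6 q`. -/

namespace Vale.Agent.P026

open scoped ComplexConjugate Real

theorem exists_twist {q : ℕ} [NeZero q] (h3 : 3 ∣ q) (χ : DirichletCharacter ℂ q) :
    ∃ χ' : DirichletCharacter ℂ q, ∀ a : ℕ, χ' a = χ a * legendreSym 3 a := by
  let χ₃ : DirichletCharacter ℂ 3 := (quadraticChar (ZMod 3)).ringHomComp (Int.castRingHom ℂ)
  refine ⟨χ * DirichletCharacter.changeLevel h3 χ₃, fun a => ?_⟩
  rw [MulChar.mul_apply]
  by_cases h : IsUnit (a : ZMod q)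
  · have h1 : IsCoprime (a : ℤ) q :=
      Nat.isCoprime_iff_coprime.2 ((ZMod.isUnit_iff_coprime a q).1 h)
    have h2 := DirichletCharacter.changeLevel_eq_cast_of_dvd' χ₃ h3 h1
    rw [Int.cast_natCast] at h2
    rw [h2]
    rfl
  · rw [χ.map_nonunit h, zero_mul, zero_mul]

theorem Final3_chi_zero {q p m : ℕ} (χ : DirichletCharacter ℂ q) (hp : p.Prime) (hq : p ∣ q)
    (hm : p ∣ m) : χ m = 0 := by
  refine χ.map_nonunit fun h => ?_
  have := Nat.eq_one_of_dvd_coprimes ((ZMod.isUnit_iff_coprime m q).1 h) hm hq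
  exact hp.one_lt.ne' this

theorem zero_free_six {q : ℕ} [NeZero q] (h6 : 6 ∣ q) (hP : PStmt (72 * q) (1 / 10000))
    (χ : DirichletCharacter ℂ q) {s : ℂ} (hs : 1999 / 2000 < s.re) (h1 : s ≠ 1) :
    DirichletCharacter.LFunction χ s ≠ 0 := by
  have h3 : 3 ∣ q := Dvd.dvd.trans (by norm_num) h6
  have h2 : 2 ∣ q := Dvd.dvd.trans (by norm_num) h6
  obtain ⟨χ', hχ'⟩ := exists_twist h3 χ
  have key := mellin_zero_free (a := fun n => ind (IsP n) * mu n * χ (nm n)) (σ₀ := 1999 / 2000)
    (Z := fun s => DirichletCharacter.LFunction χ s * DirichletCharacter.LFunction χ' s)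
    (fun n => by
      rw [norm_mul, norm_mul]
      exact mul_le_one₀ (mul_le_one₀ (norm_ind_le _) (norm_nonneg _) (norm_mu_le _))
        (norm_nonneg _) (χ.norm_le_one _))
    (fun B V t hV => mob_char (NeZero.ne q) hP χ χ.norm_le_one hV t)
    (fun s hs => (χ.differentiableAt_LFunction s (Or.inl hs)).mul
      (χ'.differentiableAt_LFunction s (Or.inl hs)))
    (fun s hs => by
      have e1 := zetaP (fun a => χ a) (fun a b => by rw [Nat.cast_mul, map_mul])
        (fun a => χ.norm_le_one _) hs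
      have e2 := zetaP_mul_mu (fun n => χ (nm n)) (fun a b _ _ => by
        rw [nm_mul, Nat.cast_mul, map_mul]) (by simp) (fun a => χ.norm_le_one _) hs
      have e3 : χ ((3 : ℕ) : ZMod q) = 0 := Final3_chi_zero χ Nat.prime_three h3 dvd_rfl
      rw [e1, e3, zero_mul, sub_zero, one_mul] at e2
      rw [χ.LFunction_eq_LSeries hs, χ'.LFunction_eq_LSeries hs, ← e2]
      congr 1
      · congr 2
        funext a
        exact hχ' a
      · refine tsum_congr fun n => ?_
        congr 1
        by_cases h : (2 : O) ∣ n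
        · have : 2 ∣ nm n := Dvd.dvd.trans (by rw [nm_two]; norm_num) (nm_dvd h)
          rw [Final3_chi_zero χ Nat.prime_two h2 this, mul_zero, mul_zero]
        · simp only [IsP, h, not_false_eq_true, and_true]) hs h1
  exact left_ne_zero_of_mul key

theorem zero_free (hP : ∀ Q : O, Q ≠ 0 → (72 : O) ∣ Q → PStmt Q (1 / 10000)) {q : ℕ} [NeZero q]
    (χ : DirichletCharacter ℂ q) {s : ℂ} (hs : 1999 / 2000 < s.re) (h1 : s ≠ 1) :
    DirichletCharacter.LFunction χ s ≠ 0 := by
  have : NeZero (6 * q) := ⟨mul_ne_zero (by norm_num) (NeZero.ne q)⟩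
  have h0 : (72 : O) * ((6 * q : ℕ) : O) ≠ 0 := by
    refine mul_ne_zero (fun h => ?_) fun h => ?_
    · have := congrArg nm h
      rw [show (72 : O) = ((72 : ℕ) : O) by norm_num, nm_natCast, nm_zero] at this
      norm_num at this
    · have := congrArg nm h
      rw [nm_natCast, nm_zero] at this
      exact NeZero.ne (6 * q) (pow_eq_zero_iff two_ne_zero |>.1 this)
  have key := zero_free_six (q := 6 * q) (dvd_mul_right 6 q) (hP _ h0 (dvd_mul_right _ _))
    (DirichletCharacter.changeLevel (dvd_mul_left q 6) χ) hs h1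
  rw [DirichletCharacter.LFunction_changeLevel _ _ (Or.inr h1)] at key
  exact left_ne_zero_of_mul key

theorem zeta_zero_free (hP : ∀ Q : O, Q ≠ 0 → (72 : O) ∣ Q → PStmt Q (1 / 10000)) {s : ℂ}
    (hs : 1999 / 2000 < s.re) : riemannZeta s ≠ 0 := by
  rcases eq_or_ne s 1 with rfl | h1
  · exact riemannZeta_one_ne_zero
  · rw [← DirichletCharacter.LFunction_modOne_eq (χ := 1)]
    exact zero_free hP 1 hs h1

end Vale.Agent.P026
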