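import Vale.Agent.P026.PSDefs

/-! # Poisson summation for one pair.

Plan. `ps1`: `ind_coprime` gives `∑ e ∈ pdiv Δ, mu e * ind (e ∣ h)`; swap; substitute `h = e h'`
(`Function.Injective.tsum_eq`), `F.mul_right`; `poisson_gauss` with `q = m₁ m₂`, `Y / nm e`,
`f = X m₁ * conj (X m₂)` (`F.per`, `Per.of_dvd`), then `F.ft`; `nm q = √.. ^ 2 * √.. ^ 2`.
`bil_eq`: apply `ps1` to every pair and exchange the finite sums with the `tsum` (`summable_pair`).
`dual_zero`: `X m 0 = 0` unless `m = 1` (`F.X_eq_zero`, `isCoprime_zero_left`, `Prim.eq_one_of_isUnit`), so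
`Dual .. 0 = b Δ * conj (b Δ) * g 1 * conj (g 1) * ε 1 1` when `1 ∈ sball Z` (else `0`) for every `e`, and the
`e`-sum is `c0 * Y * phiS Δ`. -/

namespace Vale.Agent.P026

open scoped ComplexConjugate Real

theorem summable_dker {y : ℝ} (hy : 0 < y) {m1 m2 : O} (h1 : m1 ≠ 0) (h2 : m2 ≠ 0) :
    Summable fun k : O => dker y m1 m2 k := by
  have p1 : (0 : ℝ) < nm m1 := by exact_mod_cast nm_pos h1
  have p2 : (0 : ℝ) < nm m2 := by exact_mod_cast nm_pos h2
  have hc := c0_pos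
  have := (summable_exp (y := c0 ^ 2 * y / (nm m1 * nm m2)) (by positivity)).mul_left
    (√(nm m1) * √(nm m2))⁻¹
  refine this.congr fun k => ?_
  unfold dker
  congr 3
  ring

theorem dker_nonneg (y : ℝ) (m1 m2 k : O) : 0 ≤ dker y m1 m2 k := by
  unfold dker
  positivity

theorem summable_pair (F : Fam) {y : ℝ} (hy : 0 < y) {m1 m2 : O} (h1 : IsS m1) (h2 : IsS m2) :
    Summable fun k : O => conj (F.X m1 k) * F.X m2 k * (dker y m1 m2 k : ℝ) := by
  refine Summable.of_norm_bounded (summable_dker hy h1.1.1.ne_zero h2.1.1.ne_zero) fun k => ?_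
  rw [norm_mul, norm_mul, Complex.norm_conj, Complex.norm_real,
    Real.norm_of_nonneg (dker_nonneg _ _ _ _)]
  exact mul_le_of_le_one_left (dker_nonneg _ _ _ _)
    (mul_le_one₀ (norm_X_le F h1.1 k) (norm_nonneg _) (norm_X_le F h2.1 k))

theorem pso_hasSum_dual (F : Fam) (Z : ℝ) {y : ℝ} (hy : 0 < y) (β : O → ℂ) :
    HasSum (Dual F Z y β) (∑ m1 ∈ sball Z, ∑ m2 ∈ sball Z,
      ind (IsCoprime m1 m2) * (β m1 * conj (β m2)) * F.ε m1 m2 *
        ∑' k : O, conj (F.X m1 k) * F.X m2 k * (dker y m1 m2 k : ℝ)) := by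
  have h := hasSum_sum (s := sball Z) fun m1 h1 => hasSum_sum (s := sball Z) fun m2 h2 =>
    (summable_pair F hy (mem_sball.1 h1).1 (mem_sball.1 h2).1).hasSum.mul_left
      (ind (IsCoprime m1 m2) * (β m1 * conj (β m2)) * F.ε m1 m2)
  have e : Dual F Z y β = fun k => ∑ m1 ∈ sball Z, ∑ m2 ∈ sball Z,
      ind (IsCoprime m1 m2) * (β m1 * conj (β m2)) * F.ε m1 m2 *
        (conj (F.X m1 k) * F.X m2 k * (dker y m1 m2 k : ℝ)) := by
    funext k
    exact Finset.sum_congr rfl fun m1 _ => Finset.sum_congr rfl fun m2 _ => mul_assoc _ _ _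
  rw [e]
  exact h

theorem summable_dual (F : Fam) (Z : ℝ) {y : ℝ} (hy : 0 < y) (β : O → ℂ) :
    Summable (Dual F Z y β) := by
  exact (pso_hasSum_dual F Z hy β).summable

theorem ps1 (F : Fam) {Δ m1 m2 : O} (hΔ : Prim Δ) (h1 : IsS m1) (h2 : IsS m2)
    (h12 : IsCoprime m1 m2) {Y : ℝ} (hY : 0 < Y) :
    ∑' h : O, (Real.exp (-(nm h / Y)) : ℝ) * ind (IsCoprime h Δ) * F.X m1 h * conj (F.X m2 h) =
      ∑ e ∈ pdiv Δ, mu e * (c0 * Y / nm e : ℝ) *
        (F.X m1 e * F.g m1 * conj (F.X m2 e * F.g m2) * F.ε m1 m2 *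
          ∑' k : O, conj (F.X m1 k) * F.X m2 k * (dker (Y / nm e) m1 m2 k : ℝ)) := by
  have hs : ∀ e : O, Summable fun h : O =>
      (Real.exp (-(nm h / Y)) : ℝ) * ind (e ∣ h) * F.X m1 h * conj (F.X m2 h) := fun e => by
    have hw : Summable fun h : O => Real.exp (-(nm h / Y)) := by
      simpa only [div_eq_inv_mul] using summable_exp (inv_pos.2 hY)
    refine Summable.of_norm_bounded hw fun h => ?_
    rw [norm_mul, norm_mul, norm_mul, Complex.norm_conj, mul_assoc, mul_assoc, Complex.norm_real,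
      Real.norm_of_nonneg (Real.exp_pos _).le]
    exact mul_le_of_le_one_right (Real.exp_pos _).le (mul_le_one₀ (norm_ind_le _) (by positivity)
      (mul_le_one₀ (norm_X_le F h1.1 h) (norm_nonneg _) (norm_X_le F h2.1 h)))
  have h := hasSum_sum (s := pdiv Δ) fun e _ => (hs e).hasSum.mul_left (mu e)
  refine Eq.trans (tsum_congr fun k => ?_) (h.tsum_eq.trans ?_)
  · rw [ind_coprime hΔ, Finset.mul_sum, Finset.sum_mul, Finset.sum_mul]
    exact Finset.sum_congr rfl fun e _ => by ring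
  refine Finset.sum_congr rfl fun e he => ?_
  have he0 : e ≠ 0 := ((mem_pdiv hΔ.ne_zero).1 he).1.ne_zero
  have pe : (0 : ℝ) < nm e := by exact_mod_cast nm_pos he0
  have p1 : (0 : ℝ) < nm m1 := by exact_mod_cast nm_pos h1.1.1.ne_zero
  have p2 : (0 : ℝ) < nm m2 := by exact_mod_cast nm_pos h2.1.1.ne_zero
  have hinj : Function.Injective fun h : O => e * h := fun x y hxy => mul_left_cancel₀ he0 hxy
  have hper : Per (m1 * m2) fun x => F.X m1 x * conj (F.X m2 x) := fun x y hxy => by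
    beta_reduce
    rw [F.per m1 x y ((dvd_mul_right _ _).trans hxy), F.per m2 x y ((dvd_mul_left _ _).trans hxy)]
  have hP := poisson_gauss (mul_ne_zero h1.1.1.ne_zero h2.1.1.ne_zero) hper
    (Y := Y / nm e) (by positivity)
  have e1 : ∑' h : O, (Real.exp (-(nm h / Y)) : ℝ) * ind (e ∣ h) * F.X m1 h * conj (F.X m2 h) =
      F.X m1 e * conj (F.X m2 e) * ∑' h : O, F.X m1 h * conj (F.X m2 h) *
        (Real.exp (-(nm h / (Y / nm e))) : ℝ) := by
    rw [← hinj.tsum_eq, ← tsum_mul_left]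
    · refine tsum_congr fun h => ?_
      have : (nm (e * h) : ℝ) / Y = nm h / (Y / nm e) := by
        rw [nm_mul]
        push_cast
        field_simp
      rw [ind_of (dvd_mul_right e h), F.mul_right _ _ _ h1.1, F.mul_right _ _ _ h2.1, this, map_mul]
      ring
    · intro h hh
      by_contra hc
      refine hh ?_
      have : ¬e ∣ h := fun ⟨c, hc'⟩ => hc ⟨c, hc'.symm⟩
      simp [ind_of_not this]
  rw [e1, hP]
  simp only [← tsum_mul_left]
  refine tsum_congr fun k => ?_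
  rw [F.ft m1 m2 k h1 h2 h12, dker, nm_mul, map_mul]
  have q1 : 0 < √(nm m1 : ℝ) := Real.sqrt_pos.2 p1
  have q2 : 0 < √(nm m2 : ℝ) := Real.sqrt_pos.2 p2
  have e2 : c0 * (Y / nm e) / ((nm m1 * nm m2 : ℕ) : ℝ) * (√(nm m1) * √(nm m2)) =
      c0 * Y / nm e * (√(nm m1) * √(nm m2))⁻¹ := by
    push_cast
    field_simp
    rw [Real.sq_sqrt p1.le, Real.sq_sqrt p2.le]
  have e3 := congrArg (fun x : ℝ => (x : ℂ)) e2
  simp only [Complex.ofReal_mul (_ / _)] at e3
  rw [Complex.ofReal_mul (√(nm m1) * √(nm m2))⁻¹, Nat.cast_mul (nm m1) (nm m2)]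
  rw [Nat.cast_mul (nm m1) (nm m2)] at e3
  linear_combination (mu e * F.X m1 e * conj (F.X m2 e) * F.g m1 * conj (F.g m2) * F.ε m1 m2 *
    conj (F.X m1 k) * F.X m2 k *
    ((Real.exp (-(c0 ^ 2 * (Y / nm e) * nm k / (nm m1 * nm m2))) : ℝ) : ℂ)) * e3

theorem bil_eq (F : Fam) {Y : ℝ} (hY : 0 < Y) (Z : ℝ) (b : O → ℂ) {Δ : O} (hΔ : Prim Δ) :
    Bil F Y Z b Δ = ∑ e ∈ pdiv Δ, mu e * (c0 * Y / nm e : ℝ) *
      ∑' k : O, Dual F Z (Y / nm e) (dco F b Δ e) k := by
  have h1 : ∀ e ∈ pdiv Δ, ∑' k : O, Dual F Z (Y / nm e) (dco F b Δ e) k = _ := fun e he => by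
    have pe : (0 : ℝ) < nm e := by exact_mod_cast nm_pos ((mem_pdiv hΔ.ne_zero).1 he).1.ne_zero
    exact (pso_hasSum_dual F Z (div_pos hY pe) (dco F b Δ e)).tsum_eq
  rw [Finset.sum_congr rfl fun e he => by rw [h1 e he]]
  simp only [Finset.mul_sum]
  rw [Finset.sum_comm]
  refine Finset.sum_congr rfl fun m1 hm1 => ?_
  rw [Finset.sum_comm]
  refine Finset.sum_congr rfl fun m2 hm2 => ?_
  by_cases hc : IsCoprime m1 m2
  · rw [ps1 F hΔ (mem_sball.1 hm1).1 (mem_sball.1 hm2).1 hc hY, Finset.mul_sum]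
    refine Finset.sum_congr rfl fun e _ => ?_
    simp only [dco, map_mul]
    ring
  · simp [ind_of_not hc]

theorem dual_zero (F : Fam) {Y : ℝ} (hY : 0 < Y) (Z : ℝ) (b : O → ℂ) {Δ : O} (hΔ : IsS Δ) :
    ‖∑ e ∈ pdiv Δ, mu e * (c0 * Y / nm e : ℝ) * Dual F Z (Y / nm e) (dco F b Δ e) 0‖ ≤
      c0 * Y * ‖b Δ‖ ^ 2 := by
  have hc := c0_pos
  have hX : ∀ m ∈ sball Z, m ≠ 1 → F.X m 0 = 0 := fun m hm h1 =>
    F.X_eq_zero m 0 (mem_sball.1 hm).1.1 fun h =>
      h1 ((mem_sball.1 hm).1.1.1.eq_one_of_isUnit (isCoprime_zero_left.1 h))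
  by_cases h1 : (1 : O) ∈ sball Z
  · have hD : ∀ e : O, Dual F Z (Y / nm e) (dco F b Δ e) 0 =
        b Δ * F.g 1 * conj (b Δ * F.g 1) * F.ε 1 1 := fun e => by
      unfold Dual
      rw [Finset.sum_eq_single_of_mem 1 h1, Finset.sum_eq_single_of_mem 1 h1]
      · have h0 : nm 0 = 0 := nm_eq_zero.2 rfl
        simp [dco, dker, F.one_left, ind_of isCoprime_one_left, h0]
      · intro m hm hm1
        simp [hX m hm hm1]
      · intro m hm hm1
        simp [hX m hm hm1]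
    have e1 : ∑ e ∈ pdiv Δ, mu e * (c0 * Y / nm e : ℝ) * Dual F Z (Y / nm e) (dco F b Δ e) 0 =
        (c0 * Y : ℝ) * phiS Δ * (b Δ * F.g 1 * conj (b Δ * F.g 1) * F.ε 1 1) := by
      rw [phiS, Finset.mul_sum, Finset.sum_mul]
      refine Finset.sum_congr rfl fun e _ => ?_
      rw [hD]
      push_cast
      ring
    rw [e1]
    simp only [norm_mul, Complex.norm_conj, F.norm_g 1 isS_one, mul_one, Complex.norm_real]
    rw [Real.norm_of_nonneg hc.le, Real.norm_of_nonneg hY.le, mul_assoc (c0 * Y), ← sq]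
    refine mul_le_mul_of_nonneg_left ?_ (by positivity)
    exact (mul_le_of_le_one_left (by positivity) (norm_phiS_le hΔ)).trans
      (mul_le_of_le_one_right (by positivity) (F.norm_ε 1 1))
  · have hD : ∀ e : O, Dual F Z (Y / nm e) (dco F b Δ e) 0 = 0 := fun e =>
      Finset.sum_eq_zero fun m hm => Finset.sum_eq_zero fun m2 _ => by
        simp [hX m hm fun h => h1 (h ▸ hm)]
    simp only [hD, mul_zero, Finset.sum_const_zero, norm_zero]
    positivity

end Vale.Agent.P026
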