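import Vale.Agent.P026.RecDefs

/-! REC: elementary helper lemmas (weights, divisor sums, covering).
Plans.
* `dyadic_weight`: for `k` take `j` with `2^(j-1) < 1 + nm k / K ≤ 2^j`... i.e. `(1+x)^(-A) ≤ 2^A ∑_{j<J} 2^(-A j) 1[x ≤ 2^j]` for `J` large (`s` is finite);
  swap sums, use the hypothesis with `y = 2^j`, geometric series with ratio `2^(p-A)`.
* `k_decomp`: `exists_sq_mul_squarefree`: `k = l² a`; `b = gcd a (L l)`, `a = b a'`, `a'` coprime to `L l` (squarefree), `exists_prim` for `a'`.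
* `fiber_sum`: `s' =` image; `Finset.sum_fiberwise_of_maps_to`; in the fibre over `h` the pair `(Δ, e')` lies in `pdiv h ×ˢ pdiv h` and determines `h'`. -/

namespace Vale.Agent.P026

open scoped ComplexConjugate Real

theorem mem_pball {X : ℝ} {x : O} : x ∈ pball X ↔ Prim x ∧ (nm x : ℝ) ≤ X := by
  simp only [pball, Finset.mem_filter, mem_ball, and_comm]
theorem tau_nonneg (n : O) : 0 ≤ tau n := Nat.cast_nonneg _
theorem one_le_tau {n : O} (hn : n ≠ 0) : 1 ≤ tau n := by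
  unfold tau
  exact_mod_cast Finset.card_pos.2 ⟨1, (mem_pdiv hn).2 ⟨prim_one, one_dvd _⟩⟩
theorem tau_mono {m n : O} (hn : n ≠ 0) (h : m ∣ n) : tau m ≤ tau n := by
  unfold tau
  exact_mod_cast card_pdiv_mono hn h
theorem tau_one : tau 1 = 1 := by
  have : pdiv 1 = {1} := by
    ext e
    rw [mem_pdiv one_ne_zero, Finset.mem_singleton]
    exact ⟨fun h => h.1.eq_one_of_isUnit (isUnit_of_dvd_one h.2), fun h => by rw [h]; exact ⟨prim_one, dvd_rfl⟩⟩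
  simp [tau, this]
theorem tau_pow_le (j : ℕ) {ε : ℝ} (hε : 0 < ε) : ∃ C : ℝ, 0 < C ∧ ∀ n : O, n ≠ 0 →
    tau n ^ j ≤ C * (nm n : ℝ) ^ ε := by
  obtain ⟨C, hC, h⟩ := card_pdiv_le (ε / (j + 1)) (by positivity)
  refine ⟨C ^ j, by positivity, fun n hn => ?_⟩
  refine (pow_le_pow_left₀ (tau_nonneg n) (h n hn) j).trans ?_
  rw [mul_pow, ← Real.rpow_mul_natCast (Nat.cast_nonneg _)]
  gcongr
  · exact one_le_nm hn
  · rw [div_mul_eq_mul_div, div_le_iff₀ (by positivity)]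
    nlinarith
theorem sum_inv_le_rpow {ε : ℝ} (hε : 0 < ε) : ∃ C : ℝ, 0 < C ∧ ∀ (Z : ℝ) (s : Finset O), 1 ≤ Z →
    (∀ n ∈ s, (nm n : ℝ) ≤ Z) → ∑ n ∈ s, (nm n : ℝ)⁻¹ ≤ C * Z ^ ε := by
  obtain ⟨C, hC, h⟩ := sum_inv_nm_le
  refine ⟨C * (1 + 1 / ε), by positivity, fun Z s hZ hs => ?_⟩
  refine (Finset.sum_le_sum_of_subset_of_nonneg (fun n hn => mem_ball.2 (hs n hn))
    fun _ _ _ => by positivity).trans ((h Z hZ).trans ?_)
  have h1 := Real.log_le_rpow_div (by linarith : 0 ≤ Z) hε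
  have h2 := Real.one_le_rpow hZ hε.le
  rw [mul_assoc]
  gcongr
  rw [add_mul, div_mul_eq_mul_div]
  simp only [one_mul]
  linarith
/-- a set of nonzero elements of norm at most `Z` -/
theorem card_le_of_nm : ∃ C : ℝ, 0 < C ∧ ∀ (Z : ℝ) (s : Finset O), 0 ≤ Z →
    (∀ n ∈ s, n ≠ 0 ∧ (nm n : ℝ) ≤ Z) → (s.card : ℝ) ≤ C * Z := by
  obtain ⟨C, hC, h⟩ := card_ball_le
  refine ⟨2 * C, by positivity, fun Z s hZ hs => ?_⟩
  rcases s.eq_empty_or_nonempty with rfl | ⟨n, hn⟩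
  · simp only [Finset.card_empty, Nat.cast_zero]
    positivity
  have h1 : 1 ≤ Z := (one_le_nm (hs n hn).1).trans (hs n hn).2
  have h2 : (s.card : ℝ) ≤ (ball Z).card := by
    exact_mod_cast Finset.card_le_card fun n hn => mem_ball.2 (hs n hn).2
  nlinarith [h Z hZ]
theorem sum_rpow_le_const {σ : ℝ} (hσ : 1 < σ) : ∃ C : ℝ, 0 < C ∧ ∀ s : Finset O,
    ∑ n ∈ s, (nm n : ℝ) ^ (-σ) ≤ C := by
  have h0 : 0 ≤ ∑' n : O, (nm n : ℝ) ^ (-σ) := tsum_nonneg fun _ => by positivity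
  refine ⟨∑' n : O, (nm n : ℝ) ^ (-σ) + 1, by linarith, fun s => ?_⟩
  linarith [(summable_rpow hσ).sum_le_tsum s fun _ _ => by positivity]

theorem Adm.bound {B : ℝ} {V : ℝ → ℝ} (h : Adm B V) : ∃ C : ℝ, 0 < C ∧ ∀ x, |V x| ≤ C := by
  obtain ⟨C, hC⟩ := (isCompact_Icc (a := 1 / B) (b := B)).exists_bound_of_continuousOn
    h.2.1.continuous.continuousOn
  refine ⟨|C| + 1, by positivity, fun x => ?_⟩
  by_cases hx : V x = 0
  · rw [hx, abs_zero]
    positivity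
  · linarith [hC x (h.2.2 x hx), le_abs_self C, Real.norm_eq_abs (V x)]
theorem Adm.eq_zero_of_le {B x : ℝ} {V : ℝ → ℝ} (h : Adm B V) (hx : B ≤ x) : V x = 0 := by
  have : Set.Ici B ⊆ {y | V y = 0} := by
    rw [← closure_Ioi]
    refine closure_minimal (fun y hy => ?_) (isClosed_eq h.2.1.continuous continuous_const)
    by_contra hy'
    exact absurd (h.2.2 y hy').2 (not_le.2 hy)
  exact this hx
theorem Adm.mul_deriv {B : ℝ} {V : ℝ → ℝ} (h : Adm B V) : Adm B fun u => u * deriv V u := by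
  refine ⟨h.1, contDiff_id.mul (contDiff_infty_iff_deriv.1 h.2.1).2, fun x hx => ?_⟩
  exact closure_minimal (fun y hy => h.2.2 y hy) isClosed_Icc
    (support_deriv_subset (right_ne_zero_of_mul hx))
/-- the range of summation may be enlarged -/
theorem Adm.sum_sball {B N Z : ℝ} {V : ℝ → ℝ} (h : Adm B V) (hN : 0 < N) (hZ : B * N ≤ Z)
    (a c : O → ℂ) : ∑ n ∈ sball (B * N), a n * V (nm n / N) * c n =
      ∑ n ∈ sball Z, a n * V (nm n / N) * c n := by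
  refine Finset.sum_subset (fun n hn => mem_sball.2
    ⟨(mem_sball.1 hn).1, (mem_sball.1 hn).2.trans hZ⟩) fun n hn hn' => ?_
  rw [h.eq_zero_of_le ((le_div_iff₀ hN).2 (not_le.1 fun h' =>
    hn' (mem_sball.2 ⟨(mem_sball.1 hn).1, h'⟩)).le)]
  simp
theorem Adm.sum_ball {B N Z : ℝ} {V : ℝ → ℝ} (h : Adm B V) (hN : 0 < N) (hZ : B * N ≤ Z)
    (a c : O → ℂ) : ∑ n ∈ ball (B * N), a n * V (nm n / N) * c n =
      ∑ n ∈ ball Z, a n * V (nm n / N) * c n := by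
  refine Finset.sum_subset (fun n hn => mem_ball.2 ((mem_ball.1 hn).trans hZ)) fun n _ hn' => ?_
  rw [h.eq_zero_of_le ((le_div_iff₀ hN).2 (not_le.1 fun h' => hn' (mem_ball.2 h')).le)]
  simp
theorem sball_eq_empty {Z : ℝ} (h : Z < 1) : sball Z = ∅ :=
  Finset.eq_empty_of_forall_notMem fun _ hn =>
    absurd ((one_le_nm (mem_sball.1 hn).1.1.1.ne_zero).trans (mem_sball.1 hn).2) (not_le.2 h)
/-- multiples of `f` in `sball` -/
theorem sum_sball_dvd {f : O} (hf : IsS f) (Z : ℝ) (a : O → ℂ) :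
    ∑ m ∈ sball Z, ind (f ∣ m) * a m =
      ∑ m ∈ sball (Z / nm f), ind (IsCoprime m f) * a (f * m) := by
  classical
  have hf0 := hf.1.1.ne_zero
  have nf : (0 : ℝ) < nm f := by exact_mod_cast nm_pos hf0
  have e1 : ∀ (p : O → Prop) (s : Finset O) (b : O → ℂ),
      ∑ m ∈ s, ind (p m) * b m = ∑ m ∈ s.filter p, b m := fun p s b => by
    rw [Finset.sum_filter]
    refine Finset.sum_congr rfl fun m _ => ?_
    by_cases h : p m
    · rw [ind_of h, if_pos h, one_mul]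
    · rw [ind_of_not h, if_neg h, zero_mul]
  rw [e1 (f ∣ ·), e1 (IsCoprime · f)]
  symm
  refine Finset.sum_bij (fun m _ => f * m) (fun m hm => ?_) (fun m _ m' _ h => ?_)
    (fun m hm => ?_) fun _ _ => rfl
  · obtain ⟨h1, h2⟩ := Finset.mem_filter.1 hm
    obtain ⟨h3, h4⟩ := mem_sball.1 h1
    refine Finset.mem_filter.2 ⟨mem_sball.2 ⟨hf.mul h3 h2.symm, ?_⟩, dvd_mul_right _ _⟩
    rw [nm_mul, Nat.cast_mul, mul_comm]
    exact (le_div_iff₀ nf).1 h4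
  · exact mul_left_cancel₀ hf0 h
  · obtain ⟨h1, m', rfl⟩ := Finset.mem_filter.1 hm
    obtain ⟨h3, h4⟩ := mem_sball.1 h1
    refine ⟨m', Finset.mem_filter.2 ⟨mem_sball.2 ⟨h3.of_dvd (hf.1.1.of_mul h3.1.1)
      (dvd_mul_left _ _), ?_⟩, h3.coprime.symm⟩, rfl⟩
    rw [le_div_iff₀ nf, mul_comm]
    exact_mod_cast nm_mul f m' ▸ h4

theorem exp_le_weight {A : ℝ} (hA : 0 ≤ A) : ∃ C : ℝ, 0 < C ∧ ∀ x : ℝ, 0 ≤ x →
    Real.exp (-x) ≤ C * (1 + x) ^ (-A) := by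
  refine ⟨Real.exp 1 * (⌈A⌉₊).factorial, by positivity, fun x hx => ?_⟩
  have h1 : (1 + x) ^ A ≤ (1 + x) ^ ⌈A⌉₊ := by
    rw [← Real.rpow_natCast]
    exact Real.rpow_le_rpow_of_exponent_le (by linarith) (Nat.le_ceil A)
  have h2 := Real.pow_div_factorial_le_exp (1 + x) (by linarith) ⌈A⌉₊
  rw [div_le_iff₀ (by positivity), Real.exp_add] at h2
  rw [Real.rpow_neg (by linarith), Real.exp_neg, ← div_eq_mul_inv, le_div_iff₀ (by positivity),
    inv_mul_le_iff₀ (Real.exp_pos x)]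
  linarith
theorem one_add_abs_add_le {A : ℝ} (hA : 0 ≤ A) (t t' : ℝ) :
    (1 + |t + t'|) ^ A ≤ (1 + |t|) ^ A * (1 + |t'|) ^ A := by
  rw [← Real.mul_rpow (by positivity) (by positivity)]
  refine Real.rpow_le_rpow (by positivity) ?_ hA
  nlinarith [abs_add_le t t', mul_nonneg (abs_nonneg t) (abs_nonneg t')]
theorem dyadic_weight {A p : ℝ} (hp : 0 ≤ p) (hA : p < A) : ∃ C : ℝ, 0 < C ∧
    ∀ (F : O → ℝ) (K D : ℝ) (s : Finset O), (∀ k ∈ s, 0 ≤ F k) → 0 < K →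
      (∀ y : ℝ, 1 ≤ y → ∑ k ∈ s with (nm k : ℝ) ≤ y * K, F k ≤ D * y ^ p) →
      ∑ k ∈ s, (1 + (nm k : ℝ) / K) ^ (-A) * F k ≤ C * D := by
  have hr : (2 : ℝ) ^ (p - A) < 1 := Real.rpow_lt_one_of_one_lt_of_neg one_lt_two (by linarith)
  have hr0 : (0 : ℝ) < 2 ^ (p - A) := by positivity
  refine ⟨2 ^ A * (1 - 2 ^ (p - A))⁻¹, mul_pos (by positivity) (inv_pos.2 (by linarith)),
    fun F K D s hF hK h => ?_⟩
  have hD : 0 ≤ D := by
    have h1 := h 1 le_rfl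
    rw [Real.one_rpow, mul_one] at h1
    exact (Finset.sum_nonneg fun k hk => hF k (Finset.mem_filter.1 hk).1).trans h1
  have hj : ∀ k : O, ∃ j : ℕ, (nm k : ℝ) ≤ 2 ^ j * K ∧
      (1 + (nm k : ℝ) / K) ^ (-A) ≤ 2 ^ A * ((2 : ℝ) ^ (-A)) ^ j := fun k => by
    have hx : (0 : ℝ) ≤ nm k / K := by positivity
    obtain ⟨n, h1, h2⟩ := exists_nat_pow_near (show 1 ≤ 1 + (nm k : ℝ) / K by linarith) one_lt_two
    refine ⟨n + 1, (div_le_iff₀ hK).1 (by linarith), ?_⟩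
    refine (Real.rpow_le_rpow_of_nonpos (by positivity) h1 (by linarith)).trans_eq ?_
    rw [pow_succ', ← mul_assoc, ← Real.rpow_add two_pos, add_neg_cancel, Real.rpow_zero, one_mul,
      ← Real.rpow_natCast_mul zero_le_two, ← Real.rpow_mul_natCast zero_le_two, mul_comm]
  choose j hj1 hj2 using hj
  calc _ ≤ ∑ k ∈ s, ∑ i ∈ Finset.range (s.sup j + 1),
        if (nm k : ℝ) ≤ 2 ^ i * K then 2 ^ A * ((2 : ℝ) ^ (-A)) ^ i * F k else 0 := by
        refine Finset.sum_le_sum fun k hk => le_trans ?_ (Finset.single_le_sum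
          (f := fun i => if (nm k : ℝ) ≤ 2 ^ i * K then 2 ^ A * ((2 : ℝ) ^ (-A)) ^ i * F k else 0)
          (fun i _ => ?_) (Finset.mem_range.2 (Nat.lt_succ_of_le (Finset.le_sup hk))))
        · rw [if_pos (hj1 k)]
          exact mul_le_mul_of_nonneg_right (hj2 k) (hF k hk)
        · split_ifs
          exacts [mul_nonneg (by positivity) (hF k hk), le_rfl]
    _ ≤ ∑ i ∈ Finset.range (s.sup j + 1), 2 ^ A * D * ((2 : ℝ) ^ (p - A)) ^ i := by
        rw [Finset.sum_comm]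
        refine Finset.sum_le_sum fun i _ => ?_
        rw [← Finset.sum_filter, ← Finset.mul_sum]
        refine (mul_le_mul_of_nonneg_left (h _ (one_le_pow₀ one_le_two)) (by positivity)).trans_eq ?_
        rw [← Real.rpow_natCast_mul zero_le_two, mul_comm (i : ℝ), Real.rpow_mul_natCast zero_le_two,
          sub_eq_add_neg, Real.rpow_add two_pos, mul_pow]
        ring
    _ ≤ _ := by
        rw [← Finset.mul_sum, mul_right_comm]
        gcongr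
        rw [← tsum_geometric_of_lt_one hr0.le hr]
        exact (summable_geometric_of_lt_one hr0.le hr).sum_le_tsum _ fun _ _ => by positivity
/-- weighted Cauchy-Schwarz -/
theorem sq_sum_le_weight {ι : Type*} (s : Finset ι) (w x : ι → ℝ) (hw : ∀ i ∈ s, 0 < w i) :
    (∑ i ∈ s, x i) ^ 2 ≤ (∑ i ∈ s, w i) * ∑ i ∈ s, x i ^ 2 / w i := by
  rcases s.eq_empty_or_nonempty with rfl | hs
  · simp
  have h1 := Finset.sq_sum_div_le_sum_sq_div s x hw
  rwa [div_le_iff₀' (Finset.sum_pos hw hs)] at h1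
theorem sum_le_sum_cover {ι κ : Type*} (s : Finset κ) (I : Finset ι) (σ : ι → κ) (F : κ → ℝ)
    (hF : ∀ k, 0 ≤ F k) (h : ∀ k ∈ s, ∃ i ∈ I, σ i = k) :
    ∑ k ∈ s, F k ≤ ∑ i ∈ I, F (σ i) := by
  classical
  refine (Finset.sum_le_sum_of_subset_of_nonneg (fun k hk => ?_) fun k _ _ => hF k).trans
    (Finset.sum_image_le_of_nonneg (s := I) (g := σ) fun k _ => hF k)
  exact Finset.mem_image.2 (h k hk)

theorem exists_sq_mul_sqf {k : O} (hk : k ≠ 0) : ∃ a l : O, l ^ 2 * a = k ∧ Squarefree a := by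
  induction hn : nm k using Nat.strong_induction_on generalizing k with
  | _ n ih =>
    by_cases h : Squarefree k
    · exact ⟨k, 1, by ring, h⟩
    simp only [Squarefree, not_forall] at h
    obtain ⟨x, ⟨y, rfl⟩, hx⟩ := h
    have hx0 : x ≠ 0 := fun h => hk (by simp [h])
    have hy0 : y ≠ 0 := fun h => hk (by simp [h])
    have h1 : 1 < nm x := lt_of_le_of_ne (nm_pos hx0) fun h => hx (isUnit_iff_nm.2 h.symm)
    obtain ⟨a, l, h2, h3⟩ := ih (nm y) (by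
      rw [← hn, nm_mul, nm_mul]
      exact lt_mul_of_one_lt_left (nm_pos hy0) (one_lt_mul'' h1 h1)) hy0 rfl
    exact ⟨a, x * l, by rw [← h2]; ring, h3⟩

theorem k_decomp {k L : O} (hk : k ≠ 0) (h6 : (6 : O) ∣ L) :
    ∃ l b k₁ : O, l ≠ 0 ∧ b ∣ L * l ∧ IsS k₁ ∧ IsCoprime k₁ (L * l) ∧ k = b * l ^ 2 * k₁ := by
  obtain ⟨a, l, hk', ha⟩ := exists_sq_mul_sqf hk
  obtain ⟨a', ha'⟩ := EuclideanDomain.gcd_dvd_left a (L * l)
  have hb := EuclideanDomain.gcd_dvd_right a (L * l)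
  have hc : IsCoprime a' (L * l) := by
    refine isRelPrime_iff_isCoprime.1 fun p h1 h2 => ha p ?_
    rw [ha']
    exact mul_dvd_mul (EuclideanDomain.dvd_gcd (ha' ▸ h1.mul_left _) h2) h1
  generalize EuclideanDomain.gcd a (L * l) = b at *
  have h6' : IsCoprime a' 6 := hc.of_isCoprime_of_dvd_right (h6.mul_right _)
  obtain ⟨u, c, hu, hc', rfl⟩ := exists_prim (n := a') fun h => prime_lam.not_unit
    (h6'.isUnit_of_dvd' h ⟨-2 * lam, by linear_combination 2 * lam_sq⟩)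
  refine ⟨l, b * u, c, fun h => hk (by simp [← hk', h]), hu.mul_right_dvd.2 hb,
    ⟨⟨hc', fun h => prime_two.not_unit (h6'.isUnit_of_dvd' (h.mul_left _) ⟨3, by norm_num⟩)⟩,
      ha.squarefree_of_dvd (ha' ▸ (dvd_mul_left _ _).mul_left _)⟩, hc.of_mul_left_right, ?_⟩
  rw [← hk', ha']
  ring

theorem fiber_sum (W : O → ℝ) (hW : ∀ h, 0 ≤ W h) {e : O} (he : e ≠ 0) (Ds s : Finset O)
    (hD : ∀ Δ ∈ Ds, Prim Δ) (hs : (0 : O) ∉ s) : ∃ s' : Finset O, (0 : O) ∉ s' ∧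
      ∑ Δ ∈ Ds, ∑ e' ∈ pdiv Δ, ∑ h ∈ s, tau Δ * W (h * e * Δ * (Δ / e')) ≤
        ∑ h ∈ s', tau h ^ 3 * W h := by
  classical
  let σ : (Σ _ : O, Σ _ : O, O) → O := fun x => x.2.2 * e * x.1 * (x.1 / x.2.1)
  let I : Finset (Σ _ : O, Σ _ : O, O) := Ds.sigma fun Δ => (pdiv Δ).sigma fun _ => s
  have hI : ∀ x ∈ I, Prim x.1 ∧ Prim x.2.1 ∧ x.2.1 ∣ x.1 ∧ e * x.1 * (x.1 / x.2.1) ≠ 0 ∧
      σ x ≠ 0 := fun x hx => by
    obtain ⟨h1, h2⟩ := Finset.mem_sigma.1 hx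
    obtain ⟨h2, h3⟩ := Finset.mem_sigma.1 h2
    have h4 := (hD _ h1).ne_zero
    obtain ⟨h5, h6⟩ := (mem_pdiv h4).1 h2
    have h7 : x.1 / x.2.1 ≠ 0 := fun h => h4 (by
      rw [← EuclideanDomain.mul_div_cancel' h5.ne_zero h6, h, mul_zero])
    exact ⟨hD _ h1, h5, h6, mul_ne_zero (mul_ne_zero he h4) h7,
      mul_ne_zero (mul_ne_zero (mul_ne_zero (fun h => hs (h ▸ h3)) he) h4) h7⟩
  refine ⟨I.image σ, fun h => ?_, ?_⟩
  · obtain ⟨x, hx, h0⟩ := Finset.mem_image.1 h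
    exact (hI x hx).2.2.2.2 h0
  have e1 : ∑ Δ ∈ Ds, ∑ e' ∈ pdiv Δ, ∑ h ∈ s, tau Δ * W (h * e * Δ * (Δ / e')) =
      ∑ x ∈ I, tau x.1 * W (σ x) := by
    simp only [I, σ, Finset.sum_sigma]
  rw [e1, ← Finset.sum_fiberwise_of_maps_to (fun x hx => Finset.mem_image_of_mem σ hx)]
  refine Finset.sum_le_sum fun h hh => ?_
  have h0 : h ≠ 0 := by
    obtain ⟨x, hx, rfl⟩ := Finset.mem_image.1 hh
    exact (hI x hx).2.2.2.2
  have hd : ∀ x ∈ I.filter (σ · = h), x.1 ∣ h := fun x hx =>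
    (Finset.mem_filter.1 hx).2 ▸ (dvd_mul_left _ _).mul_right _
  refine (Finset.sum_le_card_nsmul _ _ (tau h * W h) fun x hx => ?_).trans ?_
  · rw [(Finset.mem_filter.1 hx).2]
    exact mul_le_mul_of_nonneg_right (tau_mono h0 (hd x hx)) (hW h)
  have hc : (I.filter (σ · = h)).card ≤ (pdiv h ×ˢ pdiv h).card := by
    refine Finset.card_le_card_of_injOn (fun x => (x.1, x.2.1)) (fun x hx => ?_) ?_
    · obtain ⟨h1, h2, h3, -⟩ := hI x (Finset.mem_filter.1 hx).1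
      exact Finset.mem_coe.2 (Finset.mem_product.2 ⟨(mem_pdiv h0).2 ⟨h1, hd x hx⟩,
        (mem_pdiv h0).2 ⟨h2, h3.trans (hd x hx)⟩⟩)
    · rintro ⟨a, b, c⟩ hx ⟨a', b', c'⟩ hy hxy
      obtain ⟨rfl, rfl⟩ := Prod.ext_iff.1 hxy
      obtain ⟨hx1, hx2⟩ := Finset.mem_filter.1 hx
      have h1 : c * (e * a * (a / b)) = c' * (e * a * (a / b)) := by
        have := hx2.trans (Finset.mem_filter.1 hy).2.symm
        simp only [σ] at this
        linear_combination this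
      rw [mul_right_cancel₀ (hI _ hx1).2.2.2.1 h1]
  rw [Finset.card_product] at hc
  rw [nsmul_eq_mul]
  refine (mul_le_mul_of_nonneg_right (show _ ≤ tau h * tau h by unfold tau; exact_mod_cast hc)
    (mul_nonneg (tau_nonneg h) (hW h))).trans_eq (by ring)

end Vale.Agent.P026
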