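import Vale.Agent.P026.QPairB
import Vale.Agent.P026.PSOne
import Vale.Agent.P026.RecAux

/-! # Small kernels: the direct and the dual contributions cancel.

Plan. `pair_cancel`: `q = m₁ m₂`, `quad x m₁ * quad x m₂ = quad x q`, `quad e q * quad k q = quad (e k) q`. For each `e` write the `k`-sum as
`∑' k', ind (Small B₀ k') * G k'` with `G k' = ind (e ∣ k') * quad k' q * (√(nm q))⁻¹ * exp (-(c0² Y nm k' / (nm e ² nm q)))`
(`Function.Injective.tsum_eq` for `k ↦ e k`), apply `tsum_small` to it and to the second sum,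
`quad (b l²) q = quad b q * ind (IsCoprime l q)`; then the difference is `1/2 ∑ b ∈ kball B₀, quad b q * (pair_b expression)`; `card_kball_le`.
`small_sum`: unfold `Dual`, `dco`, `BilW`, exchange `tsum` and finite sums (`summable_pair`); the difference for `Δ` is
`∑ m₁ m₂, ind * a (Δ m₁) * conj (a (Δ m₂)) * (pair_cancel expression)` because `72 ∣ Δ (m₁ - m₂)` and `IsP.coprime_72` give `72 ∣ m₁ - m₂`,
so `g m₁ * conj (g m₂) * ε = 1` (`hg`). For nonzero terms `x / 2 ≤ nm mᵢ ≤ 2 x`, `x = X / nm Δ ≤ W`, `card (pdiv q) ≤ C (2W)^(2η)`;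
`(∑ ‖a (Δ m)‖) ^ 2 ≤ C x ∑ ‖a (Δ m)‖ ^ 2` (`card_le_of_nm`);
`x (1 + Y^(1/4) + 2 Y / x + 2 Y^(3/4) / √x) ≤ 6 W^(49/32)`; times `B₀ = W^(1/10)`; `sum_tau_le'`; `η = 1/10000`. -/

namespace Vale.Agent.P026

open scoped ComplexConjugate Real

theorem qp_norm3 (x y : ℂ) (hx : ‖x‖ ≤ 1) (hy : ‖y‖ ≤ 1) (r : ℝ) :
    ‖x * y * (Real.exp r : ℝ)‖ ≤ Real.exp r := by
  rw [norm_mul, norm_mul, Complex.norm_real, Real.norm_eq_abs, abs_of_pos (Real.exp_pos r)]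
  exact mul_le_of_le_one_left (Real.exp_pos r).le (mul_le_one₀ hx (norm_nonneg _) hy)

theorem qp_dual {e m1 m2 : O} (he : e ≠ 0) (h1 : IsP m1) (h2 : IsP m2) {Y : ℝ} (hY : 0 < Y) (B₀ : ℝ) :
    ((c0 * Y / nm e : ℝ) : ℂ) * (quad e m1 * quad e m2 *
      ∑' k : O, ind (Small B₀ (e * k)) * (quad k m1 * quad k m2 * (dker (Y / nm e) m1 m2 k : ℝ))) =
    1 / 2 * ∑ b ∈ kball B₀, quad b (m1 * m2) * ((c0 * Y / (nm e * √(nm (m1 * m2))) : ℝ) *
      ∑' l : O, ind (l ≠ 0) * ind (e ∣ b * l ^ 2) * ind (IsCoprime l (m1 * m2)) *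
        (Real.exp (-(c0 ^ 2 * Y * (nm b * nm l ^ 2) / (nm e ^ 2 * nm (m1 * m2)))) : ℝ)) := by
  have hq := h1.mul h2
  have n1 := one_le_nm h1.1.ne_zero
  have n2 := one_le_nm h2.1.ne_zero
  have ne := one_le_nm he
  have nq := one_le_nm hq.1.ne_zero
  have hc := c0_pos
  set G : O → ℂ := fun k => ind (e ∣ k) * quad k (m1 * m2) *
    (Real.exp (-(c0 ^ 2 * Y / (nm e ^ 2 * nm (m1 * m2)) * nm k)) : ℝ) with hG
  have hGs : Summable G :=
    Summable.of_norm_bounded (summable_exp (y := c0 ^ 2 * Y / (nm e ^ 2 * nm (m1 * m2))) (by positivity))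
      fun k => qp_norm3 _ _ (norm_ind_le _) (norm_quad_le _ _) _
  have hinj : Function.Injective fun k : O => e * k := fun a b h => mul_left_cancel₀ he h
  have e1 := hinj.tsum_eq (f := fun k => ind (Small B₀ k) * G k) (by
    intro k hk
    by_contra hn
    have : ¬e ∣ k := fun ⟨c, hc⟩ => hn ⟨c, hc.symm⟩
    exact hk (by simp only [hG, ind_of_not this, zero_mul, mul_zero]))
  have e2 : quad e m1 * quad e m2 *
      ∑' k : O, ind (Small B₀ (e * k)) * (quad k m1 * quad k m2 * (dker (Y / nm e) m1 m2 k : ℝ)) =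
      (((√(nm (m1 * m2)))⁻¹ : ℝ) : ℂ) * ∑' k : O, ind (Small B₀ (e * k)) * G (e * k) := by
    rw [← tsum_mul_left, ← tsum_mul_left]
    refine tsum_congr fun k => ?_
    have : c0 ^ 2 * Y / (nm e ^ 2 * nm (m1 * m2)) * nm (e * k) =
        c0 ^ 2 * (Y / nm e) * nm k / (nm m1 * nm m2) := by
      simp only [nm_mul]
      push_cast
      field_simp
    simp only [hG, this, dker, ind_of (dvd_mul_right e k), quad_mul_left h1.2, quad_mul_left h2.2,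
      quad_mul_right h1.1.ne_zero h2.1.ne_zero]
    rw [nm_mul m1 m2, Nat.cast_mul, Real.sqrt_mul (Nat.cast_nonneg _)]
    push_cast
    ring
  rw [e2, e1, tsum_small hGs, Finset.mul_sum, Finset.mul_sum, Finset.mul_sum, Finset.mul_sum]
  refine Finset.sum_congr rfl fun b _ => ?_
  have e3 : ∑' l : O, ind (l ≠ 0) * G (b * l ^ 2) = quad b (m1 * m2) *
      ∑' l : O, ind (l ≠ 0) * ind (e ∣ b * l ^ 2) * ind (IsCoprime l (m1 * m2)) *
        (Real.exp (-(c0 ^ 2 * Y * (nm b * nm l ^ 2) / (nm e ^ 2 * nm (m1 * m2)))) : ℝ) := by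
    rw [← tsum_mul_left]
    refine tsum_congr fun l => ?_
    have : c0 ^ 2 * Y / (nm e ^ 2 * nm (m1 * m2)) * nm (b * l ^ 2) =
        c0 ^ 2 * Y * (nm b * nm l ^ 2) / (nm e ^ 2 * nm (m1 * m2)) := by
      rw [nm_mul b, nm_pow]
      push_cast
      ring
    simp only [hG, this, quad_mul_left hq.2, quad_sq_left hq.2]
    ring
  rw [e3]
  push_cast
  ring

theorem qp_direct (Δ : O) {m1 m2 : O} (h1 : IsP m1) (h2 : IsP m2) {Y : ℝ} (hY : 0 < Y) (B₀ : ℝ) :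
    ∑' h : O, ind (Small B₀ h) * (Real.exp (-(nm h / Y)) : ℝ) * ind (IsCoprime h Δ) *
        quad h m1 * quad h m2 =
    1 / 2 * ∑ b ∈ kball B₀, quad b (m1 * m2) * (ind (IsCoprime b Δ) *
      ∑' l : O, ind (l ≠ 0) * ind (IsCoprime l (Δ * (m1 * m2))) *
        (Real.exp (-(nm b * nm l ^ 2 / Y)) : ℝ)) := by
  have hq := h1.mul h2
  set G : O → ℂ := fun k => ind (IsCoprime k Δ) * quad k (m1 * m2) *
    (Real.exp (-(Y⁻¹ * nm k)) : ℝ) with hG
  have hGs : Summable G :=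
    Summable.of_norm_bounded (summable_exp (y := Y⁻¹) (by positivity))
      fun k => qp_norm3 _ _ (norm_ind_le _) (norm_quad_le _ _) _
  have e1 : ∑' h : O, ind (Small B₀ h) * (Real.exp (-(nm h / Y)) : ℝ) * ind (IsCoprime h Δ) *
      quad h m1 * quad h m2 = ∑' h : O, ind (Small B₀ h) * G h := by
    refine tsum_congr fun h => ?_
    simp only [hG, quad_mul_right h1.1.ne_zero h2.1.ne_zero, div_eq_inv_mul]
    ring
  rw [e1, tsum_small hGs]
  congr 1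
  refine Finset.sum_congr rfl fun b _ => ?_
  rw [← tsum_mul_left, ← tsum_mul_left]
  refine tsum_congr fun l => ?_
  have : Y⁻¹ * nm (b * l ^ 2) = nm b * nm l ^ 2 / Y := by
    rw [nm_mul b, nm_pow]
    push_cast
    ring
  have e2 : IsCoprime (b * l ^ 2) Δ ↔ IsCoprime b Δ ∧ IsCoprime l Δ := by
    rw [IsCoprime.mul_left_iff, IsCoprime.pow_left_iff two_pos]
  simp only [hG, this, quad_mul_left hq.2, quad_sq_left hq.2, e2, IsCoprime.mul_right_iff (x := l) (y := Δ), ind_and]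
  ring

theorem pair_cancel : ∃ C : ℝ, 0 < C ∧ ∀ (Δ m1 m2 : O) (Y B₀ : ℝ), IsS Δ → IsS m1 → IsS m2 →
    IsCoprime Δ (m1 * m2) → 0 < Y → 1 ≤ B₀ →
    ‖∑ e ∈ pdiv Δ, mu e * (c0 * Y / nm e : ℝ) * (quad e m1 * quad e m2 *
        ∑' k : O, ind (Small B₀ (e * k)) * (quad k m1 * quad k m2 * (dker (Y / nm e) m1 m2 k : ℝ))) -
      ∑' h : O, ind (Small B₀ h) * (Real.exp (-(nm h / Y)) : ℝ) * ind (IsCoprime h Δ) *
        quad h m1 * quad h m2‖ ≤
      C * B₀ * (pdiv Δ).card * (pdiv (m1 * m2)).card *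
        (1 + Y ^ (1 / 4 : ℝ) + Y / √(nm (m1 * m2)) +
          Y ^ (3 / 4 : ℝ) / (nm (m1 * m2) : ℝ) ^ (1 / 4 : ℝ)) := by
  obtain ⟨C, hC, H⟩ := pair_b
  obtain ⟨C', hC', H'⟩ := card_kball_le
  refine ⟨C * C', by positivity, fun Δ m1 m2 Y B₀ hΔ h1 h2 hcop hY hB => ?_⟩
  have hq := h1.1.mul h2.1
  have e1 : ∑ e ∈ pdiv Δ, mu e * (c0 * Y / nm e : ℝ) * (quad e m1 * quad e m2 *
      ∑' k : O, ind (Small B₀ (e * k)) * (quad k m1 * quad k m2 * (dker (Y / nm e) m1 m2 k : ℝ))) =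
      1 / 2 * ∑ b ∈ kball B₀, quad b (m1 * m2) * ∑ e ∈ pdiv Δ, mu e *
        (c0 * Y / (nm e * √(nm (m1 * m2))) : ℝ) *
      ∑' l : O, ind (l ≠ 0) * ind (e ∣ b * l ^ 2) * ind (IsCoprime l (m1 * m2)) *
        (Real.exp (-(c0 ^ 2 * Y * (nm b * nm l ^ 2) / (nm e ^ 2 * nm (m1 * m2)))) : ℝ) := by
    simp only [Finset.mul_sum]
    rw [Finset.sum_comm]
    refine Finset.sum_congr rfl fun e he => ?_
    rw [mul_assoc, qp_dual ((mem_pdiv hΔ.1.1.ne_zero).1 he).1.ne_zero h1.1 h2.1 hY, Finset.mul_sum,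
      Finset.mul_sum]
    refine Finset.sum_congr rfl fun b _ => ?_
    ring
  rw [e1, qp_direct Δ h1.1 h2.1 hY, ← mul_sub, ← Finset.sum_sub_distrib, norm_mul]
  set E := ((pdiv Δ).card : ℝ) * (pdiv (m1 * m2)).card * (1 + Y ^ (1 / 4 : ℝ) + Y / √(nm (m1 * m2)) +
    Y ^ (3 / 4 : ℝ) / (nm (m1 * m2) : ℝ) ^ (1 / 4 : ℝ)) with hE
  have hE0 : 0 ≤ E := by positivity
  refine (mul_le_mul_of_nonneg_left (norm_sum_le_of_le (kball B₀) (n := fun _ => C * E) fun b hb => ?_)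
    (norm_nonneg _)).trans ?_
  · rw [← mul_sub, norm_mul]
    refine (mul_le_of_le_one_left (norm_nonneg _) (norm_quad_le b (m1 * m2))).trans ?_
    refine (H Δ (m1 * m2) b Y hΔ hq.1 hcop (mem_kball.1 hb).1.ne_zero hY).trans (le_of_eq ?_)
    rw [hE]
    ring
  rw [Finset.sum_const, nsmul_eq_mul]
  have := H' B₀ hB
  have h12 : ‖(1 / 2 : ℂ)‖ ≤ 1 := by norm_num
  calc ‖(1 / 2 : ℂ)‖ * (((kball B₀).card : ℝ) * (C * E)) ≤ 1 * ((C' * B₀) * (C * E)) := by gcongr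
    _ = _ := by rw [hE]; ring

theorem qp_real {x W N : ℝ} (hx : 0 < x) (hxW : x ≤ W) (hW : 1 ≤ W) (hN : x ^ 2 / 4 ≤ N) :
    1 + (W ^ (11 / 8 : ℝ)) ^ (1 / 4 : ℝ) + W ^ (11 / 8 : ℝ) / √N +
      (W ^ (11 / 8 : ℝ)) ^ (3 / 4 : ℝ) / N ^ (1 / 4 : ℝ) ≤ 6 * W ^ (49 / 32 : ℝ) / x := by
  have hW0 : 0 < W := by linarith
  have hN0 : 0 < N := lt_of_lt_of_le (by positivity) hN
  have mono : ∀ r : ℝ, r ≤ 49 / 32 → W ^ r ≤ W ^ (49 / 32 : ℝ) := fun r hr =>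
    Real.rpow_le_rpow_of_exponent_le hW hr
  have a1 : x ≤ W ^ (49 / 32 : ℝ) := by
    have := mono 1 (by norm_num)
    rw [Real.rpow_one] at this
    linarith
  have a2 : (W ^ (11 / 8 : ℝ)) ^ (1 / 4 : ℝ) * x ≤ W ^ (49 / 32 : ℝ) := by
    refine le_trans ?_ (mono (11 / 8 * (1 / 4) + 1) (by norm_num))
    rw [Real.rpow_add hW0, Real.rpow_one, Real.rpow_mul hW0.le]
    gcongr
  have a3 : W ^ (11 / 8 : ℝ) / √N * x ≤ 2 * W ^ (49 / 32 : ℝ) := by
    have h : x / 2 ≤ √N := Real.le_sqrt_of_sq_le (by linarith)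
    have := mono (11 / 8) (by norm_num)
    calc W ^ (11 / 8 : ℝ) / √N * x ≤ W ^ (11 / 8 : ℝ) / (x / 2) * x := by gcongr
      _ = 2 * W ^ (11 / 8 : ℝ) := by field_simp
      _ ≤ _ := by linarith
  have a4 : (W ^ (11 / 8 : ℝ)) ^ (3 / 4 : ℝ) / N ^ (1 / 4 : ℝ) * x ≤ 2 * W ^ (49 / 32 : ℝ) := by
    have hs : 0 < √x := Real.sqrt_pos.2 hx
    have hs2 : √x * √x = x := Real.mul_self_sqrt hx.le
    have h : √x / 2 ≤ N ^ (1 / 4 : ℝ) := by
      have e : (N ^ (1 / 4 : ℝ)) ^ 4 = N := by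
        rw [← Real.rpow_natCast, ← Real.rpow_mul hN0.le]
        norm_num
      refine le_of_pow_le_pow_left₀ (n := 4) (by norm_num) (by positivity) ?_
      rw [e]
      have : (√x / 2) ^ 4 = (√x * √x) ^ 2 / 16 := by ring
      rw [this, hs2]
      nlinarith [sq_nonneg x]
    have h' : √x ≤ W ^ (1 / 2 : ℝ) := by
      rw [← Real.sqrt_eq_rpow]
      exact Real.sqrt_le_sqrt hxW
    have e : (W ^ (11 / 8 : ℝ)) ^ (3 / 4 : ℝ) * W ^ (1 / 2 : ℝ) = W ^ (49 / 32 : ℝ) := by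
      rw [← Real.rpow_mul hW0.le, ← Real.rpow_add hW0]
      norm_num
    calc (W ^ (11 / 8 : ℝ)) ^ (3 / 4 : ℝ) / N ^ (1 / 4 : ℝ) * x
        ≤ (W ^ (11 / 8 : ℝ)) ^ (3 / 4 : ℝ) / (√x / 2) * (√x * √x) := by rw [hs2]; gcongr
      _ = 2 * ((W ^ (11 / 8 : ℝ)) ^ (3 / 4 : ℝ) * √x) := by field_simp
      _ ≤ 2 * ((W ^ (11 / 8 : ℝ)) ^ (3 / 4 : ℝ) * W ^ (1 / 2 : ℝ)) := by gcongr
      _ = _ := by rw [e]
  rw [le_div_iff₀ hx]
  nlinarith

theorem qp_expand (F : Fam) (hF : ∀ n a, F.X n a = quad a n) {Y : ℝ} (hY : 0 < Y) (B₀ Z : ℝ) (a : O → ℂ)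
    {Δ : O} (hΔ : Δ ≠ 0) :
    ∑ e ∈ pdiv Δ, mu e * (c0 * Y / nm e : ℝ) *
      ∑' k : O, ind (Small B₀ (e * k)) * Dual F Z (Y / nm e) (dco F a Δ e) k =
    ∑ m1 ∈ sball Z, ∑ m2 ∈ sball Z, ind (IsCoprime m1 m2) * (a (Δ * m1) * conj (a (Δ * m2))) *
      (F.g m1 * conj (F.g m2) * F.ε m1 m2 * ∑ e ∈ pdiv Δ, mu e * (c0 * Y / nm e : ℝ) * (quad e m1 * quad e m2 *
        ∑' k : O, ind (Small B₀ (e * k)) * (quad k m1 * quad k m2 * (dker (Y / nm e) m1 m2 k : ℝ)))) := by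
  simp only [Finset.mul_sum]
  rw [← Finset.sum_product', Finset.sum_comm]
  refine Finset.sum_congr rfl fun e he => ?_
  have hy : 0 < Y / nm e := div_pos hY (by exact_mod_cast nm_pos ((mem_pdiv hΔ).1 he).1.ne_zero)
  have e1 : ∀ k, ind (Small B₀ (e * k)) * Dual F Z (Y / nm e) (dco F a Δ e) k =
      ∑ m ∈ sball Z ×ˢ sball Z, (ind (IsCoprime m.1 m.2) * (a (Δ * m.1) * conj (a (Δ * m.2))) *
        (F.g m.1 * conj (F.g m.2) * F.ε m.1 m.2) * (quad e m.1 * quad e m.2)) *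
        (ind (Small B₀ (e * k)) * (quad k m.1 * quad k m.2 * (dker (Y / nm e) m.1 m.2 k : ℝ))) := by
    intro k
    rw [Dual, ← Finset.sum_product', Finset.mul_sum]
    refine Finset.sum_congr rfl fun m _ => ?_
    simp only [dco, hF, map_mul, conj_quad]
    ring
  simp only [e1]
  rw [Summable.tsum_finsetSum, Finset.mul_sum]
  · refine Finset.sum_congr rfl fun m _ => ?_
    rw [tsum_mul_left]
    ring
  · intro m hm
    obtain ⟨k1, k2⟩ := Finset.mem_product.1 hm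
    have := summable_pair F hy (mem_sball.1 k1).1 (mem_sball.1 k2).1
    simp only [hF, conj_quad] at this
    refine Summable.mul_left _ (Summable.of_norm_bounded this.norm fun k => ?_)
    rw [norm_mul]
    exact mul_le_of_le_one_left (norm_nonneg _) (norm_ind_le _)

theorem small_sum (F : Fam) (hF : ∀ n a, F.X n a = quad a n)
    (hg : ∀ m₁ m₂, IsS m₁ → IsS m₂ → IsCoprime m₁ m₂ → (72 : O) ∣ m₁ - m₂ →
      F.g m₁ * conj (F.g m₂) * F.ε m₁ m₂ = 1) : ∃ C : ℝ, 0 < C ∧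
    ∀ (X W : ℝ) (a : O → ℂ) (α : O), 0 < X → X ≤ W → 1 ≤ W →
      (∀ n, a n ≠ 0 → n ∈ sball (2 * X) ∧ X / 2 ≤ nm n ∧ (72 : O) ∣ n - α) →
      ∑ Δ ∈ sball (2 * X), ‖∑ e ∈ pdiv Δ, mu e * (c0 * W ^ (11 / 8 : ℝ) / nm e : ℝ) *
          ∑' k : O, ind (Small (W ^ (1 / 10 : ℝ)) (e * k)) *
            Dual F (2 * X) (W ^ (11 / 8 : ℝ) / nm e) (dco F a Δ e) k -
        BilW F (fun h => ind (Small (W ^ (1 / 10 : ℝ)) h) *
          (Real.exp (-(nm h / W ^ (11 / 8 : ℝ))) : ℝ)) (2 * X) a Δ‖ ≤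
        C * W ^ (1638 / 1000 : ℝ) * ∑ n ∈ sball (2 * X), ‖a n‖ ^ 2 := by
  classical
  obtain ⟨C1, hC1, H1⟩ := pair_cancel
  obtain ⟨C2, hC2, H2⟩ := card_pdiv_le (1 / 1000) (by norm_num)
  obtain ⟨C3, hC3, H3⟩ := card_le_of_nm
  obtain ⟨C4, hC4, H4⟩ := sum_tau_le' (1 / 1000) (by norm_num)
  refine ⟨96 * C1 * C2 * C3 * C4, by positivity, fun X W a α hX hXW hW ha => ?_⟩
  have hW0 : 0 < W := by linarith
  by_cases hZ : 2 * X < 1
  · rw [sball_eq_empty hZ]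
    simp
  rw [not_lt] at hZ
  set Y := W ^ (11 / 8 : ℝ) with hYd
  set B₀ := W ^ (1 / 10 : ℝ) with hBd
  have hY : 0 < Y := by positivity
  have hB : 1 ≤ B₀ := Real.one_le_rpow hW (by norm_num)
  set K := C1 * B₀ * (C2 * (4 * W ^ (2 / 1000 : ℝ))) * (6 * W ^ (49 / 32 : ℝ)) with hK
  have hK0 : 0 ≤ K := by positivity
  have main : ∀ Δ ∈ sball (2 * X), ‖∑ e ∈ pdiv Δ, mu e * (c0 * Y / nm e : ℝ) *
      ∑' k : O, ind (Small B₀ (e * k)) * Dual F (2 * X) (Y / nm e) (dco F a Δ e) k -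
      BilW F (fun h => ind (Small B₀ h) * (Real.exp (-(nm h / Y)) : ℝ)) (2 * X) a Δ‖ ≤
      K * (2 * C3) * ((pdiv Δ).card * ∑ m ∈ sball (2 * X), ‖a (Δ * m)‖ ^ 2) := by
    intro Δ hΔ
    have hS := (mem_sball.1 hΔ).1
    have nΔ := one_le_nm hS.1.1.ne_zero
    set x := X / nm Δ with hx
    have hx0 : 0 < x := by positivity
    have hxW : x ≤ W := (div_le_self hX.le nΔ).trans hXW
    have rng : ∀ m, a (Δ * m) ≠ 0 → x / 2 ≤ nm m ∧ (nm m : ℝ) ≤ 2 * x := by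
      intro m hm
      obtain ⟨k1, k2, -⟩ := ha _ hm
      have k3 := (mem_sball.1 k1).2
      rw [nm_mul, Nat.cast_mul] at k2 k3
      constructor
      · rw [hx, div_div, div_le_iff₀ (by positivity)]
        linarith
      · rw [hx, ← mul_div_assoc, le_div_iff₀ (by positivity)]
        linarith
    rw [qp_expand F hF hY B₀ (2 * X) a hS.1.1.ne_zero, BilW, ← Finset.sum_sub_distrib]
    simp only [← Finset.sum_sub_distrib, ← mul_sub]
    have term : ∀ m1 ∈ sball (2 * X), ∀ m2 ∈ sball (2 * X),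
        ‖ind (IsCoprime m1 m2) * (a (Δ * m1) * conj (a (Δ * m2))) *
          (F.g m1 * conj (F.g m2) * F.ε m1 m2 * ∑ e ∈ pdiv Δ, mu e * (c0 * Y / nm e : ℝ) *
            (quad e m1 * quad e m2 * ∑' k : O, ind (Small B₀ (e * k)) *
              (quad k m1 * quad k m2 * (dker (Y / nm e) m1 m2 k : ℝ))) -
          ∑' h : O, ind (Small B₀ h) * (Real.exp (-(nm h / Y)) : ℝ) * ind (IsCoprime h Δ) *
            F.X m1 h * conj (F.X m2 h))‖ ≤
        K * (pdiv Δ).card / x * (‖a (Δ * m1)‖ * ‖a (Δ * m2)‖) := by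
      intro m1 k1 m2 k2
      by_cases z0 : IsCoprime m1 m2
      swap
      · rw [ind_of_not z0, zero_mul, zero_mul, norm_zero]
        positivity
      by_cases z1 : a (Δ * m1) = 0
      · simp [z1]
      by_cases z2 : a (Δ * m2) = 0
      · simp [z2]
      have s1 := (mem_sball.1 k1).1
      have s2 := (mem_sball.1 k2).1
      have c1 := (mem_sball.1 (ha _ z1).1).1.coprime
      have c2 := (mem_sball.1 (ha _ z2).1).1.coprime
      have d72 : (72 : O) ∣ m1 - m2 := by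
        refine hS.1.coprime_72.symm.dvd_of_dvd_mul_left ?_
        have := dvd_sub (ha _ z1).2.2 (ha _ z2).2.2
        rwa [show Δ * m1 - α - (Δ * m2 - α) = Δ * (m1 - m2) by ring] at this
      simp only [hg m1 m2 s1 s2 z0 d72, one_mul, ind_of z0, hF, conj_quad, norm_mul, Complex.norm_conj]
      rw [mul_comm]
      refine mul_le_mul_of_nonneg_right ?_ (by positivity)
      refine (H1 Δ m1 m2 Y B₀ hS s1 s2 (c1.mul_right c2) hY hB).trans ?_
      obtain ⟨l1, u1⟩ := rng m1 z1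
      obtain ⟨l2, u2⟩ := rng m2 z2
      have hN : x ^ 2 / 4 ≤ nm (m1 * m2) := by
        rw [nm_mul, Nat.cast_mul]
        calc x ^ 2 / 4 = x / 2 * (x / 2) := by ring
          _ ≤ _ := by gcongr
      have hU : (nm (m1 * m2) : ℝ) ≤ 4 * W ^ 2 := by
        rw [nm_mul, Nat.cast_mul]
        calc (nm m1 : ℝ) * nm m2 ≤ (2 * W) * (2 * W) := by gcongr <;> linarith
          _ = _ := by ring
      have t1 : ((pdiv (m1 * m2)).card : ℝ) ≤ C2 * (4 * W ^ (2 / 1000 : ℝ)) := by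
        refine (H2 _ (s1.1.mul s2.1).1.ne_zero).trans (mul_le_mul_of_nonneg_left ?_ hC2.le)
        refine (Real.rpow_le_rpow (Nat.cast_nonneg _) hU (by norm_num)).trans ?_
        rw [Real.mul_rpow (by norm_num) (by positivity), ← Real.rpow_natCast, ← Real.rpow_mul hW0.le]
        have : (4 : ℝ) ^ (1 / 1000 : ℝ) ≤ 4 := by
          simpa using Real.rpow_le_rpow_of_exponent_le (x := 4) (y := 1 / 1000) (z := 1) (by norm_num)
            (by norm_num)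
        norm_num at this ⊢
        gcongr
      have t2 := qp_real hx0 hxW hW hN
      calc _ ≤ C1 * B₀ * (pdiv Δ).card * (C2 * (4 * W ^ (2 / 1000 : ℝ))) * (6 * W ^ (49 / 32 : ℝ) / x) := by
            gcongr
        _ = _ := by rw [hK]; ring
    refine (norm_sum_le_of_le _ fun m1 k1 => norm_sum_le_of_le _ fun m2 k2 => term m1 k1 m2 k2).trans ?_
    simp only [← Finset.mul_sum, ← Finset.sum_mul]
    rw [← sq, ← Finset.sum_filter_of_ne (p := fun m => a (Δ * m) ≠ 0) (fun m _ h => norm_ne_zero_iff.1 h)]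
    have cs := sq_sum_le_card_mul_sum_sq (s := (sball (2 * X)).filter fun m => a (Δ * m) ≠ 0)
      (f := fun m => ‖a (Δ * m)‖)
    have cd := H3 (2 * x) ((sball (2 * X)).filter fun m => a (Δ * m) ≠ 0) (by positivity) fun m hm =>
      ⟨(mem_sball.1 (Finset.mem_filter.1 hm).1).1.1.1.ne_zero, (rng m (Finset.mem_filter.1 hm).2).2⟩
    have sub := Finset.sum_le_sum_of_subset_of_nonneg (Finset.filter_subset (fun m => a (Δ * m) ≠ 0)
      (sball (2 * X))) (f := fun m => ‖a (Δ * m)‖ ^ 2) fun _ _ _ => by positivity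
    have p0 : 0 ≤ ∑ m ∈ (sball (2 * X)).filter fun m => a (Δ * m) ≠ 0, ‖a (Δ * m)‖ ^ 2 := by positivity
    calc _ ≤ K * (pdiv Δ).card / x * (C3 * (2 * x) * ∑ m ∈ sball (2 * X), ‖a (Δ * m)‖ ^ 2) := by
          refine mul_le_mul_of_nonneg_left (cs.trans ?_) (by positivity)
          gcongr
      _ = _ := by field_simp
  refine (Finset.sum_le_sum main).trans ?_
  rw [← Finset.mul_sum]
  have t3 := H4 (2 * X) a hZ fun n hn => (ha n hn).1
  have t4 : (2 * X) ^ (1 / 1000 : ℝ) ≤ 2 * W ^ (1 / 1000 : ℝ) := by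
    rw [Real.mul_rpow (by norm_num) hX.le]
    have : (2 : ℝ) ^ (1 / 1000 : ℝ) ≤ 2 := by
      simpa using Real.rpow_le_rpow_of_exponent_le (x := 2) (y := 1 / 1000) (z := 1) (by norm_num)
        (by norm_num)
    gcongr
  have t5 : B₀ * W ^ (2 / 1000 : ℝ) * W ^ (49 / 32 : ℝ) * W ^ (1 / 1000 : ℝ) ≤ W ^ (1638 / 1000 : ℝ) := by
    rw [hBd, ← Real.rpow_add hW0, ← Real.rpow_add hW0, ← Real.rpow_add hW0]
    exact Real.rpow_le_rpow_of_exponent_le hW (by norm_num)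
  have p1 : 0 ≤ ∑ n ∈ sball (2 * X), ‖a n‖ ^ 2 := by positivity
  calc _ ≤ K * (2 * C3) * (C4 * (2 * W ^ (1 / 1000 : ℝ)) * ∑ n ∈ sball (2 * X), ‖a n‖ ^ 2) := by
        refine mul_le_mul_of_nonneg_left (t3.trans ?_) (by positivity)
        gcongr
    _ = 96 * C1 * C2 * C3 * C4 * (B₀ * W ^ (2 / 1000 : ℝ) * W ^ (49 / 32 : ℝ) * W ^ (1 / 1000 : ℝ)) *
        ∑ n ∈ sball (2 * X), ‖a n‖ ^ 2 := by rw [hK]; ring
    _ ≤ _ := by gcongr

end Vale.Agent.P026
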