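import Vale.Agent.P026.QLarge
import Vale.Agent.P026.QPair

/-! # The quadratic large sieve.

Plan. `main_step`: `F` from `exists_famQ`, `Y = W^(11/8)`, `B₀ = W^(1/10)`; if `2 X < 1` trivial. Terms `nm k ≤ B₀`: `q1`.
Terms `nm k > B₀` are not `Small` (`IsS.not_small`), so their sum is at most
`exp 1 * ∑' h, (1 - ind (Small B₀ h)) * exp (-(nm h / Y)) * ‖A h‖ ^ 2 = exp 1 * ∑ Δ, (Bil Δ - BilW .. Δ)` (`sq_expand_w` twice, `g = 1`).
`bil_eq`, and `1 = ind (k = 0) + ind (Small B₀ (e k)) + ind (k ≠ 0 ∧ ¬Small B₀ (e k))`: `dual_zero`, `small_sum`, `ps3` (`B = 2`, `A' = 0`,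
`c = 1`) with `large2`.
`qls`: `W = max X (M ^ (8/11))`, so `M ≤ W^(11/8)`; `sq_classes`, `flip_class`, dyadic pieces `Nat.log 2 (nm n) = j`
(`log_mem_range`, `pow_log_floor_le`), Cauchy-Schwarz over `j` (`J ≤ C W^(1/1000)` pieces), `main_step` with `X = 2 ^ j`;
`W^(41/25) ≤ X^(41/25) + M^(6/5)`. -/

namespace Vale.Agent.P026

open scoped ComplexConjugate Real

theorem ql_summable_ind {f : O → ℂ} (hf : Summable f) (p : O → Prop) : Summable fun k => ind (p k) * f k :=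
  Summable.of_norm_bounded hf.norm fun k => by
    rw [norm_mul]
    exact mul_le_of_le_one_left (norm_nonneg _) (norm_ind_le _)

theorem ql_split {f : O → ℂ} (hf : Summable f) (B : ℝ) (e : O) :
    ∑' k, f k = f 0 + ∑' k, ind (Small B (e * k)) * f k + ∑' k, ind (k ≠ 0 ∧ ¬Small B (e * k)) * f k := by
  have e0 : f 0 = ∑' k, ind (k = 0) * f k := by
    rw [tsum_eq_single 0 fun k hk => by rw [ind_of_not hk, zero_mul], ind_of rfl, one_mul]
  rw [e0, ← (ql_summable_ind hf _).tsum_add (ql_summable_ind hf _),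
    ← ((ql_summable_ind hf _).add (ql_summable_ind hf _)).tsum_add (ql_summable_ind hf _)]
  refine tsum_congr fun k => ?_
  by_cases h0 : k = 0
  · have : ¬Small B (e * k) := fun h => h.ne_zero (by rw [h0, mul_zero])
    rw [ind_of h0, ind_of_not this, ind_of_not fun h => h.1 h0]
    ring
  · by_cases h1 : Small B (e * k)
    · rw [ind_of_not h0, ind_of h1, ind_of_not fun h => h.2 h1]
      ring
    · rw [ind_of_not h0, ind_of_not h1, ind_of ⟨h0, h1⟩]
      ring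

theorem ql_large (F : Fam) {Y : ℝ} (hY : 0 < Y) (B₀ : ℝ) {Z : ℝ} {a : O → ℂ}
    (ha : ∀ n, a n ≠ 0 → n ∈ sball Z) {s : Finset O} (hs : ∀ k ∈ s, (nm k : ℝ) ≤ Y ∧ ¬Small B₀ k) :
    ∑ k ∈ s, ‖∑ n ∈ sball Z, a n * F.X n k‖ ^ 2 ≤ Real.exp 1 * ∑ Δ ∈ sball Z,
      ‖Bil F Y Z a Δ - BilW F (fun h => ind (Small B₀ h) * (Real.exp (-(nm h / Y)) : ℝ)) Z a Δ‖ := by
  classical
  have s0 := summable_sq0 F hY Z a
  have w0 : Summable fun h : O => ((Real.exp (-(nm h / Y)) : ℝ) : ℂ) :=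
    Complex.summable_ofReal.2 (summable_gw hY)
  have e1 := sq_expand_w F w0 ha 1
  have e2 := sq_expand_w F (ql_summable_ind w0 (Small B₀)) ha 1
  simp only [ind_of (one_dvd _), one_mul, ← bil_eq_bilW] at e1 e2
  set r : O → ℝ := fun h => if Small B₀ h then 0 else
    Real.exp (-(nm h / Y)) * ‖∑ n ∈ sball Z, a n * F.X n h‖ ^ 2 with hr
  have r0 : ∀ h, 0 ≤ r h := fun h => by
    simp only [hr]
    split_ifs <;> positivity
  have rs : Summable r := Summable.of_nonneg_of_le r0 (fun h => by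
    simp only [hr]
    split_ifs
    · positivity
    · exact le_rfl) s0
  have s1 : Summable fun h : O => ((Real.exp (-(nm h / Y)) : ℝ) : ℂ) *
      ((‖∑ n ∈ sball Z, a n * F.X n h‖ ^ 2 : ℝ) : ℂ) := by
    simpa only [Complex.ofReal_mul] using Complex.summable_ofReal.2 s0
  have e3 : ((∑' h, r h : ℝ) : ℂ) = ∑ Δ ∈ sball Z,
      (Bil F Y Z a Δ - BilW F (fun h => ind (Small B₀ h) * (Real.exp (-(nm h / Y)) : ℝ)) Z a Δ) := by
    rw [Finset.sum_sub_distrib, ← e1, ← e2, Complex.ofReal_tsum,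
      ← s1.tsum_sub (by simpa only [mul_assoc] using ql_summable_ind s1 (Small B₀))]
    refine tsum_congr fun h => ?_
    simp only [hr]
    split_ifs with k
    · rw [ind_of k, one_mul, sub_self, Complex.ofReal_zero]
    · rw [ind_of_not k, zero_mul, zero_mul, sub_zero, Complex.ofReal_mul]
  calc ∑ k ∈ s, ‖∑ n ∈ sball Z, a n * F.X n k‖ ^ 2 ≤ ∑ k ∈ s, Real.exp 1 * r k := by
        refine Finset.sum_le_sum fun k hk => ?_
        simp only [hr, if_neg (hs k hk).2]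
        rw [← mul_assoc, ← Real.exp_add]
        refine le_mul_of_one_le_left (by positivity) (Real.one_le_exp ?_)
        have := (div_le_one hY).2 (hs k hk).1
        linarith
    _ ≤ Real.exp 1 * ∑' h, r h := by
        rw [← Finset.mul_sum]
        exact mul_le_mul_of_nonneg_left (rs.sum_le_tsum s fun h _ => r0 h) (Real.exp_pos 1).le
    _ ≤ _ := by
        refine mul_le_mul_of_nonneg_left ?_ (Real.exp_pos 1).le
        refine le_trans ?_ (norm_sum_le _ _)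
        rw [← e3, Complex.norm_real]
        exact le_abs_self _

theorem main_step : ∃ C : ℝ, 0 < C ∧ ∀ (X W : ℝ) (a : O → ℂ) (α : O), 0 < X → X ≤ W → 1 ≤ W →
    (∀ n, a n ≠ 0 → n ∈ sball (2 * X) ∧ X / 2 ≤ nm n ∧ (72 : O) ∣ n - α) →
    ∑ k ∈ sball (W ^ (11 / 8 : ℝ)), ‖∑ n ∈ sball (2 * X), a n * quad k n‖ ^ 2 ≤
      C * W ^ (1639 / 1000 : ℝ) * ∑ n ∈ sball (2 * X), ‖a n‖ ^ 2 := by
  classical
  obtain ⟨F, hF, -, hg⟩ := exists_famQ
  obtain ⟨C1, hC1, H1⟩ := q1 (ε := 1) one_pos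
  obtain ⟨C2, hC2, H2⟩ := small_sum F hF hg
  obtain ⟨C3, hC3, H3⟩ := ps3 F (B := 2) (by norm_num) 0
  obtain ⟨C4, hC4, H4⟩ := large2 F hF
  have hc := c0_pos
  refine ⟨3 * C1 + Real.exp 1 * (c0 + C2 + C3 * C4), by positivity, fun X W a α hX hXW hW ha => ?_⟩
  have hW0 : 0 < W := by linarith
  by_cases hZ : 2 * X < 1
  · rw [sball_eq_empty hZ]
    simp
  rw [not_lt] at hZ
  have h2 := H2 X W a α hX hXW hW ha
  have h4 := H4 X W a hX hXW hW fun n hn => (ha n hn).1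
  set Y := W ^ (11 / 8 : ℝ) with hYd
  set B₀ := W ^ (1 / 10 : ℝ) with hBd
  set S := ∑ n ∈ sball (2 * X), ‖a n‖ ^ 2 with hS
  set T := W ^ (1639 / 1000 : ℝ) with hT
  have hS0 : 0 ≤ S := by positivity
  have hY : 0 < Y := by positivity
  have hB : 1 ≤ B₀ := Real.one_le_rpow hW (by norm_num)
  have mono : ∀ r : ℝ, r ≤ 1639 / 1000 → W ^ r ≤ T := fun r hr => Real.rpow_le_rpow_of_exponent_le hW hr
  rw [← Finset.sum_filter_add_sum_filter_not _ (fun k => (nm k : ℝ) ≤ B₀)]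
  have p1 : ∑ k ∈ (sball Y).filter (fun k => (nm k : ℝ) ≤ B₀), ‖∑ n ∈ sball (2 * X), a n * quad k n‖ ^ 2 ≤
      3 * C1 * T * S := by
    refine (Finset.sum_le_sum_of_subset_of_nonneg (t := sball B₀) (fun k hk => ?_)
      fun _ _ _ => by positivity).trans ((H1 B₀ (2 * X) a hB hZ).trans ?_)
    · obtain ⟨k1, k2⟩ := Finset.mem_filter.1 hk
      exact mem_sball.2 ⟨(mem_sball.1 k1).1, k2⟩
    · have b1 : W * B₀ ≤ T := by
        refine le_trans (le_of_eq ?_) (mono (1 + 1 / 10) (by norm_num))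
        rw [Real.rpow_add hW0, Real.rpow_one]
      have b2 : B₀ ^ 2 * B₀ ≤ T := by
        refine le_trans (le_of_eq ?_) (mono (1 / 10 * (3 : ℕ)) (by norm_num))
        rw [Real.rpow_mul hW0.le, Real.rpow_natCast]
        ring
      have b3 : X * B₀ ≤ W * B₀ := by gcongr
      rw [Real.rpow_one]
      refine mul_le_mul_of_nonneg_right ?_ hS0
      nlinarith
  have p2 := ql_large F hY B₀ (fun n hn => (ha n hn).1)
    (s := (sball Y).filter fun k => ¬(nm k : ℝ) ≤ B₀) fun k hk => by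
      obtain ⟨k1, k2⟩ := Finset.mem_filter.1 hk
      exact ⟨(mem_sball.1 k1).2, (mem_sball.1 k1).1.not_small (not_le.1 k2)⟩
  simp only [hF] at p2
  have h3 := H3 X Y (C4 * W ^ (1638 / 1000 : ℝ) * S) a (fun _ => 1)
    (fun _ e k => k ≠ 0 ∧ ¬Small B₀ (e * k)) hX hY
    (fun n hn => ⟨(ha n hn).2.1, (mem_sball.1 (ha n hn).1).2⟩) (fun _ => zero_le_one) fun t β s => by
      rw [Real.rpow_zero, mul_one]
      convert h4 t β s
  simp only [one_mul] at h3
  have p3 : ∑ Δ ∈ sball (2 * X), ‖Bil F Y (2 * X) a Δ -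
      BilW F (fun h => ind (Small B₀ h) * (Real.exp (-(nm h / Y)) : ℝ)) (2 * X) a Δ‖ ≤
      c0 * Y * S + C2 * W ^ (1638 / 1000 : ℝ) * S + C3 * (C4 * W ^ (1638 / 1000 : ℝ) * S) := by
    refine le_trans ?_ (add_le_add (add_le_add le_rfl h2) h3)
    rw [hS, Finset.mul_sum, ← Finset.sum_add_distrib, ← Finset.sum_add_distrib]
    refine Finset.sum_le_sum fun Δ hΔ => ?_
    have hP := (mem_sball.1 hΔ).1
    refine le_trans ?_ (add_le_add (add_le_add (dual_zero F hY (2 * X) a hP) le_rfl) le_rfl)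
    refine le_trans (le_of_eq ?_) (norm_add₃_le)
    congr 1
    rw [bil_eq F hY _ _ hP.1.1, ← add_sub_assoc, ← add_sub_right_comm, ← Finset.sum_add_distrib,
      ← Finset.sum_add_distrib]
    congr 1
    refine Finset.sum_congr rfl fun e he => ?_
    have hy : 0 < Y / nm e :=
      div_pos hY (by exact_mod_cast nm_pos ((mem_pdiv hP.1.1.ne_zero).1 he).1.ne_zero)
    rw [ql_split (summable_dual F (2 * X) hy _) B₀ e]
    ring
  have m1 := mono (11 / 8) (by norm_num)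
  have m2 := mono (1638 / 1000) (by norm_num)
  have p4 : c0 * Y * S + C2 * W ^ (1638 / 1000 : ℝ) * S + C3 * (C4 * W ^ (1638 / 1000 : ℝ) * S) ≤
      c0 * T * S + C2 * T * S + C3 * (C4 * T * S) := by gcongr
  have p5 := p2.trans (mul_le_mul_of_nonneg_left (p3.trans p4) (Real.exp_pos 1).le)
  calc _ ≤ 3 * C1 * T * S + Real.exp 1 * (c0 * T * S + C2 * T * S + C3 * (C4 * T * S)) := add_le_add p1 p5
    _ = _ := by ring

theorem qls : QLSStmt := by
  classical
  obtain ⟨C, hC, H⟩ := main_step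
  refine ⟨5184 * 2001 * C, by positivity, fun M X a hM hX => ?_⟩
  set W := max X (M ^ (8 / 11 : ℝ)) with hWd
  have hXW : X ≤ W := le_max_left _ _
  have hW : 1 ≤ W := hX.trans hXW
  have hW0 : 0 < W := by linarith
  have hM0 : 0 ≤ M := by linarith
  have hMW : M ≤ W ^ (11 / 8 : ℝ) := by
    refine le_trans (le_of_eq ?_) (Real.rpow_le_rpow (by positivity) (le_max_right X (M ^ (8 / 11 : ℝ)))
      (by norm_num))
    rw [← Real.rpow_mul hM0]
    norm_num
  set J := Nat.log 2 ⌊X⌋₊ with hJ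
  have hJ2 : (2 : ℝ) ^ J ≤ W := (pow_log_floor_le hX).trans hXW
  have hJW : ((J + 1 : ℕ) : ℝ) ≤ 2001 * W ^ (1 / 1000 : ℝ) := by
    have a1 := Real.log_le_log (by positivity) hJ2
    have a2 := Real.log_le_rpow_div hW0.le (ε := 1 / 1000) (by norm_num)
    have a3 := Real.log_two_gt_d9
    have a4 : 1 ≤ W ^ (1 / 1000 : ℝ) := Real.one_le_rpow hW (by norm_num)
    rw [Real.log_pow] at a1
    have a5 : (0 : ℝ) ≤ J := Nat.cast_nonneg _
    push_cast
    nlinarith
  have hfin : W ^ (1 / 1000 : ℝ) * W ^ (1639 / 1000 : ℝ) ≤ M ^ (6 / 5 : ℝ) + X ^ (41 / 25 : ℝ) := by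
    rw [← Real.rpow_add hW0, show (1 / 1000 + 1639 / 1000 : ℝ) = 41 / 25 by norm_num]
    rcases max_choice X (M ^ (8 / 11 : ℝ)) with h | h
    · rw [hWd, h]
      exact le_add_of_nonneg_left (by positivity)
    · rw [hWd, h, ← Real.rpow_mul hM0]
      exact le_add_of_le_of_nonneg (Real.rpow_le_rpow_of_exponent_le hM (by norm_num)) (by positivity)
  have maps : ∀ n ∈ sball X, Nat.log 2 (nm n) ∈ Finset.range (J + 1) := fun n hn =>
    log_mem_range (mem_ball.2 (mem_sball.1 hn).2)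
  have piece : ∀ α, ∀ j ∈ Finset.range (J + 1), ∑ k ∈ sball M,
      ‖∑ n ∈ sball X with Nat.log 2 (nm n) = j, ind ((72 : O) ∣ n - α) * a n * quad k n‖ ^ 2 ≤
      C * W ^ (1639 / 1000 : ℝ) *
        ∑ n ∈ sball X with Nat.log 2 (nm n) = j, ‖ind ((72 : O) ∣ n - α) * a n‖ ^ 2 := by
    intro α j hj
    set s := (sball X).filter fun n => Nat.log 2 (nm n) = j with hs
    have rng : ∀ n ∈ s, n ∈ sball (2 * 2 ^ j) ∧ (2 : ℝ) ^ j / 2 ≤ nm n := by
      intro n hn
      obtain ⟨k1, k2⟩ := Finset.mem_filter.1 hn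
      have k3 := (mem_sball.1 k1).1
      have u : nm n < 2 ^ (j + 1) := k2 ▸ Nat.lt_pow_succ_log_self (by norm_num) _
      have l : 2 ^ j ≤ nm n := k2 ▸ Nat.pow_log_le_self 2 (nm_pos k3.1.1.ne_zero).ne'
      have u' : (nm n : ℝ) < 2 ^ (j + 1) := by exact_mod_cast u
      have l' : (2 : ℝ) ^ j ≤ nm n := by exact_mod_cast l
      refine ⟨mem_sball.2 ⟨k3, ?_⟩, ?_⟩
      · rw [pow_succ] at u'
        linarith
      · linarith [half_le_self (by positivity : (0 : ℝ) ≤ 2 ^ j)]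
    have sub : sball (2 * 2 ^ j) ∩ s = s := Finset.inter_eq_right.2 fun n hn => (rng n hn).1
    have jW : (2 : ℝ) ^ j ≤ W :=
      (pow_le_pow_right₀ (by norm_num) (Nat.lt_succ_iff.1 (Finset.mem_range.1 hj))).trans hJ2
    have h := H (2 ^ j) W (fun n => if n ∈ s then ind ((72 : O) ∣ n - α) * a n else 0) α (by positivity) jW hW
      fun n hn => by
        by_cases k : n ∈ s
        · refine ⟨(rng n k).1, (rng n k).2, ?_⟩
          by_contra k'
          exact hn (by simp only [ind_of_not k', zero_mul, ite_self])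
        · exact absurd (if_neg k) hn
    simp only [ite_mul, zero_mul, apply_ite (fun z : ℂ => ‖z‖ ^ 2), norm_zero, ne_eq, OfNat.ofNat_ne_zero,
      not_false_eq_true, zero_pow, Finset.sum_ite_mem, sub] at h
    refine le_trans (Finset.sum_le_sum_of_subset_of_nonneg (fun k hk => ?_) fun _ _ _ => by positivity) h
    exact mem_sball.2 ⟨(mem_sball.1 hk).1, (mem_sball.1 hk).2.trans hMW⟩
  have pt : ∀ k ∈ sball M, ‖∑ n ∈ sball X, a n * quad n k‖ ^ 2 ≤ 5184 * ∑ α ∈ res 72,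
      ((J + 1 : ℕ) : ℝ) * ∑ j ∈ Finset.range (J + 1),
        ‖∑ n ∈ sball X with Nat.log 2 (nm n) = j, ind ((72 : O) ∣ n - α) * a n * quad k n‖ ^ 2 := by
    intro k hk
    refine (sq_classes _ _).trans (mul_le_mul_of_nonneg_left (Finset.sum_le_sum fun α _ => ?_) (by norm_num))
    refine (pow_le_pow_left₀ (norm_nonneg _) (flip_class (mem_sball.1 hk).1.1 α
      (fun n hn => (mem_sball.1 hn).1.1) a).1 2).trans ?_
    rw [← Finset.sum_fiberwise_of_maps_to maps]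
    refine (pow_le_pow_left₀ (norm_nonneg _) (norm_sum_le _ _) 2).trans ?_
    simpa only [Finset.card_range] using sq_sum_le_card_mul_sum_sq (s := Finset.range (J + 1))
      (f := fun j => ‖∑ n ∈ sball X with Nat.log 2 (nm n) = j, ind ((72 : O) ∣ n - α) * a n * quad k n‖)
  refine (Finset.sum_le_sum pt).trans ?_
  rw [← Finset.mul_sum, Finset.sum_comm]
  simp only [← Finset.mul_sum]
  have tot : ∑ α ∈ res 72, ∑ k ∈ sball M, ∑ j ∈ Finset.range (J + 1),
      ‖∑ n ∈ sball X with Nat.log 2 (nm n) = j, ind ((72 : O) ∣ n - α) * a n * quad k n‖ ^ 2 ≤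
      C * W ^ (1639 / 1000 : ℝ) * ∑ n ∈ sball X, ‖a n‖ ^ 2 := by
    rw [← sum_classes (sball X) a, Finset.mul_sum]
    refine Finset.sum_le_sum fun α _ => ?_
    rw [Finset.sum_comm, ← Finset.sum_fiberwise_of_maps_to maps, Finset.mul_sum]
    exact Finset.sum_le_sum (piece α)
  have p1 : 0 ≤ ∑ n ∈ sball X, ‖a n‖ ^ 2 := by positivity
  calc _ ≤ 5184 * (2001 * W ^ (1 / 1000 : ℝ) * (C * W ^ (1639 / 1000 : ℝ) * ∑ n ∈ sball X, ‖a n‖ ^ 2)) := by
        gcongr
    _ = 5184 * 2001 * C * (W ^ (1 / 1000 : ℝ) * W ^ (1639 / 1000 : ℝ)) * ∑ n ∈ sball X, ‖a n‖ ^ 2 := by ring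
    _ ≤ _ := by gcongr

end Vale.Agent.P026
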