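import Vale.Agent.P026.RecMax1

/-! REC: `PStmt Q θ → PM Q θ`.
Plans.
* `bs_one_le`: `φ n = ∑_{α ∈ res Q} c α * ind (Q ∣ n - α)` on `IsP` elements, `c α = φ n₀` for some `IsP n₀ ≡ α` (else 0); Cauchy-Schwarz, `card_res`.
* `bs_prime`: split `n` coprime to `q` by `p ∣ n` (`sum_sball_dvd`, `mu_mul`, `sex_mul_right`, `nt_mul`).
* `bs_coprime`: `Prim.induction` on `q`.  If `p ∣ q` or `p = -2` (not `IsP`) the sum does not change and `tau` is monotone.  Otherwise prove
  `‖Bs φ (p q) M‖ ≤ 2 tau q √(M G)` for all `φ`, `M ≤ M₀` by induction on `j` with `B M < 2^j` (empty if `B M < 1`), using `bs_prime`, `nm p ≥ 7`, `card_pdiv_prime_mul`.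
* `pm_of_p`: if `M₀ < 1/B` take `G = 0`; else `G h = nm Q * ∑_α log(B M₀) ∫ …`; swap the finite sum and the integral, `p_weight` for `V₂` at each `u ≤ M₀`,
  `u^(1+θ)/u² ≤ M₀^θ/u`, `log(B M₀)² ≤ C (B H)^(ε/2)` since `M₀ ≤ H`. -/

namespace Vale.Agent.P026

open scoped ComplexConjugate Real

theorem bs_one_le {Q : O} (hQ : Q ≠ 0) {φ : O → ℂ} (hφ : PerP Q φ) (B : ℝ) (V : ℝ → ℝ)
    (M t : ℝ) (h : O) :
    ‖Bs φ 1 B V M t h‖ ^ 2 ≤ nm Q * ∑ α ∈ res Q, ‖Asum Q α B V M t h‖ ^ 2 := by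
  classical
  obtain ⟨c, hc1, hc2⟩ : ∃ c : O → ℂ, (∀ α, ‖c α‖ ≤ 1) ∧
      ∀ n α, IsP n → Q ∣ n - α → c α = φ n := by
    refine ⟨fun α => if h : ∃ n₀, IsP n₀ ∧ Q ∣ n₀ - α then φ h.choose else 0, fun α => ?_,
      fun n α hn hα => ?_⟩
    · beta_reduce
      split_ifs
      · exact hφ.1 _
      · simp
    · have h1 : ∃ n₀, IsP n₀ ∧ Q ∣ n₀ - α := ⟨n, hn, hα⟩
      beta_reduce
      rw [dif_pos h1]
      refine hφ.2 _ _ h1.choose_spec.1 hn ?_
      simpa using dvd_sub h1.choose_spec.2 hα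
  have h1 : Bs φ 1 B V M t h = ∑ α ∈ res Q, c α * Asum Q α B V M t h := by
    simp only [Bs, Asum, Finset.mul_sum]
    rw [Finset.sum_comm]
    refine Finset.sum_congr rfl fun n hn => ?_
    have h2 : φ n = ∑ α ∈ res Q, c α * ind (Q ∣ n - α) := by
      rw [← mul_one (φ n), ← sum_res_ind hQ n, Finset.mul_sum]
      refine Finset.sum_congr rfl fun α _ => ?_
      by_cases h3 : Q ∣ n - α
      · rw [hc2 n α (mem_sball.1 hn).1.1 h3]
      · rw [ind_of_not h3, mul_zero, mul_zero]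
    rw [ind_of isCoprime_one_right, h2]
    simp only [Finset.sum_mul]
    exact Finset.sum_congr rfl fun α _ => by ring
  have h4 : ‖Bs φ 1 B V M t h‖ ≤ ∑ α ∈ res Q, ‖Asum Q α B V M t h‖ := by
    rw [h1]
    refine (norm_sum_le _ _).trans (Finset.sum_le_sum fun α _ => ?_)
    rw [norm_mul]
    exact mul_le_of_le_one_left (norm_nonneg _) (hc1 α)
  refine (pow_le_pow_left₀ (norm_nonneg _) h4 2).trans ?_
  rw [← card_res hQ]
  exact sq_sum_le_card_mul_sum_sq

theorem bs_prime {p q : O} (hp : Prime p) (hp' : IsP p) (hq : ¬p ∣ q) (φ : O → ℂ) (B : ℝ)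
    (V : ℝ → ℝ) {M : ℝ} (hM : 0 < M) (t : ℝ) (h : O) :
    Bs φ (p * q) B V M t h = Bs φ q B V M t h +
      sex h p * nt p t * Bs (fun n => φ (p * n)) (p * q) B V (M / nm p) t h := by
  have hp0 := hp.ne_zero
  have hpq : IsCoprime p q := hp.irreducible.coprime_iff_not_dvd.2 hq
  have hn0 : (nm p : ℝ) ≠ 0 := by exact_mod_cast (nm_pos hp0).ne'
  have h1 := sum_sball_dvd ⟨hp', hp.squarefree⟩ (B * M) fun n =>
    φ n * ind (IsCoprime n q) * mu n * sex h n * V (nm n / M) * nt n t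
  have h2 : Bs φ q B V M t h = Bs φ (p * q) B V M t h + ∑ n ∈ sball (B * M), ind (p ∣ n) *
      (φ n * ind (IsCoprime n q) * mu n * sex h n * V (nm n / M) * nt n t) := by
    rw [Bs, Bs, ← Finset.sum_add_distrib]
    refine Finset.sum_congr rfl fun n _ => ?_
    by_cases h3 : p ∣ n
    · rw [ind_of h3, ind_of_not (p := IsCoprime n (p * q)) fun h4 =>
        hp.not_isUnit (h4.of_mul_right_left.isUnit_of_dvd' h3 dvd_rfl)]
      ring
    · have h4 : IsCoprime n p := (hp.irreducible.coprime_iff_not_dvd.2 h3).symm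
      rw [ind_of_not h3, IsCoprime.mul_right_iff, ind_and, ind_of h4]
      ring
  rw [h2, h1, add_assoc, left_eq_add, Bs, mul_div_assoc, Finset.mul_sum, ← Finset.sum_add_distrib]
  refine Finset.sum_eq_zero fun m hm => ?_
  have hm0 := (mem_sball.1 hm).1.1.1.ne_zero
  have e1 : ((nm (p * m) : ℕ) : ℝ) / M = nm m / (M / nm p) := by
    rw [nm_mul]; push_cast; field_simp
  rw [e1, IsCoprime.mul_right_iff, IsCoprime.mul_left_iff, ind_and, ind_and, ind_of hpq,
    sex_mul_right hp0 hm0, nt_mul hp0 hm0]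
  by_cases h5 : IsCoprime m p
  · rw [mu_mul h5.symm, mu_prime hp]; ring
  · rw [ind_of_not h5]; ring

theorem bs_coprime {Q : O} {B : ℝ} {V : ℝ → ℝ} (hB : 1 ≤ B) {M₀ t G : ℝ} {h : O} (hG : 0 ≤ G)
    (H : ∀ (φ : O → ℂ) (M : ℝ), PerP Q φ → 0 < M → M ≤ M₀ → ‖Bs φ 1 B V M t h‖ ^ 2 ≤ M * G)
    {q : O} (hq : Prim q) {φ : O → ℂ} (hφ : PerP Q φ) {M : ℝ} (hM : 0 < M) (hM₀ : M ≤ M₀) :
    ‖Bs φ q B V M t h‖ ^ 2 ≤ tau q ^ 2 * M * G := by
  have key : ∀ {q : O}, Prim q → ∀ (φ : O → ℂ) (M : ℝ), PerP Q φ → 0 < M → M ≤ M₀ →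
      ‖Bs φ q B V M t h‖ ≤ tau q * √(M * G) := by
    intro q hq
    refine Prim.induction (P := fun q => ∀ (φ : O → ℂ) (M : ℝ), PerP Q φ → 0 < M → M ≤ M₀ →
      ‖Bs φ q B V M t h‖ ≤ tau q * √(M * G)) (fun φ M h1 h2 h3 => ?_)
      (fun p n hp hp' hn ih => ?_) hq
    · rw [tau_one, one_mul]
      exact Real.le_sqrt_of_sq_le (H φ M h1 h2 h3)
    have hpn : p * n ≠ 0 := mul_ne_zero hp.ne_zero hn.ne_zero
    by_cases hc : IsP p ∧ ¬p ∣ n
    · obtain ⟨hc1, hc2⟩ := hc
      have h7 : (7 : ℝ) ≤ nm p := by exact_mod_cast hc1.four_lt_nm hp.ne_one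
      have htau : tau (p * n) = 2 * tau n := by
        rw [tau, tau, card_pdiv_prime_mul hp hp' hn.ne_zero hc2]; push_cast; rfl
      have h4 : ∀ (j : ℕ) (φ : O → ℂ) (M : ℝ), PerP Q φ → 0 < M → M ≤ M₀ → B * M < 2 ^ j →
          ‖Bs φ (p * n) B V M t h‖ ≤ 2 * tau n * √(M * G) := by
        intro j
        induction j with
        | zero =>
          intro φ M _ _ _ h5
          rw [Bs, sball_eq_empty (by simpa using h5), Finset.sum_empty, norm_zero]
          have := tau_nonneg n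
          positivity
        | succ j ihj =>
          intro φ M h1 h2 h3 h5
          have h6 : M / nm p ≤ M / 4 := div_le_div_of_nonneg_left h2.le (by norm_num) (by linarith)
          have h8 := ihj (fun m => φ (p * m)) (M / nm p) ⟨fun m => h1.1 _, fun m m' hm hm' hd =>
            h1.2 _ _ (hc1.mul hm) (hc1.mul hm') (by rw [← mul_sub]; exact hd.mul_left p)⟩
            (by positivity) (by linarith) (by
              have : B * (M / nm p) ≤ B * (M / 4) := mul_le_mul_of_nonneg_left h6 (by linarith)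
              have h0 : (0 : ℝ) < 2 ^ j := by positivity
              rw [pow_succ] at h5
              linarith)
          have h9 : √(M / nm p * G) ≤ √(M * G) / 2 := by
            rw [Real.sqrt_le_left (by positivity), div_pow, Real.sq_sqrt (by positivity)]
            nlinarith [mul_le_mul_of_nonneg_right h6 hG]
          have h10 : ‖sex h p * nt p t * Bs (fun m => φ (p * m)) (p * n) B V (M / nm p) t h‖ ≤
              ‖Bs (fun m => φ (p * m)) (p * n) B V (M / nm p) t h‖ := by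
            rw [norm_mul, norm_mul, norm_nt, mul_one]
            exact mul_le_of_le_one_left (norm_nonneg _) (norm_sex_le _ _)
          rw [bs_prime hp hc1 hc2 φ B V h2]
          refine (norm_add_le _ _).trans ?_
          have h11 := mul_le_mul_of_nonneg_left h9 (tau_nonneg n)
          linarith [ih φ M h1 h2 h3]
      intro φ M h1 h2 h3
      obtain ⟨j, hj⟩ := pow_unbounded_of_one_lt (B * M) (one_lt_two (α := ℝ))
      rw [htau]
      exact h4 j φ M h1 h2 h3 hj
    · intro φ M h1 h2 h3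
      have h4 : Bs φ (p * n) B V M t h = Bs φ n B V M t h := by
        refine Finset.sum_congr rfl fun m hm => ?_
        have h5 : IsCoprime m (p * n) ↔ IsCoprime m n := by
          refine ⟨fun h6 => h6.of_mul_right_right, fun h6 => IsCoprime.mul_right ?_ h6⟩
          by_cases h7 : p ∣ n
          · exact h6.of_isCoprime_of_dvd_right h7
          · have h8 : (2 : O) ∣ p := by
              by_contra h9
              exact hc ⟨⟨hp', h9⟩, h7⟩
            exact (hp.irreducible.coprime_iff_not_dvd.2 fun h9 =>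
              (mem_sball.1 hm).1.1.2 (h8.trans h9)).symm
        rw [h5]
      rw [h4]
      exact (ih φ M h1 h2 h3).trans (mul_le_mul_of_nonneg_right
        (tau_mono hpn (dvd_mul_left n p)) (Real.sqrt_nonneg _))
  refine (pow_le_pow_left₀ (norm_nonneg _) (key hq φ M hφ hM hM₀) 2).trans (le_of_eq ?_)
  rw [mul_pow, Real.sq_sqrt (by positivity), mul_assoc]

theorem pm_of_p {Q : O} (hQ : Q ≠ 0) {θ : ℝ} (hθ : 0 ≤ θ) (hP : PStmt Q θ) : PM Q θ := by
  intro B V ε hV hε
  obtain ⟨C, A, hC, hA, h1⟩ := p_weight hP hV.mul_deriv (half_pos hε)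
  have hB0 : 0 < B := by linarith [hV.1]
  have hB1 : 0 < 1 / B := by positivity
  have hQ0 : (0 : ℝ) < nm Q := by exact_mod_cast nm_pos hQ
  refine ⟨nm Q * nm Q * C * (B ^ (ε / 4) / (ε / 4)) ^ 2, A, by positivity, hA,
    fun H M₀ t hH hM₀ hMH => ?_⟩
  rcases lt_or_ge M₀ (1 / B) with hlt | hle
  · refine ⟨fun _ => 0, fun _ => le_rfl, fun φ q M h _ _ hM hM' => ?_, fun s => ?_⟩
    · rw [Bs, sball_eq_empty (by
        have := hM'.trans_lt hlt
        rw [lt_div_iff₀ hB0] at this; linarith), Finset.sum_empty]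
      simp
    · simp only [mul_zero, Finset.sum_const_zero]
      positivity
  have hL0 : 0 ≤ Real.log (B * M₀) :=
    Real.log_nonneg (by rw [div_le_iff₀ hB0] at hle; linarith)
  set f : O → O → ℝ → ℝ :=
    fun α h u => ‖Asum Q α B (fun x => x * deriv V x) u t h‖ ^ 2 / u ^ 2 with hf
  have hsub : Set.uIcc (1 / B) M₀ ⊆ Set.Ioi 0 := fun u hu => by
    rw [Set.uIcc_of_le hle] at hu
    exact hB1.trans_le hu.1
  have hfi : ∀ α h, IntervalIntegrable (f α h) MeasureTheory.volume (1 / B) M₀ := fun α h =>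
    ((((continuousOn_asum hV.mul_deriv Q α t h).norm.pow 2).div (continuousOn_id.pow 2)
      fun u hu => pow_ne_zero 2 (ne_of_gt hu)).mono hsub).intervalIntegrable
  have hG0 : ∀ h, 0 ≤ nm Q * ∑ α ∈ res Q, Real.log (B * M₀) * ∫ u in (1 / B)..M₀, f α h u :=
    fun h => mul_nonneg hQ0.le (Finset.sum_nonneg fun α _ => mul_nonneg hL0
      (intervalIntegral.integral_nonneg hle fun u _ => by positivity))
  refine ⟨fun h => nm Q * ∑ α ∈ res Q, Real.log (B * M₀) * ∫ u in (1 / B)..M₀, f α h u, hG0,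
    fun φ q M h hφ hq hM hM' => bs_coprime hV.1 (hG0 h) (fun ψ N hψ hN hN' => ?_) hq hφ hM hM',
    fun s => ?_⟩
  · refine (bs_one_le hQ hψ B V N t h).trans ?_
    rw [mul_left_comm, Finset.mul_sum _ _ N]
    exact mul_le_mul_of_nonneg_left
      (Finset.sum_le_sum fun α _ => asum_max hV Q α t h hN hN' hle) hQ0.le
  obtain ⟨D, hD⟩ : ∃ D, D = C * (1 + |t|) ^ A * H ^ (1 + ε / 2) * M₀ ^ θ := ⟨_, rfl⟩
  have hD0 : 0 ≤ D := by rw [hD]; positivity
  have h2 : ∀ α, ∑ h ∈ s, (1 + (nm h : ℝ) / H) ^ (-3 : ℝ) * ∫ u in (1 / B)..M₀, f α h u ≤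
      D * Real.log (B * M₀) := by
    intro α
    have i1 : IntervalIntegrable (fun u : ℝ => u⁻¹) MeasureTheory.volume (1 / B) M₀ :=
      ((continuousOn_id.inv₀ fun u hu => ne_of_gt hu).mono hsub).intervalIntegrable
    have h3 : Real.log (B * M₀) = ∫ u in (1 / B)..M₀, u⁻¹ := by
      rw [integral_inv_of_pos hB1 hM₀, div_div_eq_mul_div, div_one, mul_comm]
    simp only [← intervalIntegral.integral_const_mul]
    rw [← intervalIntegral.integral_finsetSum fun h _ => (hfi α h).const_mul _, h3,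
      ← intervalIntegral.integral_const_mul]
    refine intervalIntegral.integral_mono_on hle ?_ (i1.const_mul D) fun u hu => ?_
    · have := IntervalIntegrable.sum s fun h _ =>
        (hfi α h).const_mul ((1 + (nm h : ℝ) / H) ^ (-3 : ℝ))
      rwa [Finset.sum_fn] at this
    · have hu0 : 0 < u := hB1.trans_le hu.1
      have h4 := h1 u H t α s hu0 hH
        ((Real.rpow_le_rpow hu0.le hu.2 (by norm_num)).trans hMH)
      have h5 : u ^ (1 + θ) ≤ M₀ ^ θ * u := by
        rw [Real.rpow_add hu0, Real.rpow_one, mul_comm]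
        exact mul_le_mul_of_nonneg_right (Real.rpow_le_rpow hu0.le hu.2 hθ) hu0.le
      simp only [hf, ← mul_div_assoc]
      rw [← Finset.sum_div, div_le_iff₀ (by positivity)]
      refine h4.trans ((mul_le_mul_of_nonneg_left h5 (by positivity)).trans (le_of_eq ?_))
      rw [hD]; field_simp
  have h6 : ∑ h ∈ s, (1 + (nm h : ℝ) / H) ^ (-3 : ℝ) *
      (nm Q * ∑ α ∈ res Q, Real.log (B * M₀) * ∫ u in (1 / B)..M₀, f α h u) =
      nm Q * ∑ α ∈ res Q, Real.log (B * M₀) *
        ∑ h ∈ s, (1 + (nm h : ℝ) / H) ^ (-3 : ℝ) * ∫ u in (1 / B)..M₀, f α h u := by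
    simp only [Finset.mul_sum]
    rw [Finset.sum_comm]
    exact Finset.sum_congr rfl fun α _ => Finset.sum_congr rfl fun h _ => by ring
  have h7 := Finset.sum_le_card_nsmul (res Q) _ _ fun α _ =>
    mul_le_mul_of_nonneg_left (h2 α) hL0
  rw [card_res hQ, nsmul_eq_mul] at h7
  have h8 : M₀ ≤ H := by
    rcases le_total M₀ 1 with h9 | h9
    · exact h9.trans hH
    · exact (Real.self_le_rpow_of_one_le h9 (by norm_num)).trans hMH
  have h9 : Real.log (B * M₀) ≤ B ^ (ε / 4) / (ε / 4) * H ^ (ε / 4) := by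
    refine (Real.log_le_log (by positivity) (mul_le_mul_of_nonneg_left h8 hB0.le)).trans
      ((Real.log_le_rpow_div (by positivity) (by positivity : 0 < ε / 4)).trans (le_of_eq ?_))
    rw [Real.mul_rpow hB0.le (by linarith)]; ring
  have h10 : H ^ (1 + ε) = H ^ (1 + ε / 2) * (H ^ (ε / 4)) ^ 2 := by
    rw [sq, ← Real.rpow_add (by linarith), ← Real.rpow_add (by linarith)]
    congr 1; ring
  have h11 := mul_le_mul_of_nonneg_left (pow_le_pow_left₀ hL0 h9 2)
    (by positivity : 0 ≤ (nm Q : ℝ) * nm Q * D)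
  rw [h6, h10]
  refine (mul_le_mul_of_nonneg_left h7 hQ0.le).trans (le_trans (le_of_eq (by ring))
    (h11.trans (le_of_eq ?_)))
  rw [hD]; ring

end Vale.Agent.P026
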