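import Vale.Agent.P026.RecHyp
import Vale.Agent.P026.RecMax2

/-! REC: the recursion.  `F` is a family with `F.X n a = sex a n`, `F.g = gt6` (`exists_famS`).
Plans.
* `bil_large`: `bil_mobius`, `large_inner`, `PM` with `M₀ = N^(1-γ)`; `exp_le_weight` (A = 3), `Real.tsum_le_of_sum_le`-type bound; `∑_{Δ,f} tau (Δ f)²/(nm Δ nm f) ≤ C (B H)^ε'`.
* `bil_small`: `psx` with `c Δ = 1[nm Δ ≤ N^γ]`, `main_inner`, `step_hyp`, `one_add_abs_add_le`, `∑ tau Δ / nm Δ ≤ C H^ε'`; diagonal `H ∑ tau Δ V² ≤ C H^(1+ε) N`.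
* `p_triv`: `‖Asum‖ ≤ C N` (`card_le_of_nm`, `Adm.bound`), `card_ball_le`; for `N ≤ 1` either empty or `1/B ≤ N`.
* `step`: `N ≤ 1` by `p_triv`; else `1[nm h ≤ H] ≤ e exp(-nm h/H)`, `Asum_eq`, `sq_expand` with `g = 1`, split at `N^γ`.
* `rec`: `PStmt Q ((1-γ)^j)` by induction (`pm_of_p`), `PStmt.mono`, `(1-γ)^j → 0`. -/

namespace Vale.Agent.P026

open scoped ComplexConjugate Real

open Classical in
theorem bil_large {F : Fam} (hX : ∀ n a, F.X n a = sex a n) {Q : O} {θ : ℝ} (hP : PM Q θ) {B : ℝ}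
    {V : ℝ → ℝ} (hV : Adm B V) {ε : ℝ} (hε : 0 < ε) : ∃ C A : ℝ, 0 < C ∧ 0 ≤ A ∧
    ∀ (N H t : ℝ) (α : O), 1 ≤ N → N ^ (599 / 500 : ℝ) ≤ H →
      ∑ Δ ∈ sball (B * N) with N ^ (1 / 10000 : ℝ) < nm Δ, ‖Bil F H (B * N) (asc Q α V N t) Δ‖ ≤
        C * (1 + |t|) ^ A * H ^ (1 + ε) * N ^ (1 + (1 - 1 / 10000) * θ) := by
  obtain ⟨η, hη⟩ : ∃ η : ℝ, η = ε / 5 := ⟨_, rfl⟩
  have hη0 : 0 < η := by rw [hη]; positivity
  have hB : 1 ≤ B := hV.1
  obtain ⟨C₀, A, hC₀, hA, h0⟩ := hP B V η hV hη0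
  obtain ⟨C₁, hC₁, h1⟩ := exp_le_weight (A := 3) (by norm_num)
  obtain ⟨C₂, hC₂, h2⟩ := tau_pow_le 2 hη0
  obtain ⟨C₃, hC₃, h3⟩ := sum_inv_le_rpow hη0
  refine ⟨C₀ * C₁ * C₂ * C₃ ^ 2 * (B ^ η) ^ 4, A, by positivity, hA, fun N H t α hN hH => ?_⟩
  have hN0 : 0 < N := by linarith
  have hNH : N ≤ H := le_trans
    (by simpa using Real.rpow_le_rpow_of_exponent_le hN (show (1 : ℝ) ≤ 599 / 500 by norm_num)) hH
  have hH1 : 1 ≤ H := hN.trans hNH
  have hH0 : 0 < H := by linarith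
  have hBN : B * N ≤ B * H := by gcongr
  obtain ⟨G, hG0, hG1, hG2⟩ := h0 H (N ^ (1 - 1 / 10000 : ℝ)) t hH1 (by positivity)
    (le_trans (Real.rpow_le_rpow (by positivity) (by
      simpa using Real.rpow_le_rpow_of_exponent_le hN (show (1 - 1 / 10000 : ℝ) ≤ 1 by norm_num))
      (by norm_num)) hH)
  obtain ⟨W, hW⟩ : ∃ W : ℝ, W = C₁ * (C₂ * ((B * H) ^ η) ^ 2) * N *
      (C₀ * (1 + |t|) ^ A * H ^ (1 + η) * (N ^ (1 - 1 / 10000 : ℝ)) ^ θ) := ⟨_, rfl⟩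
  have hW0 : 0 ≤ W := by rw [hW]; positivity
  have hinv : ∀ s ⊆ sball (B * N), ∑ n ∈ s, (nm n : ℝ)⁻¹ ≤ C₃ * (B * H) ^ η := fun s hs =>
    h3 _ s (by nlinarith) fun n hn => (mem_sball.1 (hs hn)).2.trans hBN
  have key : ∀ Δ ∈ (sball (B * N)).filter (fun Δ => N ^ (1 / 10000 : ℝ) < nm Δ),
      ‖Bil F H (B * N) (asc Q α V N t) Δ‖ ≤ W * (C₃ * (B * H) ^ η) * (nm Δ : ℝ)⁻¹ := by
    intro Δ hΔ
    obtain ⟨hΔ1, hΔ2⟩ := Finset.mem_filter.1 hΔ
    obtain ⟨hΔS, hΔN⟩ := mem_sball.1 hΔ1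
    have nΔ : (1 : ℝ) ≤ nm Δ := one_le_nm hΔS.1.1.ne_zero
    refine (bil_mobius F hH0 _ _ Δ).trans ?_
    refine le_trans (Finset.sum_le_sum (g := fun f => W * (nm Δ : ℝ)⁻¹ * (nm f : ℝ)⁻¹)
      fun f hf => ?_) ?_
    · obtain ⟨hfS, hfN⟩ := mem_sball.1 hf
      have nf : (1 : ℝ) ≤ nm f := one_le_nm hfS.1.1.ne_zero
      obtain ⟨φ', hφ', hin⟩ := large_inner Q hV hN0 α hΔS hfS
      have hτ : tau (Δ * f) ^ 2 ≤ C₂ * ((B * H) ^ η) ^ 2 := by
        refine (h2 _ (mul_ne_zero hΔS.1.1.ne_zero hfS.1.1.ne_zero)).trans ?_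
        rw [pow_two, ← Real.mul_rpow (by positivity) (by positivity), nm_mul, Nat.cast_mul]
        gcongr
        exacts [hΔN.trans hBN, hfN.trans hBN]
      have hM : N / (nm Δ * nm f) ≤ N ^ (1 - 1 / 10000 : ℝ) := by
        rw [Real.rpow_sub hN0, Real.rpow_one]
        exact div_le_div_of_nonneg_left hN0.le (by positivity) (by nlinarith)
      refine (summable_sq F hH0 (B * N) fun m =>
        ind (f ∣ m) * asc Q α V N t (Δ * m)).tsum_le_of_sum_le fun s => ?_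
      calc _ ≤ ∑ h ∈ s, C₁ * (C₂ * ((B * H) ^ η) ^ 2) * (N / (nm Δ * nm f)) *
            ((1 + (nm h : ℝ) / H) ^ (-3 : ℝ) * G h) := by
            refine Finset.sum_le_sum fun h _ => ?_
            simp only [hX]
            have a1 := (pow_le_pow_left₀ (norm_nonneg _) (hin h t) 2).trans
              (hG1 φ' (Δ * f) _ h hφ' (hΔS.1.1.mul hfS.1.1) (by positivity) hM)
            have a2 := hG0 h
            refine (mul_le_mul (h1 _ (by positivity)) (a1.trans (show _ ≤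
              C₂ * ((B * H) ^ η) ^ 2 * (N / (nm Δ * nm f)) * G h by gcongr)) (sq_nonneg _)
              (by positivity)).trans_eq ?_
            ring
        _ ≤ _ := by
            rw [← Finset.mul_sum]
            refine (mul_le_mul_of_nonneg_left (hG2 s) (by positivity)).trans_eq ?_
            rw [hW]
            field_simp
    · rw [← Finset.mul_sum]
      refine (mul_le_mul_of_nonneg_left (hinv _ subset_rfl) (by positivity)).trans_eq ?_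
      ring
  refine (Finset.sum_le_sum key).trans ?_
  rw [← Finset.mul_sum]
  refine (mul_le_mul_of_nonneg_left (hinv _ (Finset.filter_subset _ _))
    (by positivity)).trans_eq ?_
  have e1 : H ^ ε = (H ^ η) ^ 5 := by
    rw [← Real.rpow_mul_natCast hH0.le, hη]; norm_num
  rw [hW, ← Real.rpow_mul hN0.le, Real.mul_rpow (by linarith) hH0.le, Real.rpow_add hH0,
    Real.rpow_add hH0, Real.rpow_add hN0, Real.rpow_one, Real.rpow_one, e1]
  ring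

open Classical in
theorem bil_small (hvb : VBStmt) {F : Fam} (hX : ∀ n a, F.X n a = sex a n)
    (hg : ∀ n, F.g n = gt6 n) {Q : O} (hQ : Q ≠ 0) (h72 : (72 : O) ∣ Q) {θ : ℝ} (hθ : 0 ≤ θ)
    (hθ1 : θ ≤ 1) (hP : PM Q θ) {B : ℝ} {V : ℝ → ℝ} (hV : Adm B V) {ε : ℝ} (hε : 0 < ε) :
    ∃ C A : ℝ, 0 < C ∧ 0 ≤ A ∧ ∀ (N H t : ℝ) (α : O), 1 ≤ N → N ^ (599 / 500 : ℝ) ≤ H →
      ∑ Δ ∈ sball (B * N) with (nm Δ : ℝ) ≤ N ^ (1 / 10000 : ℝ),
          ‖Bil F H (B * N) (asc Q α V N t) Δ‖ ≤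
        C * (1 + |t|) ^ A * H ^ (1 + ε) * N ^ (1 + (1 - 1 / 10000) * θ) := by
  obtain ⟨η, hη⟩ : ∃ η : ℝ, η = ε / 3 := ⟨_, rfl⟩
  have hη0 : 0 < η := by rw [hη]; positivity
  have hB : 1 ≤ B := hV.1
  obtain ⟨C₀, A, hC₀, hA, h0⟩ := step_hyp hvb hQ h72 hθ hθ1 hP hV hη0
  obtain ⟨C₁, hC₁, h1⟩ := tau_pow_le 1 hη0
  obtain ⟨C₂, hC₂, h2⟩ := sum_inv_le_rpow hη0
  obtain ⟨C₃, hC₃, h3⟩ := card_le_of_nm
  obtain ⟨C₄, hC₄, h4⟩ := hV.bound
  obtain ⟨C₅, hC₅, h5⟩ := psx F hB hA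
  refine ⟨C₅ * ((C₀ * C₁ * C₂ + C₃ * B * C₁ * C₄ ^ 2) * (B ^ η) ^ 2), A, by positivity, hA,
    fun N H t α hN hH => ?_⟩
  have hN0 : 0 < N := by linarith
  have hNH : N ≤ H := le_trans
    (by simpa using Real.rpow_le_rpow_of_exponent_le hN (show (1 : ℝ) ≤ 599 / 500 by norm_num)) hH
  have hH1 : 1 ≤ H := hN.trans hNH
  have hH0 : 0 < H := by linarith
  have hBN : B * N ≤ B * H := by gcongr
  have hτ : ∀ Δ ∈ sball (B * N), tau Δ ≤ C₁ * (B * H) ^ η := fun Δ hΔ => by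
    have := h1 Δ (mem_sball.1 hΔ).1.1.1.ne_zero
    rw [pow_one] at this
    refine this.trans ?_
    gcongr
    exact (mem_sball.1 hΔ).2.trans hBN
  have hinv : ∑ n ∈ sball (B * N), (nm n : ℝ)⁻¹ ≤ C₂ * (B * H) ^ η :=
    h2 _ _ (by nlinarith) fun n hn => (mem_sball.1 hn).2.trans hBN
  have h6 := h5 N H (C₀ * (1 + |t|) ^ A * H ^ (1 + η) * N ^ (1 + (1 - 1 / 10000) * θ) *
      (C₁ * (B * H) ^ η) * (C₂ * (B * H) ^ η)) (asc Q α V N t)
    (fun Δ => if (nm Δ : ℝ) ≤ N ^ (1 / 10000 : ℝ) then 1 else 0) hN0 hH0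
    (fun Δ => by split_ifs; exacts [zero_le_one, le_rfl]) (fun n => asc_supp hV hN0 Q α t)
    (fun t' al s hs => by
      simp only [hX, hg]
      obtain ⟨W, hW⟩ : ∃ W : ℝ, W = C₀ * ((1 + |t|) ^ A * (1 + |t'|) ^ A) * H ^ (1 + η) *
        N ^ (1 + (1 - 1 / 10000) * θ) := ⟨_, rfl⟩
      have hW0 : 0 ≤ W := by rw [hW]; positivity
      refine le_trans (Finset.sum_le_sum
        (g := fun Δ => W * (C₁ * (B * H) ^ η) * (nm Δ : ℝ)⁻¹) fun Δ hΔ => ?_) ?_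
      · have hΔS := (mem_sball.1 hΔ).1
        have nΔ : (1 : ℝ) ≤ nm Δ := one_le_nm hΔS.1.1.ne_zero
        obtain ⟨φ', hφ', hin⟩ := main_inner h72 hV hN0 α hΔS al
        refine (Finset.sum_le_card_nsmul _ _ (W * (nm Δ : ℝ)⁻¹) fun e he => ?_).trans ?_
        · split_ifs with hc
          · rw [one_mul]
            refine le_trans ?_ ((h0 N H (t + t') φ' Δ e s hφ' hΔS he hs hN hH hc).trans ?_)
            · gcongr with f hf k hk
              exact hin e f k t t'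
            · rw [hW, div_eq_mul_inv]
              gcongr
              exact one_add_abs_add_le hA t t'
          · rw [zero_mul, zero_mul]
            positivity
        · rw [nsmul_eq_mul]
          exact (mul_le_mul_of_nonneg_right (hτ Δ hΔ) (by positivity)).trans_eq (by ring)
      · rw [← Finset.mul_sum]
        refine (mul_le_mul_of_nonneg_left hinv (by positivity)).trans_eq ?_
        rw [hW]
        ring)
  have h7 : ∑ Δ ∈ sball (B * N), (if (nm Δ : ℝ) ≤ N ^ (1 / 10000 : ℝ) then 1 else 0) * tau Δ *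
      ‖asc Q α V N t Δ‖ ^ 2 ≤ C₃ * (B * N) * (C₁ * (B * H) ^ η * C₄ ^ 2) := by
    refine (Finset.sum_le_card_nsmul _ _ (C₁ * (B * H) ^ η * C₄ ^ 2) fun Δ hΔ => ?_).trans ?_
    · refine mul_le_mul ?_ (pow_le_pow_left₀ (norm_nonneg _)
        ((norm_asc_le Q α V N t Δ).trans (h4 _)) 2) (sq_nonneg _) (by positivity)
      split_ifs
      · rw [one_mul]; exact hτ Δ hΔ
      · rw [zero_mul]; positivity
    · rw [nsmul_eq_mul]
      exact mul_le_mul_of_nonneg_right (h3 (B * N) _ (by positivity) fun n hn =>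
        ⟨(mem_sball.1 hn).1.1.1.ne_zero, (mem_sball.1 hn).2⟩) (by positivity)
  simp only [ite_mul, one_mul, zero_mul] at h6 h7
  rw [Finset.sum_filter]
  refine (h6.trans (mul_le_mul_of_nonneg_left
    (add_le_add le_rfl (mul_le_mul_of_nonneg_left h7 hH0.le)) hC₅.le)).trans ?_
  have e1 : H ^ ε = (H ^ η) ^ 3 := by
    rw [← Real.rpow_mul_natCast hH0.le, hη]; norm_num
  have b1 : 1 ≤ (1 + |t|) ^ A := Real.one_le_rpow (by linarith [abs_nonneg t]) hA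
  have b2 : 1 ≤ H ^ η := Real.one_le_rpow hH1 hη0.le
  have b3 : 1 ≤ B ^ η := Real.one_le_rpow hB hη0.le
  have b4 : 1 ≤ N ^ ((1 - 1 / 10000) * θ) := Real.one_le_rpow hN (by positivity)
  rw [Real.mul_rpow (by linarith) hH0.le, Real.rpow_add hH0,
    Real.rpow_add hH0, Real.rpow_add hN0, Real.rpow_one, Real.rpow_one, e1]
  generalize (1 + |t|) ^ A = T at *
  generalize H ^ η = X at *
  generalize B ^ η = Y at *
  generalize N ^ ((1 - 1 / 10000) * θ) = Z at *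
  have b5 : 1 * 1 ^ 2 * 1 * 1 ≤ T * X ^ 2 * Y * Z := by gcongr
  have b6 := mul_le_mul_of_nonneg_left b5
    (show 0 ≤ C₅ * (H * (C₃ * (B * N) * (C₁ * (Y * X) * C₄ ^ 2))) by positivity)
  linarith

theorem p_triv {B : ℝ} {V : ℝ → ℝ} (hV : Adm B V) : ∃ C : ℝ, 0 < C ∧
    ∀ (Q α : O) (N H t θ : ℝ), 0 < N → 1 ≤ H → (θ = 1 ∨ (N ≤ 1 ∧ 0 ≤ θ ∧ θ ≤ 1)) →
      ∑ h ∈ ball H, ‖Asum Q α B V N t h‖ ^ 2 ≤ C * H * N ^ (1 + θ) := by
  obtain ⟨C₁, hC₁, h1⟩ := card_le_of_nm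
  obtain ⟨C₂, hC₂, h2⟩ := card_ball_le
  obtain ⟨C₃, hC₃, h3⟩ := hV.bound
  have hB : 0 < B := lt_of_lt_of_le one_pos hV.1
  refine ⟨2 * C₂ * (C₁ * B * C₃) ^ 2, by positivity, fun Q α N H t θ hN hH hθ => ?_⟩
  have a1 : ∀ h, ‖Asum Q α B V N t h‖ ≤ C₁ * B * C₃ * N := fun h => by
    refine (norm_sum_le _ _).trans ((Finset.sum_le_card_nsmul _ _ C₃ fun n hn => ?_).trans ?_)
    · rw [norm_mul, norm_nt, mul_one, norm_mul, Complex.norm_real, Real.norm_eq_abs]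
      exact (mul_le_of_le_one_left (abs_nonneg _) (norm_mul_le_one
        (norm_mul_le_one (norm_ind_le _) (norm_mu_le _)) (norm_sex_le _ _))).trans (h3 _)
    · rw [nsmul_eq_mul]
      exact (mul_le_mul_of_nonneg_right (h1 (B * N) _ (by positivity) fun n hn =>
        ⟨(mem_sball.1 hn).1.1.1.ne_zero, (mem_sball.1 hn).2⟩) hC₃.le).trans_eq (by ring)
  have a2 : N ^ 2 ≤ N ^ (1 + θ) := by
    rw [← Real.rpow_natCast]
    rcases hθ with rfl | ⟨b1, -, b2⟩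
    · norm_num
    · exact Real.rpow_le_rpow_of_exponent_ge hN b1 (by push_cast; linarith)
  refine (Finset.sum_le_card_nsmul _ _ ((C₁ * B * C₃ * N) ^ 2) fun h _ =>
    pow_le_pow_left₀ (norm_nonneg _) (a1 h) 2).trans ?_
  rw [nsmul_eq_mul, mul_pow]
  calc _ ≤ C₂ * (2 * H) * ((C₁ * B * C₃) ^ 2 * N ^ (1 + θ)) := by
        gcongr
        exact (h2 H (by linarith)).trans (by gcongr; linarith)
    _ = _ := by ring

theorem p_one (Q : O) : PStmt Q 1 :=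
  fun B V ε hV hε => by
  obtain ⟨C, hC, h⟩ := p_triv hV
  refine ⟨C, 0, hC, le_rfl, fun N H t α hN hH _ => (h Q α N H t 1 hN hH (.inl rfl)).trans ?_⟩
  rw [Real.rpow_zero, mul_one]
  gcongr
  simpa using Real.rpow_le_rpow_of_exponent_le hH (show 1 ≤ 1 + ε by linarith)

theorem PStmt.mono {Q : O} {θ θ' : ℝ} (h : PStmt Q θ) (h0 : θ ≤ θ') : PStmt Q θ' :=
  fun B V ε hV hε => by
  obtain ⟨C, A, hC, hA, h1⟩ := h B V ε hV hε
  have hB : 0 < B := lt_of_lt_of_le one_pos hV.1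
  refine ⟨C * B⁻¹ ^ (θ - θ'), A, by positivity, hA, fun N H t α hN hH hNH => ?_⟩
  rcases lt_or_ge (B * N) 1 with h2 | h2
  · simp only [Asum, sball_eq_empty h2, Finset.sum_empty, norm_zero]
    rw [Finset.sum_eq_zero fun _ _ => by norm_num]
    positivity
  have a1 : N ^ (θ - θ') ≤ B⁻¹ ^ (θ - θ') :=
    Real.rpow_le_rpow_of_nonpos (by positivity)
      (by rw [inv_eq_one_div, div_le_iff₀ hB]; linarith) (by linarith)
  refine (h1 N H t α hN hH hNH).trans ?_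
  rw [show 1 + θ = θ - θ' + (1 + θ') by ring, Real.rpow_add hN]
  calc _ ≤ C * (1 + |t|) ^ A * H ^ (1 + ε) * (B⁻¹ ^ (θ - θ') * N ^ (1 + θ')) := by gcongr
    _ = _ := by ring

theorem step (hvb : VBStmt) {Q : O} (hQ : Q ≠ 0) (h72 : (72 : O) ∣ Q) {θ : ℝ} (hθ : 0 ≤ θ)
    (hθ1 : θ ≤ 1) (hP : PM Q θ) : PStmt Q ((1 - 1 / 10000) * θ) :=
  fun B V ε hV hε => by
  classical
  obtain ⟨F, hX, hg⟩ := exists_famS
  obtain ⟨C₁, A₁, hC₁, hA₁, h1⟩ := bil_large hX hP hV hε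
  obtain ⟨C₂, A₂, hC₂, hA₂, h2⟩ := bil_small hvb hX hg hQ h72 hθ hθ1 hP hV hε
  obtain ⟨C₃, hC₃, h3⟩ := p_triv hV
  refine ⟨C₃ + Real.exp 1 * (C₂ + C₁), max A₁ A₂, by positivity, le_max_of_le_left hA₁,
    fun N H t α hN hH hNH => ?_⟩
  have ht : 1 ≤ 1 + |t| := by linarith [abs_nonneg t]
  have hH0 : 0 < H := by linarith
  rcases le_total N 1 with hN1 | hN1
  · refine (h3 Q α N H t ((1 - 1 / 10000) * θ) hN hH
      (.inr ⟨hN1, by positivity, by linarith⟩)).trans ?_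
    have b1 : 1 ≤ (1 + |t|) ^ max A₁ A₂ := Real.one_le_rpow ht (le_max_of_le_left hA₁)
    have b2 : H ≤ H ^ (1 + ε) := by
      simpa using Real.rpow_le_rpow_of_exponent_le hH (show 1 ≤ 1 + ε by linarith)
    have b3 : C₃ ≤ (C₃ + Real.exp 1 * (C₂ + C₁)) * (1 + |t|) ^ max A₁ A₂ :=
      (le_add_of_nonneg_right (by positivity)).trans (le_mul_of_one_le_right (by positivity) b1)
    exact mul_le_mul_of_nonneg_right (mul_le_mul b3 b2 hH0.le (hC₃.le.trans b3))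
      (Real.rpow_nonneg hN.le _)
  have hs := summable_sq F hH0 (B * N) fun n => ind ((1 : O) ∣ n) * asc Q α V N t n
  have he := sq_expand F hH0 (B * N) (b := asc Q α V N t)
    (fun n hn => mem_sball.2 ⟨(asc_supp hV hN Q α t hn).1, (asc_supp hV hN Q α t hn).2.2⟩) prim_one
  simp only [hX, ← Asum_eq] at hs he
  have a1 : ∑ h ∈ ball H, ‖Asum Q α B V N t h‖ ^ 2 ≤
      Real.exp 1 * ∑' h : O, Real.exp (-(nm h / H)) * ‖Asum Q α B V N t h‖ ^ 2 := by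
    refine le_trans ?_ (mul_le_mul_of_nonneg_left
      (hs.sum_le_tsum (ball H) fun k _ => by positivity) (Real.exp_pos 1).le)
    rw [Finset.mul_sum]
    refine Finset.sum_le_sum fun k hk => ?_
    rw [← mul_assoc, ← Real.exp_add]
    refine le_mul_of_one_le_left (sq_nonneg _) (Real.one_le_exp ?_)
    have := (div_le_one hH0).2 (mem_ball.1 hk)
    linarith
  have a2 : ∑' h : O, Real.exp (-(nm h / H)) * ‖Asum Q α B V N t h‖ ^ 2 ≤
      ∑ Δ ∈ sball (B * N), ‖Bil F H (B * N) (asc Q α V N t) Δ‖ := by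
    refine (le_abs_self _).trans ?_
    rw [← Real.norm_eq_abs, ← Complex.norm_real, he]
    refine (norm_sum_le _ _).trans_eq (Finset.sum_congr rfl fun Δ _ => ?_)
    rw [ind_of (one_dvd _), one_mul]
  rw [← Finset.sum_filter_add_sum_filter_not _
    (fun Δ => (nm Δ : ℝ) ≤ N ^ (1 / 10000 : ℝ))] at a2
  simp only [not_le] at a2
  have a3 := a2.trans (add_le_add (h2 N H t α hN1 hNH) (h1 N H t α hN1 hNH))
  refine (a1.trans (mul_le_mul_of_nonneg_left a3 (Real.exp_pos 1).le)).trans ?_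
  have b1 := Real.rpow_le_rpow_of_exponent_le ht (le_max_left A₁ A₂)
  have b2 := Real.rpow_le_rpow_of_exponent_le ht (le_max_right A₁ A₂)
  calc _ ≤ Real.exp 1 *
        (C₂ * (1 + |t|) ^ max A₁ A₂ * H ^ (1 + ε) * N ^ (1 + (1 - 1 / 10000) * θ) +
          C₁ * (1 + |t|) ^ max A₁ A₂ * H ^ (1 + ε) * N ^ (1 + (1 - 1 / 10000) * θ)) := by gcongr
    _ = Real.exp 1 * (C₂ + C₁) * (1 + |t|) ^ max A₁ A₂ * H ^ (1 + ε) *
        N ^ (1 + (1 - 1 / 10000) * θ) := by ring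
    _ ≤ _ := by
        gcongr
        exact le_add_of_nonneg_left hC₃.le

theorem rec_main (hvb : VBStmt) {Q : O} (hQ : Q ≠ 0) (h72 : (72 : O) ∣ Q) {θ : ℝ} (hθ : 0 < θ) :
    PStmt Q θ := by
  have key : ∀ j : ℕ, PStmt Q ((1 - 1 / 10000) ^ j) := fun j => by
    induction j with
    | zero => simpa using p_one Q
    | succ j ih =>
      rw [pow_succ']
      exact step hvb hQ h72 (by positivity) (pow_le_one₀ (by norm_num) (by norm_num))
        (pm_of_p hQ (by positivity) ih)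
  obtain ⟨j, hj⟩ := exists_pow_lt_of_lt_one hθ (show (1 - 1 / 10000 : ℝ) < 1 by norm_num)
  exact (key j).mono hj.le

end Vale.Agent.P026
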