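import Vale.Agent.P026.ThRes

/-! TH-B: the residue of the resolvent of a self-adjoint operator.
Plan.  For `Im ζ ≠ 0`: `|Im ζ| ‖x‖ ≤ ‖L x - ζ x‖` (imaginary part of `⟪x, L x - ζ x⟫`), `ζ` is in the resolvent set
(`IsSelfAdjoint.mem_spectrum_eq_re`), `R ζ = (L - ζ)⁻¹ = - resolvent L ζ` is differentiable (`spectrum.hasDerivAt_resolvent`), `‖R ζ‖ ≤ 1/|Im ζ|`.
`U s = R (h s) (g s)`.  Let `λ = h (4/3)` (real), `K = ker (L - λ)`, `P` the orthogonal projection on `K`, `T = -(1/a) P`.
`δ ε = h (sE ε) - λ`, `δ ε / (sE ε - 4/3) → a`, so `δ ε / ε → a (1+i)` and `‖δ ε‖ ≤ 2 |Im δ ε|` eventually, `‖δ R(λ+δ)‖ ≤ 2`.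
`δ R(λ+δ) x → -P x`: for `x ∈ K` it equals `-x`; for `x = (L-λ) y` it is `δ (y + δ R y) → 0`; the range of `L - λ` is dense in `Kᗮ`
(a vector orthogonal to the range is in `K`; `Submodule.orthogonal_orthogonal_eq_closure`); equicontinuity. -/

namespace Vale.Agent.P026

open scoped ComplexConjugate Real Topology ENNReal NNReal InnerProductSpace
open MeasureTheory Filter Set

section
variable {H : Type*} [NormedAddCommGroup H] [InnerProductSpace ℂ H] [CompleteSpace H]
  {L : H →L[ℂ] H} {ζ : ℂ}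

theorem im_mul_norm_le (hL : IsSelfAdjoint L) (ζ : ℂ) (x : H) :
    |ζ.im| * ‖x‖ ≤ ‖ζ • x - L x‖ := by
  rcases eq_or_ne x 0 with rfl | hx
  · simp
  have h1 : (⟪x, L x⟫_ℂ).im = 0 := by
    have := hL.isSymmetric.im_inner_self_apply x
    simpa using this
  have h2 : (⟪x, ζ • x - L x⟫_ℂ).im = ζ.im * ‖x‖ ^ 2 := by
    rw [inner_sub_right, inner_smul_right, inner_self_eq_norm_sq_to_K, Complex.sub_im, h1]
    norm_cast
    simp [-Complex.ofReal_pow]
  have h3 := (Complex.abs_im_le_norm _).trans (norm_inner_le_norm (𝕜 := ℂ) x (ζ • x - L x))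
  rw [h2, abs_mul, abs_of_nonneg (sq_nonneg ‖x‖)] at h3
  have := norm_pos_iff.2 hx
  nlinarith

theorem mem_resSet (hL : IsSelfAdjoint L) (hζ : ζ.im ≠ 0) : ζ ∈ resolventSet ℂ L := by
  by_contra h
  exact hζ (hL.im_eq_zero_of_mem_spectrum h)

theorem resolvent_left (hL : IsSelfAdjoint L) (hζ : ζ.im ≠ 0) (x : H) :
    resolvent L ζ (ζ • x - L x) = x := by
  have := congrArg (fun A : H →L[ℂ] H => A x) (Ring.inverse_mul_cancel _ (mem_resSet hL hζ))
  simpa [resolvent, Algebra.algebraMap_eq_smul_one] using this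

theorem resolvent_right (hL : IsSelfAdjoint L) (hζ : ζ.im ≠ 0) (x : H) :
    ζ • resolvent L ζ x - L (resolvent L ζ x) = x := by
  have := congrArg (fun A : H →L[ℂ] H => A x) (Ring.mul_inverse_cancel _ (mem_resSet hL hζ))
  simpa [resolvent, Algebra.algebraMap_eq_smul_one] using this

theorem norm_resolvent_le (hL : IsSelfAdjoint L) (a : ℝ) {δ : ℂ} (h : ‖δ‖ < 2 * |δ.im|) (x : H) :
    ‖δ • resolvent L (a + δ) x‖ ≤ 2 * ‖x‖ := by
  have h0 : (a + δ).im ≠ 0 := by
    intro h1
    simp only [Complex.add_im, Complex.ofReal_im, zero_add] at h1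
    simp only [h1, abs_zero, mul_zero] at h
    exact absurd h (not_lt.2 (norm_nonneg _))
  have := im_mul_norm_le hL (a + δ) (resolvent L (a + δ) x)
  rw [resolvent_right hL h0] at this
  simp only [Complex.add_im, Complex.ofReal_im, zero_add] at this
  rw [norm_smul]
  nlinarith [norm_nonneg (resolvent L (a + δ) x)]

theorem tendsto_resolvent (hL : IsSelfAdjoint L) (a : ℝ) {ι : Type*} {l : Filter ι} {δ : ι → ℂ}
    (h0 : Tendsto δ l (𝓝 0)) (h : ∀ᶠ i in l, ‖δ i‖ < 2 * |(δ i).im|) {g : ι → H} {x : H}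
    (hg : Tendsto g l (𝓝 x)) :
    Tendsto (fun i => δ i • resolvent L (a + δ i) (g i)) l
      (𝓝 (((a : ℂ) • (1 : H →L[ℂ] H) - L).ker.starProjection x)) := by
  set A : H →L[ℂ] H := (a : ℂ) • (1 : H →L[ℂ] H) - L with hA
  have him : ∀ᶠ i in l, (a + δ i).im ≠ 0 := by
    filter_upwards [h] with i hi h1
    simp only [Complex.add_im, Complex.ofReal_im, zero_add] at h1
    simp only [h1, abs_zero, mul_zero] at hi
    exact absurd hi (not_lt.2 (norm_nonneg _))
  have hAs : IsSelfAdjoint A := by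
    refine IsSelfAdjoint.sub (IsSelfAdjoint.smul ?_ (.one _)) hL
    simp [IsSelfAdjoint]
  have hAx : ∀ y, A y = (a : ℂ) • y - L y := fun y => by simp [hA]
  have k1 : ∀ y ∈ A.ker, Tendsto (fun i => δ i • resolvent L (a + δ i) y) l (𝓝 y) := by
    intro y hy
    refine tendsto_const_nhds.congr' ?_
    filter_upwards [him] with i hi
    have hy' : (a : ℂ) • y - L y = 0 := by rw [← hAx]; exact hy
    have := resolvent_left hL hi y
    rwa [add_smul, add_sub_right_comm, hy', zero_add, map_smul, eq_comm] at this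
  have k2 : ∀ y, Tendsto (fun i => δ i • resolvent L (a + δ i) (A y)) l (𝓝 0) := by
    intro y
    have := h0.norm.mul_const (3 * ‖y‖)
    rw [norm_zero, zero_mul] at this
    refine squeeze_zero_norm' ?_ this
    filter_upwards [him, h] with i hi hi'
    have e := resolvent_left hL hi y
    rw [add_smul, add_sub_right_comm, ← hAx, map_add, map_smul, ← eq_sub_iff_add_eq] at e
    rw [e, norm_smul]
    have := norm_resolvent_le hL a hi' y
    gcongr
    exact (norm_sub_le _ _).trans (by linarith)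
  have k3 : ∀ y ∈ A.kerᗮ, Tendsto (fun i => δ i • resolvent L (a + δ i) y) l (𝓝 0) := by
    intro y hy
    rw [ContinuousLinearMap.orthogonal_ker, hAs.adjoint_eq] at hy
    rw [Metric.tendsto_nhds]
    intro ε hε
    obtain ⟨_, ⟨z, rfl⟩, hz⟩ := Metric.mem_closure_iff.1 hy (ε / 4) (by positivity)
    filter_upwards [Metric.tendsto_nhds.1 (k2 z) (ε / 2) (by positivity), h] with i hi hi'
    have := norm_resolvent_le hL a hi' (y - A z)
    rw [map_sub, smul_sub] at this
    rw [dist_zero_right] at hi ⊢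
    rw [dist_eq_norm] at hz
    have h5 := norm_le_norm_add_norm_sub' (δ i • resolvent L (a + δ i) y)
      (δ i • resolvent L (a + δ i) (A z))
    have hz' : ‖y - A z‖ < ε / 4 := hz
    linarith
  have k4 : Tendsto (fun i => δ i • resolvent L (a + δ i) (g i - x)) l (𝓝 0) := by
    have := (tendsto_iff_norm_sub_tendsto_zero.1 hg).const_mul 2
    rw [mul_zero] at this
    refine squeeze_zero_norm' ?_ this
    filter_upwards [h] with i hi using norm_resolvent_le hL a hi _
  have := ((k1 _ (A.ker.starProjection_apply_mem x)).add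
    (k3 _ (A.ker.sub_starProjection_mem_orthogonal x))).add k4
  rw [add_zero, add_zero] at this
  refine this.congr fun i => ?_
  rw [← smul_add, ← smul_add, ← map_add, ← map_add]
  congr 2
  abel

end

theorem res_limit {H : Type*} [NormedAddCommGroup H] [InnerProductSpace ℂ H] [CompleteSpace H]
    (L : H →L[ℂ] H) (hL : IsSelfAdjoint L) (h : ℂ → ℂ) (hd : Differentiable ℂ h)
    (him : ∀ s ∈ Dom, (h s).im ≠ 0) (h0 : (h (4 / 3)).im = 0) (a : ℝ) (ha : a ≠ 0)
    (hder : HasDerivAt h a (4 / 3)) :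
    ∃ T : H →L[ℂ] H, (∀ x, ⟪x, T x⟫_ℂ = 0 → T x = 0) ∧
      ∀ g : ℂ → H, Differentiable ℂ g → ∃ U : ℂ → H, DifferentiableOn ℂ U Dom ∧
        (∀ s ∈ Dom, ∀ u, L u - h s • u = g s → u = U s) ∧
        Tendsto (fun ε : ℝ => (sE ε - 4 / 3) • U (sE ε)) (𝓝[>] 0) (𝓝 (T (g (4 / 3)))) := by
  set b : ℝ := (h (4 / 3)).re
  have hb : h (4 / 3) = b := Complex.ext rfl (by simpa using h0)
  set K := ((b : ℂ) • (1 : H →L[ℂ] H) - L).ker
  have ha' : (a : ℂ) ≠ 0 := by exact_mod_cast ha
  refine ⟨(-(a : ℂ)⁻¹) • K.starProjection, fun x hx => ?_, fun g hg =>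
    ⟨fun s => -resolvent L (h s) (g s), fun s hs => ?_, fun s hs u hu => ?_, ?_⟩⟩
  · simp only [smul_apply, inner_smul_right, mul_eq_zero, neg_eq_zero,
      inv_eq_zero, ha', false_or] at hx
    have h1 := K.starProjection_inner_eq_zero x _ (K.starProjection_apply_mem x)
    rw [inner_sub_left, hx, zero_sub, neg_eq_zero, inner_self_eq_zero] at h1
    simp [h1]
  · have h1 := (spectrum.hasDerivAt_resolvent_const_left
      (mem_resSet hL (him s hs))).differentiableAt.comp s (hd s)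
    exact (h1.clm_apply (hg s)).neg.differentiableWithinAt
  · simp only []
    rw [← hu, ← map_neg, neg_sub, resolvent_left hL (him s hs)]
  · have hs : ∀ ε : ℝ, sE ε - 4 / 3 = ε * (1 + Complex.I) := fun ε => by simp [sE]
    have hI : (1 + Complex.I) ≠ 0 := fun h => by simpa using congrArg Complex.re h
    have hne : ∀ᶠ ε : ℝ in 𝓝[>] 0, sE ε - 4 / 3 ≠ 0 := by
      filter_upwards [self_mem_nhdsWithin] with ε (hε : 0 < ε)
      rw [hs]
      exact mul_ne_zero (by exact_mod_cast hε.ne') hI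
    have t0 : Tendsto sE (𝓝[>] 0) (𝓝[≠] (4 / 3)) :=
      tendsto_nhdsWithin_iff.2 ⟨tendsto_sE, hne.mono fun ε hε => sub_ne_zero.1 hε⟩
    have t1 := hder.tendsto_slope.comp t0
    set q : ℝ → ℂ := slope h (4 / 3) ∘ sE with hq
    have hδ : ∀ᶠ ε : ℝ in 𝓝[>] 0, h (sE ε) - b = (sE ε - 4 / 3) * q ε := by
      filter_upwards [hne] with ε hε
      simp only [hq, Function.comp, slope_def_field, hb]
      rw [mul_div_cancel₀ _ hε]
    have t2 : Tendsto (fun ε => h (sE ε) - b) (𝓝[>] 0) (𝓝 0) := by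
      have := ((hd.continuous.tendsto _).comp tendsto_sE).sub_const (b : ℂ)
      rwa [hb, sub_self] at this
    have t3 : ∀ᶠ ε : ℝ in 𝓝[>] 0, ‖h (sE ε) - b‖ < 2 * |(h (sE ε) - b).im| := by
      have u1 := t1.const_mul (1 + Complex.I)
      have u2 := ((Complex.continuous_im.tendsto _).comp u1).abs.const_mul 2
      have u3 : ‖(1 + Complex.I) * a‖ < 2 * |((1 + Complex.I) * a).im| := by
        have : ‖1 + Complex.I‖ < 2 := by
          rw [← abs_norm, ← abs_two, ← sq_lt_sq, Complex.sq_norm, Complex.normSq_apply]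
          norm_num
        simp only [norm_mul, Complex.norm_real, Real.norm_eq_abs, Complex.mul_im, Complex.add_re,
          Complex.one_re, Complex.I_re, Complex.ofReal_im, Complex.add_im, Complex.one_im,
          Complex.I_im, Complex.ofReal_re, mul_zero, zero_add, one_mul]
        exact mul_lt_mul_of_pos_right this (abs_pos.2 ha)
      filter_upwards [u1.norm.eventually_lt u2 u3, hδ, self_mem_nhdsWithin] with ε h1 h2 (hε : 0 < ε)
      rw [h2, hs, mul_assoc, norm_mul, Complex.im_ofReal_mul, abs_mul, Complex.norm_real,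
        Real.norm_eq_abs, mul_left_comm]
      exact mul_lt_mul_of_pos_left h1 (abs_pos.2 hε.ne')
    have t4 := tendsto_resolvent hL b t2 t3 ((hg.continuous.tendsto _).comp tendsto_sE)
    refine ((t1.inv₀ ha').neg.smul t4).congr' ?_
    filter_upwards [hδ, t1.eventually_ne ha'] with ε h1 h2
    rw [add_sub_cancel, h1, smul_smul, smul_neg, ← neg_smul]
    congr 1
    field_simp

end Vale.Agent.P026
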