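import Vale.Agent.P026.ThGeo

/-! TH-B: reduction theory and counting of rows.
Plan.  `exists_act_siegel`: induction on `n` with `(13/16)^n / 4 ≤ v`: if `v < 1/4` translate (`exists_near`, `‖z‖² ≤ 3/4`) and invert,
`v` gets multiplied by at least `16/13`; finally translate.
`card_rows`: by `vr_act`, `rmulEquiv`, `coprime_rmul` assume `1/4 ≤ v`.  `1/X ≤ vr` means `|c|² v ≤ X` and `|cz+d|² ≤ X v`.  `c = 0`: `d` is a unit (≤ `card (ball 1)`).
`c ≠ 0`: `1 ≤ X/v`, at most `C (1 + X/v) ≤ 2C X/v` values of `c` (`card_near_le`), for each at most `C (1 + X v)` values of `d`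
(`Finset.card_le_mul_card_image`); `X/v ≤ 4X ≤ 2(1+X²)`.
`card_act`: fibres of `row`: `g = mN x * g₀` (`row_eq_row_iff`), `act_mN`, `card_near_le`.
`sum_rows`: split by `k` with `2^-(k+1) < vr ≤ 2^-k` (or bound `min 1 (y^σ) ≤ ∑' k, 2^(-kσ) 1[2^-(k+1) ≤ y]`), `∑ 2^(-kσ) (1 + 4^(k+1)) < ∞`. -/

namespace Vale.Agent.P026

open scoped ComplexConjugate Real Topology ENNReal NNReal InnerProductSpace
open MeasureTheory Filter Set

theorem exists_act_high (n : ℕ) : ∀ w : ℂ × ℝ, 0 < w.2 → (13 / 16 : ℝ) ^ n / 4 ≤ w.2 →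
    ∃ g : SL2, 1 / 4 ≤ (act g w).2 := by
  induction n with
  | zero => exact fun w _ h => ⟨1, by simpa [act_one] using h⟩
  | succ n ih =>
    intro w hw h
    by_cases h4 : 1 / 4 ≤ w.2
    · exact ⟨1, by rwa [act_one]⟩
    obtain ⟨x, hx⟩ := exists_near (-w.1)
    have h1 := act_pos (mN x) hw
    obtain ⟨g, hg⟩ := ih _ (act_pos mS h1) (by
      rw [act_mS, act_mN]
      simp only []
      rw [sub_neg_eq_add, add_comm] at hx
      have : (0 : ℝ) < (13 / 16) ^ n := by positivity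
      rw [le_div_iff₀ (by positivity), pow_succ] at *
      have h5 : ‖w.1 + toC x‖ ^ 2 + w.2 ^ 2 ≤ 13 / 16 := by nlinarith
      nlinarith)
    exact ⟨g * (mS * mN x), by rwa [act_mul _ _ hw, act_mul _ _ hw]⟩

theorem exists_act_siegel {w : ℂ × ℝ} (hw : 0 < w.2) :
    ∃ g : SL2, ‖(act g w).1‖ ≤ 1 ∧ 1 / 4 ≤ (act g w).2 := by
  obtain ⟨n, hn⟩ := exists_pow_lt_of_lt_one hw (show (13 / 16 : ℝ) < 1 by norm_num)
  obtain ⟨g, hg⟩ := exists_act_high n w hw (by linarith [show (0 : ℝ) < (13 / 16) ^ n by positivity])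
  obtain ⟨x, hx⟩ := exists_near (-(act g w).1)
  refine ⟨mN x * g, ?_⟩
  rw [act_mul _ _ hw, act_mN]
  rw [sub_neg_eq_add, add_comm] at hx
  exact ⟨by nlinarith [norm_nonneg ((act g w).1 + toC x)], hg⟩

theorem card_le_fib {α β : Type*} [DecidableEq β] (s : Finset α) (f : α → β) {B : ℝ}
    (h : ∀ b ∈ s.image f, ((s.filter fun a => f a = b).card : ℝ) ≤ B) :
    (s.card : ℝ) ≤ (s.image f).card * B := by
  rw [Finset.card_eq_sum_card_image f s, Nat.cast_sum, ← nsmul_eq_mul]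
  exact Finset.sum_le_card_nsmul _ _ _ h

theorem card_rows_high : ∃ C : ℝ, 0 < C ∧ ∀ w : ℂ × ℝ, 1 / 4 ≤ w.2 → ∀ X : ℝ, 0 < X →
    ∀ s : Finset (O × O), (∀ r ∈ s, IsCoprime r.1 r.2 ∧ 1 / X ≤ vr r w) →
      (s.card : ℝ) ≤ C * (1 + X ^ 2) := by
  classical
  obtain ⟨C, hC, hc⟩ := card_near_le
  refine ⟨2 * C + 6 * C ^ 2, by positivity, fun w h4 X hX s hs => ?_⟩
  have hw : 0 < w.2 := by linarith
  have hd : ∀ r ∈ s, ‖toC r.1 * w.1 + toC r.2‖ ^ 2 + ‖toC r.1‖ ^ 2 * w.2 ^ 2 ≤ X * w.2 := by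
    intro r hr
    have := (hs r hr).2
    rw [vr, div_le_div_iff₀ hX (den_pos (ne_zero_of_coprime (hs r hr).1) hw), den] at this
    linarith
  have h0 : ((s.filter fun r => r.1 = 0).card : ℝ) ≤ C * (1 + 1) := by
    rw [← Finset.card_image_of_injOn (f := Prod.snd)]
    · refine hc 0 1 _ zero_le_one fun x hx => ?_
      obtain ⟨r, hr, rfl⟩ := Finset.mem_image.1 hx
      obtain ⟨hr, h1⟩ := Finset.mem_filter.1 hr
      have := (hs r hr).1
      rw [h1, isCoprime_zero_left, isUnit_iff_nm] at this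
      rw [sub_zero, norm_toC_sq, this]
      simp
    · intro r hr r' hr' h
      exact Prod.ext ((Finset.mem_filter.1 hr).2.trans (Finset.mem_filter.1 hr').2.symm) h
  have h1 : ((s.filter fun r => ¬r.1 = 0).card : ℝ) ≤ 6 * C ^ 2 * (1 + X ^ 2) := by
    set t := s.filter fun r => ¬r.1 = 0
    rcases t.eq_empty_or_nonempty with h | ⟨r0, hr0⟩
    · rw [h]; simp only [Finset.card_empty, Nat.cast_zero]; positivity
    have hb : ∀ r ∈ t, ‖toC r.1‖ ^ 2 ≤ X / w.2 := by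
      intro r hr
      have := hd r (Finset.mem_filter.1 hr).1
      rw [le_div_iff₀ hw]
      nlinarith [sq_nonneg ‖toC r.1 * w.1 + toC r.2‖]
    have h2 : 1 ≤ X / w.2 := by
      refine le_trans ?_ (hb r0 hr0)
      rw [norm_toC_sq]
      exact one_le_nm (Finset.mem_filter.1 hr0).2
    have h3 : ((t.image Prod.fst).card : ℝ) ≤ C * (1 + X / w.2) := by
      refine hc 0 _ _ (by positivity) fun x hx => ?_
      obtain ⟨r, hr, rfl⟩ := Finset.mem_image.1 hx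
      rw [sub_zero]
      exact hb r hr
    have h5 := card_le_fib t Prod.fst (B := C * (1 + X * w.2)) (by
      intro c _
      rw [← Finset.card_image_of_injOn (f := Prod.snd)]
      · refine hc (-(toC c * w.1)) _ _ (by positivity) fun x hx => ?_
        obtain ⟨r, hr, rfl⟩ := Finset.mem_image.1 hx
        obtain ⟨hr', rfl⟩ := Finset.mem_filter.1 hr
        have := hd r (Finset.mem_filter.1 hr').1
        rw [sub_neg_eq_add, add_comm]
        nlinarith [mul_nonneg (sq_nonneg ‖toC r.1‖) (sq_nonneg w.2)]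
      · intro r hr r' hr' h
        exact Prod.ext ((Finset.mem_filter.1 hr).2.trans (Finset.mem_filter.1 hr').2.symm) h)
    have h6 : X / w.2 ≤ 4 * X := by rw [div_le_iff₀ hw]; nlinarith
    have h7 : X / w.2 * (X * w.2) = X ^ 2 := by field_simp
    calc (t.card : ℝ) ≤ C * (2 * (X / w.2)) * (C * (1 + X * w.2)) := by
          refine h5.trans (mul_le_mul_of_nonneg_right (h3.trans ?_) (by positivity))
          gcongr
          linarith
      _ = 2 * C ^ 2 * (X / w.2 + X ^ 2) := by rw [← h7]; ring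
      _ ≤ 2 * C ^ 2 * (3 * (1 + X ^ 2)) := by
          gcongr
          nlinarith [sq_nonneg (X - 1)]
      _ = _ := by ring
  rw [← Finset.card_filter_add_card_filter_not (s := s) (fun r => r.1 = 0), Nat.cast_add]
  nlinarith [mul_nonneg hC.le (sq_nonneg X)]

theorem card_rows : ∃ C : ℝ, 0 < C ∧ ∀ w : ℂ × ℝ, 0 < w.2 → ∀ X : ℝ, 0 < X →
    ∀ s : Finset (O × O), (∀ r ∈ s, IsCoprime r.1 r.2 ∧ 1 / X ≤ vr r w) →
      (s.card : ℝ) ≤ C * (1 + X ^ 2) := by
  obtain ⟨C, hC, hc⟩ := card_rows_high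
  refine ⟨C, hC, fun w hw X hX s hs => ?_⟩
  obtain ⟨g, -, hg⟩ := exists_act_siegel hw
  rw [← Finset.card_map (rmulEquiv g⁻¹).toEmbedding]
  refine hc _ hg X hX _ fun r hr => ?_
  obtain ⟨r, hr', rfl⟩ := Finset.mem_map.1 hr
  change IsCoprime (rmul r g⁻¹).1 (rmul r g⁻¹).2 ∧ 1 / X ≤ vr (rmul r g⁻¹) (act g w)
  rw [coprime_rmul, vr_act _ _ hw, ← rmul_mul, inv_mul_cancel, rmul_one]
  exact hs r hr'

theorem card_act : ∃ C : ℝ, 0 < C ∧ ∀ w : ℂ × ℝ, 0 < w.2 → ∀ R X : ℝ, 0 ≤ R → 0 < X →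
    ∀ s : Finset SL2, (∀ g ∈ s, ‖(act g w).1‖ ≤ R ∧ 1 / X ≤ (act g w).2) →
      (s.card : ℝ) ≤ C * (1 + R ^ 2) * (1 + X ^ 2) := by
  classical
  obtain ⟨C, hC, hc⟩ := card_near_le
  obtain ⟨D, hD, hd⟩ := card_rows
  refine ⟨C * D, by positivity, fun w hw R X hR hX s hs => ?_⟩
  have h1 := hd w hw X hX (s.image row) fun r hr => by
    obtain ⟨g, hg, rfl⟩ := Finset.mem_image.1 hr
    exact ⟨coprime_row g, (hs g hg).2⟩
  have h2 := card_le_fib s row (B := C * (1 + R ^ 2)) (by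
    intro r hr
    obtain ⟨g₀, -, rfl⟩ := Finset.mem_image.1 hr
    have e : ∀ g ∈ s.filter fun g => row g = row g₀, g = mN ((g * g₀⁻¹).1 0 1) * g₀ := by
      intro g hg
      obtain ⟨x, rfl⟩ := row_eq_row_iff.1 (Finset.mem_filter.1 hg).2
      rw [mul_inv_cancel_right]
      rfl
    rw [← Finset.card_image_of_injOn (f := fun g => (g * g₀⁻¹).1 0 1)]
    · refine hc (-(act g₀ w).1) _ _ (by positivity) fun x hx => ?_
      obtain ⟨g, hg, rfl⟩ := Finset.mem_image.1 hx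
      have := (hs g (Finset.mem_filter.1 hg).1).1
      rw [e g hg, act_mul _ _ hw, act_mN] at this
      rw [sub_neg_eq_add, add_comm]
      gcongr
    · intro g hg g' hg' h
      rw [e g hg, e g' hg']
      exact congrArg (fun x => mN x * g₀) h)
  calc (s.card : ℝ) ≤ D * (1 + X ^ 2) * (C * (1 + R ^ 2)) :=
        h2.trans (mul_le_mul_of_nonneg_right h1 (by positivity))
    _ = _ := by ring

theorem finite_act {w : ℂ × ℝ} (hw : 0 < w.2) (R : ℝ) {a : ℝ} (ha : 0 < a) :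
    {g : SL2 | ‖(act g w).1‖ ≤ R ∧ a ≤ (act g w).2}.Finite := by
  obtain ⟨C, hC, hc⟩ := card_act
  by_contra h
  obtain ⟨n, hn⟩ := exists_nat_gt (C * (1 + |R| ^ 2) * (1 + (1 / a) ^ 2))
  obtain ⟨s, hs, rfl⟩ := Set.Infinite.exists_subset_card_eq h n
  refine absurd hn (not_lt.2 (hc w hw _ _ (abs_nonneg R) (by positivity) s fun g hg => ?_))
  rw [one_div_one_div]
  exact ⟨(hs hg).1.trans (le_abs_self R), (hs hg).2⟩

theorem sum_rows {σ : ℝ} (hσ : 2 < σ) : ∃ C : ℝ, 0 < C ∧ ∀ w : ℂ × ℝ, 0 < w.2 →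
    ∀ s : Finset (O × O), (∀ r ∈ s, IsCoprime r.1 r.2) →
      ∑ r ∈ s, min 1 (vr r w ^ σ) ≤ C := by
  classical
  obtain ⟨C, hC, hc⟩ := card_rows
  set p : ℝ := (1 / 2) ^ σ with hp
  have hp0 : 0 < p := by positivity
  have hp1 : 4 * p < 1 := by
    have := Real.rpow_lt_rpow_of_exponent_gt (x := 1 / 2) (by norm_num) (by norm_num) hσ
    rw [Real.rpow_two] at this
    linarith
  refine ⟨5 * C * (1 - 4 * p)⁻¹, mul_pos (by positivity) (inv_pos.2 (by linarith)),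
    fun w hw s hs => ?_⟩
  have ex : ∀ r : O × O, ∃ k : ℕ, IsCoprime r.1 r.2 →
      1 / (2 : ℝ) ^ (k + 1) ≤ vr r w ∧ min 1 (vr r w ^ σ) ≤ p ^ k := by
    intro r
    by_cases hr : IsCoprime r.1 r.2
    swap
    · exact ⟨0, fun h => absurd h hr⟩
    have hv := vr_pos (ne_zero_of_coprime hr) hw
    rcases le_total 1 (vr r w) with h1 | h1
    · exact ⟨0, fun _ => ⟨by linarith, by simp⟩⟩
    obtain ⟨k, h2, h3⟩ := exists_nat_pow_near_of_lt_one hv h1 (y := 1 / 2) (by norm_num)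
      (by norm_num)
    refine ⟨k, fun _ => ⟨by simpa using h2.le, (min_le_right _ _).trans ?_⟩⟩
    rw [hp, ← Real.rpow_natCast, ← Real.rpow_mul (by norm_num), mul_comm,
      Real.rpow_mul (by norm_num), Real.rpow_natCast]
    gcongr
  choose k hk using ex
  calc ∑ r ∈ s, min 1 (vr r w ^ σ) ≤ ∑ r ∈ s, p ^ k r :=
        Finset.sum_le_sum fun r hr => (hk r (hs r hr)).2
    _ = ∑ j ∈ s.image k, ((s.filter fun r => k r = j).card : ℝ) * p ^ j := by
        rw [Finset.sum_comp (fun j => p ^ j) k]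
        simp only [nsmul_eq_mul]
    _ ≤ ∑ j ∈ s.image k, 5 * C * (4 * p) ^ j := by
        refine Finset.sum_le_sum fun j _ => ?_
        have h1 := hc w hw (2 ^ (j + 1)) (by positivity) (s.filter fun r => k r = j) fun r hr => by
          obtain ⟨hr', rfl⟩ := Finset.mem_filter.1 hr
          exact ⟨hs r hr', (hk r (hs r hr')).1⟩
        have h2 : ((2 : ℝ) ^ (j + 1)) ^ 2 = 4 * 4 ^ j := by
          rw [← pow_mul, mul_comm, pow_mul, pow_succ]; norm_num; ring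
        have h3 : (1 : ℝ) ≤ 4 ^ j := one_le_pow₀ (by norm_num)
        rw [mul_pow, ← mul_assoc]
        gcongr
        nlinarith
    _ ≤ _ := by
        rw [← Finset.mul_sum, ← tsum_geometric_of_lt_one (by positivity) hp1]
        gcongr
        exact (summable_geometric_of_lt_one (by positivity) hp1).sum_le_tsum _
          fun j _ => by positivity

/-- uniform absolute convergence of series over primitive rows -/
theorem tsum_rows {σ : ℝ} (hσ : 2 < σ) : ∃ C : ℝ, 0 < C ∧ ∀ w : ℂ × ℝ, 0 < w.2 →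
    ∀ (a : O × O → ℂ) (M : ℝ), 0 ≤ M → (∀ r : O × O, ¬IsCoprime r.1 r.2 → a r = 0) →
      (∀ r : O × O, IsCoprime r.1 r.2 → ‖a r‖ ≤ M * min 1 (vr r w ^ σ)) →
      Summable (fun r => ‖a r‖) ∧ ∑' r, ‖a r‖ ≤ C * M := by
  classical
  obtain ⟨C, hC, hc⟩ := sum_rows hσ
  refine ⟨C, hC, fun w hw a M hM h0 h1 => ?_⟩
  have key : ∀ s : Finset (O × O), ∑ r ∈ s, ‖a r‖ ≤ C * M := by
    intro s
    rw [← Finset.sum_filter_of_ne (p := fun r => IsCoprime r.1 r.2)
      fun r _ h => by_contra fun h' => h (by rw [h0 r h', norm_zero])]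
    refine (Finset.sum_le_sum fun r hr => h1 r (Finset.mem_filter.1 hr).2).trans ?_
    rw [← Finset.mul_sum, mul_comm]
    gcongr
    exact hc w hw _ fun r hr => (Finset.mem_filter.1 hr).2
  have hs := summable_of_sum_le (fun r => norm_nonneg (a r)) key
  exact ⟨hs, hs.tsum_le_of_sum_le key⟩

theorem tsum_eis' {σ : ℝ} (hσ : 2 < σ) : ∃ C : ℝ, 0 < C ∧ ∀ Ψ : O × O → ℂ,
    (∀ r : O × O, ¬IsCoprime r.1 r.2 → Ψ r = 0) → (∀ r, ‖Ψ r‖ ≤ 1) →
    ∀ s : ℂ, s.re = σ → ∀ w : ℂ × ℝ, 0 < w.2 →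
      Summable (fun r => ‖Ψ r * ((vr r w : ℝ) : ℂ) ^ s‖) ∧
      ∑' r, ‖Ψ r * ((vr r w : ℝ) : ℂ) ^ s‖ ≤ C * max w.2 (1 / w.2) ^ σ := by
  obtain ⟨C, hC, hc⟩ := tsum_rows hσ
  refine ⟨C, hC, fun Ψ h0 h1 s hs w hw => hc w hw _ _ (by positivity)
    (fun r hr => by rw [h0 r hr, zero_mul]) fun r hr => ?_⟩
  have hv := vr_pos (ne_zero_of_coprime hr) hw
  have hb : 1 ≤ max w.2 (1 / w.2) := by
    rcases le_total 1 w.2 with h | h
    · exact le_max_of_le_left h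
    · exact le_max_of_le_right (one_le_one_div hw h)
  rw [norm_mul, Complex.norm_cpow_eq_rpow_re_of_pos hv, hs, mul_min_of_nonneg _ _ (by positivity)]
  refine (mul_le_of_le_one_left (by positivity) (h1 r)).trans (le_min ?_ ?_)
  · rw [mul_one]
    exact Real.rpow_le_rpow hv.le (vr_le hr hw) (by linarith)
  · exact le_mul_of_one_le_left (by positivity) (Real.one_le_rpow hb (by linarith))

/-- absolute convergence of the Eisenstein series, with `b = max v (1/v)` -/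
theorem tsum_eis {σ : ℝ} (hσ : 2 < σ) : ∃ C : ℝ, 0 < C ∧ ∀ (m : O) (Ψ : O × O → ℂ), Cls m Ψ →
    ∀ s : ℂ, s.re = σ → ∀ w : ℂ × ℝ, 0 < w.2 →
      Summable (fun r => ‖Ψ r * ((vr r w : ℝ) : ℂ) ^ s‖) ∧
      ∑' r, ‖Ψ r * ((vr r w : ℝ) : ℂ) ^ s‖ ≤ C * max w.2 (1 / w.2) ^ σ := by
  obtain ⟨C, hC, hc⟩ := tsum_eis' hσ
  exact ⟨C, hC, fun _ Ψ hΨ => hc Ψ hΨ.1 hΨ.2.1⟩

end Vale.Agent.P026
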