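import Vale.Agent.P026.ThMeas
import Vale.Agent.P026.ThCount

/-! TH-B: measurability and integrability of the Eisenstein series. -/

namespace Vale.Agent.P026

open scoped ComplexConjugate Real Topology ENNReal NNReal InnerProductSpace
open MeasureTheory Filter Set

theorem measurable_Eis (Ψ : O × O → ℂ) (s : ℂ) : Measurable fun w => Eis Ψ w s :=
  Measurable.tsum fun r => measurable_const.mul
    ((Complex.measurable_ofReal.comp (measurable_vr r)).pow_const s)

theorem integrable_Eis' {Ψ : O × O → ℂ} (h0 : ∀ r : O × O, ¬IsCoprime r.1 r.2 → Ψ r = 0)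
    (h1 : ∀ r, ‖Ψ r‖ ≤ 1) {F : ℂ × ℝ → ℂ} (hF : Test F) {s : ℂ} (hs : 2 < s.re) :
    Integrable (fun w => Eis Ψ w s * F w) hmu := by
  obtain ⟨C, hC, hc⟩ := tsum_eis' hs
  obtain ⟨M, hM, hFM⟩ := hF.2
  refine (hF.integrable.norm.const_mul (C * M ^ s.re)).mono'
    ((measurable_Eis Ψ s).mul hF.1).aestronglyMeasurable ?_
  filter_upwards [ae_pos] with w hw
  by_cases h : F w = 0
  · simp [h]
  obtain ⟨-, h2, h3⟩ := (hFM w).2 h
  obtain ⟨h4, h5⟩ := hc Ψ h0 h1 s rfl w hw
  rw [norm_mul]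
  gcongr
  refine ((norm_tsum_le_tsum_norm h4).trans h5).trans ?_
  gcongr
  exact max_le h3 ((one_div_le hw hM).2 h2)

end Vale.Agent.P026
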