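import Vale.Agent.P026.ThCusp
import Vale.Agent.P026.ThAbs
import Vale.Agent.P026.ThEis

/-! TH-B: the residue functional. -/

namespace Vale.Agent.P026

open scoped ComplexConjugate Real Topology ENNReal NNReal InnerProductSpace
open MeasureTheory Filter Set

theorem AutF.integrable_mul {m : O} {f F : ℂ × ℝ → ℂ} (hf : AutF m f) (hF : Test F) :
    Integrable (fun w => f w * F w) hmu := by
  obtain ⟨M, hM⟩ := hf.2.1
  exact hF.integrable.bdd_mul hf.1.aestronglyMeasurable (c := M)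
    (by filter_upwards [ae_pos] with w hw using hM w hw)

/-- the residue functional -/
noncomputable def Th (m : O) (ν : Measure (ℂ × ℝ)) (T : Lp ℂ 2 ν →L[ℂ] Lp ℂ 2 ν)
    (Ψ : O × O → ℂ) (F : ℂ × ℝ → ℂ) : ℂ :=
  ⟪cl ν fun w => conj (Pc m F w), T (cl ν (JJ Ψ (gP (4 / 3))))⟫_ℂ

variable {m : O} {ν : Measure (ℂ × ℝ)} {T : Lp ℂ 2 ν →L[ℂ] Lp ℂ 2 ν} {Ψ : O × O → ℂ}
  {F : ℂ × ℝ → ℂ}

theorem op_low (h9 : (9 : O) ∣ m) (hν : IsWt (Gam m) ν) {L : Lp ℂ 2 ν →L[ℂ] Lp ℂ 2 ν}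
    (hLf : ∀ f, AutF m f → (L (cl ν f) : ℂ × ℝ → ℂ) =ᵐ[ν] fun w => ∫ w' in Bt w, f w' ∂hmu)
    (hΨ : Cls m Ψ) {s : ℂ} (h2 : 2 < s.re) :
    L (cl ν (JJ Ψ (lowP s))) - hhat s • cl ν (JJ Ψ (lowP s)) = cl ν (JJ Ψ (gP s)) := by
  have hp := prof_lowP h2
  have hlo := hp.aut h9 hΨ
  have e1 : L (cl ν (JJ Ψ (lowP s))) = cl ν (JJ Ψ (conv (lowP s))) := by
    apply eq_cl
    filter_upwards [hLf _ hlo, hν.ae_pos] with w h1 hw
    rw [h1, ball_JJ hΨ hp hw]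
  rw [e1, ← cl_sub_smul ((hp.conv.aut h9 hΨ).memLp hν) (hlo.memLp hν)]
  apply cl_congr
  filter_upwards [hν.ae_pos] with w hw
  rw [← JJ_sub_smul hΨ hp.conv hp _ hw]; rfl

theorem th_res (h9 : (9 : O) ∣ m) (hν : IsWt (Gam m) ν) (hΨ : Cls m Ψ) (hF : Test F)
    {U : ℂ → Lp ℂ 2 ν} (hUd : DifferentiableOn ℂ U Dom)
    (hUu : ∀ s ∈ Dom, 2 < s.re → cl ν (JJ Ψ (lowP s)) = U s)
    (hUl : Tendsto (fun ε : ℝ => (sE ε - 4 / 3) • U (sE ε)) (𝓝[>] 0)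
      (𝓝 (T (cl ν (JJ Ψ (gP (4 / 3))))))) :
    HasRes (fun s => ∫ w, Eis Ψ w s * F w ∂hmu) (Th m ν T Ψ F) := by
  obtain ⟨M, hM, hFM⟩ := hF.2
  have hV := (ud_hiP M).differentiable hν hΨ
  refine ⟨fun s => ⟪cl ν fun w => conj (Pc m F w), U s⟫_ℂ +
    ⟪cl ν fun w => conj (Pc m F w), cl ν (JJ Ψ (hiP M s))⟫_ℂ, ?_, ?_, ?_⟩
  · exact ((innerSL ℂ _).differentiable.comp_differentiableOn hUd).add
      ((innerSL ℂ _).differentiable.comp hV).differentiableOn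
  · intro s hs h2
    have hlo := (prof_lowP h2).aut h9 hΨ
    have hhi := ((ud_hiP M).prof s).aut h9 hΨ
    simp only []
    rw [← hUu s hs h2, inner_cl (hF.memLp_Pc hν) (hlo.memLp hν),
      inner_cl (hF.memLp_Pc hν) (hhi.memLp hν), ← unfold_Pc hν hlo hF, ← unfold_Pc hν hhi hF,
      ← integral_add (hlo.integrable_mul hF) (hhi.integrable_mul hF)]
    apply integral_congr_ae
    filter_upwards [ae_pos] with w hw
    by_cases h0 : F w = 0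
    · simp [h0]
    · obtain ⟨-, h1, h3⟩ := (hFM w).2 h0
      rw [Eis_split hΨ h2 hw (b := M) (max_le h3 ((one_div_le hw hM).2 h1)), add_mul]
  · unfold Th
    set y := cl ν fun w => conj (Pc m F w)
    have t1 := ((innerSL ℂ y).continuous.tendsto _).comp hUl
    have t2 := (((innerSL ℂ y).continuous.comp hV.continuous).tendsto _).comp tendsto_sE
    have t4 := t1.add ((tendsto_sE.sub_const (4 / 3)).mul t2)
    simp only [sub_self, zero_mul, add_zero] at t4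
    refine t4.congr fun ε => ?_
    simp only [Function.comp, innerSL_apply_apply, inner_smul_right, mul_add]

theorem th_bound (hν : IsWt (Gam m) ν) (T : Lp ℂ 2 ν →L[ℂ] Lp ℂ 2 ν) :
    ∃ C : ℝ, 0 ≤ C ∧ ∀ Ψ, Cls m Ψ → ∀ F, Test F → ∀ R X : ℝ, 0 ≤ R → 0 < X →
      (∀ w, F w ≠ 0 → ‖w.1‖ ≤ R ∧ 1 / X ≤ w.2) →
      ‖Th m ν T Ψ F‖ ^ 2 ≤ C * (1 + R ^ 2) * (1 + X ^ 2) * ∫ w, ‖F w‖ ^ 2 ∂hmu := by
  obtain ⟨-, M, σ, hM, hσ, hb⟩ := ud_gP.prof (4 / 3)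
  obtain ⟨C1, hC1, hJ⟩ := JJ_bound hσ
  obtain ⟨C2, hC2, hcl⟩ := norm_cl_le hν
  obtain ⟨C3, hC3, hP⟩ := Pc_sq
  refine ⟨(‖T‖ * (C2 * (C1 * M))) ^ 2 * C3, by positivity, ?_⟩
  intro Ψ hΨ F hF R X hR hX hs
  have h1 : ‖T (cl ν (JJ Ψ (gP (4 / 3))))‖ ≤ ‖T‖ * (C2 * (C1 * M)) :=
    (T.le_opNorm _).trans (mul_le_mul_of_nonneg_left (hcl _ _ (by positivity)
      fun w hw => (hJ m Ψ hΨ _ M hM hb w hw).2.2) (norm_nonneg _))
  have h2 := norm_cl_sq (hF.memLp_Pc hν)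
  simp only [RCLike.norm_conj] at h2
  have h3 := hP m ν hν F hF R X hR hX hs
  calc ‖Th m ν T Ψ F‖ ^ 2
      ≤ (‖cl ν fun w => conj (Pc m F w)‖ * (‖T‖ * (C2 * (C1 * M)))) ^ 2 := by
        gcongr
        exact (norm_inner_le_norm _ _).trans (mul_le_mul_of_nonneg_left h1 (norm_nonneg _))
    _ = (‖T‖ * (C2 * (C1 * M))) ^ 2 * ∫ w, ‖Pc m F w‖ ^ 2 ∂ν := by rw [mul_pow, h2, mul_comm]
    _ ≤ (‖T‖ * (C2 * (C1 * M))) ^ 2 *
        (C3 * (1 + R ^ 2) * (1 + X ^ 2) * ∫ w, ‖F w‖ ^ 2 ∂hmu) := by gcongr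
    _ = _ := by ring

theorem th_cusp (h9 : (9 : O) ∣ m) (hm : m ≠ 0) (hν : IsWt (Gam m) ν)
    (hT0 : ∀ x, ⟪x, T x⟫_ℂ = 0 → T x = 0) (hΨ : Cls m Ψ) {P : Set ℂ} (hP : Tile m P)
    (h0 : ∀ g : SL2, Th m ν T Ψ (fun w => P.indicator (fun _ => (1 : ℂ)) (act g w).1 *
      conj (gP (4 / 3) (act g w).2)) = 0) (F : ℂ × ℝ → ℂ) : Th m ν T Ψ F = 0 := by
  have hψ := test1_gP (4 / 3)
  obtain ⟨t, ht⟩ := conj_JJ h9 hm hΨ hP hψ
  have hG := hP.test hψ.conj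
  have hA := hψ.prof.aut h9 hΨ
  have e : (nm m : ℂ) • cl ν (JJ Ψ (gP (4 / 3))) = ∑ g ∈ t, Ψ (row g) • cl ν fun w =>
      conj (Pc m (fun w => P.indicator (fun _ => (1 : ℂ)) (act g w).1 *
        conj (gP (4 / 3) (act g w).2)) w) := by
    rw [← cl_sum t _ fun g _ => (hG.comp_act g).memLp_Pc hν]
    have := cl_sum (ν := ν) {()} (fun _ => (nm m : ℂ)) (f := fun _ => JJ Ψ (gP (4 / 3)))
      fun _ _ => hA.memLp hν
    simp only [Finset.sum_singleton] at this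
    rw [← this]
    apply cl_congr
    filter_upwards [hν.ae_pos] with w hw
    have := congrArg conj (ht w hw)
    simpa using this
  have e2 : ⟪(nm m : ℂ) • cl ν (JJ Ψ (gP (4 / 3))), T (cl ν (JJ Ψ (gP (4 / 3))))⟫_ℂ = 0 := by
    rw [e, sum_inner]
    refine Finset.sum_eq_zero fun g _ => ?_
    rw [inner_smul_left]
    exact mul_eq_zero_of_right _ (h0 g)
  rw [inner_smul_left, mul_eq_zero] at e2
  have hn : (nm m : ℂ) ≠ 0 := by
    exact_mod_cast fun h => hm (nm_eq_zero.1 h)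
  have := hT0 _ (e2.resolve_left (by simpa using hn))
  rw [Th, this, inner_zero_right]

theorem thB : ThBStmt := by
  intro m h9 hm
  have := finiteIndex_Gam hm
  obtain ⟨ν, hν⟩ := exists_weight (Gam m)
  obtain ⟨L, hL, hLf⟩ := exists_op h9 hν
  obtain ⟨a, ha, hder⟩ := hhat_deriv
  obtain ⟨T, hT0, hT⟩ := res_limit L hL hhat differentiable_hhat (fun s hs => hhat_im_ne hs)
    hhat_im_zero a ha hder
  have hres : ∀ Ψ, Cls m Ψ → ∀ F, Test F →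
      HasRes (fun s => ∫ w, Eis Ψ w s * F w ∂hmu) (Th m ν T Ψ F) := by
    intro Ψ hΨ F hF
    obtain ⟨U, hUd, hUu, hUl⟩ := hT _ (ud_gP.differentiable hν hΨ)
    exact th_res h9 hν hΨ hF hUd (fun s hs h2 => hUu s hs _ (op_low h9 hν hLf hΨ h2)) hUl
  have hequi : ∀ Ψ, Cls m Ψ → ∀ F, Test F → ∀ g : SL2,
      Th m ν T Ψ (fun w => F (act g w)) = Th m ν T (fun r => Ψ (rmul r g)) F := by
    intro Ψ hΨ F hF g
    have h1 := hres Ψ hΨ _ (hF.comp_act g)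
    have h2 := hres _ (hΨ.comp_rmul h9 g) F hF
    refine h1.unique (h2.congr fun s _ _ => ?_)
    rw [← integral_act g (f := fun w => Eis (fun r => Ψ (rmul r g)) w s * F w)
      ((measurable_Eis _ s).mul hF.1)]
    apply integral_congr_ae
    filter_upwards [ae_pos] with w hw
    simp only [Eis_act _ g hw, ← rmul_mul, inv_mul_cancel, rmul_one]
  refine ⟨Th m ν T, hres, th_bound hν T, hequi, fun Ψ hΨ P hP h0 F _ => ?_⟩
  have hψ := (test1_gP (4 / 3)).conj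
  refine th_cusp h9 hm hν hT0 hΨ hP (fun g => ?_) F
  have h1 := hequi Ψ hΨ _ (hP.test hψ) g
  have h2 := h0 g _ hψ
  beta_reduce at h1 h2
  rw [h1, h2]

end Vale.Agent.P026
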