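import Vale.Agent.P026.ThCDecA

/-! # TH-C: reduction of `aD 9 Ψ` to the Gauss sum series `psi`. -/

namespace Vale.Agent.P026

open scoped ComplexConjugate Real Topology
open MeasureTheory Filter Set

private theorem nine_eq : (9 : O) = lam ^ 4 := by decide

private theorem cop_lam {d : O} (h : ¬lam ∣ d) : IsCoprime lam d :=
  (prime_lam.irreducible.coprime_iff_not_dvd).2 h

private theorem cop_ulam {u d : O} (hu : IsUnit u) (j : ℕ) (h : j = 0 ∨ ¬lam ∣ d) :
    IsCoprime (u * lam ^ j) d := by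
  rw [isCoprime_mul_unit_left_left hu]
  rcases h with rfl | h
  · simpa using isCoprime_one_left
  · exact (cop_lam h).pow_left

private theorem not_lam_of_cop {u c d : O} {j : ℕ} (hj : j ≠ 0)
    (h : IsCoprime (u * lam ^ j * c) d) : ¬lam ∣ d := fun hd =>
  prime_lam.not_isUnit (h.isUnit_of_dvd' (((dvd_pow_self lam hj).mul_left u).mul_right c) hd)

private theorem mul_conj_cub {a n : O} (h : IsCoprime a n) : cub a n * conj (cub a n) = 1 := by
  rw [Complex.mul_conj', norm_cub h]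
  simp

theorem cls_cub {Ψ : O × O → ℂ} (hΨ : Cls 9 Ψ) {u c c' d d' : O} (hu : IsUnit u) (j : ℕ)
    (hc : Prim c) (hc' : Prim c') (h : IsCoprime (u * lam ^ j * c) d)
    (h' : IsCoprime (u * lam ^ j * c') d') (h1 : (9 : O) ∣ c - c') (h2 : (9 : O) ∣ d - d') :
    Ψ (u * lam ^ j * c, d) * conj (cub d c) = Ψ (u * lam ^ j * c', d') * conj (cub d' c') := by
  have h3 := hΨ.2.2 (u * lam ^ j * c, d) (u * lam ^ j * c', d') h h'
    (by rw [← mul_sub]; exact h1.mul_left _) h2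
  obtain ⟨L, e1, e2⟩ : ∃ L, Sy (u * lam ^ j * c, d) = cub d c * L ∧
      Sy (u * lam ^ j * c', d') = cub d' c' * L := by
    rcases Nat.eq_zero_or_pos j with rfl | hj
    · have k : ∀ {c : O}, Prim c → ¬lam ∣ u * lam ^ 0 * c := fun hc h => by
        rw [pow_zero, mul_one, hu.dvd_mul_left] at h
        exact hc.not_lam_dvd h
      refine ⟨1, ?_, ?_⟩
      · rw [Sy_of_not_dvd (k hc), cub_decomp_right hu 0 hc.ne_zero, mul_one]
      · rw [Sy_of_not_dvd (k hc'), cub_decomp_right hu 0 hc'.ne_zero, mul_one]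
    · obtain ⟨v, e, hv, he, rfl⟩ := exists_prim (not_lam_of_cop hj.ne' h)
      obtain ⟨v', hv'⟩ := hv.exists_right_inv
      have h4 : (9 : O) ∣ e - v' * d' := by
        have := h2.mul_left v'
        rwa [show v' * (v * e - d') = e - v' * d' by linear_combination e * hv'] at this
      have he' : Prim (v' * d') := he.of_dvd_sub ⟨3, by norm_num⟩ (dvd_sub_comm.1 h4)
      have e3 : d' = v * (v' * d') := by linear_combination (-d') * hv'
      refine ⟨_, Sy_of_dvd hu hj hc hv he, ?_⟩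
      rw [cub_ulam_congr hu j he h4,
        cub_unit_congr hv hc ((show lam ^ 3 ∣ (9 : O) from nine_eq ▸ pow_dvd_pow lam (by norm_num)).trans h1)]
      have := Sy_of_dvd hu hj hc' hv he'
      rwa [← e3] at this
  have hL : L ≠ 0 := by
    rintro rfl
    have := norm_Sy (r := (u * lam ^ j * c, d)) h
    rw [e1] at this
    simp at this
  have k1 := mul_conj_cub h.of_mul_left_right.symm
  have k2 := mul_conj_cub h'.of_mul_left_right.symm
  rw [e1, e2] at h3
  apply mul_left_cancel₀ hL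
  linear_combination (conj (cub d c) * conj (cub d' c')) * h3 -
    (L * Ψ (u * lam ^ j * c, d) * conj (cub d c)) * k2 +
    (L * Ψ (u * lam ^ j * c', d') * conj (cub d' c')) * k1

theorem exists_xi {Ψ : O × O → ℂ} (hΨ : Cls 9 Ψ) {u : O} (hu : IsUnit u) (j : ℕ) :
    ∃ ξ : O → O → ℂ, (∀ c d, ‖ξ c d‖ ≤ 1) ∧
      (∀ c c' d d', (9 : O) ∣ c - c' → (9 : O) ∣ d - d' → ξ c d = ξ c' d') ∧
      ∀ c d, Prim c → Ψ (u * lam ^ j * c, d) = cub d c * ξ c d := by
  classical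
  let Q : O → O → O × O → Prop := fun c d p =>
    Prim p.1 ∧ IsCoprime (u * lam ^ j * p.1) p.2 ∧ (9 : O) ∣ c - p.1 ∧ (9 : O) ∣ d - p.2
  let ξ : O → O → ℂ := fun c d => if h : ∃ p, Q c d p then
    Ψ (u * lam ^ j * h.choose.1, h.choose.2) * conj (cub h.choose.2 h.choose.1) else 0
  have h0 : ∀ c d, (¬∃ p, Q c d p) → ξ c d = 0 := fun c d h => dif_neg h
  have h1 : ∀ c d p, Q c d p → ξ c d = Ψ (u * lam ^ j * p.1, p.2) * conj (cub p.2 p.1) := by
    intro c d p hp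
    have h : ∃ p, Q c d p := ⟨p, hp⟩
    obtain ⟨a1, a2, a3, a4⟩ := h.choose_spec
    refine (dif_pos h).trans (cls_cub hΨ hu j a1 hp.1 a2 hp.2.1 ?_ ?_)
    · simpa using dvd_sub hp.2.2.1 a3
    · simpa using dvd_sub hp.2.2.2 a4
  have h2 : ∀ c c' d d' p, (9 : O) ∣ c - c' → (9 : O) ∣ d - d' → Q c' d' p → Q c d p :=
    fun c c' d d' p hc hd hp =>
      ⟨hp.1, hp.2.1, by simpa using dvd_add hc hp.2.2.1, by simpa using dvd_add hd hp.2.2.2⟩
  refine ⟨ξ, fun c d => ?_, fun c c' d d' hc hd => ?_, fun c d hc => ?_⟩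
  · by_cases h : ∃ p, Q c d p
    · obtain ⟨p, hp⟩ := h
      rw [h1 c d p hp, norm_mul, Complex.norm_conj]
      exact mul_le_one₀ (hΨ.2.1 _) (norm_nonneg _) (norm_cub_le _ _)
    · simp [h0 c d h]
  · by_cases h : ∃ p, Q c' d' p
    · obtain ⟨p, hp⟩ := h
      rw [h1 _ _ p hp, h1 _ _ p (h2 _ _ _ _ p hc hd hp)]
    · rw [h0 _ _ h, h0 c d fun ⟨p, hp⟩ =>
        h ⟨p, h2 _ _ _ _ p (dvd_sub_comm.1 hc) (dvd_sub_comm.1 hd) hp⟩]
  · by_cases h : IsCoprime (u * lam ^ j * c) d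
    · rw [h1 c d (c, d) ⟨hc, h, by simp, by simp⟩]
      linear_combination (-Ψ (u * lam ^ j * c, d)) * mul_conj_cub h.of_mul_left_right.symm
    · rw [hΨ.1 _ h]
      by_cases h3 : IsCoprime d c
      · rw [h0 c d, mul_zero]
        rintro ⟨p, -, hp, -, hp'⟩
        refine h ((cop_ulam hu j ?_).mul_left h3.symm)
        by_cases hj : j = 0
        · exact Or.inl hj
        · refine Or.inr fun hd => not_lam_of_cop hj hp ?_
          have := dvd_sub hd ((show lam ∣ 9 from nine_eq ▸ dvd_pow_self lam (by norm_num)).trans hp')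
          rwa [sub_sub_cancel] at this
      · rw [cub_eq_zero hc.not_lam_dvd h3, zero_mul]

theorem Acf_eq {Ψ : O × O → ℂ} (hΨ : Cls 9 Ψ) (ν : O) {u : O} (hu : IsUnit u) (j : ℕ) :
    ∃ B : O → ℂ, (∀ c, ‖B c‖ ≤ 81 * 3 ^ j) ∧
      (∀ c c', Prim c → (9 : O) ∣ c - c' → B c = B c') ∧
      ∀ c, Prim c → Acf 9 Ψ ν (u * lam ^ j * c) = B c * g3 ν c := by
  obtain ⟨ξ, h1, h2, h3⟩ := exists_xi hΨ hu j
  have e : 9 * (u * lam ^ j) = u * lam ^ (j + 4) := by rw [nine_eq]; ring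
  have hq : 9 * (u * lam ^ j) ≠ 0 :=
    e ▸ mul_ne_zero hu.ne_zero (pow_ne_zero _ prime_lam.ne_zero)
  refine ⟨fun c => cub (9 * (u * lam ^ j)) c * ∑ x ∈ res (9 * (u * lam ^ j)),
    ξ c (c * x) * eq (ν * x) (9 * (u * lam ^ j)), fun c => ?_, fun c c' hc h => ?_,
    fun c hc => ?_⟩
  · rw [norm_mul]
    refine (mul_le_of_le_one_left (norm_nonneg _) (norm_cub_le _ _)).trans
      ((norm_sum_le _ _).trans ((Finset.sum_le_card_nsmul _ _ 1 fun x _ => ?_).trans ?_))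
    · rw [norm_mul, norm_eq, mul_one]
      exact h1 _ _
    · rw [card_res hq, nm_mul, nm_mul, nm_pow, nm_lam, isUnit_iff_nm.1 hu,
        show nm 9 = 81 by decide]
      simp
  · simp only
    congr 1
    · rw [e, cub_ulam_congr hu _ hc h]
    · exact Finset.sum_congr rfl fun x _ => by
        rw [h2 c c' (c * x) (c' * x) h (by rw [← sub_mul]; exact h.mul_right _)]
  · have hcop : IsCoprime (9 * (u * lam ^ j)) c := e ▸ cop_ulam hu _ (Or.inr hc.not_lam_dvd)
    simp only [Acf, h3 c _ hc, g3]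
    rw [← mul_assoc 9, sum_res_crt hq hc.ne_zero hcop fun x y hxy => ?_]
    · rw [Finset.mul_sum (res (9 * (u * lam ^ j))), Finset.sum_mul_sum]
      refine Finset.sum_congr rfl fun x _ => Finset.sum_congr rfl fun y _ => ?_
      rw [show ν * (c * x + 9 * (u * lam ^ j) * y) = c * (ν * x) + 9 * (u * lam ^ j) * (ν * y) by ring,
        eq_crt hq hc.ne_zero,
        cub_congr (b := 9 * (u * lam ^ j) * y) (by simp), cub_mul_left,
        h2 c c _ (c * x) (by simp) (by simp [mul_assoc])]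
      ring
    · rw [cub_congr ((dvd_mul_left c _).trans hxy),
        h2 c c x y (by simp) (((dvd_mul_right 9 _).mul_right c).trans hxy),
        eq_congr (y := ν * y) (by rw [← mul_sub]; exact hxy.mul_left _)]

private abbrev UI : Type := {u : O // IsUnit u} × ℕ

private instance : Finite {u : O // IsUnit u} :=
  Set.Finite.subset (ball 1).finite_toSet fun u hu => by
    simp [mem_ball, isUnit_iff_nm.1 hu]

private theorem summable_UI {σ : ℝ} (hσ : 1 < σ) :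
    Summable fun i : UI => (81 : ℝ) * ((3 : ℝ) ^ (1 - σ)) ^ i.2 :=
  Summable.mul_of_nonneg (f := fun _ : {u : O // IsUnit u} => (81 : ℝ)) Summable.of_finite
    (summable_geometric_of_lt_one (by positivity)
      (Real.rpow_lt_one_of_one_lt_of_neg (by norm_num) (by linarith)))
    (fun _ => by norm_num) fun _ => by positivity

private theorem norm_term_le {B : ℂ} {j : ℕ} (hB : ‖B‖ ≤ 81 * 3 ^ j) {σ : ℝ} {s : ℂ}
    (hs : σ ≤ s.re) : ‖B * ((3 ^ j : ℕ) : ℂ) ^ (-s)‖ ≤ 81 * ((3 : ℝ) ^ (1 - σ)) ^ j := by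
  rw [norm_mul, Complex.norm_natCast_cpow_of_pos (by positivity), Complex.neg_re]
  have h1 : (((3 ^ j : ℕ) : ℝ)) ^ (-s.re) ≤ ((3 : ℝ) ^ (-σ)) ^ j := by
    rw [Nat.cast_pow, Nat.cast_ofNat, ← Real.rpow_natCast_mul (by norm_num),
      ← Real.rpow_mul_natCast (by norm_num), mul_comm]
    exact Real.rpow_le_rpow_of_exponent_le (by norm_num)
      (mul_le_mul_of_nonneg_right (by linarith) (Nat.cast_nonneg j))
  calc _ ≤ 81 * 3 ^ j * ((3 : ℝ) ^ (-σ)) ^ j := by gcongr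
    _ = _ := by
      rw [sub_eq_add_neg, Real.rpow_add (by norm_num), Real.rpow_one, mul_pow, mul_assoc]

private theorem tsum_UI {F : O → ℂ} (h0 : F 0 = 0) :
    ∑' c, F c = ∑' x : UI × O, ind (Prim x.2) * F (x.1.1 * lam ^ x.1.2 * x.2) := by
  have hinj : Function.Injective fun x : {x : UI × O | Prim x.2} =>
      (x.1.1.1 : O) * lam ^ x.1.1.2 * x.1.2 := by
    rintro ⟨⟨⟨⟨u, hu⟩, j⟩, c⟩, hc⟩ ⟨⟨⟨⟨u', hu'⟩, j'⟩, c'⟩, hc'⟩ h
    obtain ⟨rfl, rfl, rfl⟩ := decomp_unique hu hu' hc hc' h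
    rfl
  rw [← hinj.tsum_eq (f := F) fun c hc => ?_]
  · rw [tsum_subtype {x : UI × O | Prim x.2} fun x => F (x.1.1 * lam ^ x.1.2 * x.2)]
    refine tsum_congr fun x => ?_
    by_cases h : Prim x.2
    · rw [Set.indicator_of_mem (by exact h), ind_of h, one_mul]
    · rw [Set.indicator_of_notMem (by exact h), ind_of_not h, zero_mul]
  · obtain ⟨u, j, c', hu, hc', rfl⟩ := exists_decomp (n := c) fun h => hc (h ▸ h0)
    exact ⟨⟨⟨⟨⟨u, hu⟩, j⟩, c'⟩, hc'⟩, rfl⟩

open Classical in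
theorem dec : ∃ C : ℝ, 0 ≤ C ∧ ∀ Ψ, Cls 9 Ψ → ∀ ν : O, ∃ b : O → ℂ → ℂ, (∀ β, Hol (b β)) ∧
    (∀ β, ‖b β (4 / 3)‖ ≤ C) ∧ ∀ q, Prim q → ∀ s : ℂ, 2 < s.re →
      aD 9 Ψ ν q s = ∑ β ∈ (res 9).filter Prim, b β s * psi β ν q s := by
  refine ⟨∑' i : UI, (81 : ℝ) * ((3 : ℝ) ^ (1 - 4 / 3 : ℝ)) ^ i.2,
    tsum_nonneg fun _ => by positivity, fun Ψ hΨ ν => ?_⟩
  choose B hB1 hB2 hB3 using fun i : UI => Acf_eq hΨ ν i.1.2 i.2
  refine ⟨fun β s => ∑' i : UI, B i β * ((3 ^ i.2 : ℕ) : ℂ) ^ (-s), fun β s₀ hs₀ => ?_,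
    fun β => ?_, fun q hq s hs => ?_⟩
  · have hs₀ : 1 < s₀.re := hs₀
    have hU : IsOpen {s : ℂ | (1 + s₀.re) / 2 < s.re} :=
      isOpen_lt continuous_const Complex.continuous_re
    refine ((Complex.differentiableOn_tsum_of_summable_norm
      (summable_UI (σ := (1 + s₀.re) / 2) (by linarith)) (fun i => ?_) hU
      fun i w hw => norm_term_le (hB1 i β) (le_of_lt hw)).differentiableAt
        (hU.mem_nhds (show (1 + s₀.re) / 2 < s₀.re by linarith))).differentiableWithinAt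
    exact (Differentiable.const_mul (Differentiable.const_cpow (by fun_prop)
      (Or.inl (by simp))) _).differentiableOn
  · exact tsum_of_norm_bounded (summable_UI (by norm_num)).hasSum
      fun i => norm_term_le (hB1 i β) (by norm_num)
  · have hs0 : -s ≠ 0 := fun h => by
      rw [neg_eq_zero.1 h] at hs
      norm_num at hs
    have hsum : ∀ β, Summable fun x : UI × O => B x.1 β * ((3 ^ x.1.2 : ℕ) : ℂ) ^ (-s) *
        (ind ((9 : O) ∣ x.2 - β ∧ IsCoprime x.2 q) * g3 ν x.2 * (nm x.2 : ℂ) ^ (-s)) := fun β =>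
      summable_mul_of_summable_norm (f := fun i : UI => B i β * ((3 ^ i.2 : ℕ) : ℂ) ^ (-s))
        (g := fun c => ind ((9 : O) ∣ c - β ∧ IsCoprime c q) * g3 ν c * (nm c : ℂ) ^ (-s))
        ((summable_UI (σ := 2) (by norm_num)).of_nonneg_of_le (fun _ => norm_nonneg _)
          fun i => norm_term_le (hB1 i β) hs.le) (summable_psi ν _ hs).norm
    have hprod : ∀ β, (∑' i : UI, B i β * ((3 ^ i.2 : ℕ) : ℂ) ^ (-s)) * psi β ν q s =
        ∑' x : UI × O, B x.1 β * ((3 ^ x.1.2 : ℕ) : ℂ) ^ (-s) *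
        (ind ((9 : O) ∣ x.2 - β ∧ IsCoprime x.2 q) * g3 ν x.2 * (nm x.2 : ℂ) ^ (-s)) := fun β =>
      Summable.tsum_mul_tsum ((summable_UI (σ := 2) (by norm_num)).of_norm_bounded
        fun i => norm_term_le (hB1 i β) hs.le) (summable_psi ν _ hs) (hsum β)
    simp only [hprod]
    rw [← Summable.tsum_finsetSum fun β _ => hsum β, aD, tsum_UI (by simp [hs0])]
    refine tsum_congr fun x => ?_
    obtain ⟨i, c⟩ := x
    by_cases hc : Prim c
    · obtain ⟨β, ⟨hβ, hβ'⟩, hu⟩ := res_spec (n := 9) (by decide) c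
      have hP : Prim β := hc.of_dvd_sub ⟨3, by norm_num⟩ (dvd_sub_comm.1 hβ')
      rw [Finset.sum_eq_single_of_mem β (Finset.mem_filter.2 ⟨hβ, hP⟩) fun β' h1 h2 => ?_]
      · have e1 : IsCoprime (i.1.1 * lam ^ i.2 * c) q ↔ (9 : O) ∣ c - β ∧ IsCoprime c q :=
          ⟨fun h => ⟨hβ', h.of_mul_left_right⟩,
            fun h => (cop_ulam i.1.2 i.2 (Or.inr hq.not_lam_dvd)).mul_left h.2⟩
        simp only
        rw [ind_of hc, hB3 i c hc, hB2 i c β hc hβ', e1, nm_mul, nm_mul, nm_pow, nm_lam,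
          isUnit_iff_nm.1 i.1.2, one_mul, one_mul, Nat.cast_mul, Complex.natCast_mul_natCast_cpow]
        ring
      · rw [ind_of_not fun h => h2 (hu β' ⟨(Finset.mem_filter.1 h1).1, h.1⟩)]
        simp
    · rw [ind_of_not hc, zero_mul]
      refine (Finset.sum_eq_zero fun β hβ => ?_).symm
      rw [ind_of_not fun h => hc ((Finset.mem_filter.1 hβ).2.of_dvd_sub ⟨3, by norm_num⟩ h.1)]
      simp

end Vale.Agent.P026
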