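import Vale.Agent.P026.ThCHeckeB
import Vale.Agent.P026.ThCDec

/-! # TH-C: the Hecke relation. -/

namespace Vale.Agent.P026

open scoped ComplexConjugate Real Topology
open MeasureTheory Filter Set

theorem rs_psi_aux (hR : ResStmt) {β ν ν' : O} (hβ : Prim β) (h : (9 : O) ∣ ν - ν') :
    RS (psi β ν 1) (rho (Psb β ν') ν / 81) :=
  ((hR _ (cls_Psb hβ ν') ν).congr fun s _ => aD_Psb hβ h 1 s).of_mul (Hol.const 81) (by norm_num)
theorem rs_psi (hR : ResStmt) {β : O} (hβ : Prim β) (ν : O) : RS (psi β ν 1) (rb β ν) := by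
  have h := rs_psi_aux hR hβ (ν := ν) (ν' := ν) (by simp)
  rwa [h.rb_eq]
theorem rho_Psb (hR : ResStmt) {β ν ν' : O} (hβ : Prim β) (h : (9 : O) ∣ ν - ν') :
    rho (Psb β ν') ν = 81 * rb β ν := by
  rw [(rs_psi_aux hR hβ h).rb_eq]
  ring

/-- a real cube root of `nm p` -/
theorem exists_cube_root {p : O} (hp : Prime p) : ∃ x : ℝ, 1 < x ∧ (nm p : ℂ) = (x : ℂ) ^ 3 ∧
    ∀ k : ℤ, (nm p : ℂ) ^ ((k : ℂ) / 3) = (x : ℂ) ^ k := by
  have h1 : 1 < nm p := by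
    have h0 := nm_pos hp.ne_zero
    have h1 : nm p ≠ 1 := fun h => hp.not_isUnit (isUnit_iff_nm.2 h)
    omega
  have h2 : (1 : ℝ) < nm p := by exact_mod_cast h1
  have h3 : (0 : ℝ) ≤ nm p := by positivity
  have key : ∀ k : ℤ, (nm p : ℂ) ^ ((k : ℂ) / 3) = (((nm p : ℝ) ^ (1 / 3 : ℝ) : ℝ) : ℂ) ^ k := by
    intro k
    rw [← Complex.ofReal_zpow, ← Real.rpow_intCast, ← Real.rpow_mul h3, Complex.ofReal_cpow h3]
    push_cast
    congr 1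
    ring
  refine ⟨(nm p : ℝ) ^ (1 / 3 : ℝ), Real.one_lt_rpow h2 (by norm_num), ?_, key⟩
  have := key 3
  rw [zpow_ofNat] at this
  rw [← this]
  norm_num

theorem rs_zero (hR : ResStmt) {p : O} (hp : Prime p) (hp' : Prim p) {Ψ : O × O → ℂ}
    (hΨ : Cls 9 Ψ) : RS (aD 9 Ψ 0 p) (rho Ψ 0 / (1 + 1 / (nm p : ℂ))) := by
  classical
  obtain ⟨x, hx, hP, hk⟩ := exists_cube_root hp
  have hx0 : (x : ℂ) ≠ 0 := by exact_mod_cast (zero_lt_one.trans hx).ne'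
  have hP0 : (nm p : ℂ) ≠ 0 := by rw [hP]; positivity
  have hx3 : (1 : ℝ) < x ^ 3 := one_lt_pow₀ hx (by norm_num)
  have hm : (x : ℂ) ^ 3 - 1 ≠ 0 := by exact_mod_cast (sub_pos.2 hx3).ne'
  have hpl : (x : ℂ) ^ 3 + 1 ≠ 0 := by
    exact_mod_cast (by positivity : (0 : ℝ) < x ^ 3 + 1).ne'
  have e1 : (nm p : ℂ) ^ (3 + -3 * (4 / 3) : ℂ) = ((x : ℂ) ^ 3)⁻¹ := by
    rw [show (3 + -3 * (4 / 3) : ℂ) = ((-3 : ℤ) : ℂ) / 3 by norm_num, hk, zpow_neg, zpow_ofNat]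
  have e2 : (nm p : ℂ) ^ (2 + -3 * (4 / 3) : ℂ) = ((x : ℂ) ^ 6)⁻¹ := by
    rw [show (2 + -3 * (4 / 3) : ℂ) = ((-6 : ℤ) : ℂ) / 3 by norm_num, hk, zpow_neg, zpow_ofNat]
  have hβ : ∀ β, Prim β → RS (psi β 0 p) (rb β 0 / (1 + 1 / (nm p : ℂ))) := by
    intro β hβ
    have h1 := (rs_psi hR hβ 0).hol_mul ((Hol.const 1).sub (hol_cpow hP0 3 (-3)))
    have h0 : 1 - ((x : ℂ) ^ 6)⁻¹ = ((x : ℂ) ^ 3 - 1) * ((x : ℂ) ^ 3 + 1) / (x : ℂ) ^ 6 := by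
      field_simp
      ring
    have h2 := (h1.congr fun s hs => psi_zero hp hp' hβ hs).of_mul
      ((Hol.const 1).sub (hol_cpow hP0 2 (-3))) (by
        simp only [e2, h0]
        positivity)
    simp only [e1, e2, h0] at h2
    convert h2 using 1
    rw [hP]
    field_simp
  obtain ⟨C, -, h⟩ := dec
  obtain ⟨b, hb, -, he⟩ := h Ψ hΨ 0
  have h1 : rho Ψ 0 = ∑ β ∈ (res 9).filter Prim, b β (4 / 3) * rb β 0 :=
    ((RS.sum _ fun β hβ => (rs_psi hR (Finset.mem_filter.1 hβ).2 0).hol_mul (hb β)).congr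
      fun s hs => (he 1 prim_one s hs).symm).rho_eq
  rw [h1, Finset.sum_div]
  simp only [mul_div_assoc]
  exact (RS.sum _ fun β hβ' => (hβ β (Finset.mem_filter.1 hβ').2).hol_mul (hb β)).congr
    fun s hs => (he p hp' s hs).symm

theorem rs_hecke (hR : ResStmt) (hC : CuspStmt) {p : O} (hp : Prime p) (hp' : Prim p)
    {Ψ : O × O → ℂ} (hΨ : Cls 9 Ψ) (ν : O) :
    RS (aD 9 Ψ ν p) (rho Ψ ν / (1 + 1 / (nm p : ℂ))) := by
  obtain ⟨x, hx, hP, hk⟩ := exists_cube_root hp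
  have hx0' : 0 < x := zero_lt_one.trans hx
  have hx0 : (x : ℂ) ≠ 0 := by exact_mod_cast hx0'.ne'
  have hP0 : (nm p : ℂ) ≠ 0 := by rw [hP]; positivity
  have hpl : (x : ℂ) ^ 3 + 1 ≠ 0 := by
    exact_mod_cast (by positivity : (0 : ℝ) < x ^ 3 + 1).ne'
  have e1 : (nm p : ℂ) ^ (2 + -1 * (4 / 3) : ℂ) = (x : ℂ) ^ 2 := by
    rw [show (2 + -1 * (4 / 3) : ℂ) = ((2 : ℤ) : ℂ) / 3 by norm_num, hk, zpow_ofNat]
  have e2 : (nm p : ℂ) ^ (1 + -1 * (4 / 3) : ℂ) = (x : ℂ)⁻¹ := by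
    rw [show (1 + -1 * (4 / 3) : ℂ) = ((-1 : ℤ) : ℂ) / 3 by norm_num, hk, zpow_neg_one]
  have e3 : (nm p : ℂ) ^ (0 + 1 * (4 / 3) : ℂ) = (x : ℂ) ^ 4 := by
    rw [show (0 + 1 * (4 / 3) : ℂ) = ((4 : ℤ) : ℂ) / 3 by norm_num, hk, zpow_ofNat]
  set t : ℂ := -(x : ℂ)⁻¹ with ht
  have ht1 : ‖t‖ ≤ 1 := by
    rw [ht, norm_neg, norm_inv, Complex.norm_real, Real.norm_of_nonneg hx0'.le]
    exact inv_le_one_of_one_le₀ hx.le
  have h9 : (9 : O) ∣ 9 * p := dvd_mul_right _ _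
  have hm : (9 : O) * p ≠ 0 := mul_ne_zero (by decide) hp.ne_zero
  have hw1 : Hol fun s => (nm p : ℂ) ^ (2 + -1 * s) := hol_cpow hP0 _ _
  have hw2 : Hol fun s => (nm p : ℂ) ^ (1 + -1 * s) - t * nm p :=
    (hol_cpow hP0 _ _).sub (Hol.const _)
  have hw3 : Hol fun s => t * (nm p : ℂ) ^ (0 + 1 * s) := (Hol.const _).mul (hol_cpow hP0 _ _)
  have c1 : ∀ Ψ, Cls 9 Ψ → RS (aD (9 * p) (Phi p t Ψ) 0 1) 0 := by
    intro Ψ hΨ
    have h1 := (((hR Ψ hΨ 0).hol_mul hw1).sub ((rs_zero hR hp hp' hΨ).hol_mul hw2)).congr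
      fun s hs => (aD_Phi hp hp' hΨ t 0 hs).symm
    simp only [e1, e2, mul_zero] at h1
    convert h1 using 1
    rw [ht, hP]
    field_simp
    ring
  have c2 : ∀ Ψ, Cls 9 Ψ → RS (aD (9 * p) (fun r => Phi p t Ψ (rmul r mS)) 0 1) 0 := by
    intro Ψ hΨ
    have hΨ' := hΨ.comp_rmul (dvd_refl _) mS
    have h1 := ((rs_zero hR hp hp' hΨ').add
      (((hR _ hΨ' 0).sub (rs_zero hR hp hp' hΨ')).hol_mul hw3)).congr
      fun s hs => (aD_Phi_S hp hp' hΨ ht1 hs).symm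
    simp only [e3] at h1
    convert h1 using 1
    rw [ht, hP]
    field_simp
    ring
  have h0 : RS (aD (9 * p) (Phi p t Ψ) (p * ν) 1) 0 := by
    refine hC _ h9 hm _ (cls_Phi hp hp' ht1 hΨ) (fun g => ?_) _
    rcases sl2_decomp hp g with hg | ⟨y, γ, hγ, rfl⟩
    · obtain ⟨g', -, -, -, -, h⟩ := Phi_rmul hp hg
      simp only [h]
      exact c1 _ (hΨ.comp_rmul (dvd_refl _) g')
    · obtain ⟨g', -, -, -, -, h⟩ := Phi_rmul hp hγ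
      have hΨ' := hΨ.comp_rmul (dvd_refl _) g'
      have h1 := aD_mN h9 hm ((cls_Phi hp hp' ht1 hΨ').comp_rmul h9 mS) y 1
      simp only [rmul_mul, h]
      rw [h1]
      exact c2 _ hΨ'
  have h1 := ((((hR Ψ hΨ ν).hol_mul hw1).sub h0).congr (g := fun s =>
      ((nm p : ℂ) ^ (1 + -1 * s) - t * nm p) * aD 9 Ψ ν p s) fun s hs => by
        rw [aD_Phi hp hp' hΨ t ν hs]
        ring).of_mul hw2 (by
      simp only [e2]
      rw [ht, hP, show (x : ℂ)⁻¹ - -(x : ℂ)⁻¹ * (x : ℂ) ^ 3 = ((x : ℂ) ^ 3 + 1) / x by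
        field_simp; ring]
      positivity)
  simp only [e1, e2] at h1
  convert h1 using 1
  rw [ht, hP, show (x : ℂ)⁻¹ - -(x : ℂ)⁻¹ * (x : ℂ) ^ 3 = ((x : ℂ) ^ 3 + 1) / x by
    field_simp; ring]
  field_simp
  ring

theorem heckeStmt (hR : ResStmt) (hC : CuspStmt) : HeckeStmt := by
  intro p β ν hp hp' hβ
  refine ⟨rs_psi hR hβ ν, ?_⟩
  have h := ((rs_hecke hR hC hp hp' (cls_Psb hβ ν) ν).congr
    fun s _ => aD_Psb hβ (by simp) p s).of_mul (Hol.const 81) (by norm_num)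
  rw [rho_Psb hR hβ (by simp)] at h
  convert h using 1
  ring

end Vale.Agent.P026
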