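import Vale.Agent.P026.ThCEuler

/-! # TH-C: Patterson's relations.
Plan.  `rb_cube`, `rb_one`, `rb_two`: `RS.unique` applied to `psi_cube`, `psi_one`, `psi_two` (`hol_cpow`, `norm_g3_prime`,
`P^(-4/3) * P^(1/3) = P⁻¹`).  `rb_formula`: `Prim.induction` on `d`, then on squarefree `c` (`g3_mul`, `rb_congr`, `Prim.cube`).
`rb_support`: strong induction on `nm n`: a prime with `p³ ∣ n` is removed by `rb_cube`; otherwise `n` is squarefree or `n = p² n'`, `p ∤ n'`. -/

namespace Vale.Agent.P026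

open scoped ComplexConjugate Real Topology
open MeasureTheory Filter Set

theorem rb_congr {β β' : O} (h : (9 : O) ∣ β - β') (ν : O) : rb β ν = rb β' ν := by
  unfold rb
  rw [psi_congr h]

private theorem nmC_ne {p : O} (hp : p ≠ 0) : (nm p : ℂ) ≠ 0 := by
  exact_mod_cast (nm_pos hp).ne'

private theorem k_ne {p : O} (hp : p ≠ 0) : (1 + 1 / (nm p : ℂ)) ≠ 0 := by
  have h : (0 : ℝ) < nm p := by exact_mod_cast nm_pos hp
  have : (0 : ℝ) < 1 + 1 / nm p := by positivity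
  have h2 := Complex.ofReal_ne_zero.2 this.ne'
  push_cast at h2
  exact h2

theorem rb_cube (hH : HeckeStmt) {p β : O} (hp : Prime p) (hp' : Prim p) (hβ : Prim β) (ν : O) :
    rb β (ν * p ^ 3) = rb β ν := by
  have h1 := (hH p β (ν * p ^ 3) hp hp' hβ).2
  have h2 := (hH p β ν hp hp' hβ).2
  rw [psi_cube hp hp' hβ] at h1
  exact (div_left_inj' (k_ne hp.ne_zero)).1 (h1.unique h2)

theorem rb_one (hH : HeckeStmt) {p β ν : O} (hp : Prime p) (hp' : Prim p) (hβ : Prim β)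
    (hν : ¬p ∣ ν) :
    rb β (ν * p) = (((nm p : ℝ) ^ (-2 / 3 : ℝ) : ℝ) : ℂ) * conj (g3 ν p) * rb (β * p) ν := by
  have hP := nmC_ne hp.ne_zero
  have hk := k_ne hp.ne_zero
  obtain ⟨h1, h2⟩ := hH p (β * p) ν hp hp' (hβ.mul hp')
  have h3 := (hH p β (ν * p) hp hp' hβ).2
  have hc : psi (β * p * p ^ 2) (ν * p) p = psi β (ν * p) p := by
    refine psi_congr ?_ _ _
    have : β * p * p ^ 2 - β = β * (p ^ 3 - 1) := by ring
    rw [this]
    exact hp'.cube.mul_left _
  have h4 := h2.add (h3.hol_mul ((Hol.const (g3 ν p)).mul (hol_cpow hP 0 (-1))))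
  have h5 := h1.unique (h4.congr fun s hs => by
    rw [psi_one hp hp' (hβ.mul hp') hν hs, hc]
    simp)
  have h6 : conj (g3 ν p) * g3 ν p = nm p := by
    rw [Complex.conj_mul', ← Complex.ofReal_pow, norm_g3_prime hp hp' hν]
    simp
  have h7 : (((nm p : ℝ) ^ (-2 / 3 : ℝ) : ℝ) : ℂ) * (nm p : ℂ) ^ 2 *
      (nm p : ℂ) ^ (0 + -1 * (4 / 3) : ℂ) = 1 := by
    rw [Complex.ofReal_cpow (Nat.cast_nonneg _), Complex.ofReal_natCast,
      ← Complex.cpow_natCast, ← Complex.cpow_add _ _ hP, ← Complex.cpow_add _ _ hP]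
    convert Complex.cpow_zero _ using 2
    push_cast
    ring
  generalize (nm p : ℂ) ^ (0 + -1 * (4 / 3) : ℂ) = w at h5 h7
  generalize (((nm p : ℝ) ^ (-2 / 3 : ℝ) : ℝ) : ℂ) = v at h7
  have h8 : rb (β * p) ν = nm p * (g3 ν p * w * rb β (ν * p)) := by
    have hk' : (nm p : ℂ) + 1 ≠ 0 := Nat.cast_add_one_ne_zero _
    field_simp at h5
    linear_combination h5
  rw [h8]
  linear_combination (-rb β (ν * p)) * h7 - v * nm p * w * rb β (ν * p) * h6

theorem rb_two (hH : HeckeStmt) {p β ν : O} (hp : Prime p) (hp' : Prim p) (hβ : Prim β)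
    (hν : ¬p ∣ ν) : rb β (ν * p ^ 2) = 0 := by
  have hP := nmC_ne hp.ne_zero
  obtain ⟨h1, h2⟩ := hH p β (ν * p ^ 2) hp hp' hβ
  have h4 := h2.hol_mul ((Hol.const 1).sub (hol_cpow hP 2 (-3)))
  have h5 := h1.unique (h4.congr fun s hs => (psi_two hp hp' hβ hν hs).symm)
  have h7 : (nm p : ℂ) ^ (2 + -3 * (4 / 3) : ℂ) = ((nm p : ℂ) ^ 2)⁻¹ := by
    rw [← Complex.cpow_natCast, ← Complex.cpow_neg]
    congr 1
    push_cast
    ring
  rw [h7] at h5
  have hk' : (nm p : ℂ) + 1 ≠ 0 := Nat.cast_add_one_ne_zero _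
  field_simp at h5
  have h8 : ((nm p : ℂ) + 1) * rb β (ν * p ^ 2) = 0 := by linear_combination h5
  exact (mul_eq_zero.1 h8).resolve_left hk'

private theorem rb_cubes (hH : HeckeStmt) {d β : O} (hd : Prim d) (hβ : Prim β) (ν : O) :
    rb β (ν * d ^ 3) = rb β ν := by
  refine Prim.induction (P := fun d => rb β (ν * d ^ 3) = rb β ν) (by simp) ?_ hd
  intro p n hp hp' _ ih
  rw [← ih, ← rb_cube hH hp hp' hβ (ν * n ^ 3)]
  congr 1
  ring

private theorem rb_sqf (hH : HeckeStmt) {c : O} (hc : Prim c) : Squarefree c → ∀ a β : O,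
    IsCoprime a c → Prim β → rb β (a * c) =
      (((nm c : ℝ) ^ (-2 / 3 : ℝ) : ℝ) : ℂ) * conj (g3 a c) * rb (β * c) a := by
  refine Prim.induction (P := fun c => Squarefree c → ∀ a β : O,
    IsCoprime a c → Prim β → rb β (a * c) =
      (((nm c : ℝ) ^ (-2 / 3 : ℝ) : ℝ) : ℂ) * conj (g3 a c) * rb (β * c) a) ?_ ?_ hc
  · intro _ a β _ _
    simp [g3_one]
  · intro p n hp hp' hn ih hs a β ha hβ
    have hpn : ¬p ∣ n := fun h => hp.not_isUnit (hs p (mul_dvd_mul_left p h))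
    have hpa : ¬p ∣ a := G2.not_dvd_of_coprime hp ha.of_mul_right_left
    have hpan : ¬p ∣ a * n := fun h => (hp.dvd_or_dvd h).elim hpa hpn
    have e1 : a * (p * n) = a * n * p := by ring
    rw [e1, rb_one hH hp hp' hβ hpan, ih hs.of_mul_right a _ ha.of_mul_right_right (hβ.mul hp'),
      mul_comm p n, g3_mul hn hp' (G2.coprime_of_not_dvd hp hpn), nm_mul, Nat.cast_mul,
      Real.mul_rpow (Nat.cast_nonneg _) (Nat.cast_nonneg _), map_mul, mul_assoc β, mul_comm p n]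
    push_cast
    ring

private theorem ulam_coprime {u c : O} (hu : IsUnit u) (j : ℕ) (hc : Prim c) :
    IsCoprime (u * lam ^ j) c := by
  refine IsCoprime.mul_left ?_ (coprime_lam hc).pow_left
  obtain ⟨u, rfl⟩ := hu
  exact ⟨(u⁻¹ : Oˣ), 0, by simp⟩

theorem rb_formula (hH : HeckeStmt) {u c d β : O} (hu : IsUnit u) (j : ℕ) (hc : Prim c)
    (hs : Squarefree c) (hd : Prim d) (hβ : Prim β) :
    rb β (u * lam ^ j * (c * d ^ 3)) = cub (u * lam ^ j) c * conj (gt3 c) *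
      (((nm c : ℝ) ^ (-1 / 6 : ℝ) : ℝ) : ℂ) * rb (β * c) (u * lam ^ j) := by
  have hco := ulam_coprime hu j hc
  have hN : (0 : ℝ) < nm c := by exact_mod_cast nm_pos hc.ne_zero
  have h1 := g3_twist hc.ne_zero hco 1
  rw [one_mul] at h1
  have h2 : (nm c : ℝ) ^ (-1 / 6 : ℝ) = (nm c : ℝ) ^ (-2 / 3 : ℝ) * √(nm c) := by
    rw [Real.sqrt_eq_rpow, ← Real.rpow_add hN]
    norm_num
  have h3 := G2.sqrt_nm_ne hc.ne_zero
  rw [← mul_assoc, rb_cubes hH hd hβ, rb_sqf hH hc hs _ _ hco hβ, h1, h2, gt3, map_mul,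
    Complex.conj_conj, map_div₀, Complex.conj_ofReal]
  push_cast
  field_simp

theorem rb_support (hH : HeckeStmt) {u n β : O} (hu : IsUnit u) (j : ℕ) (hn : Prim n)
    (hβ : Prim β) (h : rb β (u * lam ^ j * n) ≠ 0) :
    ∃ c d, Prim c ∧ Squarefree c ∧ Prim d ∧ n = c * d ^ 3 := by
  induction hN : nm n using Nat.strong_induction_on generalizing n with
  | _ N ih =>
    by_cases hs : Squarefree n
    · exact ⟨n, 1, hn, hs, prim_one, by simp⟩
    · rw [squarefree_iff_no_irreducibles hn.ne_zero] at hs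
      push Not at hs
      obtain ⟨q, hq, hqn⟩ := hs
      have hql : ¬lam ∣ q := fun h => hn.not_lam_dvd (h.trans ((dvd_mul_right q q).trans hqn))
      obtain ⟨v, p, hv, hp', rfl⟩ := exists_prim hql
      have hp : Prime p := ((irreducible_isUnit_mul hv).1 hq).prime
      obtain ⟨m, hm⟩ : p ^ 2 ∣ n := by
        refine Dvd.dvd.trans ⟨v * v, by ring⟩ hqn
      have hmp : Prim m := Prim.of_mul (hp'.pow 2) (hm ▸ hn)
      by_cases hpm : p ∣ m
      · obtain ⟨m', rfl⟩ := hpm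
        have hm' : Prim m' := Prim.of_mul hp' hmp
        have e1 : u * lam ^ j * n = u * lam ^ j * m' * p ^ 3 := by rw [hm]; ring
        rw [e1, rb_cube hH hp hp' hβ] at h
        have hlt : nm m' < N := by
          have h2 := SymAux.two_le_nm hp
          have h3 := nm_pos hm'.ne_zero
          rw [← hN, hm, nm_mul, nm_mul, nm_pow]
          have h4 : 1 * (2 * nm m') ≤ nm p ^ 2 * (nm p * nm m') :=
            Nat.mul_le_mul (Nat.one_le_pow _ _ (by omega)) (Nat.mul_le_mul_right _ h2)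
          omega
        obtain ⟨c, d, h1, h2, h3, h4⟩ := ih _ hlt hm' h rfl
        exact ⟨c, p * d, h1, h2, hp'.mul h3, by rw [hm, h4]; ring⟩
      · exfalso
        have hpa : ¬p ∣ u * lam ^ j := G2.not_dvd_of_coprime hp (ulam_coprime hu j hp')
        have e1 : u * lam ^ j * n = u * lam ^ j * m * p ^ 2 := by rw [hm]; ring
        rw [e1] at h
        exact h (rb_two hH hp hp' hβ fun h => (hp.dvd_or_dvd h).elim hpa hpm)

end Vale.Agent.P026
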