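import Vale.Agent.P026.ThCEuler
import Vale.Agent.P026.Zeta

/-! # TH-C: the constant term has a pole.
Plan.  `g3_zero_ne`: strong induction on `nm c` (write `c = p^k c'`, `g3 0 c = g3 0 (p^k) g3 0 c'`, `3 ∣ k`).
`g3_zero_cube`: `cub x (e³) = cub x e ^ 3 = ind (IsCoprime x e)`, `ind_coprime`, `∑_{x mod e³} ind (f ∣ x) = N(e)³ / N f` (`sum_res_mul`, or `sum_eq`).
`psi_one_zero`: reindex `c = e³` (injective on primary elements: `cube_decomp_unique` with `c = 1`), then `e = f e'`
(`Summable.tsum_mul_tsum`, `HasSum.sigma`/`tsum_fiberwise` along `(f, e') ↦ f e'`, fibre `pdiv e`).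
`exists_rs_Z`: `zP` is holomorphic on `Re w > 1` (`differentiableOn_tsum_of_summable_norm`, `summable_rpow`), so `s ↦ zP (3s-3)` is holomorphic on
`Dom` with `HasRes` value `c/3` (`tendsto_zetaP` composed with `ε ↦ 3 sE ε - 3`), `s ↦ mP (3s-2)` is `Hol`, nonzero at `4/3` by `zetaP_mul_mu`. -/

namespace Vale.Agent.P026

open scoped ComplexConjugate Real Topology
open MeasureTheory Filter Set

/-- zeta function over primary elements -/
noncomputable def zP (w : ℂ) : ℂ := ∑' n : O, ind (Prim n) * (nm n : ℂ) ^ (-w)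
/-- its inverse -/
noncomputable def mP (w : ℂ) : ℂ := ∑' n : O, ind (Prim n) * mu n * (nm n : ℂ) ^ (-w)

theorem g3_zero_ne {c : O} (hc : Prim c) (h : g3 0 c ≠ 0) : ∃ e, Prim e ∧ c = e ^ 3 := by
  induction hk : nm c using Nat.strong_induction_on generalizing c with
  | _ k ih =>
  by_cases hu : IsUnit c
  · exact ⟨1, prim_one, by rw [hc.eq_one_of_isUnit hu, one_pow]⟩
  obtain ⟨p₀, hp₀, hd⟩ := WfDvdMonoid.exists_irreducible_factor hu hc.ne_zero
  obtain ⟨u, p, hu', hp', rfl⟩ := exists_prim (n := p₀) fun h' => hc.not_lam_dvd (h'.trans hd)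
  have hp : Prime p := ((associated_unit_mul_left p u hu').irreducible hp₀).prime
  obtain ⟨j, m, hm, rfl⟩ := WfDvdMonoid.max_power_factor hc.ne_zero hp.irreducible
  have hm' : Prim m := (hp'.pow j).of_mul hc
  have hj : 1 ≤ j := by
    rcases Nat.eq_zero_or_pos j with rfl | hj
    · exact (hm (by simpa using (dvd_mul_left p u).trans hd)).elim
    · exact hj
  rw [g3_mul (hp'.pow j) hm' ((hp.irreducible.coprime_iff_not_dvd.2 hm).pow_left), zero_mul] at h
  have h1 := left_ne_zero_of_mul h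
  have h2 := g3_prime_pow_of_le hp hp' 0 (le_refl j) hj
  rw [zero_mul] at h2
  have h3 : 3 ∣ j := by
    by_contra h3
    rw [if_neg h3] at h2
    exact h1 h2
  obtain ⟨i, rfl⟩ := h3
  have h4 : nm m < k := by
    rw [← hk, nm_mul, nm_pow]
    exact lt_mul_of_one_lt_left (nm_pos hm'.ne_zero)
      (Nat.one_lt_pow (by omega) (SymAux.two_le_nm hp))
  obtain ⟨e, he, rfl⟩ := ih _ h4 hm' (right_ne_zero_of_mul h) rfl
  exact ⟨p ^ i * e, (hp'.pow i).mul he, by ring⟩

theorem g3_zero_cube {e : O} (he : Prim e) :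
    g3 0 (e ^ 3) = ∑ f ∈ pdiv e, mu f * ((nm e : ℂ) ^ 3 / nm f) := by
  have h1 : ∀ x, cub x (e ^ 3) * eq (0 * x) (e ^ 3) = ∑ f ∈ pdiv e, mu f * ind (f ∣ x) := by
    intro x
    rw [zero_mul, eq_zero, mul_one, cub_pow_right he.ne_zero, ← ind_coprime he]
    by_cases h : IsCoprime x e
    · rw [cub_cube h, ind_of h]
    · rw [cub_eq_zero he.not_lam_dvd h, ind_of_not h]; simp
  rw [g3, Finset.sum_congr rfl fun x _ => h1 x, Finset.sum_comm]
  refine Finset.sum_congr rfl fun f hf => ?_
  obtain ⟨hf1, c, hc⟩ := (mem_pdiv he.ne_zero).1 hf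
  have hc0 : c ≠ 0 := right_ne_zero_of_mul (hc ▸ he.ne_zero)
  have h2 : e ^ 3 = (e ^ 2 * c) * f := by rw [pow_succ, mul_assoc, mul_comm c, ← hc]
  have h3 : Per f fun x => ind (f ∣ x) := fun x y hxy => by
    simp only [dvd_iff_dvd_of_dvd_sub hxy]
  have h4 : ∑ x ∈ res f, ind (f ∣ x) = 1 := by
    simpa only [zero_sub, dvd_neg] using sum_res_ind hf1.ne_zero 0
  have h5 : (nm f : ℂ) ≠ 0 := Nat.cast_ne_zero.2 (nm_pos hf1.ne_zero).ne'
  rw [← Finset.mul_sum, h2, sum_res_mul_per (mul_ne_zero (pow_ne_zero 2 he.ne_zero) hc0)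
    hf1.ne_zero h3, h4, mul_one]
  congr 1
  rw [eq_div_iff h5, ← Nat.cast_mul, ← nm_mul, ← h2, nm_pow, Nat.cast_pow]

/-- Dirichlet convolution over primary elements -/
theorem ThCZ_conv {A B : O → ℂ} (hA : Summable fun n => ‖ind (Prim n) * A n‖)
    (hB : Summable fun n => ‖ind (Prim n) * B n‖) :
    (∑' n, ind (Prim n) * A n) * ∑' n, ind (Prim n) * B n =
      ∑' n, ind (Prim n) * ∑ f ∈ pdiv n, A f * B (n / f) := by
  classical
  have h3 := summable_mul_of_summable_norm hA hB
  rw [tsum_mul_tsum_of_summable_norm hA hB,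
    ← (h3.hasSum.tsum_fiberwise (fun p : O × O => p.1 * p.2)).tsum_eq]
  refine tsum_congr fun n => ?_
  rw [tsum_subtype ((fun p : O × O => p.1 * p.2) ⁻¹' {n}) (fun p : O × O =>
    ind (Prim p.1) * A p.1 * (ind (Prim p.2) * B p.2))]
  by_cases hn : Prim n
  · rw [ind_of hn, one_mul, tsum_eq_sum (s := (pdiv n).image fun f => (f, n / f)),
      Finset.sum_image fun f _ g _ h => congrArg Prod.fst h]
    · refine Finset.sum_congr rfl fun f hf => ?_
      obtain ⟨a1, c, rfl⟩ := (mem_pdiv hn.ne_zero).1 hf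
      rw [mul_div_cancel_left₀ c a1.ne_zero, Set.indicator_of_mem
        (show (f, c) ∈ (fun p : O × O => p.1 * p.2) ⁻¹' {f * c} from rfl), ind_of a1,
        ind_of (a1.of_mul hn), one_mul, one_mul]
    · intro p hp
      by_cases h : p ∈ (fun p : O × O => p.1 * p.2) ⁻¹' {n}
      · rw [Set.indicator_of_mem h]
        have h' : p.1 * p.2 = n := h
        by_cases a1 : Prim p.1
        · refine (hp (Finset.mem_image.2 ⟨p.1,
            (mem_pdiv hn.ne_zero).2 ⟨a1, h' ▸ dvd_mul_right _ _⟩, ?_⟩)).elim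
          rw [← h', mul_div_cancel_left₀ _ a1.ne_zero]
        · simp [ind_of_not a1]
      · exact Set.indicator_of_notMem h _
  · rw [ind_of_not hn, zero_mul]
    refine (tsum_congr fun p => ?_).trans tsum_zero
    by_cases h : p ∈ (fun p : O × O => p.1 * p.2) ⁻¹' {n}
    · rw [Set.indicator_of_mem h]
      have h' : p.1 * p.2 = n := h
      by_cases a1 : Prim p.1
      · have a2 : ¬ Prim p.2 := fun a2 => hn (h' ▸ a1.mul a2)
        simp [ind_of_not a2]
      · simp [ind_of_not a1]
    · exact Set.indicator_of_notMem h _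

theorem ThCZ_norm_mu (n : O) : ‖ind (Prim n) * mu n‖ ≤ 1 := by
  rw [norm_mul]; exact mul_le_one₀ (norm_ind_le _) (norm_nonneg _) (norm_mu_le _)

theorem psi_one_zero {s : ℂ} (hs : 2 < s.re) :
    psi 1 0 1 s = mP (3 * s - 2) * zP (3 * s - 3) := by
  have h1 := summable_norm_cpow (s := 3 * s - 2) ThCZ_norm_mu (by simp; linarith)
  have h2 := summable_norm_cpow (s := 3 * s - 3) (fun n => norm_ind_le (Prim n))
    (by simp; linarith)
  simp only [mul_assoc] at h1
  have h3 := ThCZ_conv h1 h2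
  simp only [← mul_assoc] at h3
  rw [mP, zP, h3, psi]
  have hi : Function.Injective fun e : {e : O | Prim e} => e.1 ^ 3 := fun a b h =>
    Subtype.ext (cube_decomp_unique prim_one squarefree_one a.2 prim_one squarefree_one b.2
      (congrArg (1 * ·) h)).2
  rw [← hi.tsum_eq]
  · rw [tsum_subtype {e : O | Prim e} (fun e => ind ((9 : O) ∣ e ^ 3 - 1 ∧ IsCoprime (e ^ 3) 1) *
      g3 0 (e ^ 3) * (nm (e ^ 3) : ℂ) ^ (-s))]
    refine tsum_congr fun e => ?_
    by_cases he : Prim e
    · rw [Set.indicator_of_mem (show e ∈ {e : O | Prim e} from he), ind_of he,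
        ind_of ⟨he.cube, isCoprime_one_right⟩, g3_zero_cube he, one_mul, one_mul, Finset.sum_mul]
      refine Finset.sum_congr rfl fun f hf => ?_
      obtain ⟨a1, c, rfl⟩ := (mem_pdiv he.ne_zero).1 hf
      have a2 : (nm f : ℂ) ≠ 0 := Nat.cast_ne_zero.2 (nm_pos a1.ne_zero).ne'
      have a3 : (nm c : ℂ) ≠ 0 := Nat.cast_ne_zero.2 (nm_pos (a1.of_mul he).ne_zero).ne'
      rw [mul_div_cancel_left₀ c a1.ne_zero, nm_pow, Nat.cast_pow,
        ← Complex.natCast_cpow_natCast_mul, nm_mul, Nat.cast_mul,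
        Complex.natCast_mul_natCast_cpow, neg_sub, neg_sub, Complex.cpow_sub _ _ a2,
        Complex.cpow_sub _ _ a3, Nat.cast_ofNat, mul_neg, Complex.cpow_neg, Complex.cpow_neg,
        Complex.cpow_ofNat, Complex.cpow_ofNat]
      field_simp
    · rw [Set.indicator_of_notMem (show e ∉ {e : O | Prim e} from he), ind_of_not he, zero_mul]
  · intro c hc
    have a1 := left_ne_zero_of_mul (Function.mem_support.1 hc)
    have a2 : (9 : O) ∣ c - 1 := by
      by_contra a2
      exact left_ne_zero_of_mul a1 (ind_of_not fun h => a2 h.1)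
    obtain ⟨e, he, rfl⟩ := g3_zero_ne (prim_one.of_dvd_sub ⟨3, by norm_num⟩ a2)
      (right_ne_zero_of_mul a1)
    exact ⟨⟨e, he⟩, rfl⟩

theorem ThCZ_hol {f : O → ℂ} (hf : ∀ n, ‖f n‖ ≤ 1) :
    Hol fun w => ∑' n : O, f n * (nm n : ℂ) ^ (-w) := by
  intro w hw
  obtain ⟨σ, h1, h2⟩ := exists_between (show 1 < w.re from hw)
  have hU : IsOpen {z : ℂ | σ < z.re} := isOpen_lt continuous_const Complex.continuous_re
  refine ((Complex.differentiableOn_tsum_of_summable_norm (summable_rpow h1) (fun n => ?_) hU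
    (fun n z hz => ?_)).differentiableAt (hU.mem_nhds h2)).differentiableWithinAt
  · rcases eq_or_ne n 0 with rfl | hn
    · refine (differentiableOn_const 0).congr fun z hz => ?_
      have : -z ≠ 0 := fun h => by
        rw [neg_eq_zero.1 h] at hz
        exact absurd (h1.trans hz) (by norm_num)
      rw [nm_zero, Nat.cast_zero, Complex.zero_cpow this, mul_zero]
    · exact ((differentiable_const _).mul (Differentiable.const_cpow differentiable_neg
        (Or.inl (Nat.cast_ne_zero.2 (nm_pos hn).ne')))).differentiableOn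
  · have hz' : σ < z.re := hz
    rw [norm_mul, Complex.norm_natCast_cpow_of_re_ne_zero _ (by rw [Complex.neg_re]; linarith),
      Complex.neg_re]
    refine (mul_le_of_le_one_left (by positivity) (hf n)).trans ?_
    rcases eq_or_ne n 0 with rfl | hn
    · rw [nm_zero, Nat.cast_zero, Real.zero_rpow (by linarith), Real.zero_rpow (by linarith)]
    · exact Real.rpow_le_rpow_of_exponent_le (one_le_nm hn) (by linarith)

theorem exists_rs_Z : ∃ x : ℂ, x ≠ 0 ∧ RS (psi 1 0 1) x := by
  obtain ⟨c, hc, ht⟩ := tendsto_zetaP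
  have hz : Hol zP := ThCZ_hol fun n => norm_ind_le (Prim n)
  have hm : Hol mP := ThCZ_hol ThCZ_norm_mu
  have h1 : HasRes (fun s => zP (3 * s - 3)) (c / 3) := by
    refine ⟨_, hz.comp (f := fun s => 3 * s - 3) (by fun_prop) fun s hs => ?_, fun _ _ _ => rfl, ?_⟩
    · have := hs.1
      simp only [mem_ofPred_eq, Complex.sub_re, Complex.mul_re, Complex.re_ofNat,
        Complex.im_ofNat]
      linarith
    · have t1 : Tendsto (fun ε => 3 * sE ε - 3) (𝓝[>] 0) (𝓝[{w | 1 < w.re}] 1) := by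
        refine tendsto_nhdsWithin_iff.2 ⟨?_, ?_⟩
        · have := (tendsto_sE.const_mul 3).sub_const 3
          rwa [show (3 : ℂ) * (4 / 3) - 3 = 1 by norm_num] at this
        · filter_upwards [sE_mem] with ε hε
          have := hε.1
          simp only [Complex.sub_re, Complex.mul_re, Complex.re_ofNat,
            Complex.im_ofNat]
          linarith
      refine ((ht.comp t1).div_const 3).congr fun ε => ?_
      simp only [Function.comp, zP]
      ring
  have h2 : Hol fun s => mP (3 * s - 2) :=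
    hm.comp (f := fun s => 3 * s - 2) (by fun_prop) fun s hs => by
      have : 1 < s.re := hs
      simp only [mem_ofPred_eq, Complex.sub_re, Complex.mul_re, Complex.re_ofNat,
        Complex.im_ofNat]
      linarith
  refine ⟨_, mul_ne_zero ?_ (div_ne_zero hc three_ne_zero),
    (h1.mul_hol' h2).rs.congr fun s hs => (psi_one_zero hs).symm⟩
  have h3 := zetaP_mul_mu 1 (fun _ _ _ _ => by simp) rfl (fun _ => by simp)
    (s := 3 * (4 / 3) - 2) (by norm_num)
  simp only [Pi.one_apply, mul_one] at h3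
  exact right_ne_zero_of_mul (h3.trans_ne one_ne_zero)

end Vale.Agent.P026
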