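import Vale.Agent.P026.ThCAut
import Vale.Agent.P026.ThCHecke
import Vale.Agent.P026.ThCRel
import Vale.Agent.P026.ThCZ
import Vale.Agent.P026.ThCDec

/-! # TH-C: the cubic theta functions. -/

namespace Vale.Agent.P026

open scoped ComplexConjugate Real Topology
open MeasureTheory Filter Set

theorem rho_smul (hR : ResStmt) {Ψ : O × O → ℂ} (hΨ : Cls 9 Ψ) (ζ : ℂ) (ν : O) :
    rho (fun r => ζ * Ψ r) ν = ζ * rho Ψ ν :=
  (((hR Ψ hΨ ν).const_mul ζ).congr fun s _ => (aD_smul 9 Ψ ζ ν 1 s).symm).rho_eq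

open Classical in
theorem rho_dec (hR : ResStmt) : ∃ C : ℝ, 0 ≤ C ∧ ∀ Ψ, Cls 9 Ψ → ∀ ν : O, ∃ b : O → ℂ,
    (∀ β, ‖b β‖ ≤ C) ∧ rho Ψ ν = ∑ β ∈ (res 9).filter Prim, b β * rb β ν := by
  obtain ⟨C, hC, h⟩ := dec
  refine ⟨C, hC, fun Ψ hΨ ν => ?_⟩
  obtain ⟨b, hb, hbC, he⟩ := h Ψ hΨ ν
  refine ⟨fun β => b β (4 / 3), hbC, RS.rho_eq ?_⟩
  exact (RS.sum _ fun β hβ =>
    (rs_psi hR (Finset.mem_filter.1 hβ).2 ν).hol_mul (hb β)).congr fun s hs =>
      (he 1 prim_one s hs).symm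

theorem norm_rb_le (hR : ResStmt) (hB : BndStmt) : ∃ C : ℝ, 0 ≤ C ∧ ∀ β ν : O, Prim β → ν ≠ 0 →
    ‖rb β ν‖ ≤ C * (nm ν : ℝ) ^ (1 / 3 : ℝ) := by
  obtain ⟨C, hC, h⟩ := hB
  refine ⟨C, hC, fun β ν hβ hν => ?_⟩
  have h1 := h _ (cls_Psb hβ ν) ν hν
  rw [rho_Psb hR hβ (by simp), norm_mul] at h1
  have h2 : ‖(81 : ℂ)‖ = 81 := by simp
  rw [h2] at h1
  linarith [norm_nonneg (rb β ν)]

theorem nm_ulam {u : O} (hu : IsUnit u) (j : ℕ) : nm (u * lam ^ j) = 3 ^ j := by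
  rw [nm_mul, nm_pow, nm_lam, isUnit_iff_nm.1 hu, one_mul]

theorem exists_rb_ne_zero (hR : ResStmt) (hH : HeckeStmt) (hA : AutStmt) :
    ∃ (u : O) (j : ℕ) (β : O), IsUnit u ∧ Prim β ∧ rb β (u * lam ^ j) ≠ 0 := by
  classical
  by_contra hcon
  push Not at hcon
  have h1 : ∀ β ν, Prim β → ν ≠ 0 → rb β ν = 0 := by
    intro β ν hβ hν
    obtain ⟨u, j, n, hu, hn, rfl⟩ := exists_decomp hν
    by_contra h
    obtain ⟨c, d, hc, hs, hd, rfl⟩ := rb_support hH hu j hn hβ h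
    rw [rb_formula hH hu j hc hs hd hβ, hcon u j _ hu (hβ.mul hc), mul_zero] at h
    exact h rfl
  have h2 : ∀ Ψ, Cls 9 Ψ → ∀ ν, ν ≠ 0 → rho Ψ ν = 0 := by
    intro Ψ hΨ ν hν
    obtain ⟨C, -, h⟩ := rho_dec hR
    obtain ⟨b, -, he⟩ := h Ψ hΨ ν
    rw [he]
    exact Finset.sum_eq_zero fun β hβ => by
      rw [h1 β ν (Finset.mem_filter.1 hβ).2 hν, mul_zero]
  have h3 : ∀ Ψ, Cls 9 Ψ → ∀ v : ℝ, 0 < v →
      th (rho Ψ) (0, v) = rho Ψ 0 * ((3 * π * v ^ (2 / 3 : ℝ) : ℝ) : ℂ) := by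
    intro Ψ hΨ v hv
    rw [th, tsum_eq_single 0 fun ν hν => by rw [h2 Ψ hΨ ν hν, zero_mul, zero_mul]]
    simp only [mul_zero, zero_div, ec_zero, mul_one]
    rw [Wh_four_thirds 0 hv, Wr_zero hv]
  obtain ⟨x, hx, hZ⟩ := exists_rs_Z
  have hΨ := cls_Psb prim_one 0
  have hΨ' := hΨ.comp_rmul (dvd_refl _) mS⁻¹
  have h4 : rho (Psb 1 0) 0 = 81 * x := by rw [rho_Psb hR prim_one (by simp), hZ.rb_eq]
  have key : ∀ v : ℝ, 0 < v → 81 * x * ((3 * π * (1 / v) ^ (2 / 3 : ℝ) : ℝ) : ℂ) =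
      rho (fun r => Psb 1 0 (rmul r mS⁻¹)) 0 * ((3 * π * v ^ (2 / 3 : ℝ) : ℝ) : ℂ) := by
    intro v hv
    have h5 := hA _ hΨ mS (0, v) hv
    have h6 : act mS (0, v) = (0, 1 / v) := by
      rw [act_mS]
      refine Prod.ext (by simp) ?_
      simp only [norm_zero]
      field_simp
      ring
    rw [h6, h3 _ hΨ _ (by positivity), h3 _ hΨ' _ hv, h4] at h5
    exact h5
  have k1 := key 1 one_pos
  have k8 := key 8 (by norm_num)
  have e8 : (8 : ℝ) ^ (2 / 3 : ℝ) = 4 := by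
    rw [show (8 : ℝ) = 2 ^ (3 : ℝ) by norm_num, ← Real.rpow_mul (by norm_num)]
    norm_num
  rw [Real.div_rpow zero_le_one (by norm_num), Real.one_rpow, e8] at k8
  rw [div_one, Real.one_rpow] at k1
  have hπ : (π : ℂ) ≠ 0 := by exact_mod_cast Real.pi_ne_zero
  push_cast at k1 k8
  apply hx
  have : (π : ℂ) * x = 0 := by linear_combination (16 / 3645 : ℂ) * k1 * 4 / 4 - (4 / 3645 : ℂ) * k8
  exact (mul_eq_zero.1 this).resolve_left hπ

theorem theta (hB : ThBStmt) : ThetaStmt := by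
  classical
  have hR := resStmt hB
  have hH := heckeStmt hR (cuspStmt hB)
  have hA := autStmt hB
  obtain ⟨C, hC, hdec⟩ := rho_dec hR
  obtain ⟨C', hC', hrb⟩ := norm_rb_le hR (bndStmt hB)
  refine ⟨rho, 81 * C * C', hA, fun Ψ hΨ ζ _ ν => rho_smul hR hΨ ζ ν, fun Ψ hΨ ν hν h => ?_, ?_⟩
  · obtain ⟨b, hb, he⟩ := hdec Ψ hΨ ν
    obtain ⟨u, j, n, hu, hn, rfl⟩ := exists_decomp hν
    rw [he] at h
    obtain ⟨β₀, hβ₀, h0⟩ := Finset.exists_ne_zero_of_sum_ne_zero h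
    obtain ⟨c, d, hc, hs, hd, rfl⟩ :=
      rb_support hH hu j hn (Finset.mem_filter.1 hβ₀).2 (right_ne_zero_of_mul h0)
    refine ⟨u, j, c, d, hu, hc, hs, hd, by ring, ?_⟩
    have hν₀ : u * lam ^ j ≠ 0 := mul_ne_zero hu.ne_zero (pow_ne_zero _ prime_lam.ne_zero)
    have e3 : ((nm (u * lam ^ j) : ℕ) : ℝ) ^ (1 / 3 : ℝ) = 3 ^ (j / 3 : ℝ) := by
      rw [nm_ulam hu, Nat.cast_pow, Nat.cast_ofNat, ← Real.rpow_natCast,
        ← Real.rpow_mul (by norm_num)]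
      congr 1
      ring
    have hN : (0 : ℝ) ≤ (nm c : ℝ) ^ (-1 / 6 : ℝ) := by positivity
    have h3 : (0 : ℝ) ≤ 3 ^ (j / 3 : ℝ) := by positivity
    have hterm : ∀ β ∈ (res 9).filter Prim, ‖b β * rb β (u * lam ^ j * (c * d ^ 3))‖ ≤
        C * C' * 3 ^ (j / 3 : ℝ) * (nm c : ℝ) ^ (-1 / 6 : ℝ) := by
      intro β hβ
      have hβ := (Finset.mem_filter.1 hβ).2
      have h1 := hrb _ _ (hβ.mul hc) hν₀
      rw [e3] at h1
      rw [rb_formula hH hu j hc hs hd hβ]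
      simp only [norm_mul, Complex.norm_conj, norm_gt3 hc hs, Complex.norm_real,
        Real.norm_of_nonneg hN, mul_one]
      calc _ ≤ C * (1 * (nm c : ℝ) ^ (-1 / 6 : ℝ) * (C' * 3 ^ (j / 3 : ℝ))) := by
            gcongr
            · exact hb β
            · exact norm_cub_le _ _
        _ = _ := by ring
    rw [he]
    have hcard : (((res 9).filter Prim).card : ℝ) ≤ 81 := by
      have h1 := Finset.card_filter_le (res 9) Prim
      rw [card_res (by decide), show nm 9 = 81 by decide] at h1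
      exact_mod_cast h1
    calc _ ≤ _ := norm_sum_le _ _
      _ ≤ _ := Finset.sum_le_card_nsmul _ _ _ hterm
      _ ≤ 81 * (C * C' * 3 ^ (j / 3 : ℝ) * (nm c : ℝ) ^ (-1 / 6 : ℝ)) := by
          rw [nsmul_eq_mul]
          gcongr
      _ = _ := by ring
  · obtain ⟨u, j, β₀, hu, hβ₀, h0⟩ := exists_rb_ne_zero hR hH hA
    refine ⟨u, j, 81 * rb β₀ (u * lam ^ j), hu, mul_ne_zero (by norm_num) h0, fun α hα => ?_⟩
    have hβ : Prim (β₀ * α ^ 2) := hβ₀.mul (hα.pow 2)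
    refine ⟨fun r => conj (cub (u * lam ^ j) α) * Psb (β₀ * α ^ 2) (u * lam ^ j * α) r,
      (cls_Psb hβ _).smul (by rw [Complex.norm_conj]; exact norm_cub_le _ _), fun n hn => ?_⟩
    have hnP : Prim n := hα.of_dvd_sub ⟨3, by norm_num⟩ hn
    rw [rho_smul hR (cls_Psb hβ _), rho_Psb hR hβ (by rw [← mul_sub]; exact hn.mul_left _)]
    by_cases hex : ∃ c d, Prim c ∧ Squarefree c ∧ Prim d ∧ n = c * d ^ 3
    · obtain ⟨c, d, hc, hs, hd, rfl⟩ := hex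
      have hcα : (9 : O) ∣ α - c := by
        have := dvd_sub (hd.cube.mul_left c) hn
        rwa [show c * (d ^ 3 - 1) - (c * d ^ 3 - α) = α - c by ring] at this
      have hcl : (9 : O) ∣ β₀ * α ^ 2 * c - β₀ := by
        have := dvd_sub (hα.cube.mul_left β₀) (hcα.mul_left (β₀ * α ^ 2))
        rwa [show β₀ * (α ^ 3 - 1) - β₀ * α ^ 2 * (α - c) = β₀ * α ^ 2 * c - β₀ by ring] at this
      have hcop : IsCoprime (u * lam ^ j) c := by
        refine IsCoprime.mul_left ((isCoprime_mul_unit_left_left hu 1 c).2 isCoprime_one_left |>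
          fun h => by simpa using h) (IsCoprime.pow_left ?_)
        exact (prime_lam.irreducible.coprime_iff_not_dvd).2 hc.not_lam_dvd
      have h1 : conj (cub (u * lam ^ j) c) * cub (u * lam ^ j) c = 1 := by
        rw [Complex.conj_mul', norm_cub hcop]
        simp
      have hd0 : (0 : ℝ) < nm d := by exact_mod_cast nm_pos hd.ne_zero
      have h2 : ((nm (c * d ^ 3) : ℕ) : ℝ) ^ (-1 / 6 : ℝ) * √(nm d) = (nm c : ℝ) ^ (-1 / 6 : ℝ) := by
        rw [nm_mul, nm_pow, Nat.cast_mul, Nat.cast_pow, Real.mul_rpow (by positivity) (by positivity),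
          ← Real.rpow_natCast, ← Real.rpow_mul hd0.le, Real.sqrt_eq_rpow, mul_assoc,
          ← Real.rpow_add hd0]
        norm_num
      rw [rb_formula hH hu j hc hs hd hβ, rb_congr hcl, cub_ulam_congr hu j hα hcα, th0_eq hc hs hd,
        ← h2]
      push_cast
      linear_combination (81 * conj (gt3 c) * ((((nm (c * d ^ 3) : ℕ) : ℝ) ^ (-1 / 6 : ℝ) : ℝ) : ℂ) *
        (√(nm d) : ℝ) * rb β₀ (u * lam ^ j)) * h1
    · have h1 : rb (β₀ * α ^ 2) (u * lam ^ j * n) = 0 := by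
        by_contra h
        exact hex (rb_support hH hu j hnP hβ h)
      have h2 : th0 n = 0 := by
        by_contra h
        exact hex (th0_ne_zero h)
      rw [h1, h2]
      simp

end Vale.Agent.P026
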