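import Vale.Agent.P026.VorCore

/-! VOR part 7: `VBStmt`.
Plan. Unpack `ThetaStmt` (`ν₀ = u λ^j`, `κ`).  Split `φ = ∑_{α ∈ res 9} ind (9 ∣ n - α) φ` (`sum_res_ind`, Cauchy-Schwarz costs `81`); the piece vanishes unless `α` is primary.
For primary `α` take `Ψ` from `ThetaStmt`, `R' = ν₀ R`, `N' = 3^j N`, `φ' ν = ind (9 ∣ n - α) φ n` if `ν = ν₀ n` and `0` if `¬ ν₀ ∣ ν`
(periodic mod `R'`, equivariant because `w ≡ 1 mod 9`).  For `k ∈ S` coprime to `R` (so to `R'`), reindex `ν = ν₀ n` (`nm ν₀ = 3^j`, `mem_ball`):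
the sum of `vor_core` is `κ * (quad ν₀ k * cub ν₀ k) * ang ν₀ * 3^(j/6) * nt ν₀ t` times the sum of `VBStmt` for the piece; the factor has norm `‖κ‖ 3^(j/6)`.
`nm R' = 3^j nm R`; take `A = 16` (`Real.rpow_natCast`). -/

namespace Vale.Agent.P026

open scoped ComplexConjugate Real

theorem vm_reindex {ν₀ : O} (h0 : ν₀ ≠ 0) (X : ℝ) (F : O → ℂ) (hF : ∀ ν, ¬ν₀ ∣ ν → F ν = 0) :
    ∑ ν ∈ ball (nm ν₀ * X), F ν = ∑ n ∈ ball X, F (ν₀ * n) := by
  classical
  have hM : (0 : ℝ) < nm ν₀ := by exact_mod_cast nm_pos h0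
  have h1 : ∀ n, ν₀ * n ∈ ball (nm ν₀ * X) ↔ n ∈ ball X := fun n => by
    rw [mem_ball, mem_ball, nm_mul, Nat.cast_mul, mul_le_mul_iff_right₀ hM]
  rw [← Finset.sum_image (g := fun n => ν₀ * n) fun a _ b _ h => mul_left_cancel₀ h0 h]
  refine (Finset.sum_subset (fun ν hν => ?_) fun ν hν hν' => hF ν ?_).symm
  · obtain ⟨n, hn, rfl⟩ := Finset.mem_image.1 hν
    exact (h1 n).2 hn
  · rintro ⟨n, rfl⟩
    exact hν' (Finset.mem_image_of_mem _ ((h1 n).1 hν))

theorem vm_num {M K R N ε : ℝ} (hM : 1 ≤ M) (hK : 0 ≤ K) (hR : 0 ≤ R) (hN : 0 < N) :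
    (K * (M * R)) ^ ε * (M * R) * (M * N) *
        (K ^ (6 / 5 : ℝ) + (K ^ 2 * (M * R) ^ 2 / (M * N)) ^ (41 / 25 : ℝ)) ≤
      M ^ ε * M ^ 2 * M ^ (41 / 25 : ℝ) * ((K * R) ^ ε * R * N *
        (K ^ (6 / 5 : ℝ) + (K ^ 2 * R ^ 2 / N) ^ (41 / 25 : ℝ))) := by
  have hM0 : 0 < M := by linarith
  have h1 : K ^ 2 * (M * R) ^ 2 / (M * N) = M * (K ^ 2 * R ^ 2 / N) := by field_simp
  have h2 : 1 ≤ M ^ (41 / 25 : ℝ) := Real.one_le_rpow hM (by norm_num)
  rw [h1, mul_left_comm K M R, Real.mul_rpow hM0.le (by positivity),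
    Real.mul_rpow hM0.le (by positivity)]
  calc _ ≤ M ^ ε * (K * R) ^ ε * (M * R) * (M * N) * (M ^ (41 / 25 : ℝ) * K ^ (6 / 5 : ℝ) +
        M ^ (41 / 25 : ℝ) * (K ^ 2 * R ^ 2 / N) ^ (41 / 25 : ℝ)) := by
        gcongr
        exact le_mul_of_one_le_left (by positivity) h2
    _ = _ := by ring

theorem vb (hq : QLSStmt) (ht : ThetaStmt) : VBStmt := by
  classical
  obtain ⟨ρ, C₀, haut, hsmul, hcoef, u, j, κ, hu, hκ, hα⟩ := ht
  intro Q B V ε hQ0 h72 hV hε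
  have h9 : (9 : O) ∣ Q := Dvd.dvd.trans ⟨8, by norm_num⟩ h72
  obtain ⟨C, hC, hcore⟩ := vor_core hq ⟨haut, hsmul⟩ (C₀ := C₀) hcoef hQ0 h9 hV hV.1 hε
  set ν₀ := u * lam ^ j with hν₀
  have h0 : ν₀ ≠ 0 := mul_ne_zero hu.ne_zero (pow_ne_zero _ prime_lam.ne_zero)
  have hM : (1 : ℝ) ≤ nm ν₀ := one_le_nm h0
  set M : ℝ := (nm ν₀ : ℝ) with hMdef
  have hM0 : 0 < M := by linarith
  have hκ0 : 0 < ‖κ‖ := norm_pos_iff.2 hκ
  set D := C * (M ^ ε * M ^ 2 * M ^ (41 / 25 : ℝ)) / ‖κ‖ ^ 2 with hD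
  have hD0 : 0 < D := by positivity
  refine ⟨81 * 81 * D, 16, by positivity, by norm_num,
    fun N K t R φ η hN hK hR hQ hφ hφ1 hφ0 hη => ?_⟩
  have hB : 0 < B := by linarith [hV.1]
  have hN0 : 0 < N := lt_of_lt_of_le (by positivity) hN
  have h9R : (9 : O) ∣ R := h9.trans hQ
  set Y := (1 + |t|) ^ 16 * ((K * nm R) ^ ε * nm R * N *
    (K ^ (6 / 5 : ℝ) + (K ^ 2 * (nm R : ℝ) ^ 2 / N) ^ (41 / 25 : ℝ))) with hY
  have hY0 : 0 ≤ Y := by positivity
  let T : O → O → ℂ := fun α k => ∑ n ∈ ball (B * N),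
    th0 n * ang n * (ind (9 ∣ n - α) * φ n) * (quad n k * cub n k) * V (nm n / N) * nt n t
  have hT : ∀ α, ∑ k ∈ (sball K).filter (fun k => IsCoprime k R), ‖T α k‖ ^ 2 ≤ D * Y := by
    intro α
    by_cases hp : Prim α
    swap
    · have : ∀ k, T α k = 0 := fun k => Finset.sum_eq_zero fun n _ => by
        by_cases h : (9 : O) ∣ n - α
        · have : ¬Prim n := fun hn => hp (hn.of_dvd_sub ⟨3, by norm_num⟩ (dvd_sub_comm.1 h))
          simp [hφ0 n this]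
        · simp [ind_of_not h]
      simp only [this, norm_zero, ne_eq, OfNat.ofNat_ne_zero, not_false_eq_true, zero_pow,
        Finset.sum_const_zero]
      positivity
    obtain ⟨Ψ, hΨ, hρ⟩ := hα α hp
    let φ' : O → ℂ := fun ν => ind (ν₀ ∣ ν) * (ind (9 ∣ ν / ν₀ - α) * φ (ν / ν₀))
    have e1 : ∀ n, φ' (ν₀ * n) = ind (9 ∣ n - α) * φ n := fun n => by
      simp only [φ', ind_of (dvd_mul_right ν₀ n), mul_div_cancel_left₀ n h0, one_mul]
    have e2 : ∀ ν, ¬ν₀ ∣ ν → φ' ν = 0 := fun ν h => by simp only [φ', ind_of_not h, zero_mul]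
    have e3 : ∀ a b : O, (9 : O) ∣ a - b → ind (9 ∣ a - α) = ind (9 ∣ b - α) := fun a b h => by
      rw [SymAux.dvd_congr h]
    have h1 := hcore Ψ (M * N) K t (ν₀ * R) φ' hΨ (hN.trans (le_mul_of_one_le_left hN0.le hM)) hK
      (mul_ne_zero h0 hR) (hQ.mul_left _) (fun x y h => ?_) (fun ν => ?_) fun w hw hwR => ?_
    rotate_left
    · by_cases hy : ν₀ ∣ y
      · obtain ⟨b, rfl⟩ := hy
        obtain ⟨c, hc⟩ := h
        rw [show x = ν₀ * (b + R * c) by linear_combination hc, e1, e1,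
          hφ (b + R * c) b ⟨c, by ring⟩, e3 (b + R * c) b (by simpa using h9R.mul_right c)]
      · rw [e2 y hy, e2 x fun hx => hy ?_]
        simpa using dvd_sub hx ((dvd_mul_right ν₀ R).trans h)
    · simp only [φ', norm_mul]
      exact mul_le_one₀ (norm_ind_le _) (by positivity)
        (mul_le_one₀ (norm_ind_le _) (norm_nonneg _) (hφ1 _))
    · obtain ⟨a1, a2⟩ := hη w hw hwR.of_mul_right_right
      refine ⟨η w, a1, fun ν => ?_⟩
      by_cases hν : ν₀ ∣ ν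
      · obtain ⟨b, rfl⟩ := hν
        rw [mul_left_comm w, e1, e1, a2, e3 (w * b) b ?_, mul_left_comm]
        have := (h9.trans hw).mul_right b
        rwa [sub_mul, one_mul] at this
      · rw [e2 ν hν, mul_zero, e2 _ fun h => hν (hwR.of_mul_right_left.symm.dvd_of_dvd_mul_left h)]
    have hco : ∀ k, IsS k → IsCoprime ν₀ k := fun k hk =>
      (rw_coprime_unit hu k).mul_left (coprime_lam hk.1.1).pow_left
    have h2 : ∀ k, IsS k → ∑ ν ∈ ball (B * (M * N)),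
        ρ Ψ ν * (φ' ν * (quad ν k * cub ν k)) * ang ν * ((nm ν : ℝ) ^ (1 / 6 : ℝ) : ℝ) *
          V (nm ν / (M * N)) * nt ν t =
        κ * (quad ν₀ k * cub ν₀ k) * ang ν₀ * (M ^ (1 / 6 : ℝ) : ℝ) * nt ν₀ t * T α k := by
      intro k hk
      rw [mul_left_comm B, vm_reindex h0 _ _ fun ν h => by simp [e2 ν h], Finset.mul_sum]
      refine Finset.sum_congr rfl fun n _ => ?_
      rw [e1]
      by_cases h : (9 : O) ∣ n - α
      swap
      · simp [ind_of_not h]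
      have hn : n ≠ 0 := (hp.of_dvd_sub ⟨3, by norm_num⟩ h).ne_zero
      have hn' : (0 : ℝ) < nm n := by exact_mod_cast nm_pos hn
      have e4 : (((nm n : ℝ) ^ (-1 / 6 : ℝ) : ℝ) : ℂ) * ((nm n : ℝ) ^ (1 / 6 : ℝ) : ℝ) = 1 := by
        rw [← Complex.ofReal_mul, ← Real.rpow_add hn']
        norm_num
      rw [hρ n h, quad_mul_left hk.1.2, cub_mul_left, ang_mul, nt_mul h0 hn, nm_mul, Nat.cast_mul,
        ← hMdef, mul_div_mul_left _ _ hM0.ne', Real.mul_rpow hM0.le hn'.le, Complex.ofReal_mul]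
      linear_combination (κ * th0 n * (ind (9 ∣ n - α) * φ n * (quad ν₀ k * quad n k *
        (cub ν₀ k * cub n k))) * (ang ν₀ * ang n) * (M ^ (1 / 6 : ℝ) : ℝ) *
        (V (nm n / N) : ℂ) * (nt ν₀ t * nt n t)) * e4
    rw [hD, div_mul_eq_mul_div, le_div_iff₀ (by positivity), Finset.sum_mul]
    calc _ ≤ ∑ k ∈ (sball K).filter (fun k => IsCoprime k R), ‖∑ ν ∈ ball (B * (M * N)),
          ρ Ψ ν * (φ' ν * (quad ν k * cub ν k)) * ang ν * ((nm ν : ℝ) ^ (1 / 6 : ℝ) : ℝ) *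
            V (nm ν / (M * N)) * nt ν t‖ ^ 2 := by
          refine Finset.sum_le_sum fun k hk => ?_
          have hk' := (mem_sball.1 (Finset.mem_filter.1 hk).1).1
          have h3 : 1 ≤ M ^ (1 / 6 : ℝ) := Real.one_le_rpow hM (by norm_num)
          rw [h2 k hk', ← mul_pow]
          simp only [norm_mul, norm_quad hk'.1.2 (hco k hk'), norm_cub (hco k hk'), norm_ang h0,
            norm_nt, mul_one, Complex.norm_real, Real.norm_of_nonneg (zero_le_one.trans h3)]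
          rw [mul_comm]
          gcongr
          exact le_mul_of_one_le_right hκ0.le h3
      _ ≤ _ := Finset.sum_le_sum_of_subset_of_nonneg (fun k hk => by
          obtain ⟨a, b⟩ := Finset.mem_filter.1 hk
          exact Finset.mem_filter.2 ⟨a, (hco k (mem_sball.1 a).1).symm.mul_right b⟩)
          fun _ _ _ => by positivity
      _ ≤ _ := h1
      _ = C * (1 + |t|) ^ 16 * ((K * (M * nm R)) ^ ε * (M * nm R) * (M * N) *
          (K ^ (6 / 5 : ℝ) + (K ^ 2 * (M * nm R) ^ 2 / (M * N)) ^ (41 / 25 : ℝ))) := by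
          rw [nm_mul, Nat.cast_mul, ← hMdef]; ring
      _ ≤ C * (1 + |t|) ^ 16 * (M ^ ε * M ^ 2 * M ^ (41 / 25 : ℝ) * ((K * nm R) ^ ε * nm R * N *
          (K ^ (6 / 5 : ℝ) + (K ^ 2 * (nm R : ℝ) ^ 2 / N) ^ (41 / 25 : ℝ)))) := by
          gcongr C * (1 + |t|) ^ 16 * ?_
          exact vm_num hM (by linarith) (by positivity) hN0
      _ = _ := by rw [hY]; ring
  have h9' : (9 : O) ≠ 0 := by decide
  have hcard : ((res (9 : O)).card : ℝ) = 81 := by
    rw [card_res h9', show nm (9 : O) = 81 by decide]; norm_num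
  calc _ ≤ ∑ k ∈ (sball K).filter (fun k => IsCoprime k R), 81 * ∑ α ∈ res 9, ‖T α k‖ ^ 2 := by
        refine Finset.sum_le_sum fun k _ => ?_
        have : ∑ n ∈ ball (B * N), th0 n * ang n * φ n * (quad n k * cub n k) * V (nm n / N) *
            nt n t = ∑ α ∈ res 9, T α k := by
          rw [Finset.sum_comm]
          refine Finset.sum_congr rfl fun n _ => ?_
          simp only [← Finset.sum_mul, ← Finset.mul_sum, sum_res_ind h9' n, one_mul]
        rw [this, ← hcard]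
        exact (pow_le_pow_left₀ (norm_nonneg _) (norm_sum_le _ _) 2).trans
          sq_sum_le_card_mul_sum_sq
    _ = 81 * ∑ α ∈ res 9, ∑ k ∈ (sball K).filter (fun k => IsCoprime k R), ‖T α k‖ ^ 2 := by
        rw [← Finset.mul_sum, Finset.sum_comm]
    _ ≤ 81 * ∑ α ∈ res (9 : O), D * Y := by
        gcongr with α
        exact hT α
    _ = _ := by
        rw [Finset.sum_const, nsmul_eq_mul, hcard, hY, show (16 : ℝ) = (16 : ℕ) by norm_num,
          Real.rpow_natCast]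
        ring

end Vale.Agent.P026
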