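import Vale.Agent.P026.Basic

/-! Lattice point counts, divisor bound, zeta function of `O`.
Plan: `card_ball`: for fixed `b = im`, `(2a-b)² ≤ 4X-3b²`, or compare with area by cells of diameter ≤ 2. -/

namespace Vale.Agent.P026

open scoped ComplexConjugate Real

/-- the cell attached to a lattice point -/
def cell (x : O) : Set ℂ := {z | ⌊z.re + z.im / √3⌋ = x.re ∧ ⌊2 * z.im / √3⌋ = x.im}

theorem measurableSet_cell (x : O) : MeasurableSet (cell x) := by
  have h1 : Measurable fun z : ℂ => ⌊z.re + z.im / √3⌋ := Int.measurable_floor.comp (by fun_prop)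
  have h2 : Measurable fun z : ℂ => ⌊2 * z.im / √3⌋ := Int.measurable_floor.comp (by fun_prop)
  exact (h1 (measurableSet_singleton x.re)).inter (h2 (measurableSet_singleton x.im))

open MeasureTheory in
theorem volume_cell (x : O) : volume (cell x) = ENNReal.ofReal (√3 / 2) := by
  have h3 : (0 : ℝ) < √3 := by positivity
  let S : Set (ℝ × ℝ) := {p | ⌊p.1 + p.2 / √3⌋ = x.re ∧ ⌊2 * p.2 / √3⌋ = x.im}
  have hS : MeasurableSet S := by
    have h1 : Measurable fun p : ℝ × ℝ => ⌊p.1 + p.2 / √3⌋ :=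
      Int.measurable_floor.comp (by fun_prop)
    have h2 : Measurable fun p : ℝ × ℝ => ⌊2 * p.2 / √3⌋ := Int.measurable_floor.comp (by fun_prop)
    exact (h1 (measurableSet_singleton x.re)).inter (h2 (measurableSet_singleton x.im))
  have e : cell x = Complex.measurableEquivRealProd ⁻¹' S := rfl
  rw [e, Complex.volume_preserving_equiv_real_prod.measure_preimage hS.nullMeasurableSet,
    Measure.volume_eq_prod, Measure.prod_apply_symm hS]
  have key : ∀ y : ℝ, volume ((fun t : ℝ => (t, y)) ⁻¹' S) =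
      (Set.Ico (x.im * √3 / 2) ((x.im + 1) * √3 / 2)).indicator 1 y := by
    intro y
    have h4 : ⌊2 * y / √3⌋ = x.im ↔ y ∈ Set.Ico (x.im * √3 / 2) ((x.im + 1) * √3 / 2) := by
      rw [Int.floor_eq_iff, le_div_iff₀ h3, div_lt_iff₀ h3, Set.mem_Ico]
      constructor <;> rintro ⟨a, b⟩ <;> constructor <;> linarith
    by_cases h : ⌊2 * y / √3⌋ = x.im
    · have : (fun t : ℝ => (t, y)) ⁻¹' S = Set.Ico (x.re - y / √3) (x.re + 1 - y / √3) := by
        ext t
        simp only [S, Set.mem_preimage, Set.mem_ofPred_eq, h, and_true]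
        rw [Int.floor_eq_iff, Set.mem_Ico]
        constructor <;> rintro ⟨a, b⟩ <;> constructor <;> linarith
      rw [this, Real.volume_Ico, Set.indicator_of_mem (h4.1 h)]
      simp
    · have : (fun t : ℝ => (t, y)) ⁻¹' S = ∅ := by
        ext t
        simp [S, h]
      rw [this, Set.indicator_of_notMem (mt h4.2 h), measure_empty]
  simp only [key]
  rw [lintegral_indicator_one measurableSet_Ico, Real.volume_Ico]
  congr 1
  ring

theorem norm_sub_sq (x : O) (z : ℂ) : ‖toC x - z‖ ^ 2 =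
    (z.re + z.im / √3 - x.re) ^ 2 - (z.re + z.im / √3 - x.re) * (2 * z.im / √3 - x.im) +
      (2 * z.im / √3 - x.im) ^ 2 := by
  have h3 : (0 : ℝ) < √3 := by positivity
  have h : √3 * √3 = 3 := Real.mul_self_sqrt (by norm_num)
  obtain ⟨w, hw⟩ : ∃ w, z.im = w * √3 := ⟨z.im / √3, by field_simp⟩
  rw [Complex.sq_norm, Complex.normSq_apply]
  simp only [toC, RingHom.coe_mk, MonoidHom.coe_mk, OneHom.coe_mk, Complex.sub_re, Complex.sub_im,
    hw, mul_div_assoc, div_self h3.ne', ← mul_assoc]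
  linear_combination ((x.im / 2 - w) ^ 2 : ℝ) * h

theorem norm_sub_le_of_mem_cell {x : O} {z : ℂ} (h : z ∈ cell x) : ‖toC x - z‖ ≤ 1 := by
  obtain ⟨h1, h2⟩ := h
  rw [Int.floor_eq_iff] at h1 h2
  refine (pow_le_one_iff_of_nonneg (norm_nonneg _) two_ne_zero).1 ?_
  rw [norm_sub_sq]
  generalize z.re + z.im / √3 = a at *
  generalize 2 * z.im / √3 = b at *
  obtain ⟨s, rfl⟩ : ∃ s, a = x.re + s := ⟨a - x.re, by ring⟩
  obtain ⟨t, rfl⟩ : ∃ s, b = x.im + s := ⟨b - x.im, by ring⟩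
  have hs0 : 0 ≤ s := by linarith [h1.1]
  have hs1 : s ≤ 1 := by linarith [h1.2]
  have ht0 : 0 ≤ t := by linarith [h2.1]
  have ht1 : t ≤ 1 := by linarith [h2.2]
  rw [add_sub_cancel_left, add_sub_cancel_left]
  nlinarith [mul_nonneg hs0 (sub_nonneg.2 hs1), mul_nonneg ht0 (sub_nonneg.2 ht1),
    mul_nonneg (sub_nonneg.2 hs1) (sub_nonneg.2 ht1)]

open MeasureTheory in
theorem card_ball : ∃ C : ℝ, 0 < C ∧ ∀ X : ℝ, 0 ≤ X →
    |((ball X).card : ℝ) - c0 * X| ≤ C * (1 + √X) := by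
  have h3 : (0 : ℝ) < √3 := by positivity
  have hc : 0 < c0 := by unfold c0; positivity
  refine ⟨2 * c0, by positivity, fun X hX => ?_⟩
  have hv : volume.real (⋃ x ∈ ball X, cell x) = (ball X).card * (√3 / 2) := by
    rw [measureReal_biUnion_finset (fun x _ y _ hxy => ?_) (fun x _ => measurableSet_cell x)
      fun x _ => by rw [volume_cell]; exact ENNReal.ofReal_ne_top]
    · simp only [measureReal_def, volume_cell]
      rw [ENNReal.toReal_ofReal (by positivity), Finset.sum_const, nsmul_eq_mul]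
    · refine Set.disjoint_left.2 fun z h1 h2 => hxy ?_
      ext
      · exact h1.1.symm.trans h2.1
      · exact h1.2.symm.trans h2.2
  have hb : ∀ r : ℝ, 0 ≤ r → volume.real (Metric.closedBall (0 : ℂ) r) = r ^ 2 * π := by
    intro r hr
    rw [measureReal_def, Complex.volume_closedBall]
    simp [hr]
  have hfin : ∀ r : ℝ, volume (Metric.closedBall (0 : ℂ) r) ≠ ⊤ := fun r =>
    measure_closedBall_lt_top.ne
  have hs := Real.sqrt_nonneg X
  have hsq := Real.sq_sqrt hX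
  have hsub : (⋃ x ∈ ball X, cell x) ⊆ Metric.closedBall (0 : ℂ) (√X + 1) := by
    intro z hz
    simp only [Set.mem_iUnion] at hz
    obtain ⟨x, hx, hz⟩ := hz
    have h1 := norm_sub_le_of_mem_cell hz
    have h2 : ‖toC x‖ ≤ √X := by rw [norm_toC]; exact Real.sqrt_le_sqrt (mem_ball.1 hx)
    have h4 := norm_sub_le (toC x) (toC x - z)
    rw [sub_sub_cancel] at h4
    rw [mem_closedBall_zero_iff]
    linarith
  have h1 := measureReal_mono hsub (hfin _)
  rw [hv, hb _ (by linarith)] at h1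
  have h2 : (X - 2 * √X) * π ≤ (ball X).card * (√3 / 2) := by
    by_cases h : 1 ≤ √X
    · have hsup : Metric.closedBall (0 : ℂ) (√X - 1) ⊆ ⋃ x ∈ ball X, cell x := by
        intro z hz
        rw [mem_closedBall_zero_iff] at hz
        have hz' : z ∈ cell ⟨⌊z.re + z.im / √3⌋, ⌊2 * z.im / √3⌋⟩ := ⟨rfl, rfl⟩
        refine Set.mem_biUnion (mem_ball.2 ?_) hz'
        have h1 := norm_sub_le_of_mem_cell hz'
        have h4 := norm_add_le (toC ⟨⌊z.re + z.im / √3⌋, ⌊2 * z.im / √3⌋⟩ - z) z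
        rw [sub_add_cancel] at h4
        rw [← norm_toC_sq, ← hsq]
        exact pow_le_pow_left₀ (norm_nonneg _) (by linarith) 2
      have h2 := measureReal_mono hsup (ne_top_of_le_ne_top (hfin _) (measure_mono hsub))
      rw [hv, hb _ (by linarith)] at h2
      nlinarith [Real.pi_pos]
    · have : X - 2 * √X ≤ 0 := by nlinarith
      exact (mul_nonpos_of_nonpos_of_nonneg this Real.pi_pos.le).trans (by positivity)
  have e : π = c0 * (√3 / 2) := by unfold c0; field_simp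
  rw [e, ← mul_assoc] at h1 h2
  have h4 := le_of_mul_le_mul_right h1 (by positivity)
  have h5 := le_of_mul_le_mul_right h2 (by positivity)
  rw [abs_le]
  constructor <;> nlinarith
theorem card_ball_le : ∃ C : ℝ, 0 < C ∧ ∀ X : ℝ, 0 ≤ X → ((ball X).card : ℝ) ≤ C * (1 + X) := by
  obtain ⟨C, hC, h⟩ := card_ball
  have hc : 0 < c0 := by unfold c0; positivity
  refine ⟨c0 + 2 * C, by positivity, fun X hX => ?_⟩
  have h1 := (abs_le.1 (h X hX)).2
  have h2 : √X ≤ 1 + X := by nlinarith [Real.sq_sqrt hX, Real.sqrt_nonneg X]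
  nlinarith
theorem exists_near (z : ℂ) : ∃ x : O, ‖toC x - z‖ ^ 2 ≤ 3 / 4 := by
  refine ⟨⟨round (z.re + z.im / √3), round (2 * z.im / √3)⟩, ?_⟩
  rw [norm_sub_sq]
  have h1 := abs_le.1 (abs_sub_round (z.re + z.im / √3))
  have h2 := abs_le.1 (abs_sub_round (2 * z.im / √3))
  dsimp only
  generalize z.re + z.im / √3 - round (z.re + z.im / √3) = s at *
  generalize 2 * z.im / √3 - round (2 * z.im / √3) = t at *
  nlinarith [h1.1, h1.2, h2.1, h2.2]
/-- points of `O` in a disc with arbitrary centre -/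
theorem card_near_le : ∃ C : ℝ, 0 < C ∧ ∀ (z : ℂ) (X : ℝ) (s : Finset O), 0 ≤ X →
    (∀ x ∈ s, ‖toC x - z‖ ^ 2 ≤ X) → (s.card : ℝ) ≤ C * (1 + X) := by
  obtain ⟨C, hC, h⟩ := card_ball_le
  refine ⟨3 * C, by positivity, fun z X s hX hs => ?_⟩
  obtain ⟨y, hy⟩ := exists_near z
  have h1 : s.card ≤ (ball (2 * X + 2)).card := by
    refine Finset.card_le_card_of_injOn (fun x => x - y) (fun x hx => ?_)
      fun a _ b _ hab => sub_left_injective hab
    refine Finset.mem_coe.2 (mem_ball.2 ?_)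
    have h2 := norm_sub_le (toC x - z) (toC y - z)
    rw [sub_sub_sub_cancel_right, ← map_sub] at h2
    have h3 := hs x hx
    rw [← norm_toC_sq]
    nlinarith [norm_nonneg (toC (x - y)), norm_nonneg (toC x - z), norm_nonneg (toC y - z),
      sq_nonneg (‖toC x - z‖ - ‖toC y - z‖)]
  have h2 := h (2 * X + 2) (by linarith)
  have h3 : (s.card : ℝ) ≤ (ball (2 * X + 2)).card := by exact_mod_cast h1
  nlinarith

open Classical in
theorem card_div_step {p m : O} (hp : Prime p) (hm : m ≠ 0) (k : ℕ) :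
    ((ball (nm (p ^ k * m))).filter (· ∣ p ^ k * m)).card ≤
      (k + 1) * ((ball (nm m)).filter (· ∣ m)).card := by
  have h1 : (ball (nm (p ^ k * m))).filter (· ∣ p ^ k * m) ⊆
      (Finset.range (k + 1) ×ˢ (ball (nm m)).filter (· ∣ m)).image fun q => p ^ q.1 * q.2 := by
    intro d hd
    obtain ⟨a, b, ha, hb, rfl⟩ := exists_dvd_and_dvd_of_dvd_mul (Finset.mem_filter.1 hd).2
    obtain ⟨i, hi, u, hu⟩ := (dvd_prime_pow hp k).1 ha
    have h2 : (↑u⁻¹ : O) * b ∣ m := (Units.isUnit u⁻¹).mul_left_dvd.2 hb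
    refine Finset.mem_image.2 ⟨(i, ↑u⁻¹ * b), ?_, ?_⟩
    · simp only [Finset.mem_product, Finset.mem_range, Finset.mem_filter, mem_ball]
      exact ⟨by omega, by exact_mod_cast nm_le_of_dvd hm h2, h2⟩
    · rw [← hu, ← mul_assoc, Units.mul_inv_cancel_right]
  refine (Finset.card_le_card h1).trans (Finset.card_image_le.trans ?_)
  rw [Finset.card_product, Finset.card_range]

open Classical in
/-- all divisors -/
theorem card_div_le (ε : ℝ) (hε : 0 < ε) : ∃ C : ℝ, 0 < C ∧ ∀ n : O, n ≠ 0 →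
    (((ball (nm n)).filter (· ∣ n)).card : ℝ) ≤ C * (nm n : ℝ) ^ ε := by
  obtain ⟨η, hη, he⟩ : ∃ η : ℝ, 0 < η ∧ (2 : ℝ) ^ ε = 1 + η :=
    ⟨2 ^ ε - 1, sub_pos.2 (Real.one_lt_rpow one_lt_two hε), by ring⟩
  obtain ⟨K, hK, hK'⟩ : ∃ K : ℝ, 1 ≤ K ∧ 1 ≤ K * η :=
    ⟨1 + η⁻¹, by simp [hη.le], by rw [add_mul, inv_mul_cancel₀ hη.ne']; linarith⟩
  have key : ∀ (N : ℕ) (n : O), nm n = N → n ≠ 0 → (((ball (nm n)).filter (· ∣ n)).card : ℝ) ≤
      (ball 1).card * K ^ ((ball (2 ^ ε⁻¹)).filter fun p => Prime p ∧ p ∣ n).card *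
        (nm n : ℝ) ^ ε := by
    intro N
    induction N using Nat.strong_induction_on with
    | _ N ih =>
    intro n hN hn
    by_cases hu : IsUnit n
    · rw [isUnit_iff_nm.1 hu, Nat.cast_one, Real.one_rpow, mul_one]
      refine le_trans ?_ (le_mul_of_one_le_right (Nat.cast_nonneg _) (one_le_pow₀ hK))
      exact_mod_cast Finset.card_filter_le _ _
    obtain ⟨p, hp, hpn⟩ := WfDvdMonoid.exists_irreducible_factor hu hn
    obtain ⟨k, m, hm, rfl⟩ := WfDvdMonoid.max_power_factor hn hp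
    have hm0 : m ≠ 0 := right_ne_zero_of_mul hn
    have hk : k ≠ 0 := by
      rintro rfl
      exact hm (by simpa using hpn)
    have hp2 : 2 ≤ nm p := by
      have h1 := nm_pos hp.ne_zero
      have h2 := mt isUnit_iff_nm.2 hp.not_isUnit
      omega
    have hlt : nm m < N := by
      rw [← hN, nm_mul, nm_pow]
      exact lt_mul_of_one_lt_left (nm_pos hm0) (Nat.one_lt_pow hk hp2)
    have h1 := ih _ hlt m rfl hm0
    have h2 : (((ball (nm (p ^ k * m))).filter (· ∣ p ^ k * m)).card : ℝ) ≤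
        (k + 1) * ((ball (nm m)).filter (· ∣ m)).card := by
      exact_mod_cast card_div_step hp.prime hm0 k
    have h3 : ((nm (p ^ k * m) : ℕ) : ℝ) ^ ε = ((nm p : ℝ) ^ ε) ^ k * (nm m : ℝ) ^ ε := by
      rw [nm_mul, nm_pow, Nat.cast_mul, Nat.cast_pow,
        Real.mul_rpow (by positivity) (by positivity), ← Real.rpow_natCast,
        ← Real.rpow_mul (by positivity), mul_comm (k : ℝ), Real.rpow_mul (by positivity),
        Real.rpow_natCast]
    have hsub : ((ball (2 ^ ε⁻¹)).filter fun q => Prime q ∧ q ∣ m) ⊆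
        (ball (2 ^ ε⁻¹)).filter fun q => Prime q ∧ q ∣ p ^ k * m := fun q hq => by
      rw [Finset.mem_filter] at hq ⊢
      exact ⟨hq.1, hq.2.1, hq.2.2.mul_left _⟩
    have h4 : (k + 1 : ℝ) * K ^ ((ball (2 ^ ε⁻¹)).filter fun q => Prime q ∧ q ∣ m).card ≤
        K ^ ((ball (2 ^ ε⁻¹)).filter fun q => Prime q ∧ q ∣ p ^ k * m).card *
          ((nm p : ℝ) ^ ε) ^ k := by
      by_cases hs : (nm p : ℝ) ≤ 2 ^ ε⁻¹
      · have h5 := Finset.card_lt_card (Finset.ssubset_iff_of_subset hsub |>.2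
          ⟨p, Finset.mem_filter.2 ⟨mem_ball.2 hs, hp.prime, hpn⟩,
            fun h => hm (Finset.mem_filter.1 h).2.2⟩)
        have h6 : 1 + η ≤ (nm p : ℝ) ^ ε := by
          rw [← he]
          exact Real.rpow_le_rpow (by norm_num) (by exact_mod_cast hp2) hε.le
        have h7 : 1 + k * η ≤ ((nm p : ℝ) ^ ε) ^ k :=
          (one_add_mul_le_pow (by linarith) k).trans (pow_le_pow_left₀ (by linarith) h6 k)
        have h8 : (k + 1 : ℝ) ≤ K * ((nm p : ℝ) ^ ε) ^ k := by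
          have : (k : ℝ) * 1 ≤ k * (K * η) := by gcongr
          nlinarith
        calc _ ≤ K * ((nm p : ℝ) ^ ε) ^ k *
              K ^ ((ball (2 ^ ε⁻¹)).filter fun q => Prime q ∧ q ∣ m).card := by gcongr
          _ = K ^ (((ball (2 ^ ε⁻¹)).filter fun q => Prime q ∧ q ∣ m).card + 1) *
              ((nm p : ℝ) ^ ε) ^ k := by ring
          _ ≤ _ := by gcongr; exact h5
      · have h6 : 1 + 1 ≤ (nm p : ℝ) ^ ε := by
          have := Real.rpow_le_rpow (by positivity) (not_le.1 hs).le hε.le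
          rwa [← Real.rpow_mul (by norm_num), inv_mul_cancel₀ hε.ne', Real.rpow_one,
            ← one_add_one_eq_two] at this
        have h7 : 1 + k * 1 ≤ ((nm p : ℝ) ^ ε) ^ k :=
          (one_add_mul_le_pow (by linarith) k).trans (pow_le_pow_left₀ (by linarith) h6 k)
        rw [mul_comm]
        gcongr
        linarith
    rw [h3]
    calc _ ≤ (k + 1 : ℝ) * ((ball 1).card *
          K ^ ((ball (2 ^ ε⁻¹)).filter fun q => Prime q ∧ q ∣ m).card * (nm m : ℝ) ^ ε) :=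
          h2.trans (by gcongr)
      _ = (ball 1).card * ((k + 1 : ℝ) *
          K ^ ((ball (2 ^ ε⁻¹)).filter fun q => Prime q ∧ q ∣ m).card) * (nm m : ℝ) ^ ε := by ring
      _ ≤ (ball 1).card * (K ^ ((ball (2 ^ ε⁻¹)).filter fun q => Prime q ∧ q ∣ p ^ k * m).card *
          ((nm p : ℝ) ^ ε) ^ k) * (nm m : ℝ) ^ ε := by gcongr
      _ = _ := by ring
  refine ⟨((ball 1).card + 1) * K ^ (ball (2 ^ ε⁻¹)).card, by positivity, fun n hn =>
    (key _ n rfl hn).trans ?_⟩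
  gcongr
  · linarith
  · exact Finset.filter_subset _ _
theorem card_pdiv_le (ε : ℝ) (hε : 0 < ε) : ∃ C : ℝ, 0 < C ∧ ∀ n : O, n ≠ 0 →
    ((pdiv n).card : ℝ) ≤ C * (nm n : ℝ) ^ ε := by
  classical
  obtain ⟨C, hC, h⟩ := card_div_le ε hε
  refine ⟨C, hC, fun n hn => le_trans ?_ (h n hn)⟩
  refine Nat.cast_le.2 (Finset.card_le_card fun e he => ?_)
  have h1 := ((mem_pdiv hn).1 he).2
  exact Finset.mem_filter.2 ⟨mem_ball.2 (by exact_mod_cast nm_le_of_dvd hn h1), h1⟩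
theorem card_pdiv_mono {m n : O} (hn : n ≠ 0) (h : m ∣ n) : (pdiv m).card ≤ (pdiv n).card := by
  refine Finset.card_le_card fun e he => ?_
  have h1 := (mem_pdiv (ne_zero_of_dvd_ne_zero hn h)).1 he
  exact (mem_pdiv hn).2 ⟨h1.1, h1.2.trans h⟩
theorem card_pdiv_prime_mul {p n : O} (hp : Prime p) (hp' : Prim p) (hn : n ≠ 0) (h : ¬p ∣ n) :
    (pdiv (p * n)).card = 2 * (pdiv n).card := by
  classical
  have h0 : p * n ≠ 0 := mul_ne_zero hp.ne_zero hn
  have h1 : pdiv (p * n) = pdiv n ∪ (pdiv n).image (p * ·) := by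
    ext e
    simp only [Finset.mem_union, Finset.mem_image, mem_pdiv h0, mem_pdiv hn]
    constructor
    · rintro ⟨h1, h2⟩
      by_cases h3 : p ∣ e
      · obtain ⟨c, rfl⟩ := h3
        exact Or.inr ⟨c, ⟨hp'.of_mul h1, (mul_dvd_mul_iff_left hp.ne_zero).1 h2⟩, rfl⟩
      · exact Or.inl ⟨h1, (hp.irreducible.coprime_iff_not_dvd.2 h3).symm.dvd_of_dvd_mul_left h2⟩
    · rintro (⟨h1, h2⟩ | ⟨c, ⟨h1, h2⟩, rfl⟩)
      · exact ⟨h1, h2.mul_left _⟩
      · exact ⟨hp'.mul h1, mul_dvd_mul_left p h2⟩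
  rw [h1, Finset.card_union_of_disjoint,
    Finset.card_image_of_injective _ (mul_right_injective₀ hp.ne_zero), two_mul]
  refine Finset.disjoint_left.2 fun e he he' => h ?_
  obtain ⟨c, -, rfl⟩ := Finset.mem_image.1 he'
  exact (dvd_mul_right p c).trans ((mem_pdiv hn).1 he).2

theorem sum_dyadic : ∃ C : ℝ, 0 < C ∧ ∀ (σ : ℝ) (s : Finset O) (J : Finset ℕ), 0 < σ →
    (∀ n ∈ s, n ≠ 0 → Nat.log 2 (nm n) ∈ J) →
    ∑ n ∈ s, (nm n : ℝ) ^ (-σ) ≤ C * ∑ j ∈ J, ((2 : ℝ) ^ (1 - σ)) ^ j := by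
  classical
  obtain ⟨C, hC, h⟩ := card_ball_le
  refine ⟨3 * C, by positivity, fun σ s J hσ hJ => ?_⟩
  have h0 : ∑ n ∈ s.erase 0, (nm n : ℝ) ^ (-σ) = ∑ n ∈ s, (nm n : ℝ) ^ (-σ) :=
    Finset.sum_erase _ (by simp [hσ.ne'])
  rw [← h0, ← Finset.sum_fiberwise_of_maps_to (g := fun n => Nat.log 2 (nm n)) (t := J)
    (fun n hn => hJ n (Finset.mem_of_mem_erase hn) (Finset.ne_of_mem_erase hn)), Finset.mul_sum]
  refine Finset.sum_le_sum fun j _ => ?_
  have h1 : ∀ n ∈ (s.erase 0).filter fun n => Nat.log 2 (nm n) = j,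
      (nm n : ℝ) ^ (-σ) ≤ ((2 : ℝ) ^ j) ^ (-σ) := by
    intro n hn
    obtain ⟨h1, rfl⟩ := Finset.mem_filter.1 hn
    refine Real.rpow_le_rpow_of_nonpos (by positivity) ?_ (by linarith)
    exact_mod_cast Nat.pow_log_le_self 2 (nm_pos (Finset.ne_of_mem_erase h1)).ne'
  have h2 : ((s.erase 0).filter fun n => Nat.log 2 (nm n) = j) ⊆ ball (2 ^ (j + 1)) := by
    intro n hn
    obtain ⟨-, rfl⟩ := Finset.mem_filter.1 hn
    exact mem_ball.2 (by exact_mod_cast (Nat.lt_pow_succ_log_self one_lt_two _).le)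
  have h3 : (((s.erase 0).filter fun n => Nat.log 2 (nm n) = j).card : ℝ) ≤ 3 * C * 2 ^ j := by
    refine (Nat.cast_le.2 (Finset.card_le_card h2)).trans ((h _ (by positivity)).trans ?_)
    have : (1 : ℝ) ≤ 2 ^ j := one_le_pow₀ one_le_two
    rw [pow_succ]
    nlinarith
  refine (Finset.sum_le_card_nsmul _ _ _ h1).trans ?_
  rw [nsmul_eq_mul]
  refine (mul_le_mul_of_nonneg_right h3 (by positivity)).trans_eq ?_
  rw [mul_assoc, sub_eq_add_neg, Real.rpow_add two_pos, Real.rpow_one, mul_pow,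
    ← Real.rpow_natCast ((2 : ℝ) ^ (-σ)), ← Real.rpow_mul two_pos.le, mul_comm (-σ),
    Real.rpow_mul two_pos.le, Real.rpow_natCast]

theorem log_mem_range {X : ℝ} {n : O} (h : n ∈ ball X) :
    Nat.log 2 (nm n) ∈ Finset.range (Nat.log 2 ⌊X⌋₊ + 1) :=
  Finset.mem_range.2 (Nat.lt_succ_of_le (Nat.log_mono_right (Nat.le_floor (mem_ball.1 h))))

theorem pow_log_floor_le {X : ℝ} (hX : 1 ≤ X) : (2 : ℝ) ^ Nat.log 2 ⌊X⌋₊ ≤ X := by
  refine le_trans ?_ (Nat.floor_le (by linarith))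
  exact_mod_cast Nat.pow_log_le_self 2 (Nat.floor_pos.2 hX).ne'

theorem rpow_pow_comm (a : ℝ) (j : ℕ) : ((2 : ℝ) ^ a) ^ j = ((2 : ℝ) ^ j) ^ a := by
  rw [← Real.rpow_natCast, ← Real.rpow_mul two_pos.le, mul_comm, Real.rpow_mul two_pos.le,
    Real.rpow_natCast]

theorem sum_inv_nm_le : ∃ C : ℝ, 0 < C ∧ ∀ X : ℝ, 1 ≤ X →
    ∑ n ∈ ball X, (nm n : ℝ)⁻¹ ≤ C * (1 + Real.log X) := by
  obtain ⟨C, hC, h⟩ := sum_dyadic
  refine ⟨2 * C, by positivity, fun X hX => ?_⟩
  have h1 := h 1 (ball X) _ one_pos fun n hn _ => log_mem_range hn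
  simp only [Real.rpow_neg_one, sub_self, Real.rpow_zero, one_pow, Finset.sum_const,
    Finset.card_range, nsmul_eq_mul, mul_one] at h1
  have h2 := Real.log_le_log (by positivity) (pow_log_floor_le hX)
  rw [Real.log_pow] at h2
  have h3 := Real.log_two_gt_d9
  have h4 : (0 : ℝ) ≤ Nat.log 2 ⌊X⌋₊ := Nat.cast_nonneg _
  push_cast at h1
  have h5 : (Nat.log 2 ⌊X⌋₊ : ℝ) + 1 ≤ 2 * (1 + Real.log X) := by nlinarith
  nlinarith
theorem sum_rpow_le {σ : ℝ} (hσ : σ < 1) (h0 : 0 < σ) : ∃ C : ℝ, 0 < C ∧ ∀ X : ℝ, 0 < X →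
    ∑ n ∈ ball X, (nm n : ℝ) ^ (-σ) ≤ C * X ^ (1 - σ) := by
  obtain ⟨C, hC, h⟩ := sum_dyadic
  have hr : 1 < (2 : ℝ) ^ (1 - σ) := Real.one_lt_rpow one_lt_two (by linarith)
  have hr' := sub_pos.2 hr
  refine ⟨C * (2 ^ (1 - σ) / (2 ^ (1 - σ) - 1)), by positivity, fun X hX => ?_⟩
  by_cases h1 : 1 ≤ X
  · refine (h σ (ball X) _ h0 fun n hn _ => log_mem_range hn).trans ?_
    rw [geom_sum_eq hr.ne', mul_assoc, div_mul_eq_mul_div, pow_succ', rpow_pow_comm]
    have := Real.rpow_le_rpow (by positivity) (pow_log_floor_le h1) (sub_pos.2 hσ).le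
    gcongr
    nlinarith
  · refine (h σ (ball X) ∅ h0 fun n hn hn' => ?_).trans (by simp; positivity)
    exact absurd ((one_le_nm hn').trans (mem_ball.1 hn)) h1
theorem sum_rpow_tail {σ : ℝ} (hσ : 1 < σ) : ∃ C : ℝ, 0 < C ∧ ∀ (D : ℝ) (s : Finset O), 0 < D →
    (∀ n ∈ s, D < nm n) → ∑ n ∈ s, (nm n : ℝ) ^ (-σ) ≤ C * D ^ (1 - σ) := by
  obtain ⟨C, hC, h⟩ := sum_dyadic
  have hr : (2 : ℝ) ^ (1 - σ) < 1 := Real.rpow_lt_one_of_one_lt_of_neg one_lt_two (by linarith)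
  have hr' := sub_pos.2 hr
  have hr0 : 0 < (2 : ℝ) ^ (1 - σ) := by positivity
  refine ⟨C * ((2 ^ (1 - σ))⁻¹ / (1 - 2 ^ (1 - σ))), by positivity, fun D s hD hs => ?_⟩
  refine (h σ s (Finset.Ico (Nat.log 2 ⌊D⌋₊) (s.sup (fun n => Nat.log 2 (nm n)) + 1))
    (by linarith) fun n hn _ => ?_).trans ?_
  · refine Finset.mem_Ico.2 ⟨Nat.log_mono_right (Nat.floor_le_of_le (hs n hn).le), ?_⟩
    exact Nat.lt_succ_of_le (Finset.le_sup (f := fun n => Nat.log 2 (nm n)) hn)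
  · have h1 : D ≤ 2 ^ (Nat.log 2 ⌊D⌋₊ + 1) := by
      refine (Nat.lt_floor_add_one D).le.trans ?_
      exact_mod_cast Nat.lt_pow_succ_log_self one_lt_two ⌊D⌋₊
    have h2 := Real.rpow_le_rpow_of_nonpos hD h1 (sub_nonpos.2 hσ.le)
    rw [← rpow_pow_comm, pow_succ'] at h2
    rw [mul_assoc, div_mul_eq_mul_div]
    refine mul_le_mul_of_nonneg_left ((geom_sum_Ico_le_of_lt_one hr0.le hr).trans ?_) hC.le
    gcongr
    rwa [le_inv_mul_iff₀ hr0]
theorem summable_rpow {σ : ℝ} (hσ : 1 < σ) : Summable fun n : O => (nm n : ℝ) ^ (-σ) := by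
  classical
  obtain ⟨C, -, h⟩ := sum_rpow_tail hσ
  refine summable_of_sum_le (c := C * (1 / 2) ^ (1 - σ)) (fun n => by positivity) fun s => ?_
  rw [← Finset.sum_erase (a := 0) s (by simp [(zero_lt_one.trans hσ).ne'])]
  exact h _ _ (by norm_num) fun n hn => by linarith [one_le_nm (Finset.ne_of_mem_erase hn)]
theorem summable_exp {y : ℝ} (hy : 0 < y) : Summable fun n : O => Real.exp (-(y * nm n)) := by
  refine Summable.of_norm_bounded_eventually ((summable_rpow one_lt_two).mul_left (2 / y ^ 2)) ?_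
  filter_upwards [Set.Finite.compl_mem_cofinite (Set.finite_singleton (0 : O))] with n hn
  have h1 : (0 : ℝ) < nm n := by linarith [one_le_nm (show n ≠ 0 from hn)]
  have h2 := Real.quadratic_le_exp_of_nonneg (mul_pos hy h1).le
  have h3 := mul_pos hy h1
  rw [Real.norm_of_nonneg (Real.exp_pos _).le, Real.exp_neg, Real.rpow_neg h1.le, Real.rpow_two]
  calc _ ≤ ((y * nm n) ^ 2 / 2)⁻¹ := inv_anti₀ (by positivity) (by linarith)
    _ = _ := by field_simp

end Vale.Agent.P026
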