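import Mathlib

/-! Two-dimensional Gaussian Poisson summation over `ℤ × ℤ`. -/

namespace Vale.Agent.P026.PoissonAux

open Complex
open scoped Real

/-- the general term -/
noncomputable def tm (a b d u v : ℂ) (p : ℤ × ℤ) : ℂ :=
  cexp (-π * (a * p.1 ^ 2 + 2 * b * p.1 * p.2 + d * p.2 ^ 2) + 2 * π * (u * p.1 + v * p.2))

/-- positive definite real part -/
def PD (a b d : ℂ) : Prop := 0 < a.re ∧ b.re ^ 2 < a.re * d.re

lemma PD.swap {a b d : ℂ} (h : PD a b d) : PD d b a := by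
  obtain ⟨h1, h2⟩ := h
  refine ⟨?_, by linarith⟩
  by_contra h
  push Not at h
  nlinarith [sq_nonneg b.re]

lemma PD.ne {a b d : ℂ} (h : PD a b d) : a ≠ 0 := by
  rintro rfl
  simpa using h.1

lemma PD.step {a b d : ℂ} (h : PD a b d) : PD (1 / a) (-I * b / a) (d - b ^ 2 / a) := by
  obtain ⟨h1, h2⟩ := h
  have hn : 0 < a.re * a.re + a.im * a.im := by nlinarith [sq_nonneg a.im]
  have e1 : (1 / a).re = a.re / (a.re * a.re + a.im * a.im) := by
    simp [normSq_apply]
  have e2 : (-I * b / a).re = (b.im * a.re - b.re * a.im) / (a.re * a.re + a.im * a.im) := by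
    simp [div_re, normSq_apply]
    field_simp
    ring
  have e3 : (d - b ^ 2 / a).re = d.re - ((b.re * b.re - b.im * b.im) * a.re +
      2 * b.re * b.im * a.im) / (a.re * a.re + a.im * a.im) := by
    simp [div_re, normSq_apply, pow_two]
    field_simp
    ring
  refine ⟨by rw [e1]; positivity, ?_⟩
  rw [e1, e2, e3, ← sub_pos]
  have : a.re / (a.re * a.re + a.im * a.im) * (d.re - ((b.re * b.re - b.im * b.im) * a.re +
      2 * b.re * b.im * a.im) / (a.re * a.re + a.im * a.im)) -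
      ((b.im * a.re - b.re * a.im) / (a.re * a.re + a.im * a.im)) ^ 2 =
      (a.re * d.re - b.re ^ 2) / (a.re * a.re + a.im * a.im) := by
    field_simp
    ring
  rw [this]
  exact div_pos (by linarith) hn

lemma summable_one {e : ℝ} (he : 0 < e) (u : ℝ) :
    Summable fun n : ℤ => Real.exp (-π * e * n ^ 2 + 2 * π * u * n) := by
  have h := (summable_jacobiTheta₂_term_iff (-I * u) (I * e)).2 (by simpa using he)
  refine h.norm.congr fun n => ?_
  rw [jacobiTheta₂_term, norm_exp]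
  congr 1
  have : 2 * π * I * n * (-I * u) + π * I * n ^ 2 * (I * e) =
      ((-π * e * n ^ 2 + 2 * π * u * n : ℝ) : ℂ) := by
    push_cast
    linear_combination (-2 * π * n * u + π * n ^ 2 * e : ℂ) * I_mul_I
  rw [this, ofReal_re]

lemma summable_tm {a b d : ℂ} (h : PD a b d) (u v : ℂ) : Summable (tm a b d u v) := by
  have h' := h.swap
  obtain ⟨h1, h2⟩ := h
  have h3 := h'.1
  set e := (a.re * d.re - b.re ^ 2) / (a.re + d.re) with he
  have he0 : 0 < e := div_pos (by linarith) (by linarith)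
  have he1 : e * (a.re + d.re) = a.re * d.re - b.re ^ 2 := by rw [he]; field_simp
  have he2 : e < a.re := by nlinarith [sq_nonneg b.re]
  have hs := Summable.mul_of_nonneg (summable_one he0 u.re) (summable_one he0 v.re)
    (fun _ => (Real.exp_pos _).le) (fun _ => (Real.exp_pos _).le)
  refine Summable.of_norm_bounded hs fun p => ?_
  rw [tm, norm_exp, ← Real.exp_add, Real.exp_le_exp]
  have e1 : (-π * (a * p.1 ^ 2 + 2 * b * p.1 * p.2 + d * p.2 ^ 2) +
      2 * π * (u * p.1 + v * p.2) : ℂ).re =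
      -π * (a.re * p.1 ^ 2 + 2 * b.re * p.1 * p.2 + d.re * p.2 ^ 2) +
      2 * π * (u.re * p.1 + v.re * p.2) := by
    simp [pow_two]
  rw [e1]
  generalize (p.1 : ℝ) = m
  generalize (p.2 : ℝ) = n
  have key : 0 ≤ (a.re - e) * m ^ 2 + 2 * b.re * m * n + (d.re - e) * n ^ 2 := by
    have h4 : 0 < a.re - e := by linarith
    have h5 : (a.re - e) * ((a.re - e) * m ^ 2 + 2 * b.re * m * n + (d.re - e) * n ^ 2) =
        ((a.re - e) * m + b.re * n) ^ 2 + e ^ 2 * n ^ 2 := by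
      linear_combination (-n ^ 2) * he1
    by_contra h6
    push Not at h6
    have := mul_neg_of_pos_of_neg h4 h6
    rw [h5] at this
    have : 0 ≤ ((a.re - e) * m + b.re * n) ^ 2 + e ^ 2 * n ^ 2 := by positivity
    linarith
  nlinarith [Real.pi_pos, mul_nonneg Real.pi_pos.le key]

lemma tsum_swap (a b d u v : ℂ) : ∑' p, tm a b d u v p = ∑' p, tm d b a v u p := by
  rw [← (Equiv.prodComm ℤ ℤ).tsum_eq]
  refine tsum_congr fun p => ?_
  simp only [tm, Equiv.prodComm_apply, Prod.fst_swap, Prod.snd_swap]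
  congr 1
  ring

/-- Poisson summation in the second variable -/
lemma tsum_step {a b d : ℂ} (h : PD a b d) (u v : ℂ) :
    ∑' p, tm d b a v u p = 1 / a ^ (1 / 2 : ℂ) * cexp (π * u ^ 2 / a) *
      ∑' p, tm (d - b ^ 2 / a) (-I * b / a) (1 / a) (v - b * u / a) (-I * u / a) p := by
  rw [(summable_tm h.swap v u).tsum_prod, (summable_tm h.step.swap _ _).tsum_prod,
    ← tsum_mul_left]
  refine tsum_congr fun n => ?_
  have ha := h.ne
  have e1 : ∀ m : ℤ, tm d b a v u (n, m) =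
      cexp (-π * d * n ^ 2 + 2 * π * v * n) * cexp (-π * a * m ^ 2 + 2 * π * (u - b * n) * m) := by
    intro m
    rw [tm, ← Complex.exp_add]
    congr 1
    ring
  simp only [e1]
  rw [tsum_mul_left, Complex.tsum_exp_neg_quadratic h.1, ← tsum_mul_left, ← tsum_mul_left,
    ← tsum_mul_left]
  refine tsum_congr fun m => ?_
  rw [tm, mul_left_comm, mul_assoc (1 / a ^ (1 / 2 : ℂ)), ← Complex.exp_add, ← Complex.exp_add]
  congr 2
  simp only
  field_simp
  linear_combination (-(u - b * n) ^ 2) * I_sq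

lemma sqrt_prod {a e : ℂ} (ha : 0 < a.re) (he : 0 < e.re) {r : ℝ} (hr : 0 < r)
    (h : a * e = r ^ 2) : a ^ (1 / 2 : ℂ) * e ^ (1 / 2 : ℂ) = r := by
  have key : ∀ a : ℂ, 0 < a.re → (a ^ (1 / 2 : ℂ)) ^ 2 = a ∧
      |(a ^ (1 / 2 : ℂ)).im| < (a ^ (1 / 2 : ℂ)).re := by
    intro a ha
    have h1 : (a ^ (1 / 2 : ℂ)) ^ 2 = a := by
      rw [one_div]; exact cpow_ofNat_inv_pow a 2
    refine ⟨h1, ?_⟩
    have h2 : 0 ≤ (a ^ (1 / 2 : ℂ)).re := by
      rw [one_div, cpow_inv_two_re]; positivity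
    have h3 := congrArg re h1
    rw [pow_two, mul_re] at h3
    apply abs_lt_of_sq_lt_sq _ h2
    nlinarith
  obtain ⟨a1, a2⟩ := key a ha
  obtain ⟨e1, e2⟩ := key e he
  generalize a ^ (1 / 2 : ℂ) = α at *
  generalize e ^ (1 / 2 : ℂ) = β at *
  have h1 : (α * β - r) * (α * β + r) = 0 := by
    linear_combination h + β ^ 2 * a1 + a * e1
  rcases mul_eq_zero.1 h1 with h2 | h2
  · linear_combination h2
  · exfalso
    have h3 := congrArg re h2
    simp only [add_re, mul_re, ofReal_re, zero_re] at h3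
    have h4 : α.im * β.im ≤ |α.im| * |β.im| := by rw [← abs_mul]; exact le_abs_self _
    have h5 : |α.im| * |β.im| ≤ α.re * β.re :=
      mul_le_mul a2.le e2.le (abs_nonneg _) ((abs_nonneg _).trans a2.le)
    linarith

theorem poisson2 {a b d : ℂ} (h : PD a b d) {r : ℝ} (hr : 0 < r) (hd : a * d - b ^ 2 = r ^ 2)
    (s t : ℂ) :
    ∑' p : ℤ × ℤ, cexp (-π * (a * (p.1 + s) ^ 2 + 2 * b * (p.1 + s) * (p.2 + t) +
      d * (p.2 + t) ^ 2)) =
    1 / r * ∑' p : ℤ × ℤ, cexp (-π * (a * p.1 ^ 2 - 2 * b * p.1 * p.2 + d * p.2 ^ 2) / r ^ 2 +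
      2 * π * I * (t * p.1 + s * p.2)) := by
  have ha := h.ne
  have hr' : (r : ℂ) ≠ 0 := by exact_mod_cast hr.ne'
  have hD : d - b ^ 2 / a = r ^ 2 / a := by rw [← hd]; field_simp
  have e1 : ∀ p : ℤ × ℤ, cexp (-π * (a * (p.1 + s) ^ 2 + 2 * b * (p.1 + s) * (p.2 + t) +
      d * (p.2 + t) ^ 2)) = cexp (-π * (a * s ^ 2 + 2 * b * s * t + d * t ^ 2)) *
        tm a b d (-(a * s + b * t)) (-(b * s + d * t)) p := by
    intro p
    rw [tm, ← Complex.exp_add]
    congr 1
    ring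
  simp only [e1]
  rw [tsum_mul_left, tsum_swap, tsum_step h, tsum_swap, tsum_step h.step.swap, tsum_swap]
  have hp := sqrt_prod h.1 h.step.swap.1 hr (by rw [hD]; field_simp)
  have e2 : (1 : ℂ) / r = 1 / a ^ (1 / 2 : ℂ) * (1 / (d - b ^ 2 / a) ^ (1 / 2 : ℂ)) := by
    rw [← hp, one_div_mul_one_div]
  rw [e2]
  generalize 1 / a ^ (1 / 2 : ℂ) = A
  generalize 1 / (d - b ^ 2 / a) ^ (1 / 2 : ℂ) = B
  rw [← tsum_mul_left, ← tsum_mul_left, ← tsum_mul_left, ← tsum_mul_left]
  refine tsum_congr fun p => ?_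
  rw [tm, hD]
  have hd' : d = (r ^ 2 + b ^ 2) / a := by rw [← hd]; field_simp; ring
  have e3 : ∀ x y z w : ℂ, cexp x * (A * cexp y * (B * cexp z * cexp w)) =
      A * B * cexp (x + y + z + w) := by
    intro x y z w
    simp only [Complex.exp_add]
    ring
  rw [e3]
  congr 2
  rw [hd']
  field_simp
  rw [I_sq]
  ring

end Vale.Agent.P026.PoissonAux
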