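import Vale.Agent.P026.Res
import Vale.Agent.P026.Count
import Vale.Agent.P026.PoissonAux

/-! Gaussian Poisson summation on `O`.
Plan: iterate `Complex.tsum_exp_neg_quadratic` in the coordinates `(re, im)`: for a complex symmetric matrix `[[a,b],[b,d]]` with positive
definite real part, `∑ exp(-π(a m² + 2b m n + d n²) + 2π(u m + v n)) = (a^(1/2) (d - b²/a)^(1/2))⁻¹ ∑ exp(-π Q⁻¹(m + i u, n + i v))`;
the prefactor has square `det` and positive real part.  `poisson_general` with `κ = 0` and `tsum_res` gives `poisson_gauss`. -/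

namespace Vale.Agent.P026

open scoped ComplexConjugate Real

namespace PoissonAux

/-- `X + Y ω` -/
noncomputable def W (X Y : ℝ) : ℂ := ⟨X - Y / 2, Y * (√3 / 2)⟩

lemma h3 : √3 * √3 = 3 := Real.mul_self_sqrt (by norm_num)

lemma toC_eq (x : O) : toC x = W x.re x.im := rfl

lemma W_add (X Y X' Y' : ℝ) : W X Y + W X' Y' = W (X + X') (Y + Y') := by
  apply Complex.ext <;> simp [W] <;> ring

lemma W_mul (X Y X' Y' : ℝ) :
    W X Y * W X' Y' = W (X * X' - Y * Y') (X * Y' + Y * X' - Y * Y') := by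
  apply Complex.ext
  · simp only [W, Complex.mul_re]
    linear_combination (-(Y * Y' / 4) : ℝ) * h3
  · simp only [W, Complex.mul_im]
    ring

lemma W_neg (X Y : ℝ) : -W X Y = W (-X) (-Y) := by
  apply Complex.ext <;> simp [W]
  ring

lemma W_real (c : ℝ) : (c : ℂ) = W c 0 := by
  apply Complex.ext <;> simp [W]

lemma W_conj (X Y : ℝ) : conj (W X Y) = W (X - Y) (-Y) := by
  apply Complex.ext <;> simp [W]
  ring

lemma W_norm (X Y : ℝ) : ‖W X Y‖ ^ 2 = X ^ 2 - X * Y + Y ^ 2 := by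
  rw [Complex.sq_norm, Complex.normSq_apply]
  simp only [W]
  linear_combination (Y ^ 2 / 4 : ℝ) * h3

lemma W_ec (X Y : ℝ) : ec (W X Y) = Complex.exp (2 * π * Complex.I * Y) := by
  have : (0 : ℝ) < √3 := by positivity
  have e : 2 * (W X Y).im / √3 = Y := by
    simp only [W]
    field_simp
  rw [ec, e]

lemma exists_W (z : ℂ) : ∃ s t, z = W s t := by
  have : (0 : ℝ) < √3 := by positivity
  refine ⟨z.re + z.im / √3, 2 * z.im / √3, ?_⟩
  apply Complex.ext
  · simp only [W]; ring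
  · simp only [W]; field_simp

/-- coordinates -/
def E1 : ℤ × ℤ ≃ O where
  toFun p := ⟨p.1, p.2⟩
  invFun x := (x.re, x.im)
  left_inv _ := rfl
  right_inv _ := rfl

/-- dual coordinates -/
def E2 : ℤ × ℤ ≃ O where
  toFun p := ⟨p.1 + p.2, p.2⟩
  invFun x := (x.re - x.im, x.im)
  left_inv p := by simp
  right_inv x := by ext <;> simp

lemma c0_pos : 0 < c0 := by unfold c0; positivity

lemma c0_sq : c0 ^ 2 * 3 = 4 * π ^ 2 := by
  have : (0 : ℝ) < √3 := by positivity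
  unfold c0
  field_simp
  linear_combination (-4 : ℝ) * h3

end PoissonAux

open PoissonAux

/-- `δ > 0`, `κ` complex, shift `z`; `Δ = δ² + 16π²|κ|²/3`. -/
theorem poisson_general {δ : ℝ} (hδ : 0 < δ) (κ z : ℂ) :
    ∑' x : O, Complex.exp (-(δ * ‖toC x + z‖ ^ 2 : ℝ)) * ec (κ * (toC x + z) ^ 2) =
      (c0 / √(δ ^ 2 + 4 * c0 ^ 2 * ‖κ‖ ^ 2) : ℝ) * ∑' y : O,
        Complex.exp (-(c0 ^ 2 * δ / (δ ^ 2 + 4 * c0 ^ 2 * ‖κ‖ ^ 2) * nm y : ℝ)) *
          ec (-((c0 ^ 2 / (δ ^ 2 + 4 * c0 ^ 2 * ‖κ‖ ^ 2) : ℝ) * conj κ * toC y ^ 2)) *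
          ec (toC y * z) := by
  obtain ⟨s, t, rfl⟩ := exists_W z
  obtain ⟨p, q, rfl⟩ := exists_W κ
  have hc := c0_pos
  have hπ := Real.pi_pos
  set Δ := δ ^ 2 + 4 * c0 ^ 2 * ‖W p q‖ ^ 2 with hΔ
  have hΔ0 : 0 < Δ := by positivity
  set r : ℝ := √Δ / c0 with hr
  have hr0 : 0 < r := by positivity
  have hr2 : r ^ 2 = Δ / c0 ^ 2 := by rw [hr, div_pow, Real.sq_sqrt hΔ0.le]
  set η : ℝ := δ / π with hη
  have hη0 : 0 < η := by positivity
  have hδ' : δ = π * η := by rw [hη]; field_simp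
  have hr3 : r ^ 2 = 3 / 4 * η ^ 2 + 4 * (p ^ 2 - p * q + q ^ 2) := by
    rw [hr2, hΔ, W_norm, div_eq_iff (by positivity), hδ']
    linear_combination (-η ^ 2 / 4) * c0_sq
  have hPD : PD (η - 2 * Complex.I * q) (-η / 2 + Complex.I * (2 * q - 2 * p))
      (η + 2 * Complex.I * p) := by
    constructor
    · simpa using hη0
    · simp
      nlinarith
  have key := poisson2 hPD hr0 (by
    have : ((r : ℂ)) ^ 2 = 3 / 4 * η ^ 2 + 4 * (p ^ 2 - p * q + q ^ 2) := by
      rw [← Complex.ofReal_pow, hr3]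
      push_cast
      ring
    rw [this]
    linear_combination (-4 * (p ^ 2 - p * q + q ^ 2) : ℂ) * Complex.I_sq) s t
  rw [← E1.tsum_eq, ← E2.tsum_eq]
  have e0 : ((c0 / √Δ : ℝ) : ℂ) = 1 / r := by
    rw [hr]
    push_cast
    rw [one_div_div]
  have e1 : c0 ^ 2 * δ / Δ = π * η / r ^ 2 := by
    rw [hr2, ← hδ']; field_simp
  have e2 : c0 ^ 2 / Δ = 1 / r ^ 2 := by
    rw [hr2]; field_simp
  rw [e0, e1, e2]
  convert key using 3 with x y
  · rw [toC_eq, W_add, pow_two (W _ _), W_mul, W_mul, W_ec, W_norm, ← Complex.exp_add, hδ']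
    congr 1
    simp only [E1, Equiv.coe_fn_mk]
    push_cast
    ring
  · ext y
    have hn : (nm (E2 y) : ℝ) = (y.1 : ℝ) ^ 2 + y.1 * y.2 + y.2 ^ 2 := by
      have := congrArg (fun x : ℤ => (x : ℝ)) (nm_int (E2 y))
      simp only [E2, Equiv.coe_fn_mk] at this ⊢
      push_cast at this
      rw [this]; ring
    rw [hn, toC_eq, pow_two (W _ _), W_real (1 / r ^ 2), W_conj, W_mul, W_mul, W_mul, W_mul, W_neg,
      W_ec, W_ec, ← Complex.exp_add, ← Complex.exp_add]
    congr 1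
    simp only [E2, Equiv.coe_fn_mk]
    push_cast
    ring

theorem poisson_gauss {q : O} (hq : q ≠ 0) {f : O → ℂ} (hf : Per q f) {Y : ℝ} (hY : 0 < Y) :
    ∑' h : O, f h * (Real.exp (-(nm h / Y)) : ℝ) =
      (c0 * Y / nm q : ℝ) * ∑' k : O, (∑ x ∈ res q, f x * eq (k * x) q) *
        (Real.exp (-(c0 ^ 2 * Y * nm k / nm q)) : ℝ) := by
  have hc := c0_pos
  have hn : (0 : ℝ) < nm q := by exact_mod_cast nm_pos hq
  have hq' : toC q ≠ 0 := fun h => hq (toC_eq_zero.1 h)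
  have hb : ∀ h, ‖f h‖ ≤ ∑ x ∈ res q, ‖f x‖ := by
    intro h
    obtain ⟨y, ⟨hy1, hy2⟩, -⟩ := res_spec hq h
    rw [hf h y hy2]
    exact Finset.single_le_sum (f := fun x => ‖f x‖) (fun _ _ => norm_nonneg _) hy1
  have hs : Summable fun h : O => f h * (Real.exp (-(nm h / Y)) : ℝ) := by
    refine Summable.of_norm_bounded
      ((summable_exp (y := 1 / Y) (by positivity)).mul_left (∑ x ∈ res q, ‖f x‖)) fun h => ?_
    rw [norm_mul, Complex.norm_real, Real.norm_eq_abs, abs_of_pos (Real.exp_pos _)]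
    have : -(1 / Y * (nm h : ℝ)) = -(nm h / Y) := by ring
    rw [this]
    exact mul_le_mul_of_nonneg_right (hb h) (Real.exp_pos _).le
  have hs2 : ∀ x ∈ res q, Summable fun k : O =>
      f x * eq (k * x) q * (Real.exp (-(c0 ^ 2 * Y * nm k / nm q)) : ℝ) := by
    intro x _
    refine Summable.of_norm_bounded
      ((summable_exp (y := c0 ^ 2 * Y / nm q) (by positivity)).mul_left ‖f x‖) fun h => ?_
    rw [norm_mul, norm_mul, norm_eq, mul_one, Complex.norm_real, Real.norm_eq_abs,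
      abs_of_pos (Real.exp_pos _)]
    have : -(c0 ^ 2 * Y / nm q * (nm h : ℝ)) = -(c0 ^ 2 * Y * nm h / nm q) := by ring
    rw [this]
  rw [tsum_res hq hs]
  simp only [Finset.sum_mul]
  rw [Summable.tsum_finsetSum hs2, Finset.mul_sum]
  refine Finset.sum_congr rfl fun x _ => ?_
  have key := poisson_general (δ := nm q / Y) (by positivity) 0 (toC x / toC q)
  simp only [zero_mul, ec_zero, mul_one, norm_zero, map_zero, mul_zero, neg_zero] at key
  have e0 : ((nm q : ℝ) / Y) ^ 2 + 4 * c0 ^ 2 * 0 ^ 2 = (nm q / Y) ^ 2 := by ring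
  rw [e0, Real.sqrt_sq (by positivity)] at key
  have e1 : ∀ y : O, f (x + q * y) * (Real.exp (-(nm (x + q * y) / Y)) : ℝ) =
      f x * Complex.exp (-(nm q / Y * ‖toC y + toC x / toC q‖ ^ 2 : ℝ)) := by
    intro y
    rw [hf (x + q * y) x ⟨y, by ring⟩]
    congr 1
    have : toC y + toC x / toC q = toC (x + q * y) / toC q := by
      rw [map_add, map_mul]; field_simp; ring
    rw [this, norm_div, div_pow, norm_toC_sq, norm_toC_sq, Complex.ofReal_exp, Complex.ofReal_neg]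
    congr 3
    field_simp
  simp only [e1]
  rw [tsum_mul_left, key, ← tsum_mul_left, ← tsum_mul_left, ← tsum_mul_left]
  refine tsum_congr fun k => ?_
  have e2 : c0 / (nm q / Y) = c0 * Y / nm q := by field_simp
  have e3 : c0 ^ 2 * (nm q / Y) / (nm q / Y) ^ 2 * nm k = c0 ^ 2 * Y * nm k / nm q := by
    field_simp
  rw [e2, e3, eq, map_mul, Complex.ofReal_exp, Complex.ofReal_neg, mul_div_assoc]
  ring_nf

end Vale.Agent.P026
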