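import Vale.Agent.P026.RecDefs
import Vale.Agent.P026.Poisson

/-! # Poisson step: definitions and divisor bookkeeping (see `notes/P026_QLS.md`).

Plan. `sum_pdiv_mul`: `(e₁, e₂) ↦ e₁ e₂` is a bijection `pdiv a × pdiv b → pdiv (a b)`
(`exists_dvd_and_dvd_of_dvd_mul`, `exists_prim`, `Prim.eq_of_associated`; `Finset.sum_bij` on the product).
`phiS`: multiplicative by `sum_pdiv_mul` and `mu_mul`; `pdiv p = {1, p}` for a primary prime; `IsS.induction`.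
`sum_tau_le`: put `n = Δ m`; `(Δ, f, m) ↦ (n, Δ, f)` is injective with `Δ, f ∈ pdiv n`, `card (pdiv Δ) ≤ card (pdiv n)`,
so the left side is at most `∑ n, card (pdiv n) ^ 3 * ‖a n‖ ^ 2`; use `card_pdiv_le (ε / 3)`. -/

namespace Vale.Agent.P026

open scoped ComplexConjugate Real

/-- the part of the weighted mean square coming from pairs with gcd `Δ` -/
noncomputable def BilW (F : Fam) (w : O → ℂ) (Z : ℝ) (b : O → ℂ) (Δ : O) : ℂ :=
  ∑ m1 ∈ sball Z, ∑ m2 ∈ sball Z, ind (IsCoprime m1 m2) * (b (Δ * m1) * conj (b (Δ * m2))) *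
    ∑' h : O, w h * ind (IsCoprime h Δ) * F.X m1 h * conj (F.X m2 h)

/-- archimedean factor of the dual sum -/
noncomputable def dker (y : ℝ) (m1 m2 k : O) : ℝ :=
  (√(nm m1) * √(nm m2))⁻¹ * Real.exp (-(c0 ^ 2 * y * nm k / (nm m1 * nm m2)))

/-- the dual bilinear form at frequency `k` -/
noncomputable def Dual (F : Fam) (Z y : ℝ) (β : O → ℂ) (k : O) : ℂ :=
  ∑ m1 ∈ sball Z, ∑ m2 ∈ sball Z, ind (IsCoprime m1 m2) * (β m1 * conj (β m2)) * F.ε m1 m2 *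
    (conj (F.X m1 k) * F.X m2 k) * (dker y m1 m2 k : ℝ)

/-- coefficients of the dual form -/
noncomputable def dco (F : Fam) (b : O → ℂ) (Δ e m : O) : ℂ := b (Δ * m) * F.X m e * F.g m

/-- the linear forms obtained after separating the variables -/
noncomputable def Tl (F : Fam) (Z : ℝ) (β : O → ℂ) (k f α : O) (t : ℝ) : ℂ :=
  ∑ m ∈ sball Z, ind ((72 : O) ∣ m - α) * ind (f ∣ m) * β m * conj (F.X m k) * nt m t

/-- `φ(D) / N(D)` for squarefree `D` -/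
noncomputable def phiS (D : O) : ℂ := ∑ e ∈ pdiv D, mu e / (nm e : ℂ)

theorem c0_pos : 0 < c0 := PoissonAux.c0_pos

theorem bil_eq_bilW (F : Fam) (Y Z : ℝ) (b : O → ℂ) (Δ : O) :
    Bil F Y Z b Δ = BilW F (fun h => (Real.exp (-(nm h / Y)) : ℝ)) Z b Δ := rfl

theorem sum_pdiv_mul {M : Type*} [AddCommMonoid M] {a b : O} (ha : Prim a) (hb : Prim b)
    (h : IsCoprime a b) (f : O → M) :
    ∑ e ∈ pdiv (a * b), f e = ∑ e₁ ∈ pdiv a, ∑ e₂ ∈ pdiv b, f (e₁ * e₂) := by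
  have ha0 := ha.ne_zero
  have hb0 := hb.ne_zero
  rw [← Finset.sum_product']
  symm
  refine Finset.sum_bij (fun p _ => p.1 * p.2) ?_ ?_ ?_ (fun _ _ => rfl)
  · intro p hp
    rw [Finset.mem_product, mem_pdiv ha0, mem_pdiv hb0] at hp
    exact (mem_pdiv (mul_ne_zero ha0 hb0)).2 ⟨hp.1.1.mul hp.2.1, mul_dvd_mul hp.1.2 hp.2.2⟩
  · intro p hp q hq e
    rw [Finset.mem_product, mem_pdiv ha0, mem_pdiv hb0] at hp hq
    have c1 : IsCoprime p.1 q.2 := (h.of_isCoprime_of_dvd_left hp.1.2).of_isCoprime_of_dvd_right hq.2.2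
    have c2 : IsCoprime q.1 p.2 := (h.of_isCoprime_of_dvd_left hq.1.2).of_isCoprime_of_dvd_right hp.2.2
    have e' : p.1 * p.2 = q.1 * q.2 := e
    have d1 : p.1 ∣ q.1 := c1.dvd_of_dvd_mul_right (e' ▸ dvd_mul_right _ _)
    have d2 : q.1 ∣ p.1 := c2.dvd_of_dvd_mul_right (e' ▸ dvd_mul_right _ _)
    have e1 : p.1 = q.1 := hp.1.1.eq_of_associated hq.1.1 (associated_of_dvd_dvd d1 d2)
    rw [e1] at e'
    exact Prod.ext e1 (mul_left_cancel₀ hq.1.1.ne_zero e')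
  · intro e he
    rw [mem_pdiv (mul_ne_zero ha0 hb0)] at he
    obtain ⟨d1, d2, h1, h2, rfl⟩ := exists_dvd_and_dvd_of_dvd_mul he.2
    obtain ⟨u, c, hu, hc, rfl⟩ := exists_prim (n := d1) fun hl => ha.not_lam_dvd (hl.trans h1)
    refine ⟨(c, u * d2), ?_, by ring⟩
    rw [Finset.mem_product, mem_pdiv ha0, mem_pdiv hb0]
    refine ⟨⟨hc, (dvd_mul_left _ _).trans h1⟩, hc.of_mul ?_, hu.mul_left_dvd.2 h2⟩
    rw [show c * (u * d2) = u * c * d2 by ring]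
    exact he.1

theorem card_pdiv_mul {a b : O} (ha : Prim a) (hb : Prim b) (h : IsCoprime a b) :
    (pdiv (a * b)).card = (pdiv a).card * (pdiv b).card := by
  rw [Finset.card_eq_sum_ones, sum_pdiv_mul ha hb h]
  simp

theorem phiS_mul {a b : O} (ha : Prim a) (hb : Prim b) (h : IsCoprime a b) :
    phiS (a * b) = phiS a * phiS b := by
  unfold phiS
  rw [sum_pdiv_mul ha hb h, Finset.sum_mul_sum]
  refine Finset.sum_congr rfl fun e₁ h1 => Finset.sum_congr rfl fun e₂ h2 => ?_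
  rw [mem_pdiv ha.ne_zero] at h1
  rw [mem_pdiv hb.ne_zero] at h2
  rw [mu_mul ((h.of_isCoprime_of_dvd_left h1.2).of_isCoprime_of_dvd_right h2.2), nm_mul,
    div_mul_div_comm]
  push_cast
  rfl

theorem psd_nm_one : nm 1 = 1 := isUnit_iff_nm.1 isUnit_one

theorem psd_pdiv_one : pdiv 1 = {1} := by
  ext e
  rw [mem_pdiv one_ne_zero, Finset.mem_singleton]
  exact ⟨fun h => h.1.eq_one_of_isUnit (isUnit_of_dvd_one h.2), fun h => by rw [h]; exact ⟨prim_one, dvd_rfl⟩⟩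

open Classical in
theorem psd_pdiv_prime {p : O} (hp : Prime p) (hp' : Prim p) : pdiv p = {1, p} := by
  ext e
  rw [mem_pdiv hp.ne_zero, Finset.mem_insert, Finset.mem_singleton]
  constructor
  · rintro ⟨h1, h2⟩
    rcases (hp.irreducible.dvd_iff).1 h2 with h | h
    · exact Or.inl (h1.eq_one_of_isUnit h)
    · exact Or.inr (h1.eq_of_associated hp' h.symm)
  · rintro (rfl | rfl)
    · exact ⟨prim_one, one_dvd _⟩
    · exact ⟨hp', dvd_rfl⟩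

theorem norm_phiS_le {D : O} (hD : IsS D) : ‖phiS D‖ ≤ 1 := by
  refine IsS.induction (P := fun D => ‖phiS D‖ ≤ 1) ?_ ?_ hD
  · simp [phiS, psd_pdiv_one, mu_one]
  · intro p n hp hpS hn hpn ih
    rw [phiS_mul hpS.1.1 hn.1.1 ((Irreducible.coprime_iff_not_dvd hp.irreducible).2 hpn), norm_mul]
    refine mul_le_one₀ ?_ (norm_nonneg _) ih
    have h1 : (1 : O) ≠ p := fun e => hp.not_isUnit (e ▸ isUnit_one)
    have h2 : (1 : ℝ) ≤ nm p := one_le_nm hp.ne_zero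
    have h3 : phiS p = ((1 - 1 / (nm p : ℝ) : ℝ) : ℂ) := by
      rw [phiS, psd_pdiv_prime hp hpS.1.1, Finset.sum_pair h1, mu_one, mu_prime hp, psd_nm_one]
      push_cast
      ring
    have h4 : 1 / (nm p : ℝ) ≤ 1 := (div_le_one (by linarith)).2 h2
    have h5 : 0 ≤ 1 / (nm p : ℝ) := by positivity
    rw [h3, Complex.norm_real, Real.norm_eq_abs, abs_le]
    constructor <;> linarith

theorem psd_pdiv_subset {Z : ℝ} {m : O} (h : m ∈ sball Z) : pdiv m ⊆ sball Z := by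
  intro e he
  rw [mem_sball] at h ⊢
  have h0 := h.1.1.1.ne_zero
  rw [mem_pdiv h0] at he
  refine ⟨h.1.of_dvd he.1 he.2, le_trans ?_ h.2⟩
  exact_mod_cast nm_le_of_dvd h0 he.2

theorem ind_coprime_sball {Z : ℝ} {m1 : O} (h1 : m1 ∈ sball Z) (m2 : O) :
    ind (IsCoprime m1 m2) = ∑ f ∈ sball Z, mu f * (ind (f ∣ m1) * ind (f ∣ m2)) := by
  rw [mem_sball] at h1
  have h0 := h1.1.1.1.ne_zero
  rw [show ind (IsCoprime m1 m2) = ind (IsCoprime m2 m1) by rw [isCoprime_comm],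
    ind_coprime h1.1.1.1]
  symm
  rw [← Finset.sum_subset (psd_pdiv_subset (mem_sball.2 h1))]
  · refine Finset.sum_congr rfl fun e he => ?_
    rw [ind_of ((mem_pdiv h0).1 he).2, one_mul]
  · intro f hf hf'
    rw [mem_pdiv h0] at hf'
    rw [ind_of_not (p := f ∣ m1) fun h => hf' ⟨(mem_sball.1 hf).1.1.1, h⟩]
    simp

theorem norm_X_le (F : Fam) {n : O} (hn : IsP n) (a : O) : ‖F.X n a‖ ≤ 1 := by
  by_cases h : IsCoprime a n
  · exact (F.norm_X n a hn h).le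
  · rw [F.X_eq_zero n a hn h, norm_zero]
    exact zero_le_one

theorem norm_dco_le (F : Fam) (b : O → ℂ) (Δ e : O) {m : O} (hm : IsS m) :
    ‖dco F b Δ e m‖ ≤ ‖b (Δ * m)‖ := by
  unfold dco
  rw [norm_mul, norm_mul, F.norm_g m hm, mul_one]
  exact mul_le_of_le_one_right (norm_nonneg _) (norm_X_le F hm.1 e)

theorem psd_sum_mul_le {Z : ℝ} (G : O → ℝ) (hG : ∀ n, 0 ≤ G n) (hs : ∀ n, G n ≠ 0 → n ∈ sball Z) :
    ∑ Δ ∈ sball Z, ∑ m ∈ sball Z, G (Δ * m) ≤ ∑ n ∈ sball Z, (pdiv n).card * G n := by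
  classical
  have h1 : ∀ Δ ∈ sball Z, ∑ m ∈ sball Z, G (Δ * m) ≤ ∑ n ∈ sball Z, if Δ ∣ n then G n else 0 := by
    intro Δ hΔ
    have h0 := (mem_sball.1 hΔ).1.1.1.ne_zero
    rw [← Finset.sum_image (f := G) (g := fun m => Δ * m)
      (fun x _ y _ e => mul_left_cancel₀ h0 e), ← Finset.sum_filter, ← Finset.sum_filter_ne_zero]
    refine Finset.sum_le_sum_of_subset_of_nonneg (fun n hn => ?_) fun n _ _ => hG n
    rw [Finset.mem_filter, Finset.mem_image] at hn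
    obtain ⟨⟨m, _, rfl⟩, h2⟩ := hn
    exact Finset.mem_filter.2 ⟨hs _ h2, dvd_mul_right _ _⟩
  refine (Finset.sum_le_sum h1).trans ?_
  rw [Finset.sum_comm]
  refine Finset.sum_le_sum fun n hn => ?_
  rw [← Finset.sum_filter, Finset.sum_const, nsmul_eq_mul]
  refine mul_le_mul_of_nonneg_right ?_ (hG n)
  have : (sball Z).filter (· ∣ n) ⊆ pdiv n := fun e he => by
    rw [Finset.mem_filter] at he
    exact (mem_pdiv (mem_sball.1 hn).1.1.1.ne_zero).2 ⟨(mem_sball.1 he.1).1.1.1, he.2⟩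
  exact_mod_cast Finset.card_le_card this

theorem sum_tau_le (ε : ℝ) (hε : 0 < ε) : ∃ C : ℝ, 0 < C ∧ ∀ (Z : ℝ) (a : O → ℂ), 1 ≤ Z →
    (∀ n, a n ≠ 0 → n ∈ sball Z) →
    ∑ Δ ∈ sball Z, (pdiv Δ).card * ∑ f ∈ sball Z, ∑ m ∈ sball Z, ‖ind (f ∣ m) * a (Δ * m)‖ ^ 2 ≤
      C * Z ^ ε * ∑ n ∈ sball Z, ‖a n‖ ^ 2 := by
  obtain ⟨C, hC, hle⟩ := card_pdiv_le (ε / 3) (by positivity)
  refine ⟨C ^ 3, by positivity, fun Z a hZ ha => ?_⟩
  have h1 : ∀ Δ ∈ sball Z, ((pdiv Δ).card : ℝ) *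
      ∑ f ∈ sball Z, ∑ m ∈ sball Z, ‖ind (f ∣ m) * a (Δ * m)‖ ^ 2 ≤
      ∑ m ∈ sball Z, ((pdiv (Δ * m)).card : ℝ) ^ 2 * ‖a (Δ * m)‖ ^ 2 := by
    intro Δ hΔ
    rw [Finset.sum_comm, Finset.mul_sum]
    refine Finset.sum_le_sum fun m hm => ?_
    have h0 : Δ * m ≠ 0 := mul_ne_zero (mem_sball.1 hΔ).1.1.1.ne_zero (mem_sball.1 hm).1.1.1.ne_zero
    have k1 : ((pdiv Δ).card : ℝ) ≤ (pdiv (Δ * m)).card := by
      exact_mod_cast card_pdiv_mono h0 (dvd_mul_right _ _)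
    have k2 : ((pdiv m).card : ℝ) ≤ (pdiv (Δ * m)).card := by
      exact_mod_cast card_pdiv_mono h0 (dvd_mul_left _ _)
    have k3 : ∑ f ∈ sball Z, ‖ind (f ∣ m) * a (Δ * m)‖ ^ 2 ≤ (pdiv m).card * ‖a (Δ * m)‖ ^ 2 := by
      rw [← Finset.sum_subset (psd_pdiv_subset hm), ← nsmul_eq_mul]
      · refine Finset.sum_le_card_nsmul _ _ _ fun f _ => ?_
        rw [norm_mul]
        exact pow_le_pow_left₀ (by positivity)
          (mul_le_of_le_one_left (norm_nonneg _) (norm_ind_le _)) 2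
      · intro f hf hf'
        rw [mem_pdiv (mem_sball.1 hm).1.1.1.ne_zero] at hf'
        rw [ind_of_not (p := f ∣ m) fun h => hf' ⟨(mem_sball.1 hf).1.1.1, h⟩]
        simp
    calc ((pdiv Δ).card : ℝ) * ∑ f ∈ sball Z, ‖ind (f ∣ m) * a (Δ * m)‖ ^ 2
        ≤ (pdiv (Δ * m)).card * ((pdiv (Δ * m)).card * ‖a (Δ * m)‖ ^ 2) :=
          mul_le_mul k1 (k3.trans (mul_le_mul_of_nonneg_right k2 (by positivity)))
            (Finset.sum_nonneg fun _ _ => by positivity) (by positivity)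
      _ = _ := by ring
  refine (Finset.sum_le_sum h1).trans ((psd_sum_mul_le
    (fun n => ((pdiv n).card : ℝ) ^ 2 * ‖a n‖ ^ 2) (fun n => by positivity)
    (fun n hn => ha n fun e => hn (by simp [e]))).trans ?_)
  rw [Finset.mul_sum]
  refine Finset.sum_le_sum fun n hn => ?_
  rw [mem_sball] at hn
  have k1 := hle n hn.1.1.1.ne_zero
  have k2 : (nm n : ℝ) ^ (ε / 3) ≤ Z ^ (ε / 3) :=
    Real.rpow_le_rpow (by positivity) hn.2 (by positivity)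
  have k3 : ((pdiv n).card : ℝ) ^ 3 ≤ (C * Z ^ (ε / 3)) ^ 3 :=
    pow_le_pow_left₀ (by positivity) (k1.trans (mul_le_mul_of_nonneg_left k2 hC.le)) 3
  have k4 : (C * Z ^ (ε / 3)) ^ 3 = C ^ 3 * Z ^ ε := by
    rw [mul_pow, ← Real.rpow_natCast (Z ^ (ε / 3)), ← Real.rpow_mul (by linarith)]
    norm_num
  calc ((pdiv n).card : ℝ) * (((pdiv n).card : ℝ) ^ 2 * ‖a n‖ ^ 2)
      = ((pdiv n).card : ℝ) ^ 3 * ‖a n‖ ^ 2 := by ring
    _ ≤ _ := mul_le_mul_of_nonneg_right (k4 ▸ k3) (by positivity)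

theorem sum_tau_le' (ε : ℝ) (hε : 0 < ε) : ∃ C : ℝ, 0 < C ∧ ∀ (Z : ℝ) (a : O → ℂ), 1 ≤ Z →
    (∀ n, a n ≠ 0 → n ∈ sball Z) →
    ∑ Δ ∈ sball Z, (pdiv Δ).card * ∑ m ∈ sball Z, ‖a (Δ * m)‖ ^ 2 ≤
      C * Z ^ ε * ∑ n ∈ sball Z, ‖a n‖ ^ 2 := by
  obtain ⟨C, hC, hle⟩ := sum_tau_le ε hε
  refine ⟨C, hC, fun Z a hZ ha => le_trans (Finset.sum_le_sum fun Δ _ => ?_) (hle Z a hZ ha)⟩
  refine mul_le_mul_of_nonneg_left ?_ (by positivity)
  have h1 : (1 : O) ∈ sball Z := mem_sball.2 ⟨isS_one, by rw [psd_nm_one]; exact_mod_cast hZ⟩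
  refine le_trans (le_of_eq ?_) (Finset.single_le_sum
    (f := fun f => ∑ m ∈ sball Z, ‖ind (f ∣ m) * a (Δ * m)‖ ^ 2)
    (fun _ _ => Finset.sum_nonneg fun _ _ => by positivity) h1)
  refine Finset.sum_congr rfl fun m _ => ?_
  rw [ind_of (one_dvd m), one_mul]

end Vale.Agent.P026
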