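import Vale.Agent.P026.RecAux

/-! REC: removing the squarefree condition (cube inversion).
Plans.
* `sum_th0`: bijection `(c, δ) ↦ c δ³` (`cube_decomp_unique`, `th0_eq`, `th0_ne_zero`, `ang_mul`).
* `cube_inv`: expand with `sum_th0` (for `Φ (δ³ ·)`), collect `δ'' = δ δ'`; the coefficient is `bet D δ''`, which is `ind (δ'' = 1)` for `nm δ'' ≤ D` (`sum_mu_pdiv`).
* `ts_split`: `ξ` from `exists_xi0`; `Φ n = ind (IsP n) φ n ξ n ind (IsCoprime n d) ind (f ∣ n) sex e n conj (sex k n) V nt`, so `Ts = ∑_c sqf c * Φ c`.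
  `φ₁ δ n = ind (IsP (δ³ n)) φ (δ³ n) ξ (δ³ n) ind (IsCoprime (δ³ n) d) ind (f ∣ δ³ n) sex e n` (`sex_den_congr` for periodicity, `η u = sex e u`);
  `g δ = f / gcd(f, δ)` (`exists_prim_gcd`; `f ∣ c δ³ ↔ g δ ∣ c`), `φ₂ δ c = ind (IsP δ) φ (c δ³) ξ (c δ³) conj (ξ c)`; factors depending only on `δ, k` have norm ≤ 1. -/

namespace Vale.Agent.P026

open scoped ComplexConjugate Real

/-- theta coefficient times angle on squarefree primary `c` -/
noncomputable def sqf (c : O) : ℂ := ind (Prim c ∧ Squarefree c) * conj (gt3 c) * ang c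

open Classical in
/-- truncated Möbius sum -/
noncomputable def bet (D : ℝ) (δ : O) : ℂ := ∑ e ∈ pdiv δ with (nm e : ℝ) ≤ D, mu e

theorem norm_bet_le (D : ℝ) (δ : O) : ‖bet D δ‖ ≤ tau δ := by
  classical
  refine (norm_sum_le _ _).trans ((Finset.sum_le_card_nsmul _ _ 1 fun e _ => norm_mu_le e).trans ?_)
  rw [nsmul_eq_mul, mul_one, tau]
  exact_mod_cast Finset.card_filter_le _ _

theorem sqf_ne_zero {c : O} (h : sqf c ≠ 0) : Prim c ∧ Squarefree c := by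
  by_contra h1
  exact h (by simp [sqf, ind_of_not h1])

theorem th0_term {c d : O} (hc : Prim c) (hs : Squarefree c) (hd : Prim d) (z : ℂ) :
    th0 (c * d ^ 3) * ang (c * d ^ 3) * z = (√(nm d) : ℝ) * ang d ^ 3 * (sqf c * z) := by
  have e : ang (d ^ 3) = ang d ^ 3 := by rw [pow_three, pow_three, ang_mul, ang_mul]
  rw [th0_eq hc hs hd, ang_mul, e, sqf, ind_of (p := Prim c ∧ Squarefree c) ⟨hc, hs⟩]
  ring

theorem sum_th0 {Z : ℝ} {Φ : O → ℂ} (hΦ : ∀ n, Φ n ≠ 0 → (nm n : ℝ) ≤ Z) :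
    ∑ n ∈ ball Z, th0 n * ang n * Φ n =
      ∑ δ ∈ pball Z, (√(nm δ) : ℝ) * ang δ ^ 3 * ∑ c ∈ ball Z, sqf c * Φ (c * δ ^ 3) := by
  simp only [Finset.mul_sum]
  rw [← Finset.sum_product']
  symm
  refine Finset.sum_bij_ne_zero (fun q _ _ => q.2 * q.1 ^ 3) (fun q _ h => ?_)
    (fun q h₁ h₂ q' h₁' h₂' e => ?_) (fun n hn h => ?_) (fun q h₁ h₂ => ?_)
  · exact mem_ball.2 (hΦ _ (right_ne_zero_of_mul (right_ne_zero_of_mul h)))
  · have a1 := sqf_ne_zero (left_ne_zero_of_mul (right_ne_zero_of_mul h₂))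
    have a2 := sqf_ne_zero (left_ne_zero_of_mul (right_ne_zero_of_mul h₂'))
    obtain ⟨b1, b2⟩ := cube_decomp_unique a1.1 a1.2 (mem_pball.1 (Finset.mem_product.1 h₁).1).1
      a2.1 a2.2 (mem_pball.1 (Finset.mem_product.1 h₁').1).1 e
    exact Prod.ext b2 b1
  · obtain ⟨c, d, hc, hs, hd, rfl⟩ := th0_ne_zero (left_ne_zero_of_mul (left_ne_zero_of_mul h))
    have h0 : c * d ^ 3 ≠ 0 := (hc.mul (hd.pow 3)).ne_zero
    have a1 : (nm c : ℝ) ≤ nm (c * d ^ 3) := by exact_mod_cast nm_le_of_dvd h0 (dvd_mul_right _ _)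
    have a2 : (nm d : ℝ) ≤ nm (c * d ^ 3) := by
      exact_mod_cast nm_le_of_dvd h0 ((dvd_pow_self d three_ne_zero).mul_left c)
    refine ⟨(d, c), Finset.mem_product.2 ⟨mem_pball.2 ⟨hd, a2.trans (mem_ball.1 hn)⟩,
      mem_ball.2 (a1.trans (mem_ball.1 hn))⟩, ?_, rfl⟩
    rwa [th0_term hc hs hd] at h
  · have a1 := sqf_ne_zero (left_ne_zero_of_mul (right_ne_zero_of_mul h₂))
    rw [th0_term a1.1 a1.2 (mem_pball.1 (Finset.mem_product.1 h₁).1).1]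

open Classical in
theorem cube_inv {Z D : ℝ} (hD : 1 ≤ D) {Φ : O → ℂ} (hΦ : ∀ n, Φ n ≠ 0 → (nm n : ℝ) ≤ Z) :
    ∑ c ∈ ball Z, sqf c * Φ c =
      ∑ δ ∈ pball D, mu δ * (√(nm δ) : ℝ) * ang δ ^ 3 *
          ∑ n ∈ ball Z, th0 n * ang n * Φ (δ ^ 3 * n) -
        ∑ δ ∈ pball Z with D < nm δ, bet D δ * (√(nm δ) : ℝ) * ang δ ^ 3 *
          ∑ c ∈ ball Z, sqf c * Φ (c * δ ^ 3) := by
  obtain ⟨S, hS⟩ : ∃ S : O → ℂ, S = fun δ => ∑ c ∈ ball Z, sqf c * Φ (c * δ ^ 3) := ⟨_, rfl⟩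
  obtain ⟨w, hw⟩ : ∃ w : O → ℂ, w = fun δ => (√(nm δ) : ℝ) * ang δ ^ 3 := ⟨_, rfl⟩
  have hwm : ∀ a b, w (a * b) = w a * w b := fun a b => by
    simp only [hw, G2.sqrt_nm_mul, ang_mul]; push_cast; ring
  have hS0 : ∀ δ, Prim δ → S δ ≠ 0 → (nm δ : ℝ) ≤ Z := fun δ hδ h => by
    rw [hS] at h
    obtain ⟨c, -, hc⟩ := Finset.exists_ne_zero_of_sum_ne_zero h
    have h0 : c * δ ^ 3 ≠ 0 := ((sqf_ne_zero (left_ne_zero_of_mul hc)).1.mul (hδ.pow 3)).ne_zero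
    refine le_trans ?_ (hΦ _ (right_ne_zero_of_mul hc))
    exact_mod_cast nm_le_of_dvd h0 ((dvd_pow_self δ three_ne_zero).mul_left c)
  have h1 : ∑ δ ∈ pball D, mu δ * (√(nm δ) : ℝ) * ang δ ^ 3 *
      ∑ n ∈ ball Z, th0 n * ang n * Φ (δ ^ 3 * n) =
      ∑ δ ∈ pball D, ∑ δ' ∈ pball Z, mu δ * (w (δ * δ') * S (δ * δ')) := by
    refine Finset.sum_congr rfl fun δ hδ => ?_
    have h0 := (mem_pball.1 hδ).1.ne_zero
    rw [sum_th0 (Φ := fun n => Φ (δ ^ 3 * n)) fun n hn => le_trans (by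
      rw [nm_mul]; push_cast
      exact le_mul_of_one_le_left (Nat.cast_nonneg _) (one_le_nm (pow_ne_zero 3 h0))) (hΦ _ hn),
      Finset.mul_sum]
    refine Finset.sum_congr rfl fun δ' _ => ?_
    have e : ∀ c : O, δ ^ 3 * (c * δ' ^ 3) = c * (δ * δ') ^ 3 := fun c => by ring
    simp only [e]
    rw [hwm, hw, hS]
    ring
  have h2 : ∑ δ ∈ pball D, ∑ δ' ∈ pball Z, mu δ * (w (δ * δ') * S (δ * δ')) =
      ∑ δ ∈ pball Z, bet D δ * (w δ * S δ) := by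
    simp only [bet, Finset.sum_mul]
    rw [← Finset.sum_product', Finset.sum_sigma']
    refine Finset.sum_bij_ne_zero (fun q _ _ => ⟨q.1 * q.2, q.1⟩) (fun q hq h => ?_)
      (fun q h₁ _ q' _ _ e => ?_) (fun n hn h => ?_) (fun q _ _ => rfl)
    · obtain ⟨a1, a2⟩ := Finset.mem_product.1 hq
      have a3 := (mem_pball.1 a1).1.mul (mem_pball.1 a2).1
      exact Finset.mem_sigma.2 ⟨mem_pball.2 ⟨a3, hS0 _ a3
        (right_ne_zero_of_mul (right_ne_zero_of_mul h))⟩, Finset.mem_filter.2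
        ⟨(mem_pdiv a3.ne_zero).2 ⟨(mem_pball.1 a1).1, dvd_mul_right _ _⟩, (mem_pball.1 a1).2⟩⟩
    · obtain ⟨e1, e2⟩ := Sigma.mk.inj e
      have e3 := eq_of_heq e2
      rw [← e3] at e1
      exact Prod.ext e3 (mul_left_cancel₀
        (mem_pball.1 (Finset.mem_product.1 h₁).1).1.ne_zero e1)
    · obtain ⟨δ, e⟩ := n
      obtain ⟨a1, a2⟩ := Finset.mem_sigma.1 hn
      obtain ⟨a3, a4⟩ := mem_pball.1 a1
      obtain ⟨a5, a6⟩ := Finset.mem_filter.1 a2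
      obtain ⟨a7, δ', a8⟩ := (mem_pdiv a3.ne_zero).1 a5
      dsimp only at *
      subst a8
      refine ⟨(e, δ'), Finset.mem_product.2 ⟨mem_pball.2 ⟨a7, a6⟩, mem_pball.2
        ⟨a7.of_mul a3, le_trans ?_ a4⟩⟩, h, rfl⟩
      exact_mod_cast nm_le_of_dvd a3.ne_zero (dvd_mul_left _ _)
  have h3 : ∑ δ ∈ pball Z with ¬D < nm δ, bet D δ * (w δ * S δ) = S 1 := by
    have h4 : ∀ δ ∈ (pball Z).filter fun δ => ¬D < nm δ, bet D δ = ind (δ = 1) := by
      intro δ hδ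
      obtain ⟨a1, a2⟩ := Finset.mem_filter.1 hδ
      have a3 := (mem_pball.1 a1).1
      rw [bet, Finset.filter_true_of_mem fun e he => le_trans (by
        exact_mod_cast nm_le_of_dvd a3.ne_zero ((mem_pdiv a3.ne_zero).1 he).2) (not_lt.1 a2),
        sum_mu_pdiv a3]
    have h5 : w 1 = 1 := by simp [hw, ang]
    rw [Finset.sum_congr rfl fun δ hδ => by rw [h4 δ hδ], Finset.sum_eq_single 1
      (fun δ _ h => by rw [ind_of_not h, zero_mul]) fun h => ?_, ind_of rfl, h5, one_mul, one_mul]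
    by_contra h6
    exact h (Finset.mem_filter.2 ⟨mem_pball.2 ⟨prim_one, hS0 1 prim_one
      (right_ne_zero_of_mul (right_ne_zero_of_mul h6))⟩, by simpa using hD⟩)
  rw [h1, h2, ← Finset.sum_filter_add_sum_filter_not (pball Z) fun δ => D < nm δ, h3, hS, hw]
  simp only [mul_assoc, one_pow, mul_one]
  ring

theorem isP_cube {δ : O} (h : IsP δ) : IsP (δ ^ 3) := by
  rw [pow_three]; exact h.mul (h.mul h)

theorem cube_gcd {f : O} (hf : IsS f) (δ : O) :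
    ∃ g, IsS g ∧ ∀ c, f ∣ c * δ ^ 3 ↔ g ∣ c := by
  obtain ⟨d, h1, ⟨g, rfl⟩, h3, h4⟩ := exists_prim_gcd δ hf.1.1
  have h5 : IsS g := hf.of_dvd (h1.of_mul hf.1.1) (dvd_mul_left _ _)
  have h6 : IsCoprime g δ := isCoprime_of_prime_dvd (fun h => h5.1.1.ne_zero h.1)
    fun p hp a b => hp.not_isUnit (hf.coprime.isUnit_of_dvd' (h4 p (a.mul_left d) b) a)
  refine ⟨g, h5, fun c => ⟨fun h => h6.pow_right.dvd_of_dvd_mul_right
    ((dvd_mul_left g d).trans h), fun h => ?_⟩⟩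
  rw [mul_comm c]
  exact mul_dvd_mul (h3.trans (dvd_pow_self δ three_ne_zero)) h

theorem cube_vbw {Q : O} (h72 : (72 : O) ∣ Q) {φ : O → ℂ} (hφ : PerP Q φ) {d e : O} (hd : Prim d)
    (he : e ∣ d) {ξ : O → ℂ} (hξ1 : Per 72 ξ) (hξ2 : ∀ n, ‖ξ n‖ = 1) {a : O} (ha : Prim a)
    (f : O) : VBw Q (Q * d * f) fun n => ind (IsP (a * n)) * φ (a * n) * ξ (a * n) *
      ind (IsCoprime (a * n) d) * ind (f ∣ a * n) * sex e n := by
  have hP : ∀ n, IsP (a * n) → IsP n := fun n h => h.of_dvd (ha.of_mul h.1) (dvd_mul_left _ _)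
  have hQ : Q ∣ Q * d * f := (dvd_mul_right Q d).mul_right f
  have hdR : d ∣ Q * d * f := (dvd_mul_left d Q).mul_right f
  refine ⟨fun x y h => ?_, fun n => ?_, fun n hn => by simp [ind_of_not fun h => hn (hP n h)],
    fun u => sex e u, fun u hu hc => ?_⟩
  · beta_reduce
    have h1 : Q * d * f ∣ a * x - a * y := by rw [← mul_sub]; exact h.mul_left a
    have h2 := fam_isP_congr (h72.trans (hQ.trans h1))
    by_cases hx : IsP (a * x)
    · have h3 : IsCoprime (a * x) d ↔ IsCoprime (a * y) d := by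
        obtain ⟨z, hz⟩ := hdR.trans h1
        rw [sub_eq_iff_eq_add'.1 hz, IsCoprime.add_mul_left_left_iff]
      rw [hφ.2 _ _ hx (h2.1 hx) (hQ.trans h1), hξ1 _ _ (h72.trans (hQ.trans h1)), h2, h3,
        (dvd_iff_dvd_of_dvd_sub ((dvd_mul_left f _).trans h1)), sex_den_congr
          (ne_zero_of_dvd_ne_zero hd.ne_zero he) (hP x hx) (h72.trans hQ)
          (fun p _ hp => hp.trans (he.trans hdR)) h]
    · simp [ind_of_not hx, ind_of_not fun b => hx (h2.2 b)]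
  · simp only [norm_mul, hξ2, mul_one]
    exact mul_le_one₀ (mul_le_one₀ (mul_le_one₀ (mul_le_one₀ (norm_ind_le _) (norm_nonneg _)
      (hφ.1 _)) (norm_nonneg _) (norm_ind_le _)) (norm_nonneg _) (norm_ind_le _)) (norm_nonneg _)
      (norm_sex_le _ _)
  · have hu' : IsP u := (fam_isP_congr (h72.trans hu)).2 isP_one
    refine ⟨norm_sex hu' (hc.of_isCoprime_of_dvd_right (he.trans hdR)).symm, fun n => ?_⟩
    beta_reduce
    have e1 : a * (u * n) = u * (a * n) := by ring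
    have h1 : Q ∣ u * (a * n) - a * n := by rw [← sub_one_mul]; exact hu.mul_right _
    have h2 := fam_isP_congr (h72.trans h1)
    rw [e1]
    by_cases hx : IsP (a * n)
    · rw [hφ.2 _ _ (h2.2 hx) hx h1, hξ1 _ _ (h72.trans h1), h2, IsCoprime.mul_left_iff,
        and_iff_right (hc.of_isCoprime_of_dvd_right hdR),
        show f ∣ u * (a * n) ↔ f ∣ a * n from ⟨(hc.of_isCoprime_of_dvd_right
          (dvd_mul_left f _)).symm.dvd_of_dvd_mul_left, fun h => h.mul_left u⟩,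
        sex_mul_right hu'.1.ne_zero (hP n hx).1.ne_zero]
      ring
    · simp [ind_of_not hx, ind_of_not fun b => hx (h2.1 b)]

open Classical in
theorem ts_split {Q : O} (h72 : (72 : O) ∣ Q) {B : ℝ} {V : ℝ → ℝ} (hV : Adm B V) {N D : ℝ}
    (hN : 0 < N) (hD : 1 ≤ D) {φ : O → ℂ} (hφ : PerP Q φ) {d e f : O} (hd : Prim d) (he : e ∣ d)
    (hf : IsS f) : ∃ (φ₁ φ₂ : O → O → ℂ) (g : O → O),
      (∀ δ, Prim δ → VBw Q (Q * d * f) (φ₁ δ) ∧ PerP Q (φ₂ δ) ∧ IsS (g δ)) ∧ ∀ (t : ℝ) (k : O),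
      ‖Ts φ d e f B V N t k‖ ≤
        ∑ δ ∈ pball D, √(nm δ) * ‖Ws (φ₁ δ) B V (N / (nm δ : ℝ) ^ 3) t k‖ +
        ∑ δ ∈ pball (B * N) with D < nm δ,
          tau δ * √(nm δ) * ‖Ts (φ₂ δ) d e (g δ) B V (N / (nm δ : ℝ) ^ 3) t k‖ := by
  obtain ⟨ξ, hξ1, hξ2, hξ3⟩ := exists_xi0
  choose! g hg1 hg2 using fun δ : O => cube_gcd hf δ
  have hB0 : 0 < B := by linarith [hV.1]
  refine ⟨fun δ n => ind (IsP (δ ^ 3 * n)) * φ (δ ^ 3 * n) * ξ (δ ^ 3 * n) *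
      ind (IsCoprime (δ ^ 3 * n) d) * ind (f ∣ δ ^ 3 * n) * sex e n,
    fun δ c => ind (IsP δ) * φ (c * δ ^ 3) * ξ (c * δ ^ 3) * conj (ξ c), g,
    fun δ hδ => ⟨cube_vbw h72 hφ hd he hξ1 hξ2 (hδ.pow 3) f, ⟨fun c => ?_, fun c c' hc hc' h => ?_⟩,
      hg1 δ⟩, fun t k => ?_⟩
  · simp only [norm_mul, Complex.norm_conj, hξ2, mul_one]
    exact mul_le_one₀ (norm_ind_le _) (norm_nonneg _) (hφ.1 _)
  · beta_reduce
    by_cases h1 : IsP δ
    · have h2 : Q ∣ c * δ ^ 3 - c' * δ ^ 3 := by rw [← sub_mul]; exact h.mul_right _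
      rw [hφ.2 _ _ (hc.mul (isP_cube h1)) (hc'.mul (isP_cube h1)) h2, hξ1 _ _ (h72.trans h2),
        hξ1 _ _ (h72.trans h)]
    · simp [ind_of_not h1]
  obtain ⟨Φ, hΦ⟩ : ∃ Φ : O → ℂ, Φ = fun n => ind (IsP n) * φ n * ξ n * ind (IsCoprime n d) *
    ind (f ∣ n) * sex e n * conj (sex k n) * V (nm n / N) * nt n t := ⟨_, rfl⟩
  have hΦ0 : ∀ n, Φ n ≠ 0 → (nm n : ℝ) ≤ B * N := fun n h => by
    rw [hΦ] at h
    have h1 : V (nm n / N) ≠ 0 := by
      exact_mod_cast right_ne_zero_of_mul (left_ne_zero_of_mul h)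
    exact (div_le_iff₀ hN).1 (hV.2.2 _ h1).2
  have h1 : Ts φ d e f B V N t k = ∑ c ∈ ball (B * N), sqf c * Φ c := by
    rw [Ts, sball, Finset.sum_filter]
    refine Finset.sum_congr rfl fun c _ => ?_
    rw [hΦ, sqf]
    split_ifs with h
    · rw [hξ3 c h, ind_of (p := Prim c ∧ Squarefree c) ⟨h.1.1, h.2⟩]
      beta_reduce
      rw [ind_of h.1]
      ring
    · by_cases h2 : IsP c
      · simp [ind_of_not (p := Prim c ∧ Squarefree c) fun h3 => h ⟨h2, h3.2⟩]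
      · simp [ind_of_not h2]
  have hr : ∀ δ : O, Prim δ → 0 < N / (nm δ : ℝ) ^ 3 ∧ B * (N / (nm δ : ℝ) ^ 3) ≤ B * N ∧
      ∀ n : O, ((nm (δ ^ 3 * n) : ℕ) : ℝ) / N = nm n / (N / (nm δ : ℝ) ^ 3) := fun δ hδ => by
    have a1 := one_le_nm hδ.ne_zero
    refine ⟨by positivity, mul_le_mul_of_nonneg_left
      (div_le_self hN.le (one_le_pow₀ a1)) hB0.le, fun n => ?_⟩
    rw [nm_mul, nm_pow]; push_cast; field_simp
  have hκ : ∀ δ : O, ‖sex e (δ ^ 3) * conj (sex k (δ ^ 3)) * nt (δ ^ 3) t‖ ≤ 1 := fun δ => by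
    simp only [norm_mul, Complex.norm_conj, norm_nt, mul_one]
    exact mul_le_one₀ (norm_sex_le _ _) (norm_nonneg _) (norm_sex_le _ _)
  rw [h1, cube_inv hD hΦ0]
  refine (norm_sub_le _ _).trans (add_le_add
    ((norm_sum_le _ _).trans (Finset.sum_le_sum fun δ hδ => ?_))
    ((norm_sum_le _ _).trans (Finset.sum_le_sum fun δ hδ => ?_)))
  · have a0 := (mem_pball.1 hδ).1
    obtain ⟨a1, a2, a3⟩ := hr δ a0
    have a4 : ∑ n ∈ ball (B * N), th0 n * ang n * Φ (δ ^ 3 * n) =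
        sex e (δ ^ 3) * conj (sex k (δ ^ 3)) * nt (δ ^ 3) t *
        Ws (fun n => ind (IsP (δ ^ 3 * n)) * φ (δ ^ 3 * n) * ξ (δ ^ 3 * n) *
          ind (IsCoprime (δ ^ 3 * n) d) * ind (f ∣ δ ^ 3 * n) * sex e n) B V
          (N / (nm δ : ℝ) ^ 3) t k := by
      rw [Ws, hV.sum_ball a1 a2, Finset.mul_sum]
      refine Finset.sum_congr rfl fun n _ => ?_
      rw [hΦ]
      beta_reduce
      by_cases h : IsP (δ ^ 3 * n)
      · obtain ⟨b1, b2⟩ := mul_ne_zero_iff.1 h.1.ne_zero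
        rw [a3, sex_mul_right b1 b2, sex_mul_right b1 b2, nt_mul b1 b2, map_mul]
        ring
      · simp [ind_of_not h]
    rw [a4, norm_mul, norm_mul, norm_mul, norm_mul, norm_pow, norm_ang a0.ne_zero, one_pow, mul_one,
      Complex.norm_real, Real.norm_of_nonneg (Real.sqrt_nonneg _)]
    exact mul_le_mul (mul_le_of_le_one_left (Real.sqrt_nonneg _) (norm_mu_le _))
      (mul_le_of_le_one_left (norm_nonneg _) (hκ δ)) (by positivity) (Real.sqrt_nonneg _)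
  · have a0 := (mem_pball.1 (Finset.mem_filter.1 hδ).1).1
    obtain ⟨a1, a2, a3⟩ := hr δ a0
    have a4 : ∑ c ∈ ball (B * N), sqf c * Φ (c * δ ^ 3) =
        ind (IsCoprime (δ ^ 3) d) * (sex e (δ ^ 3) * conj (sex k (δ ^ 3)) * nt (δ ^ 3) t) *
        Ts (fun c => ind (IsP δ) * φ (c * δ ^ 3) * ξ (c * δ ^ 3) * conj (ξ c)) d e (g δ) B V
          (N / (nm δ : ℝ) ^ 3) t k := by
      rw [Ts, hV.sum_sball a1 a2, sball, Finset.sum_filter, Finset.mul_sum]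
      refine Finset.sum_congr rfl fun c _ => ?_
      rw [hΦ, sqf]
      beta_reduce
      split_ifs with h
      · have b1 := h.1.1.ne_zero
        have b2 := (a0.pow 3).ne_zero
        have b3 : IsP (c * δ ^ 3) ↔ IsP δ := ⟨fun b => b.of_dvd a0
          ((dvd_pow_self δ three_ne_zero).mul_left c), fun b => h.1.mul (isP_cube b)⟩
        have b4 := fam_mul_conj (hξ2 c)
        rw [hξ3 c h, ind_of (p := Prim c ∧ Squarefree c) ⟨h.1.1, h.2⟩, b3, hg2 δ c,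
          IsCoprime.mul_left_iff, ind_and, ← a3, mul_comm (δ ^ 3) c, sex_mul_right b1 b2,
          sex_mul_right b1 b2, nt_mul b1 b2, map_mul]
        linear_combination (-(conj (gt3 c) * ang c * (ind (IsP δ) * φ (c * δ ^ 3) * ξ (c * δ ^ 3) *
          (ind (IsCoprime c d) * ind (IsCoprime (δ ^ 3) d)) * ind (g δ ∣ c) *
          (sex e c * sex e (δ ^ 3)) * (conj (sex k c) * conj (sex k (δ ^ 3))) *
          V (nm (c * δ ^ 3) / N) * (nt c t * nt (δ ^ 3) t)))) * b4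
      · by_cases h2 : Prim c ∧ Squarefree c
        · simp [ind_of_not (p := IsP (c * δ ^ 3)) fun b =>
            h ⟨b.of_dvd h2.1 (dvd_mul_right _ _), h2.2⟩]
        · simp [ind_of_not h2]
    rw [a4, norm_mul, norm_mul, norm_mul, norm_mul, norm_pow, norm_ang a0.ne_zero, one_pow, mul_one,
      Complex.norm_real, Real.norm_of_nonneg (Real.sqrt_nonneg _)]
    refine mul_le_mul (mul_le_mul_of_nonneg_right (norm_bet_le D δ) (Real.sqrt_nonneg _))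
      (mul_le_of_le_one_left (norm_nonneg _) ?_) (by positivity)
      (mul_nonneg (tau_nonneg δ) (Real.sqrt_nonneg _))
    rw [norm_mul]
    exact mul_le_one₀ (norm_ind_le _) (norm_nonneg _) (hκ δ)

end Vale.Agent.P026
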