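import Vale.Agent.P026.Gauss

/-! Cubic reciprocity and supplements.
Plan (Ireland-Rosen 9.4): primes `π₁, π₂` primary of different residue characteristic: in a finite extension of `O/π₂` with a primitive
additive character of `O/π₁` (`AddChar.FiniteField.primitiveChar`, `gaussSum_frob`), `g³ = -N(π₁) π₁` (J = -π₁ as an element of `O`) gives
`cub (N π₁ * π₁) π₂ = conj (cub (N π₂) π₁)`.  Apply to `(star π₁, π₂)` and `(π₂, π₁)` and cancel `cub (N π₂) π₁`.
Case `π₂ = star π₁`: `cub π̄ π = cub t π`, `t = π + π̄` rational, `-t` primary, `cub t π = cub π t` real.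
Supplement: `n = 1 + 3x`, `x = u λ^j x₀`: `cub (3x) n = 1`, `cub x₀ n = cub n x₀ = 1` so `cub λ n ^ (2+j) * unit symbol = 1`;
for `9 ∣ n - 1` (j ≥ 2) unit symbols are 1; if `j ≡ 1 mod 3` multiply by `n' = 10`-like element with j = 2. -/

namespace Vale.Agent.P026

open scoped ComplexConjugate Real

theorem prime_star {a : O} (ha : Prime a) : Prime (star a) :=
  (MulEquiv.prime_iff (starRingAut (R := O)).toMulEquiv).2 ha

theorem star_dvd_star {a b : O} (h : a ∣ b) : star a ∣ star b := by
  simpa [starRingEnd_apply] using map_dvd (starRingEnd O) h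

theorem prim_eq_of_dvd {a b : O} (ha : Prime a) (ha' : Prim a) (hb : Prime b) (hb' : Prim b)
    (h : a ∣ b) : a = b :=
  ha'.eq_of_associated hb' (ha.irreducible.associated_of_dvd hb.irreducible h)

/-- reciprocity for primes that are neither equal nor conjugate -/
theorem recip_prime_ne {a b : O} (ha : Prime a) (ha' : Prim a) (hb : Prime b) (hb' : Prim b)
    (h1 : a ≠ b) (h2 : star a ≠ b) : cub a b = cub b a := by
  have hs := prime_star ha
  have hs' := ha'.star
  have n1 : ¬b ∣ a := fun h => h1 (prim_eq_of_dvd hb hb' ha ha' h).symm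
  have n2 : ¬b ∣ star a := fun h => h2 (prim_eq_of_dvd hb hb' hs hs' h).symm
  have n3 : ¬b ∣ (nm a : O) := by
    rw [← mul_star_self]
    exact fun h => (hb.dvd_or_dvd h).elim n1 n2
  have n4 : ¬star a ∣ (nm b : O) := by
    rw [← mul_star_self]
    intro h
    rcases hs.dvd_or_dvd h with h | h
    · exact h2 (prim_eq_of_dvd hs hs' hb hb' h)
    · exact h1 (prim_eq_of_dvd ha ha' hb hb' (by simpa using star_dvd_star h))
  have r1 := recip_core hs hs' hb hb' n4
  have r2 := recip_core hb hb' ha ha' n3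
  have e : cub (nm b) (star a) = conj (cub (nm b) a) := by
    rw [← cub_star, star_natCast]
  rw [e, Complex.conj_conj, nm_star, cub_mul_left] at r1
  rw [cub_mul_left, conj_cub, r1.symm] at r2
  have c1 := cub_cube (coprime_of_not_dvd hb n1)
  have c2 := cub_cube (coprime_of_not_dvd hb n2)
  rw [← mul_star_self, cub_mul_left] at r2
  generalize cub a b = A at *
  generalize cub (star a) b = A' at *
  generalize cub b a = B at *
  have : A ^ 2 * A' * (A * A' * A' * B) = A ^ 2 * A' * (A * A') ^ 2 := by rw [r2]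
  linear_combination (-1) * this + (A * A' ^ 3 - B * A' ^ 3) * (-1) * c1 + (A - B) * (-1) * c2

theorem recip_of_primes {a b : O} (ha : Prim a) (hb : Prim b)
    (h : ∀ r, Prime r → Prim r → r ∣ b → cub a r = cub r a) : cub a b = cub b a := by
  revert h
  refine Prim.induction
    (P := fun b => (∀ r, Prime r → Prim r → r ∣ b → cub a r = cub r a) → cub a b = cub b a)
    (fun _ => by simp) (fun p n hp hp' hn ih h => ?_) hb
  rw [cub_mul_right hp.ne_zero hn.ne_zero, cub_mul_left, h p hp hp' (dvd_mul_right _ _),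
    ih fun r hr hr' hd => h r hr hr' (hd.mul_left _)]

theorem eq_one_of_conj {z : ℂ} (h3 : z ^ 3 = 1) (h : z ^ 2 = z) : z = 1 := by
  linear_combination h3 - (z + 1) * h

/-- reciprocity for a conjugate pair -/
theorem recip_conj {a : O} (ha : Prime a) (ha' : Prim a) (h : star a ≠ a) :
    cub (star a) a = 1 := by
  have hs := prime_star ha
  have hs' := ha'.star
  have n1 : ¬a ∣ star a := fun hd => h (prim_eq_of_dvd ha ha' hs hs' hd).symm
  set t := -(a + star a) with ht
  have hts : star t = t := by rw [ht, star_neg, star_add, star_star, add_comm]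
  have htp : Prim t := by
    obtain ⟨x, hx⟩ := ha'
    obtain ⟨y, hy⟩ := hs'
    exact ⟨-x - y - 1, by rw [ht]; linear_combination -hx - hy⟩
  have n2 : ¬a ∣ t := fun hd => n1 (by
    have := (dvd_neg.1 hd)
    exact (dvd_add_right (dvd_refl a)).1 this)
  have r : cub a t = cub t a := by
    refine recip_of_primes ha' htp fun r hr hr' hd => recip_prime_ne ha ha' hr hr' ?_ ?_
    · rintro rfl
      exact n2 hd
    · rintro rfl
      apply n2
      simpa [hts] using star_dvd_star hd
  have e1 : cub (star a) a = cub t a := by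
    rw [← cub_neg_left]
    exact cub_congr ⟨1, by rw [ht]; ring⟩
  have e2 : conj (cub a t) = cub a t := by
    rw [← cub_star, hts, ← cub_neg_left a]
    exact cub_congr ⟨-1, by rw [ht]; ring⟩
  rw [e1, ← r]
  rw [conj_cub] at e2
  exact eq_one_of_conj (cub_cube (coprime_of_not_dvd ha n2).symm) e2

theorem recip_prime {a b : O} (ha : Prime a) (ha' : Prim a) (hb : Prime b) (hb' : Prim b) :
    cub a b = cub b a := by
  by_cases h1 : a = b
  · rw [h1]
  by_cases h2 : star a = b
  · subst h2
    have := recip_conj (prime_star ha) ha'.star (by rwa [star_star])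
    rw [star_star] at this
    rw [this, recip_conj ha ha' (Ne.symm h1)]
  · exact recip_prime_ne ha ha' hb hb' h1 h2

theorem cub_recip {a b : O} (ha : Prim a) (hb : Prim b) : cub a b = cub b a := by
  refine recip_of_primes ha hb fun r hr hr' _ => ?_
  exact (recip_of_primes hr' ha fun p hp hp' _ => recip_prime hr hr' hp hp').symm
theorem three_dvd_lam_cube : (3 : O) ∣ lam ^ 3 := ⟨-lam, by rw [pow_succ, lam_sq]; ring⟩

theorem lam_cube_dvd_nine : lam ^ 3 ∣ (9 : O) :=
  ⟨lam, by linear_combination (-(lam ^ 2 - 3)) * lam_sq⟩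

theorem cub_om_congr {n n' : O} (hn : Prim n) (h : lam ^ 3 ∣ n - n') : cub om n = cub om n' := by
  have hn' : Prim n' := hn.of_dvd_sub three_dvd_lam_cube (dvd_sub_comm.1 h)
  obtain ⟨x, hx⟩ := h
  have e : n = n' + -3 * (lam * x) := by rw [← lam_sq]; linear_combination hx
  have h9 : (9 : ℤ) ∣ (nm n : ℤ) - nm n' := by
    rw [nm_int, nm_int, e]
    refine ⟨n'.re * x.im - n'.im * x.re + 3 * (x.re ^ 2 - x.re * x.im + x.im ^ 2), ?_⟩
    simp [lam, QuadraticAlgebra.re_mul, QuadraticAlgebra.im_mul, QuadraticAlgebra.re_ofNat,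
      QuadraticAlgebra.im_ofNat]
    ring
  have h1 := hn.nm_mod
  have h2 := hn'.nm_mod
  have h3 : toC om ^ 3 = 1 := by rw [← map_pow, om_cube, map_one]
  rw [cub_om hn, cub_om hn', pow_eq_pow_mod _ h3, pow_eq_pow_mod ((nm n' - 1) / 3) h3]
  congr 1
  omega

theorem cub_unit_congr {u n n' : O} (hu : IsUnit u) (hn : Prim n) (h : lam ^ 3 ∣ n - n') :
    cub u n = cub u n' := by
  have e := cub_om_congr hn h
  rcases isUnit_iff.1 hu with rfl | rfl | rfl | rfl | rfl | rfl <;>
    simp only [cub_neg_left, cub_one_left, cub_pow_left, e]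
theorem coprime_lam {n : O} (hn : Prim n) : IsCoprime lam n :=
  (coprime_of_not_dvd prime_lam hn.not_lam_dvd).symm

theorem cub_lam_aux {y : O} (hy : ¬lam ∣ y) : cub lam (1 + 9 * y) = 1 := by
  obtain ⟨u, c, hu, hc, rfl⟩ := exists_prim hy
  have hn : Prim (1 + 9 * (u * c)) := ⟨3 * (u * c), by ring⟩
  have h1 : cub (lam ^ 4 * u * c) (1 + 9 * (u * c)) = 1 := by
    rw [← cub_neg_left, ← cub_one_left (1 + 9 * (u * c))]
    exact cub_congr ⟨-1, by linear_combination (-(u * c) * (lam ^ 2 - 3)) * lam_sq⟩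
  have h2 : cub c (1 + 9 * (u * c)) = 1 := by
    rw [cub_recip hc hn, ← cub_one_left c]
    exact cub_congr ⟨9 * u, by ring⟩
  have h3 : cub u (1 + 9 * (u * c)) = 1 := by
    rw [cub_unit_congr hu hn (n' := 1) (lam_cube_dvd_nine.trans ⟨u * c, by ring⟩), cub_one_right]
  have h4 := cub_cube (coprime_lam hn)
  rw [cub_mul_left, cub_mul_left, h2, h3, cub_pow_left, pow_succ, h4] at h1
  simpa using h1

theorem cub_lam_of_nine {n : O} (h : (9 : O) ∣ n - 1) : cub lam n = 1 := by
  obtain ⟨y, hy⟩ := h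
  obtain rfl : n = 1 + 9 * y := by linear_combination hy
  by_cases hl : lam ∣ y
  · have hn : Prim (1 + 9 * y) := ⟨3 * y, by ring⟩
    have h10 : Prim (1 + 9 * 1) := ⟨3, by ring⟩
    have h1 := cub_lam_aux prime_lam.not_dvd_one
    have h2 := cub_lam_aux (y := 1 + 10 * y) fun hd =>
      prime_lam.not_dvd_one ((dvd_add_left (hl.mul_left 10)).1 hd)
    rw [show 1 + 9 * (1 + 10 * y) = (1 + 9 * 1) * (1 + 9 * y) by ring,
      cub_mul_right h10.ne_zero hn.ne_zero, h1, one_mul] at h2
    exact h2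
  · exact cub_lam_aux hl
theorem cub_ulam_congr {u n n' : O} (hu : IsUnit u) (j : ℕ) (hn : Prim n) (h : (9 : O) ∣ n - n') :
    cub (u * lam ^ j) n = cub (u * lam ^ j) n' := by
  have hn' : Prim n' := hn.of_dvd_sub (q := 9) ⟨3, by norm_num⟩ (dvd_sub_comm.1 h)
  have h1 : cub lam (n * n' ^ 2) = 1 := by
    refine cub_lam_of_nine ?_
    have := (h.mul_right (n' ^ 2)).add hn'.cube
    convert this using 1
    ring
  have h2 := cub_cube (coprime_lam hn')
  rw [cub_mul_right hn.ne_zero (hn'.pow 2).ne_zero, cub_pow_right hn'.ne_zero] at h1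
  have h3 : cub lam n = cub lam n' := by
    linear_combination cub lam n' * h1 - cub lam n * h2
  rw [cub_mul_left, cub_mul_left, cub_pow_left, cub_pow_left, h3,
    cub_unit_congr hu hn (lam_cube_dvd_nine.trans h)]
/-- periodicity in the denominator -/
theorem cub_den_congr {a n n' R : O} (ha : a ≠ 0) (hn : Prim n) (h9 : (9 : O) ∣ R)
    (hR : ∀ p, Prime p → p ∣ a → p ∣ R) (h : R ∣ n - n') : cub a n = cub a n' := by
  obtain ⟨u, j, c, hu, hc, rfl⟩ := exists_decomp ha
  have hn' : Prim n' := hn.of_dvd_sub (q := 9) ⟨3, by norm_num⟩ (dvd_sub_comm.1 (h9.trans h))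
  have A : (∀ p, Prime p → p ∣ c → p ∣ R) → cub n c = cub n' c := by
    refine Prim.induction (P := fun c => (∀ p, Prime p → p ∣ c → p ∣ R) → cub n c = cub n' c)
      (fun _ => by simp) (fun p m hp _ hm ih h' => ?_) hc
    rw [cub_mul_right hp.ne_zero hm.ne_zero, cub_mul_right hp.ne_zero hm.ne_zero,
      ih fun r hr hd => h' r hr (hd.mul_left _),
      cub_congr ((h' p hp (dvd_mul_right _ _)).trans h)]
  rw [cub_mul_left _ c, cub_mul_left _ c, cub_ulam_congr hu j hn (h9.trans h), cub_recip hc hn,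
    cub_recip hc hn', A fun p hp hd => hR p hp (hd.mul_left _)]
theorem g3_mul {a b : O} (ha : Prim a) (hb : Prim b) (h : IsCoprime a b) (ν : O) :
    g3 ν (a * b) = g3 ν a * g3 (ν * a) b := by
  rw [g3_crt ha.ne_zero hb.ne_zero h, g3_twist hb.ne_zero h, conj_cub, cub_recip hb ha]
  ring
theorem cub_four_congr {n n' : O} (hn : Prim n) (hn' : Prim n') (h : (2 : O) ∣ n - n') :
    cub 4 n = cub 4 n' := by
  rw [show (4 : O) = (-2) ^ 2 by norm_num, cub_pow_left, cub_pow_left, cub_recip prim_neg_two hn,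
    cub_recip prim_neg_two hn', cub_congr (neg_dvd.2 h)]

end Vale.Agent.P026
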