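import Vale.Agent.P026.PSDefs
import Vale.Agent.P026.RecAux

/-! # Squarefree kernels: every `k ≠ 0` is `b * l ^ 2` with a unique normalised squarefree `b`.

Plan. `exists_ker`: `exists_sq_mul_squarefree`-type decomposition `k = d ^ 2 * a` (induct on `nm k` if it is missing),
`exists_decomp` for `a = u * lam ^ j * c`, and every unit is `± w ^ 2` (`isUnit_iff`, `om = (om ^ 2) ^ 2`).
`ker_unique`: cancel `gcd l l'`; with coprime `x, x'` and `b x² = b' x'²` one gets `x² ∣ b'`, so `x, x'` are units, `b = b' w²`;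
`decomp_unique` gives `w² = ± 1`, and `w² ∈ {1, om, om²}`.
`tsum_small`: `ind (Small B k) = ∑ b ∈ kball B, ind (∃ l ≠ 0, k = b * l ^ 2)` by uniqueness, and the fibres of
`l ↦ b * l ^ 2` over such `k` are `{l, -l}` (`HasSum.tsum_fiberwise` / `HasSum.sigma`; or choose a half system: for instance
`P = {l | 0 < l.re ∨ (l.re = 0 ∧ 0 < l.im)}`, on which the map is injective, and use `Function.Injective.tsum_eq`, `Equiv.neg`). -/

namespace Vale.Agent.P026

open scoped ComplexConjugate Real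

/-- normalised squarefree elements -/
def Kn (b : O) : Prop :=
  Squarefree b ∧ ∃ (i : ℕ) (c : O), Prim c ∧ (b = lam ^ i * c ∨ b = -(lam ^ i * c))

/-- kernels of norm at most `B` -/
noncomputable def kball (B : ℝ) : Finset O := open Classical in (ball B).filter Kn

/-- the kernel of `k` has norm at most `B` -/
def Small (B : ℝ) (k : O) : Prop := ∃ b ∈ kball B, ∃ l : O, l ≠ 0 ∧ k = b * l ^ 2

/-- the possible parts of a kernel at the units, `lam` and `2` -/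
noncomputable def V8 : Finset O := {1, -1, lam, -lam, 2, -2, 2 * lam, -(2 * lam)}

theorem mem_kball {B : ℝ} {b : O} : b ∈ kball B ↔ Kn b ∧ (nm b : ℝ) ≤ B := by
  classical
  rw [kball, Finset.mem_filter, mem_ball, and_comm]

theorem Kn.ne_zero {b : O} (hb : Kn b) : b ≠ 0 := by
  exact hb.1.ne_zero

theorem Small.ne_zero {B : ℝ} {k : O} (h : Small B k) : k ≠ 0 := by
  obtain ⟨b, hb, l, hl, rfl⟩ := h
  exact mul_ne_zero (mem_kball.1 hb).1.ne_zero (pow_ne_zero _ hl)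

theorem qker_unit {u : O} (hu : IsUnit u) : ∃ w : O, w ≠ 0 ∧ (u = w ^ 2 ∨ u = -w ^ 2) := by
  have h0 : om ≠ 0 := fun h => by simpa [h] using om_cube
  have h1 : om = (om ^ 2) ^ 2 := by linear_combination (-om) * om_cube
  rcases isUnit_iff.1 hu with rfl | rfl | rfl | rfl | rfl | rfl
  · exact ⟨1, one_ne_zero, Or.inl (by ring)⟩
  · exact ⟨1, one_ne_zero, Or.inr (by ring)⟩
  · exact ⟨om ^ 2, pow_ne_zero _ h0, Or.inl h1⟩
  · exact ⟨om ^ 2, pow_ne_zero _ h0, Or.inr (by rw [← h1])⟩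
  · exact ⟨om, h0, Or.inl rfl⟩
  · exact ⟨om, h0, Or.inr rfl⟩

theorem qker_six {u : O} (hu : IsUnit u) : u ^ 6 = 1 := by
  have h1 : om ^ 6 = 1 := by linear_combination (om ^ 3 + 1) * om_cube
  rcases isUnit_iff.1 hu with rfl | rfl | rfl | rfl | rfl | rfl
  · ring
  · ring
  · exact h1
  · linear_combination h1
  · linear_combination (om ^ 6 + 1) * h1
  · linear_combination (om ^ 6 + 1) * h1

theorem exists_ker {k : O} (hk : k ≠ 0) : ∃ b l, Kn b ∧ l ≠ 0 ∧ k = b * l ^ 2 := by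
  obtain ⟨a, l, rfl, ha⟩ := exists_sq_mul_sqf hk
  obtain ⟨u, j, c, hu, hc, rfl⟩ := exists_decomp ha.ne_zero
  have hl : l ≠ 0 := fun h => hk (by rw [h]; ring)
  obtain ⟨w, hw, h⟩ := qker_unit hu
  rcases h with rfl | rfl
  · exact ⟨lam ^ j * c, l * w, ⟨ha.squarefree_of_dvd ⟨w ^ 2, by ring⟩, j, c, hc, Or.inl rfl⟩,
      mul_ne_zero hl hw, by ring⟩
  · exact ⟨-(lam ^ j * c), l * w, ⟨ha.squarefree_of_dvd ⟨w ^ 2, by ring⟩, j, c, hc, Or.inr rfl⟩,
      mul_ne_zero hl hw, by ring⟩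

theorem ker_unique {b b' l l' : O} (hb : Kn b) (hb' : Kn b') (hl : l ≠ 0)
    (h : b * l ^ 2 = b' * l' ^ 2) : b = b' := by
  obtain ⟨x, x', d, hx, rfl, rfl⟩ := UniqueFactorizationMonoid.exists_reduced_factors l hl l'
  have hd : d ^ 2 ≠ 0 := pow_ne_zero _ (left_ne_zero_of_mul hl)
  have h1 : b * x ^ 2 = b' * x' ^ 2 := mul_left_cancel₀ hd (by linear_combination h)
  have hx2 : IsRelPrime (x ^ 2) (x' ^ 2) := hx.pow
  have u1 : IsUnit x := hb'.1 x (by
    rw [← sq]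
    exact hx2.dvd_of_dvd_mul_right ⟨b, by linear_combination -h1⟩)
  have u2 : IsUnit x' := hb.1 x' (by
    rw [← sq]
    exact hx2.symm.dvd_of_dvd_mul_right ⟨b', by linear_combination h1⟩)
  have e1 := qker_six u1
  have e2 := qker_six u2
  have no : x ^ 2 = -x' ^ 2 → False := fun e => by
    have e3 : (2 : O) = 0 := by
      linear_combination (x ^ 4 - x ^ 2 * x' ^ 2 + x' ^ 4) * e - e1 - e2
    exact prime_two.ne_zero e3
  obtain ⟨-, i, c, hc, h2⟩ := hb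
  obtain ⟨-, i', c', hc', h3⟩ := hb'
  rcases h2 with rfl | rfl <;> rcases h3 with rfl | rfl
  · obtain ⟨-, rfl, rfl⟩ := decomp_unique (j := i) (j' := i') (u1.pow 2) (u2.pow 2) hc hc'
      (by linear_combination h1)
    rfl
  · exact (no (decomp_unique (j := i) (j' := i') (u1.pow 2) (u2.pow 2).neg hc hc'
      (by linear_combination h1)).1).elim
  · exact (no (decomp_unique (j := i) (j' := i') (u1.pow 2) (u2.pow 2).neg hc hc'
      (by linear_combination -h1)).1).elim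
  · obtain ⟨-, rfl, rfl⟩ := decomp_unique (j := i) (j' := i') (u1.pow 2) (u2.pow 2) hc hc'
      (by linear_combination -h1)
    rfl

theorem IsS.not_small {B : ℝ} {k : O} (hk : IsS k) (h : B < nm k) : ¬Small B k := by
  rintro ⟨b, hb, l, hl, e⟩
  obtain ⟨h1, h2⟩ := mem_kball.1 hb
  have h3 : b = k := ker_unique (l' := 1) h1 ⟨hk.2, 0, k, hk.1.1, Or.inl (by ring)⟩ hl
    (by rw [← e]; ring)
  rw [h3] at h2
  linarith

theorem Kn.decomp {b : O} (hb : Kn b) : ∃ v ∈ V8, ∃ b', IsS b' ∧ b = v * b' := by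
  obtain ⟨hs, i, c, hc, h⟩ := hb
  have hd : lam ^ i * c ∣ b := by
    rcases h with rfl | rfl
    · exact dvd_rfl
    · exact dvd_neg.2 dvd_rfl
  have hcs : Squarefree c := hs.squarefree_of_dvd ((dvd_mul_left _ _).trans hd)
  have hi : i = 0 ∨ i = 1 := by
    by_contra h0
    refine prime_lam.not_isUnit (hs lam (Dvd.dvd.trans ?_ ((dvd_mul_right _ _).trans hd)))
    rw [← sq]
    exact pow_dvd_pow _ (by omega)
  obtain ⟨c', hc', e⟩ : ∃ c', IsS c' ∧ (c = c' ∨ c = -2 * c') := by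
    by_cases h2 : (2 : O) ∣ c
    · obtain ⟨c', rfl⟩ := neg_dvd.2 h2
      refine ⟨c', ⟨⟨prim_neg_two.of_mul hc, fun h3 => prime_two.not_isUnit (hcs 2 ?_)⟩,
        hcs.of_mul_right⟩, Or.inr rfl⟩
      exact mul_dvd_mul (dvd_neg.2 dvd_rfl) h3
    · exact ⟨c, ⟨⟨hc, h2⟩, hcs⟩, Or.inl rfl⟩
  simp only [V8, Finset.mem_insert, Finset.mem_singleton, exists_eq_or_imp, exists_eq_left]
  rcases hi with rfl | rfl <;> rcases h with rfl | rfl <;> rcases e with e | e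
  · exact Or.inl ⟨c', hc', by rw [e]; ring⟩
  · exact Or.inr (Or.inr (Or.inr (Or.inr (Or.inr (Or.inl ⟨c', hc', by rw [e]; ring⟩)))))
  · exact Or.inr (Or.inl ⟨c', hc', by rw [e]; ring⟩)
  · exact Or.inr (Or.inr (Or.inr (Or.inr (Or.inl ⟨c', hc', by rw [e]; ring⟩))))
  · exact Or.inr (Or.inr (Or.inl ⟨c', hc', by rw [e]; ring⟩))
  · exact Or.inr (Or.inr (Or.inr (Or.inr (Or.inr (Or.inr (Or.inr ⟨c', hc', by rw [e]; ring⟩))))))
  · exact Or.inr (Or.inr (Or.inr (Or.inl ⟨c', hc', by rw [e]; ring⟩)))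
  · exact Or.inr (Or.inr (Or.inr (Or.inr (Or.inr (Or.inr (Or.inl ⟨c', hc', by rw [e]; ring⟩))))))

theorem card_V8_le : V8.card ≤ 8 := by
  unfold V8
  iterate 7 refine (Finset.card_insert_le _ _).trans (Nat.succ_le_succ ?_)
  exact (Finset.card_singleton _).le

theorem V8_ne_zero {v : O} (h : v ∈ V8) : v ≠ 0 := by
  have h1 := prime_lam.ne_zero
  have h2 := prime_two.ne_zero
  simp only [V8, Finset.mem_insert, Finset.mem_singleton] at h
  rcases h with rfl | rfl | rfl | rfl | rfl | rfl | rfl | rfl <;> simp [h1, h2]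

theorem card_kball_le : ∃ C : ℝ, 0 < C ∧ ∀ B : ℝ, 1 ≤ B → ((kball B).card : ℝ) ≤ C * B := by
  obtain ⟨C, hC, h⟩ := card_le_of_nm
  exact ⟨C, hC, fun B hB => h B _ (by linarith) fun n hn =>
    ⟨(mem_kball.1 hn).1.ne_zero, (mem_kball.1 hn).2⟩⟩

theorem qker_summable {G : O → ℂ} (hG : Summable G) (p : O → Prop) :
    Summable fun k => ind (p k) * G k :=
  Summable.of_norm_bounded hG.norm fun k => by
    rw [norm_mul]
    exact mul_le_of_le_one_left (norm_nonneg _) (norm_ind_le _)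

theorem qker_half {G : O → ℂ} (hG : Summable G) {b : O} (hb : b ≠ 0) :
    HasSum (fun l : O => ind (l ≠ 0) * G (b * l ^ 2))
      (2 * ∑' k : O, ind (∃ l : O, l ≠ 0 ∧ k = b * l ^ 2) * G k) := by
  obtain ⟨P, hP⟩ : ∃ P : Set O, ∀ l, l ∈ P ↔ 0 < l.re ∨ (l.re = 0 ∧ 0 < l.im) :=
    ⟨{l | _}, fun _ => Iff.rfl⟩
  have p0 : ∀ l, l ≠ 0 ↔ l ∈ P ∨ -l ∈ P := fun l => by
    rw [hP, hP, Ne, QuadraticAlgebra.ext_iff]
    simp only [QuadraticAlgebra.re_zero, QuadraticAlgebra.im_zero, QuadraticAlgebra.re_neg,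
      QuadraticAlgebra.im_neg]
    omega
  have p1 : ∀ l, l ∈ P → -l ∉ P := fun l => by
    rw [hP, hP]
    simp only [QuadraticAlgebra.re_neg, QuadraticAlgebra.im_neg]
    omega
  have inj : Function.Injective fun l : P => b * (l : O) ^ 2 := fun l l' e => by
    rcases sq_eq_sq_iff_eq_or_eq_neg.1 (mul_left_cancel₀ hb e) with h | h
    · exact Subtype.ext h
    · exact absurd (h ▸ l.2) (p1 _ l'.2)
  have h1 := (inj.hasSum_iff fun k hk => by
    refine mul_eq_zero_of_left (ind_of_not ?_) _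
    rintro ⟨l, hl, rfl⟩
    rcases (p0 l).1 hl with h | h
    · exact hk ⟨⟨l, h⟩, rfl⟩
    · exact hk ⟨⟨-l, h⟩, by simp⟩).2
    (qker_summable hG fun k => ∃ l : O, l ≠ 0 ∧ k = b * l ^ 2).hasSum
  generalize ∑' k : O, ind (∃ l : O, l ≠ 0 ∧ k = b * l ^ 2) * G k = S at h1
  have h2 : HasSum (P.indicator fun l => G (b * l ^ 2)) S := by
    rw [← hasSum_subtype_iff_indicator]
    refine h1.congr_fun fun l => ?_
    simp only [Function.comp]
    rw [ind_of ⟨l, (p0 _).2 (Or.inl l.2), rfl⟩, one_mul]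
  rw [two_mul]
  convert h2.add ((Equiv.neg O).hasSum_iff.2 h2) using 2 with l
  simp only [Function.comp, Equiv.neg_apply]
  by_cases h : l ∈ P
  · rw [ind_of ((p0 l).2 (Or.inl h)), Set.indicator_of_mem h, Set.indicator_of_notMem (p1 l h)]
    ring
  · by_cases h' : -l ∈ P
    · rw [ind_of ((p0 l).2 (Or.inr h')), Set.indicator_of_mem h', Set.indicator_of_notMem h,
        neg_sq]
      ring
    · rw [ind_of_not fun h0 => ((p0 l).1 h0).elim h h', Set.indicator_of_notMem h',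
        Set.indicator_of_notMem h]
      ring

theorem summable_ker {G : O → ℂ} (hG : Summable G) {b : O} (hb : b ≠ 0) :
    Summable fun l : O => ind (l ≠ 0) * G (b * l ^ 2) := by
  exact (qker_half hG hb).summable

theorem tsum_small {G : O → ℂ} (hG : Summable G) (B : ℝ) :
    ∑' k : O, ind (Small B k) * G k =
      1 / 2 * ∑ b ∈ kball B, ∑' l : O, ind (l ≠ 0) * G (b * l ^ 2) := by
  have h1 : ∀ k, ind (Small B k) * G k =
      ∑ b ∈ kball B, ind (∃ l : O, l ≠ 0 ∧ k = b * l ^ 2) * G k := fun k => by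
    rw [← Finset.sum_mul]
    congr 1
    by_cases h : Small B k
    · rw [ind_of h]
      obtain ⟨b, hb, l, hl, e⟩ := h
      rw [Finset.sum_eq_single_of_mem b hb, ind_of ⟨l, hl, e⟩]
      refine fun b' hb' hne => ind_of_not ?_
      rintro ⟨l', hl', e'⟩
      exact hne (ker_unique (mem_kball.1 hb').1 (mem_kball.1 hb).1 hl' (e'.symm.trans e))
    · rw [ind_of_not h]
      exact (Finset.sum_eq_zero fun b hb => ind_of_not fun h' => h ⟨b, hb, h'⟩).symm
  simp only [h1]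
  rw [Summable.tsum_finsetSum fun b _ => qker_summable hG _, Finset.mul_sum]
  refine Finset.sum_congr rfl fun b hb => ?_
  rw [(qker_half hG (mem_kball.1 hb).1.ne_zero).tsum_eq]
  ring

theorem exists_cover (B : ℝ) {s : Finset O} (hs : ∀ k ∈ s, k ≠ 0 ∧ ¬Small B k) :
    ∃ L K : Finset O, 0 ∉ L ∧ (∀ b ∈ K, Kn b ∧ B < nm b) ∧
      ∀ f : O → ℝ, (∀ k, 0 ≤ f k) → ∑ k ∈ s, f k ≤ ∑ l ∈ L, ∑ b ∈ K, f (b * l ^ 2) := by
  classical
  choose! b l h1 h2 h3 using fun k (hk : k ∈ s) => exists_ker (hs k hk).1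
  refine ⟨s.image l, s.image b, fun h => ?_, fun b' hb' => ?_, fun f hf => ?_⟩
  · obtain ⟨k, hk, e⟩ := Finset.mem_image.1 h
    exact h2 k hk e
  · obtain ⟨k, hk, rfl⟩ := Finset.mem_image.1 hb'
    exact ⟨h1 k hk, lt_of_not_ge fun h => (hs k hk).2
      ⟨b k, mem_kball.2 ⟨h1 k hk, h⟩, l k, h2 k hk, h3 k hk⟩⟩
  · rw [← Finset.sum_product']
    exact sum_le_sum_cover s _ (fun p : O × O => p.2 * p.1 ^ 2) f hf fun k hk =>
      ⟨(l k, b k), Finset.mem_product.2 ⟨Finset.mem_image_of_mem _ hk,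
        Finset.mem_image_of_mem _ hk⟩, (h3 k hk).symm⟩

theorem IsS.split {Δ : O} (hΔ : IsS Δ) (b : O) : ∃ Δ₁ Δ₂, IsS Δ₁ ∧ IsS Δ₂ ∧ IsCoprime Δ₁ Δ₂ ∧
    Δ = Δ₁ * Δ₂ ∧ Δ₁ ∣ b ∧ IsCoprime Δ₂ b := by
  obtain ⟨d, hd, ⟨Δ₂, rfl⟩, h2, h3⟩ := exists_prim_gcd b hΔ.1.1
  refine ⟨d, Δ₂, hΔ.of_dvd hd (dvd_mul_right _ _), hΔ.of_dvd (hd.of_mul hΔ.1.1) (dvd_mul_left _ _),
    hΔ.coprime, rfl, h2, isRelPrime_iff_isCoprime.1 fun e e1 e2 => ?_⟩
  exact hΔ.coprime.isUnit_of_dvd' (h3 e (e1.mul_left _) e2) e1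

theorem dvd_ker_iff {e₁ e₂ b : O} (h1 : e₁ ∣ b) (h2 : IsCoprime e₂ b) (hs : Squarefree e₂) (l : O) :
    e₁ * e₂ ∣ b * l ^ 2 ↔ e₂ ∣ l := by
  refine ⟨fun h => ?_, fun h => mul_dvd_mul h1 (dvd_pow h two_ne_zero)⟩
  exact hs.isRadical 2 l (h2.dvd_of_dvd_mul_left ((dvd_mul_left _ _).trans h))

end Vale.Agent.P026
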