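import Vale.Agent.P026.PS
import Vale.Agent.P026.QKer
import Vale.Agent.P026.RecAux

/-! # The trivial large sieve and its dual.

Plan. `q0`: replace `a` by its restriction to `sball X`; `Y = M + X ^ 2`; `1 ≤ exp 1 * exp (-(nm h / Y))` on `ball M`;
`Summable.sum_le_tsum`, `sq_expand_le` with `g = 1`, `bil_eq`. If `a (Δ m₁), a (Δ m₂) ≠ 0` and `e ∣ Δ` then
`nm e * nm m₁ * nm m₂ ≤ X ^ 2 ≤ Y`, so `‖Dual .. k‖ ≤ (∑ m, ‖a (Δ m)‖ / √(nm m)) ^ 2 * exp (-(c0 ^ 2 * nm k))`;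
`summable_exp`, Cauchy-Schwarz with `sum_inv_nm_le`, `1 + log X ≤ C X ^ (ε/2)`, `sum_tau_le'`.
`dual_norm`: take `c j = conj (∑ i, a i * M i j)`, swap, Cauchy-Schwarz.
`q1`: `dual_norm`; `sq_classes` in `k`; `quad_recip`, `bq_congr`, `norm_bq_le`; `q0` for `exists_famQ`.
`q1K`: `Kn.decomp`, `quad_mul_left`, `q1` with coefficients `a n * quad v n` for each `v ∈ V8`. -/

namespace Vale.Agent.P026

open scoped ComplexConjugate Real

theorem qz_dual (F : Fam) {X Y : ℝ} (hY : X ^ 2 ≤ Y) {a : O → ℂ} (ha : ∀ n, a n ≠ 0 → n ∈ sball X)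
    {Δ e : O} (hΔ : Δ ≠ 0) (he : e ∣ Δ) (k : O) :
    ‖Dual F X (Y / nm e) (dco F a Δ e) k‖ ≤
      (∑ m ∈ sball X, (√(nm m))⁻¹ * ‖a (Δ * m)‖) ^ 2 * Real.exp (-(c0 ^ 2 * nm k)) := by
  rw [sq, Finset.sum_mul_sum, Finset.sum_mul]
  refine norm_sum_le_of_le _ fun m1 k1 => ?_
  rw [Finset.sum_mul]
  refine norm_sum_le_of_le _ fun m2 k2 => ?_
  by_cases z1 : a (Δ * m1) = 0
  · simp [dco, z1]
  by_cases z2 : a (Δ * m2) = 0
  · simp [dco, z2]
  have s1 := (mem_sball.1 k1).1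
  have s2 := (mem_sball.1 k2).1
  have n1 := one_le_nm s1.1.1.ne_zero
  have n2 := one_le_nm s2.1.1.ne_zero
  have nΔ := one_le_nm hΔ
  have ne := one_le_nm (ne_zero_of_dvd_ne_zero hΔ he)
  have le : (nm e : ℝ) ≤ nm Δ := by exact_mod_cast nm_le_of_dvd hΔ he
  have u1 := (mem_sball.1 (ha _ z1)).2
  have u2 := (mem_sball.1 (ha _ z2)).2
  rw [nm_mul, Nat.cast_mul] at u1 u2
  have key : (nm m1 : ℝ) * nm m2 ≤ Y / nm e := by
    rw [le_div_iff₀ (by positivity)]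
    calc (nm m1 : ℝ) * nm m2 * nm e ≤ nm m1 * nm m2 * (nm Δ * nm Δ) := by gcongr; nlinarith
      _ = (nm Δ * nm m1) * (nm Δ * nm m2) := by ring
      _ ≤ X * X := by gcongr; linarith [show (0 : ℝ) ≤ nm Δ * nm m1 by positivity]
      _ ≤ Y := by linarith
  have hk : dker (Y / nm e) m1 m2 k ≤ (√(nm m1))⁻¹ * (√(nm m2))⁻¹ * Real.exp (-(c0 ^ 2 * nm k)) := by
    rw [dker, mul_inv]
    refine mul_le_mul_of_nonneg_left (Real.exp_le_exp.2 (neg_le_neg ?_)) (by positivity)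
    rw [le_div_iff₀ (by positivity)]
    calc c0 ^ 2 * nm k * (nm m1 * nm m2) ≤ c0 ^ 2 * nm k * (Y / nm e) := by gcongr
      _ = _ := by ring
  simp only [norm_mul, Complex.norm_conj, Complex.norm_real, Real.norm_eq_abs, abs_of_nonneg (dker_nonneg _ _ _ _)]
  have d1 := norm_dco_le F a Δ e s1
  have d2 := norm_dco_le F a Δ e s2
  have d3 := F.norm_ε m1 m2
  have d4 := norm_X_le F s1.1 k
  have d5 := norm_X_le F s2.1 k
  have d6 := norm_ind_le (IsCoprime m1 m2)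
  have d7 := dker_nonneg (Y / nm e) m1 m2 k
  calc _ ≤ 1 * (‖a (Δ * m1)‖ * ‖a (Δ * m2)‖) * 1 * (1 * 1) *
        ((√(nm m1))⁻¹ * (√(nm m2))⁻¹ * Real.exp (-(c0 ^ 2 * nm k))) := by gcongr
    _ = _ := by ring

theorem q0 (F : Fam) {ε : ℝ} (hε : 0 < ε) : ∃ C : ℝ, 0 < C ∧ ∀ (M X : ℝ) (a : O → ℂ),
    1 ≤ M → 1 ≤ X → ∑ h ∈ ball M, ‖∑ n ∈ sball X, a n * F.X n h‖ ^ 2 ≤
      C * (M + X ^ 2) * X ^ ε * ∑ n ∈ sball X, ‖a n‖ ^ 2 := by
  classical
  obtain ⟨C1, hC1, H1⟩ := sum_inv_le_rpow (half_pos hε)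
  obtain ⟨C2, hC2, H2⟩ := sum_tau_le' (ε / 2) (half_pos hε)
  have hc := c0_pos
  have sE := summable_exp (y := c0 ^ 2) (by positivity)
  set E := ∑' k : O, Real.exp (-(c0 ^ 2 * nm k)) with hE
  have hE0 : 0 ≤ E := tsum_nonneg fun k => (Real.exp_pos _).le
  refine ⟨Real.exp 1 * c0 * (E + 1) * C1 * C2, by positivity, fun M X a hM hX => ?_⟩
  wlog ha : ∀ n, a n ≠ 0 → n ∈ sball X generalizing a
  · have h := this (fun n => if n ∈ sball X then a n else 0) fun n hn => by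
      by_contra k
      exact hn (if_neg k)
    simpa only [ite_mul, zero_mul, apply_ite (fun z : ℂ => ‖z‖ ^ 2), norm_zero, ne_eq, OfNat.ofNat_ne_zero,
      not_false_eq_true, zero_pow, Finset.sum_ite_mem, Finset.inter_self] using h
  set Y := M + X ^ 2 with hYd
  have hY : 0 < Y := by positivity
  have hX0 : 0 < X := by linarith
  have e1 := sq_expand_le F hY ha 1
  simp only [ind_of (one_dvd _), one_mul, norm_one] at e1
  have bil : ∀ Δ ∈ sball X, ‖Bil F Y X a Δ‖ ≤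
      c0 * Y * (E + 1) * (C1 * X ^ (ε / 2)) * ((pdiv Δ).card * ∑ m ∈ sball X, ‖a (Δ * m)‖ ^ 2) := by
    intro Δ hΔ
    have hP := (mem_sball.1 hΔ).1.1.1
    have cs : (∑ m ∈ sball X, (√(nm m))⁻¹ * ‖a (Δ * m)‖) ^ 2 ≤
        C1 * X ^ (ε / 2) * ∑ m ∈ sball X, ‖a (Δ * m)‖ ^ 2 := by
      refine (Finset.sum_mul_sq_le_sq_mul_sq _ _ _).trans (mul_le_mul_of_nonneg_right ?_ (by positivity))
      simp only [inv_pow, Real.sq_sqrt (Nat.cast_nonneg _)]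
      exact H1 X _ hX fun n hn => (mem_sball.1 hn).2
    rw [bil_eq F hY X a hP]
    refine (norm_sum_le_of_le (pdiv Δ) (n := fun _ => c0 * Y * (E + 1) * (C1 * X ^ (ε / 2) *
      ∑ m ∈ sball X, ‖a (Δ * m)‖ ^ 2)) fun e he => ?_).trans (le_of_eq ?_)
    · obtain ⟨k1, k2⟩ := (mem_pdiv hP.ne_zero).1 he
      have ne := one_le_nm k1.ne_zero
      have t := tsum_of_norm_bounded (sE.hasSum.mul_left _)
        (qz_dual F (Y := Y) (by linarith) ha hP.ne_zero k2)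
      have m := norm_mu_le e
      have d : c0 * Y / nm e ≤ c0 * Y := div_le_self (by positivity) ne
      rw [norm_mul, norm_mul, Complex.norm_real, Real.norm_eq_abs, abs_of_nonneg (by positivity)]
      calc _ ≤ 1 * (c0 * Y) * ((C1 * X ^ (ε / 2) * ∑ m ∈ sball X, ‖a (Δ * m)‖ ^ 2) * (E + 1)) := by
            gcongr
            exact t.trans (mul_le_mul cs (by linarith) hE0 (by positivity))
        _ = _ := by ring
    · rw [Finset.sum_const, nsmul_eq_mul]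
      ring
  have s0 := summable_sq0 F hY X a
  have e2 : X ^ (ε / 2) * X ^ (ε / 2) = X ^ ε := by rw [← Real.rpow_add hX0, add_halves]
  calc ∑ h ∈ ball M, ‖∑ n ∈ sball X, a n * F.X n h‖ ^ 2
      ≤ ∑ h ∈ ball M, Real.exp 1 * (Real.exp (-(nm h / Y)) * ‖∑ n ∈ sball X, a n * F.X n h‖ ^ 2) := by
        refine Finset.sum_le_sum fun h hh => ?_
        rw [← mul_assoc, ← Real.exp_add]
        refine le_mul_of_one_le_left (by positivity) (Real.one_le_exp ?_)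
        have : (nm h : ℝ) / Y ≤ 1 := (div_le_one hY).2 (by nlinarith [mem_ball.1 hh])
        linarith
    _ ≤ Real.exp 1 * ∑ Δ ∈ sball X, ‖Bil F Y X a Δ‖ := by
        rw [← Finset.mul_sum]
        exact mul_le_mul_of_nonneg_left ((s0.sum_le_tsum _ fun h _ => by positivity).trans e1)
          (Real.exp_pos 1).le
    _ ≤ Real.exp 1 * (c0 * Y * (E + 1) * (C1 * X ^ (ε / 2)) *
          (C2 * X ^ (ε / 2) * ∑ n ∈ sball X, ‖a n‖ ^ 2)) := by
        refine mul_le_mul_of_nonneg_left ((Finset.sum_le_sum bil).trans ?_) (Real.exp_pos 1).le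
        rw [← Finset.mul_sum]
        exact mul_le_mul_of_nonneg_left (H2 X a hX ha) (by positivity)
    _ = _ := by rw [← e2]; ring

theorem dual_norm {ι κ : Type*} (s : Finset ι) (t : Finset κ) (M : ι → κ → ℂ) {K : ℝ} (hK : 0 ≤ K)
    (h : ∀ c : κ → ℂ, ∑ i ∈ s, ‖∑ j ∈ t, c j * M i j‖ ^ 2 ≤ K * ∑ j ∈ t, ‖c j‖ ^ 2) (a : ι → ℂ) :
    ∑ j ∈ t, ‖∑ i ∈ s, a i * M i j‖ ^ 2 ≤ K * ∑ i ∈ s, ‖a i‖ ^ 2 := by
  set N := ∑ j ∈ t, ‖∑ i ∈ s, a i * M i j‖ ^ 2 with hN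
  set c : κ → ℂ := fun j => conj (∑ i ∈ s, a i * M i j) with hc
  have h1 := h c
  simp only [hc, Complex.norm_conj, ← hN] at h1
  have e : (N : ℂ) = ∑ i ∈ s, a i * ∑ j ∈ t, c j * M i j := by
    simp only [Finset.mul_sum]
    rw [Finset.sum_comm, hN, Complex.ofReal_sum]
    refine Finset.sum_congr rfl fun j _ => ?_
    rw [← Complex.normSq_eq_norm_sq, Complex.normSq_eq_conj_mul_self, Finset.mul_sum]
    refine Finset.sum_congr rfl fun i _ => ?_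
    simp only [hc]
    ring
  have hN0 : 0 ≤ N := by positivity
  have h2 : N ≤ ∑ i ∈ s, ‖a i‖ * ‖∑ j ∈ t, c j * M i j‖ := by
    refine le_trans (le_of_eq ?_) ((norm_sum_le _ _).trans (le_of_eq (Finset.sum_congr rfl fun i _ => norm_mul _ _)))
    rw [← e, Complex.norm_real, Real.norm_eq_abs, abs_of_nonneg hN0]
  have h3 := (pow_le_pow_left₀ hN0 h2 2).trans (Finset.sum_mul_sq_le_sq_mul_sq _ _ _)
  have hA : 0 ≤ ∑ i ∈ s, ‖a i‖ ^ 2 := by positivity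
  have h4 := h3.trans (mul_le_mul_of_nonneg_left h1 hA)
  rcases hN0.eq_or_lt with z | z
  · rw [← z]
    positivity
  · refine le_of_mul_le_mul_right ?_ z
    nlinarith

theorem qz_72 : (72 : O) ≠ 0 := by
  rw [Ne, ← nm_eq_zero]
  decide

theorem sq_classes (s : Finset O) (f : O → ℂ) :
    ‖∑ n ∈ s, f n‖ ^ 2 ≤ 5184 * ∑ α ∈ res 72, ‖∑ n ∈ s, ind ((72 : O) ∣ n - α) * f n‖ ^ 2 := by
  have e : ∑ n ∈ s, f n = ∑ α ∈ res 72, ∑ n ∈ s, ind ((72 : O) ∣ n - α) * f n := by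
    rw [Finset.sum_comm]
    refine Finset.sum_congr rfl fun n _ => ?_
    rw [← Finset.sum_mul, sum_res_ind qz_72, one_mul]
  have c : (res (72 : O)).card = 5184 := by
    rw [card_res qz_72]
    decide
  rw [e]
  refine (pow_le_pow_left₀ (norm_nonneg _) (norm_sum_le _ _) 2).trans ?_
  have := sq_sum_le_card_mul_sum_sq (s := res (72 : O))
    (f := fun α => ‖∑ n ∈ s, ind ((72 : O) ∣ n - α) * f n‖)
  rwa [c] at this

theorem sum_classes (s : Finset O) (a : O → ℂ) :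
    ∑ α ∈ res 72, ∑ n ∈ s, ‖ind ((72 : O) ∣ n - α) * a n‖ ^ 2 = ∑ n ∈ s, ‖a n‖ ^ 2 := by
  rw [Finset.sum_comm]
  refine Finset.sum_congr rfl fun n _ => Complex.ofReal_injective ?_
  rw [← one_mul ((‖a n‖ ^ 2 : ℝ) : ℂ), ← sum_res_ind qz_72 n, Finset.sum_mul, Complex.ofReal_sum]
  refine Finset.sum_congr rfl fun α _ => ?_
  by_cases h : (72 : O) ∣ n - α
  · rw [ind_of h, one_mul, one_mul]
  · simp [ind_of_not h]

/-- reciprocity inside one class -/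
theorem flip_class {k : O} (hk : IsP k) (α : O) {s : Finset O} (hs : ∀ n ∈ s, IsP n) (a : O → ℂ) :
    ‖∑ n ∈ s, ind ((72 : O) ∣ n - α) * (a n * quad n k)‖ ≤
      ‖∑ n ∈ s, ind ((72 : O) ∣ n - α) * a n * quad k n‖ ∧
    ‖∑ n ∈ s, ind ((72 : O) ∣ n - α) * (a n * quad k n)‖ ≤
      ‖∑ n ∈ s, ind ((72 : O) ∣ n - α) * a n * quad n k‖ := by
  have e1 : ∑ n ∈ s, ind ((72 : O) ∣ n - α) * (a n * quad n k) =
      bq α k * ∑ n ∈ s, ind ((72 : O) ∣ n - α) * a n * quad k n := by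
    rw [Finset.mul_sum]
    refine Finset.sum_congr rfl fun n hn => ?_
    by_cases h : (72 : O) ∣ n - α
    · rw [quad_recip (hs n hn).2 hk.2, bq_congr (fam_four_dvd h) (b' := k) (by simp)]
      ring
    · simp [ind_of_not h]
  have e2 : ∑ n ∈ s, ind ((72 : O) ∣ n - α) * (a n * quad k n) =
      bq k α * ∑ n ∈ s, ind ((72 : O) ∣ n - α) * a n * quad n k := by
    rw [Finset.mul_sum]
    refine Finset.sum_congr rfl fun n hn => ?_
    by_cases h : (72 : O) ∣ n - α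
    · rw [quad_recip hk.2 (hs n hn).2, bq_congr (a' := k) (by simp) (fam_four_dvd h)]
      ring
    · simp [ind_of_not h]
  rw [e1, e2, norm_mul, norm_mul]
  exact ⟨mul_le_of_le_one_left (norm_nonneg _) (norm_bq_le _ _),
    mul_le_of_le_one_left (norm_nonneg _) (norm_bq_le _ _)⟩

theorem q1 {ε : ℝ} (hε : 0 < ε) : ∃ C : ℝ, 0 < C ∧ ∀ (B X : ℝ) (a : O → ℂ),
    1 ≤ B → 1 ≤ X → ∑ k ∈ sball B, ‖∑ n ∈ sball X, a n * quad k n‖ ^ 2 ≤
      C * (X + B ^ 2) * B ^ ε * ∑ n ∈ sball X, ‖a n‖ ^ 2 := by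
  obtain ⟨F, hF, -, -⟩ := exists_famQ
  obtain ⟨C, hC, H⟩ := q0 F hε
  refine ⟨5184 * C, by positivity, fun B X a hB hX => ?_⟩
  refine dual_norm (sball X) (sball B) (fun n k => quad k n) (by positivity) (fun c => ?_) a
  have pt : ∀ n ∈ sball X, ‖∑ k ∈ sball B, c k * quad k n‖ ^ 2 ≤
      5184 * ∑ α ∈ res 72, ‖∑ k ∈ sball B, ind ((72 : O) ∣ k - α) * c k * F.X k n‖ ^ 2 := fun n hn => by
    refine (sq_classes _ _).trans (mul_le_mul_of_nonneg_left (Finset.sum_le_sum fun α _ => ?_) (by norm_num))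
    simp only [hF]
    exact pow_le_pow_left₀ (norm_nonneg _) (flip_class (mem_sball.1 hn).1.1 α
      (fun n hn => (mem_sball.1 hn).1.1) c).1 2
  refine (Finset.sum_le_sum pt).trans ?_
  rw [← Finset.mul_sum, Finset.sum_comm, ← sum_classes (sball B) c, mul_assoc, mul_assoc, mul_assoc]
  refine mul_le_mul_of_nonneg_left ?_ (by norm_num)
  simp only [Finset.mul_sum (res 72)]
  refine Finset.sum_le_sum fun α _ => ?_
  refine (Finset.sum_le_sum_of_subset_of_nonneg (t := ball X) (fun n hn => mem_ball.2 (mem_sball.1 hn).2)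
    fun _ _ _ => by positivity).trans ((H X B _ hX hB).trans (le_of_eq ?_))
  ring

theorem q1K {ε : ℝ} (hε : 0 < ε) : ∃ C : ℝ, 0 < C ∧ ∀ (B X : ℝ) (a : O → ℂ) (K : Finset O),
    1 ≤ B → 1 ≤ X → (∀ b ∈ K, Kn b ∧ (nm b : ℝ) ≤ B) →
      ∑ b ∈ K, ‖∑ n ∈ sball X, a n * quad b n‖ ^ 2 ≤
        C * (X + B ^ 2) * B ^ ε * ∑ n ∈ sball X, ‖a n‖ ^ 2 := by
  obtain ⟨C, hC, H⟩ := q1 hε
  refine ⟨8 * C, by positivity, fun B X a K hB hX hK => ?_⟩
  refine (sum_le_sum_cover K (V8 ×ˢ sball B) (fun x => x.1 * x.2) _ (fun _ => by positivity)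
    fun b hb => ?_).trans ?_
  · obtain ⟨v, hv, b', hb', e⟩ := (hK b hb).1.decomp
    refine ⟨(v, b'), Finset.mem_product.2 ⟨hv, mem_sball.2 ⟨hb', le_trans ?_ (hK b hb).2⟩⟩, e.symm⟩
    exact_mod_cast nm_le_of_dvd (hK b hb).1.ne_zero (e ▸ dvd_mul_left b' v)
  rw [Finset.sum_product]
  have pt : ∀ v ∈ V8, ∑ b ∈ sball B, ‖∑ n ∈ sball X, a n * quad (v * b) n‖ ^ 2 ≤
      C * (X + B ^ 2) * B ^ ε * ∑ n ∈ sball X, ‖a n‖ ^ 2 := fun v _ => by
    have e : ∀ b, ∑ n ∈ sball X, a n * quad (v * b) n = ∑ n ∈ sball X, a n * quad v n * quad b n :=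
      fun b => Finset.sum_congr rfl fun n hn => by rw [quad_mul_left (mem_sball.1 hn).1.1.2, mul_assoc]
    simp only [e]
    refine (H B X _ hB hX).trans (mul_le_mul_of_nonneg_left (Finset.sum_le_sum fun n _ => ?_) (by positivity))
    rw [norm_mul]
    exact pow_le_pow_left₀ (by positivity) (mul_le_of_le_one_right (norm_nonneg _) (norm_quad_le _ _)) 2
  refine (Finset.sum_le_sum pt).trans ?_
  rw [Finset.sum_const, nsmul_eq_mul]
  have : (V8.card : ℝ) ≤ 8 := by exact_mod_cast card_V8_le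
  calc _ ≤ 8 * (C * (X + B ^ 2) * B ^ ε * ∑ n ∈ sball X, ‖a n‖ ^ 2) := by gcongr
    _ = _ := by ring

end Vale.Agent.P026
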