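import Vale.Agent.P026.RecAux

/-! FINAL 1: from the mean square to a power saving in Möbius sums.
Plans.
* `asum_one`: every `n ∈ S` is uniquely `e m`, `e` the primary gcd of `n` and `a`, `m` coprime to `a`; `sex (a^6) m = ind (IsCoprime a m)`; `ind (Q ∣ e m - α) = ∑_{β ∈ res Q} ind (Q ∣ e β - α) ind (Q ∣ m - β)`.
* `card_pball_ge`: `x ↦ 1 + 3x` and `card_ball` (or coordinates).
* `mob_bound`: `H = N^(599/500)`, `θ = ε = 1/10000`.  Square `asum_one` (Cauchy-Schwarz: `tau a * nm Q` terms), sum over `a ∈ pball (H^(1/6))`; swap, `a ↦ a^6` is injective on primary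
  elements and lands in `ball H`; `PStmt` at length `N / nm e`; `∑_e nm e^(-1-θ) ≤ C`.  So `c H^(1/6) ‖A‖² ≤ C H^(1+2ε) N^(1+θ)`.
* `mob_char`: `Q = 72 q`; `X (nm n)` depends only on `n mod Q`; `sum_res_ind`. -/

namespace Vale.Agent.P026

open scoped ComplexConjugate Real

theorem Final1_gcd {a n : O} (ha : Prim a) (hn : IsS n) :
    ∑ e ∈ pdiv a, ind (e ∣ n) * ind (IsCoprime a (n / e)) = 1 := by
  obtain ⟨d, hd, h1, ⟨m, rfl⟩, h3⟩ := exists_prim_gcd n ha
  rw [Finset.sum_eq_single_of_mem d ((mem_pdiv ha.ne_zero).2 ⟨hd, h1⟩)]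
  · rw [ind_of (dvd_mul_right _ _), mul_div_cancel_left₀ _ hd.ne_zero, ind_of, one_mul]
    exact IsRelPrime.isCoprime fun x hx hm =>
      hn.2 x (mul_dvd_mul (h3 x hx (hm.mul_left _)) hm)
  · intro e he hne
    obtain ⟨he1, he2⟩ := (mem_pdiv ha.ne_zero).1 he
    rw [← ind_and]
    refine ind_of_not fun h => hne ?_
    obtain ⟨⟨m', hm'⟩, h5⟩ := h
    rw [hm', mul_div_cancel_left₀ _ he1.ne_zero] at h5
    refine he1.eq_of_associated hd (associated_of_dvd_dvd (h3 e he2 ⟨m', hm'⟩) ?_)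
    exact (h5.of_isCoprime_of_dvd_left h1).dvd_of_dvd_mul_right (hm' ▸ dvd_mul_right d m)

theorem Final1_ind {Q : O} (hQ : Q ≠ 0) (e m α : O) :
    ind (Q ∣ e * m - α) = ∑ β ∈ res Q, ind (Q ∣ e * β - α) * ind (Q ∣ m - β) := by
  rw [← mul_one (ind (Q ∣ e * m - α)), ← sum_res_ind hQ m, Finset.mul_sum]
  refine Finset.sum_congr rfl fun β _ => ?_
  by_cases h : Q ∣ m - β
  · congr 2
    have e1 : e * m - α = e * (m - β) + (e * β - α) := by ring
    rw [e1]
    exact propext (dvd_add_right (h.mul_left e))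
  · rw [ind_of_not h, mul_zero, mul_zero]

theorem asum_one {Q : O} (hQ : Q ≠ 0) {a : O} (ha : Prim a) (α : O) (B : ℝ) (V : ℝ → ℝ) {N : ℝ}
    (hN : 0 < N) (t : ℝ) : ‖Asum Q α B V N t 1‖ ≤
      ∑ e ∈ pdiv a, ∑ β ∈ res Q, ‖Asum Q β B V (N / nm e) t (a ^ 6)‖ := by
  have e1 : Asum Q α B V N t 1 = ∑ e ∈ pdiv a, ∑ n ∈ sball (B * N), ind (e ∣ n) *
      (ind (IsCoprime a (n / e)) * (ind (Q ∣ n - α) * mu n * V (nm n / N) * nt n t)) := by
    rw [Finset.sum_comm]
    refine Finset.sum_congr rfl fun n hn => ?_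
    simp only [← mul_assoc (ind (_ ∣ n))]
    rw [← Finset.sum_mul, Final1_gcd ha (mem_sball.1 hn).1, sex_one_left, one_mul, mul_one]
  rw [e1]
  refine (norm_sum_le _ _).trans (Finset.sum_le_sum fun e he => ?_)
  obtain ⟨he1, he2⟩ := (mem_pdiv ha.ne_zero).1 he
  by_cases hS : IsS e
  swap
  · rw [Finset.sum_eq_zero fun n hn => by
      rw [ind_of_not fun h => hS ((mem_sball.1 hn).1.of_dvd he1 h), zero_mul], norm_zero]
    exact Finset.sum_nonneg fun _ _ => norm_nonneg _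
  have hpos : (0 : ℝ) < nm e := zero_lt_one.trans_le (one_le_nm he1.ne_zero)
  rw [sum_sball_dvd hS (B * N) fun n =>
    ind (IsCoprime a (n / e)) * (ind (Q ∣ n - α) * mu n * V (nm n / N) * nt n t)]
  have e2 : ∑ m ∈ sball (B * N / nm e), ind (IsCoprime m e) * (ind (IsCoprime a (e * m / e)) *
      (ind (Q ∣ e * m - α) * mu (e * m) * V (nm (e * m) / N) * nt (e * m) t)) =
      ∑ β ∈ res Q, (ind (Q ∣ e * β - α) * mu e * nt e t) *
        Asum Q β B V (N / nm e) t (a ^ 6) := by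
    simp only [Asum, Finset.mul_sum]
    rw [Finset.sum_comm, mul_div_assoc]
    refine Finset.sum_congr rfl fun m hm => ?_
    have hm' := (mem_sball.1 hm).1
    rw [mul_div_cancel_left₀ _ he1.ne_zero, sex_pow_six hm'.1, Final1_ind hQ]
    by_cases hc : IsCoprime a m
    · have hc' : IsCoprime e m := hc.of_isCoprime_of_dvd_left he2
      have e3 : (nm (e * m) : ℝ) / N = nm m / (N / nm e) := by
        rw [nm_mul]
        push_cast
        field_simp
      rw [ind_of hc, ind_of hc'.symm, mu_mul hc', nt_mul he1.ne_zero hm'.1.1.ne_zero, e3]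
      simp only [Finset.sum_mul, Finset.mul_sum]
      refine Finset.sum_congr rfl fun β _ => ?_
      ring
    · simp [ind_of_not hc]
  rw [e2]
  refine (norm_sum_le _ _).trans (Finset.sum_le_sum fun β _ => ?_)
  rw [norm_mul, norm_mul, norm_mul, norm_nt, mul_one]
  exact mul_le_of_le_one_left (norm_nonneg _)
    (mul_le_one₀ (norm_ind_le _) (norm_nonneg _) (norm_mu_le _))

theorem card_pball_ge : ∃ c : ℝ, 0 < c ∧ ∀ X : ℝ, 1 ≤ X → c * X ≤ (pball X).card := by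
  classical
  refine ⟨1 / 16, by norm_num, fun X hX => ?_⟩
  have hs : 1 ≤ √X := Real.one_le_sqrt.2 hX
  have hs2 : √X ^ 2 = X := Real.sq_sqrt (by linarith)
  set k : ℕ := ⌊(√X + 2) / 3⌋₊ with hk
  have h1 : (k : ℝ) ≤ (√X + 2) / 3 := Nat.floor_le (by positivity)
  have h2 : (√X + 2) / 3 < k + 1 := Nat.lt_floor_add_one _
  have h3 : 1 ≤ k := Nat.le_floor (by push_cast; linarith)
  have h3' : (1 : ℝ) ≤ k := by exact_mod_cast h3
  have h4 : (Finset.range k ×ˢ Finset.range k).card ≤ (pball X).card := by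
    refine Finset.card_le_card_of_injOn (fun p => (⟨1 + 3 * p.1, 3 * p.2⟩ : O)) (fun p hp => ?_)
      fun p _ p' _ h => ?_
    · simp only [Finset.coe_product, Finset.coe_range, Set.mem_prod, Set.mem_Iio] at hp
      refine Finset.mem_coe.2 (mem_pball.2 ⟨⟨⟨p.1, p.2⟩, ?_⟩, ?_⟩)
      · rw [show (3 : O) = ⟨3, 0⟩ from rfl]
        ext <;> simp [QuadraticAlgebra.re_one, QuadraticAlgebra.im_one]
      · have e : ((nm (⟨1 + 3 * p.1, 3 * p.2⟩ : O) : ℤ) : ℝ) = _ :=
          congrArg Int.cast (nm_int _)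
        push_cast at e
        rw [e]
        have a1 : (p.1 : ℝ) + 1 ≤ k := by exact_mod_cast hp.1
        have a2 : (p.2 : ℝ) + 1 ≤ k := by exact_mod_cast hp.2
        have a3 : (0 : ℝ) ≤ p.1 := Nat.cast_nonneg _
        have a4 : (0 : ℝ) ≤ p.2 := Nat.cast_nonneg _
        have b1 : 1 + 3 * (p.1 : ℝ) ≤ √X := by linarith
        have b2 : 3 * (p.2 : ℝ) ≤ √X := by linarith
        have b3 : 0 ≤ 1 + 3 * (p.1 : ℝ) := by linarith
        have b4 : 0 ≤ 3 * (p.2 : ℝ) := by linarith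
        generalize 1 + 3 * (p.1 : ℝ) = u at *
        generalize 3 * (p.2 : ℝ) = v at *
        rcases le_total u v with h | h
        · nlinarith [mul_nonneg b3 (sub_nonneg.2 h), pow_le_pow_left₀ b4 b2 2]
        · nlinarith [mul_nonneg b4 (sub_nonneg.2 h), pow_le_pow_left₀ b3 b1 2]
    · have a1 := congrArg QuadraticAlgebra.re h
      have a2 := congrArg QuadraticAlgebra.im h
      simp only at a1 a2
      ext <;> omega
  rw [Finset.card_product, Finset.card_range] at h4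
  have h5 : (k : ℝ) * k ≤ (pball X).card := by exact_mod_cast h4
  nlinarith

theorem Final1_inj {a b : O} (ha : Prim a) (hb : Prim b) (h : a ^ 6 = b ^ 6) : a = b :=
  ha.eq_of_associated hb (associated_of_dvd_dvd
    ((IsIntegrallyClosed.pow_dvd_pow_iff (n := 6) (by norm_num)).1 h.dvd)
    ((IsIntegrallyClosed.pow_dvd_pow_iff (n := 6) (by norm_num)).1 h.symm.dvd))

theorem mob_bound {Q : O} (hQ : Q ≠ 0) (hP : PStmt Q (1 / 10000)) {B : ℝ} {V : ℝ → ℝ}
    (hV : Adm B V) (t : ℝ) : ∃ C : ℝ, ∀ (N : ℝ) (α : O), 1 ≤ N →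
      ‖Asum Q α B V N t 1‖ ≤ C * N ^ (1999 / 2000 : ℝ) := by
  classical
  obtain ⟨C₁, A, hC₁, hA, h₁⟩ := hP B V (1 / 10000) hV (by norm_num)
  obtain ⟨C₂, hC₂, h₂⟩ := card_pdiv_le (1 / 10000) (by norm_num)
  obtain ⟨C₃, hC₃, h₃⟩ := sum_rpow_le_const (σ := 1 + 1 / 10000) (by norm_num)
  obtain ⟨c, hc, h₄⟩ := card_pball_ge
  set K : ℝ := C₂ * nm Q * (nm Q * (C₁ * (1 + |t|) ^ A) * C₃) / c with hK
  have hK0 : 0 ≤ K := by positivity
  refine ⟨√K, fun N α hN => ?_⟩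
  have hN0 : 0 < N := by linarith
  set H : ℝ := N ^ (599 / 500 : ℝ) with hH
  have hH1 : 1 ≤ H := Real.one_le_rpow hN (by norm_num)
  have hH0 : 0 < H := by linarith
  set Y : ℝ := H ^ (1 / 6 : ℝ) with hY
  have hY1 : 1 ≤ Y := Real.one_le_rpow hH1 (by norm_num)
  have hY6 : Y ^ 6 = H := by
    rw [hY, ← Real.rpow_natCast, ← Real.rpow_mul hH0.le]
    norm_num
  have hYH : Y ≤ H := by
    rw [← hY6]
    exact le_self_pow₀ hY1 (by norm_num)
  let G : O → O → O → ℝ := fun e β h => ‖Asum Q β B V (N / nm e) t h‖ ^ 2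
  have s1 : ∀ a ∈ pball Y, ‖Asum Q α B V N t 1‖ ^ 2 ≤
      C₂ * H ^ (1 / 10000 : ℝ) * nm Q * ∑ e ∈ pball Y, ∑ β ∈ res Q, G e β (a ^ 6) := by
    intro a ha
    obtain ⟨ha1, ha2⟩ := mem_pball.1 ha
    have b1 := asum_one hQ ha1 α B V hN0 t
    rw [← Finset.sum_product'] at b1
    have b2 := (pow_le_pow_left₀ (norm_nonneg _) b1 2).trans sq_sum_le_card_mul_sum_sq
    rw [Finset.card_product, card_res hQ, Finset.sum_product] at b2
    push_cast at b2
    refine b2.trans (mul_le_mul (mul_le_mul_of_nonneg_right ((h₂ a ha1.ne_zero).trans ?_)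
      (Nat.cast_nonneg _)) ?_ (by positivity) (by positivity))
    · exact mul_le_mul_of_nonneg_left
        (Real.rpow_le_rpow (Nat.cast_nonneg _) (ha2.trans hYH) (by norm_num)) hC₂.le
    · refine Finset.sum_le_sum_of_subset_of_nonneg (fun e he => ?_) fun _ _ _ => by positivity
      obtain ⟨he1, he2⟩ := (mem_pdiv ha1.ne_zero).1 he
      exact mem_pball.2 ⟨he1, le_trans (by exact_mod_cast nm_le_of_dvd ha1.ne_zero he2) ha2⟩
  have s2 : ∀ e ∈ pball Y, ∀ β : O, ∑ a ∈ pball Y, G e β (a ^ 6) ≤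
      C₁ * (1 + |t|) ^ A * H ^ (1 + 1 / 10000 : ℝ) * N ^ (1 + 1 / 10000 : ℝ) *
        (nm e : ℝ) ^ (-(1 + 1 / 10000) : ℝ) := by
    intro e he β
    have he1 := one_le_nm (mem_pball.1 he).1.ne_zero
    have b1 := h₁ (N / nm e) H t β (by positivity) hH1
      (Real.rpow_le_rpow (by positivity) (div_le_self hN0.le he1) (by norm_num))
    rw [Real.div_rpow hN0.le (by positivity), div_eq_mul_inv (N ^ _),
      ← Real.rpow_neg (by positivity), ← mul_assoc] at b1
    refine le_trans ?_ b1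
    rw [← Finset.sum_image (f := G e β) (g := fun a : O => a ^ 6) fun a ha b hb h =>
      Final1_inj (mem_pball.1 ha).1 (mem_pball.1 hb).1 h]
    refine Finset.sum_le_sum_of_subset_of_nonneg (fun h hh => ?_) fun _ _ _ => by positivity
    obtain ⟨a, ha, rfl⟩ := Finset.mem_image.1 hh
    rw [mem_ball, nm_pow, ← hY6]
    push_cast
    exact pow_le_pow_left₀ (Nat.cast_nonneg _) (mem_pball.1 ha).2 6
  have s3 : ∑ a ∈ pball Y, ∑ e ∈ pball Y, ∑ β ∈ res Q, G e β (a ^ 6) ≤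
      nm Q * (C₁ * (1 + |t|) ^ A * H ^ (1 + 1 / 10000 : ℝ) * N ^ (1 + 1 / 10000 : ℝ)) * C₃ := by
    rw [Finset.sum_comm]
    refine le_trans (Finset.sum_le_sum (g := fun e => nm Q *
      (C₁ * (1 + |t|) ^ A * H ^ (1 + 1 / 10000 : ℝ) * N ^ (1 + 1 / 10000 : ℝ)) *
        (nm e : ℝ) ^ (-(1 + 1 / 10000) : ℝ)) fun e he => ?_) ?_
    · rw [Finset.sum_comm]
      refine (Finset.sum_le_sum fun β _ => s2 e he β).trans_eq ?_
      rw [Finset.sum_const, card_res hQ, nsmul_eq_mul]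
      ring
    · rw [← Finset.mul_sum]
      exact mul_le_mul_of_nonneg_left (h₃ _) (by positivity)
  have s4 := Finset.sum_le_sum s1
  rw [Finset.sum_const, nsmul_eq_mul, ← Finset.mul_sum] at s4
  have s5 := (mul_le_mul_of_nonneg_right (h₄ Y hY1) (sq_nonneg ‖Asum Q α B V N t 1‖)).trans
    (s4.trans (mul_le_mul_of_nonneg_left s3 (by positivity)))
  have s6 : H ^ (1 / 10000 : ℝ) * H ^ (1 + 1 / 10000 : ℝ) * N ^ (1 + 1 / 10000 : ℝ) ≤
      Y * (N ^ (1999 / 2000 : ℝ)) ^ 2 := by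
    rw [hY, hH, ← Real.rpow_natCast]
    simp only [← Real.rpow_mul hN0.le, ← Real.rpow_add hN0]
    exact Real.rpow_le_rpow_of_exponent_le hN (by norm_num)
  have s7 : ‖Asum Q α B V N t 1‖ ^ 2 ≤ K * (N ^ (1999 / 2000 : ℝ)) ^ 2 := by
    have hY0 : 0 < c * Y := by positivity
    refine le_of_mul_le_mul_left (s5.trans ?_) hY0
    calc _ = c * K * (H ^ (1 / 10000 : ℝ) * H ^ (1 + 1 / 10000 : ℝ) *
          N ^ (1 + 1 / 10000 : ℝ)) := by rw [hK]; field_simp
      _ ≤ c * K * (Y * (N ^ (1999 / 2000 : ℝ)) ^ 2) :=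
          mul_le_mul_of_nonneg_left s6 (by positivity)
      _ = _ := by ring
  rw [← Real.sq_sqrt hK0, ← mul_pow] at s7
  exact (pow_le_pow_iff_left₀ (norm_nonneg _) (by positivity) two_ne_zero).1 s7

theorem Final1_nm_congr {q : ℕ} {x y : O} (h : (q : O) ∣ x - y) :
    (nm x : ZMod q) = (nm y : ZMod q) := by
  have h' : ((q : ℤ) : O) ∣ x - y := by exact_mod_cast h
  obtain ⟨h1, h2⟩ := (dvd_iff_int q _).1 h'
  rw [QuadraticAlgebra.re_sub, ← ZMod.intCast_zmod_eq_zero_iff_dvd, Int.cast_sub,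
    sub_eq_zero] at h1
  rw [QuadraticAlgebra.im_sub, ← ZMod.intCast_zmod_eq_zero_iff_dvd, Int.cast_sub,
    sub_eq_zero] at h2
  rw [← Int.cast_natCast (nm x), ← Int.cast_natCast (nm y), nm_int, nm_int]
  push_cast
  rw [h1, h2]

theorem mob_char {q : ℕ} (hq : q ≠ 0) (hP : PStmt (72 * q) (1 / 10000)) (X : ZMod q → ℂ)
    (hX : ∀ a, ‖X a‖ ≤ 1) {B : ℝ} {V : ℝ → ℝ} (hV : Adm B V) (t : ℝ) : ∃ C : ℝ, ∀ N : ℝ, 1 ≤ N →
      ‖∑ n ∈ ball (B * N), (ind (IsP n) * mu n * X (nm n)) * V (nm n / N) * nt n t‖ ≤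
        C * N ^ (1999 / 2000 : ℝ) := by
  have hQ : (72 : O) * q ≠ 0 := by
    refine mul_ne_zero (fun h => ?_) fun h => ?_
    · have := congrArg nm h
      rw [show (72 : O) = ((72 : ℕ) : O) by norm_num, nm_natCast, nm_zero] at this
      norm_num at this
    · have := congrArg nm h
      rw [nm_natCast, nm_zero] at this
      exact hq (pow_eq_zero_iff two_ne_zero |>.1 this)
  obtain ⟨C, hC⟩ := mob_bound hQ hP hV t
  refine ⟨nm ((72 : O) * q) * C, fun N hN => ?_⟩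
  have e1 : ∑ n ∈ ball (B * N), (ind (IsP n) * mu n * X (nm n)) * V (nm n / N) * nt n t =
      ∑ α ∈ res (72 * q), X (nm α) * Asum (72 * q) α B V N t 1 := by
    simp only [Asum, Finset.mul_sum]
    rw [Finset.sum_comm]
    symm
    refine Finset.sum_subset_zero_on_sdiff (fun n hn => mem_ball.2 (mem_sball.1 hn).2)
      (fun n hn => ?_) fun n hn => ?_
    · obtain ⟨h1, h2⟩ := Finset.mem_sdiff.1 hn
      by_cases h3 : IsP n
      · rw [mu_eq_zero fun h4 => h2 (mem_sball.2 ⟨⟨h3, h4⟩, mem_ball.1 h1⟩)]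
        simp
      · simp [ind_of_not h3]
    · rw [ind_of (mem_sball.1 hn).1.1, ← sum_res_ind hQ n]
      simp only [Finset.sum_mul]
      refine Finset.sum_congr rfl fun α _ => ?_
      by_cases h : (72 : O) * q ∣ n - α
      · rw [Final1_nm_congr ((dvd_mul_left _ _).trans h), sex_one_left]
        ring
      · simp [ind_of_not h]
  rw [e1]
  refine (norm_sum_le _ _).trans ((Finset.sum_le_sum (g := fun _ =>
    C * N ^ (1999 / 2000 : ℝ)) fun α _ => ?_).trans_eq ?_)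
  · rw [norm_mul]
    exact (mul_le_of_le_one_left (norm_nonneg _) (hX _)).trans (hC N α hN)
  · rw [Finset.sum_const, card_res hQ, nsmul_eq_mul, mul_assoc]

end Vale.Agent.P026
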