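import Vale.Agent.P026.CubJ

/-! Gauss sums: CRT, primitive characters, values at primes (no reciprocity).
Plan: at a prime build `MulChar (O ⧸ span {p}) ℂ` and `AddChar` and use Mathlib's `gaussSum`, `jacobiSum`.
`g3_cube`: `g³ = N J(ψ,ψ)`, `J J̄ = N`, `p ∣ J` (power sums), `J ≡ -1 mod 3` ⟹ `J = -p`.
`gt6` at a prime: `g(ψ̄) g(ρψ̄) = ψ(4) g(ψ) g(ρ)` (duplication: `J(χ,χ) = χ̄(4) J(χ,ρ)`). -/

namespace Vale.Agent.P026

open scoped ComplexConjugate Real

theorem Per.mul_eq {n : O} {f : O → ℂ} (hf : Per n f) (ν : O) :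
    Per n fun x => f x * eq (ν * x) n := by
  intro x y h
  simp only
  rw [hf x y h, eq_congr (x := ν * x) (y := ν * y) (by rw [← mul_sub]; exact h.mul_left _)]

theorem per_cub (n : O) : Per n fun x => cub x n := fun _ _ h => cub_congr h

theorem sum_res_mul_per {m n : O} (hm : m ≠ 0) (hn : n ≠ 0) {f : O → ℂ} (hf : Per n f) :
    ∑ x ∈ res (m * n), f x = nm m * ∑ x ∈ res n, f x := by
  rw [sum_res_mul hm hn (hf.mul_left m)]
  have : ∀ y x, f (x + n * y) = f x := fun y x => hf _ _ (by simp)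
  simp only [this, Finset.sum_const, card_res hm, nsmul_eq_mul]

/-- Gauss sum of a multiplicative periodic function -/
theorem gs_twist {n t : O} (hn : n ≠ 0) {f : O → ℂ} (hf : Per n f)
    (hm : ∀ a b, f (a * b) = f a * f b) (ht : IsCoprime t n) (ν : O) :
    f t * ∑ x ∈ res n, f x * eq (ν * t * x) n = ∑ x ∈ res n, f x * eq (ν * x) n := by
  rw [← sum_res_affine hn (hf.mul_eq ν) ht 0, Finset.mul_sum]
  refine Finset.sum_congr rfl fun x _ => ?_
  rw [add_zero, hm, mul_assoc ν, mul_assoc]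
theorem gs_crt {m n : O} (hm : m ≠ 0) (hn : n ≠ 0) (h : IsCoprime m n) {f g : O → ℂ}
    (hf : Per m f) (hg : Per n g) (hf' : ∀ a b, f (a * b) = f a * f b)
    (hg' : ∀ a b, g (a * b) = g a * g b) (ν : O) :
    ∑ x ∈ res (m * n), f x * g x * eq (ν * x) (m * n) =
      f n * g m * (∑ x ∈ res m, f x * eq (ν * x) m) * ∑ x ∈ res n, g x * eq (ν * x) n := by
  have hp : Per (m * n) fun x => f x * g x := fun x y hxy => by
    simp only
    rw [hf x y ((dvd_mul_right m n).trans hxy), hg x y ((dvd_mul_left n m).trans hxy)]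
  rw [sum_res_crt hm hn h (hp.mul_eq ν), mul_assoc, Finset.sum_mul_sum, Finset.mul_sum]
  refine Finset.sum_congr rfl fun x _ => ?_
  rw [Finset.mul_sum]
  refine Finset.sum_congr rfl fun y _ => ?_
  rw [hf (n * x + m * y) (n * x) (by simp), hg (n * x + m * y) (m * y) (by simp), hf', hg',
    show ν * (n * x + m * y) = n * (ν * x) + m * (ν * y) by ring, eq_crt hm hn]
  ring
theorem sum_char_eq_zero {n a : O} (hn : n ≠ 0) {f : O → ℂ} (hf : Per n f)
    (hm : ∀ a b, f (a * b) = f a * f b) (ha : IsCoprime a n) (h1 : f a ≠ 1) :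
    ∑ x ∈ res n, f x = 0 := by
  have h := gs_twist hn hf hm ha 0
  simp only [zero_mul, eq_zero, mul_one] at h
  by_contra h0
  exact h1 (mul_right_cancel₀ h0 (h.trans (one_mul _).symm))

theorem conj_mul_of_norm {z : ℂ} (h : ‖z‖ = 1) : conj z * z = 1 := by
  rw [Complex.conj_mul', h]; simp

/-- nontrivial character mod a prime -/
theorem gs_prime {p : O} (hp : Prime p) {f : O → ℂ} (hf : Per p f)
    (hm : ∀ a b, f (a * b) = f a * f b) (h0 : f 0 = 0) (h1 : ∀ a, ¬p ∣ a → ‖f a‖ = 1)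
    (hne : ∃ a, ¬p ∣ a ∧ f a ≠ 1) :
    (∀ ν, ∑ x ∈ res p, f x * eq (ν * x) p = conj (f ν) * ∑ x ∈ res p, f x * eq x p) ∧
      ‖∑ x ∈ res p, f x * eq x p‖ ^ 2 = nm p := by
  have hp0 := hp.ne_zero
  have A : ∀ ν, ∑ x ∈ res p, f x * eq (ν * x) p = conj (f ν) * ∑ x ∈ res p, f x * eq x p := by
    intro ν
    by_cases hν : p ∣ ν
    · obtain ⟨a, ha, ha'⟩ := hne
      have e : ∀ x, eq (ν * x) p = 1 := fun x => eq_of_dvd (hν.mul_right x)
      simp only [e, mul_one]
      rw [sum_char_eq_zero hp0 hf hm (coprime_of_not_dvd hp ha) ha', hf ν 0 (by simpa using hν),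
        h0, map_zero, zero_mul]
    · have h := gs_twist hp0 hf hm (coprime_of_not_dvd hp hν) 1
      simp only [one_mul] at h
      rw [← h, ← mul_assoc, conj_mul_of_norm (h1 ν hν), one_mul]
  refine ⟨A, ?_⟩
  have hN : (0 : ℝ) < nm p := by exact_mod_cast nm_pos hp0
  have hneg : ‖f (-1)‖ = 1 := h1 _ fun h => hp.not_dvd_one (dvd_neg.1 h)
  have h := parseval hp0 f
  have e : ∀ a, ‖fhat p f a‖ ^ 2 = ‖f a‖ ^ 2 * (‖∑ x ∈ res p, f x * eq x p‖ ^ 2 / nm p ^ 2) := by
    intro a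
    have := A (-a)
    simp only [neg_mul] at this
    rw [fhat, this, norm_div, norm_mul, Complex.norm_conj, neg_eq_neg_one_mul, hm, norm_mul, hneg,
      one_mul, Complex.norm_natCast]
    ring
  simp only [e] at h
  rw [← Finset.sum_mul] at h
  have hW : 0 < ∑ x ∈ res p, ‖f x‖ ^ 2 := by
    obtain ⟨y, ⟨hy, hy'⟩, -⟩ := res_spec hp0 1
    refine Finset.sum_pos' (fun _ _ => by positivity) ⟨y, hy, ?_⟩
    rw [← hf 1 y hy', h1 1 hp.not_dvd_one]
    norm_num
  field_simp at h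
  exact h

theorem g3_one (ν : O) : g3 ν 1 = 1 := by
  simp only [g3, cub_one_right, eq_of_dvd (one_dvd _), mul_one, Finset.sum_const,
    card_res one_ne_zero, nm_one, one_smul]
theorem g3_twist {c t : O} (hc : c ≠ 0) (ht : IsCoprime t c) (ν : O) :
    g3 (ν * t) c = conj (cub t c) * g3 ν c := by
  have h := gs_twist hc (per_cub c) (fun a b => cub_mul_left a b c) ht ν
  rw [g3, g3, ← h, ← mul_assoc, conj_mul_of_norm (norm_cub ht), one_mul]
theorem g3_congr {ν ν' c : O} (h : c ∣ ν - ν') : g3 ν c = g3 ν' c := by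
  refine Finset.sum_congr rfl fun x _ => ?_
  rw [eq_congr (x := ν * x) (y := ν' * x) (by rw [← sub_mul]; exact h.mul_right _)]
theorem norm_g3_le {c : O} (hc : c ≠ 0) (ν : O) : ‖g3 ν c‖ ≤ nm c := by
  refine (norm_sum_le _ _).trans ?_
  rw [← card_res hc, Finset.card_eq_sum_ones]
  push_cast
  refine Finset.sum_le_sum fun x _ => ?_
  rw [norm_mul, norm_eq, mul_one]
  exact norm_cub_le _ _
theorem g3_crt {a b : O} (ha : a ≠ 0) (hb : b ≠ 0) (h : IsCoprime a b) (ν : O) :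
    g3 ν (a * b) = cub b a * cub a b * g3 ν a * g3 ν b := by
  simp only [g3, cub_mul_right ha hb]
  exact gs_crt ha hb h (per_cub a) (per_cub b) (fun x y => cub_mul_left x y a)
    (fun x y => cub_mul_left x y b) ν
theorem cub_eq_zero_of_dvd {p x : O} (hp : Prime p) (hp' : Prim p) (h : p ∣ x) : cub x p = 0 :=
  cub_eq_zero hp'.not_lam_dvd (not_coprime_of_dvd hp h)

theorem cub_cube_prime {p : O} (hp : Prime p) (hp' : Prim p) (x : O) :
    cub x p ^ 3 = 1 - ind (p ∣ 0 - x) := by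
  by_cases h : p ∣ x
  · rw [cub_eq_zero_of_dvd hp hp' h, ind_of (by simpa using h)]
    simp
  · rw [cub_cube (coprime_of_not_dvd hp h), ind_of_not (by simpa using h), sub_zero]

theorem norm_g3_prime {p ν : O} (hp : Prime p) (hp' : Prim p) (h : ¬p ∣ ν) :
    ‖g3 ν p‖ ^ 2 = nm p := by
  obtain ⟨a, ha, ha'⟩ := exists_cub_ne_one hp hp'.not_lam_dvd
  obtain ⟨h1, h2⟩ := gs_prime hp (per_cub p) (fun a b => cub_mul_left a b p)
    (cub_eq_zero_of_dvd hp hp' (dvd_zero p)) (fun a ha => norm_cub (coprime_of_not_dvd hp ha))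
    ⟨a, fun h => not_coprime_of_dvd hp h ha, ha'⟩
  rw [g3, h1, norm_mul, Complex.norm_conj, norm_cub (coprime_of_not_dvd hp h), one_mul, h2]
theorem g3_prime_pow_eq_zero {p ν : O} (hp : Prime p) (hp' : Prim p) (h : ¬p ∣ ν) {i l : ℕ}
    (hl : i + 2 ≤ l) : g3 (ν * p ^ i) (p ^ l) = 0 := by
  obtain ⟨k, rfl⟩ := Nat.exists_eq_add_of_le hl
  have hp0 := hp.ne_zero
  have hq : p ^ (i + 2 + k) ≠ 0 := pow_ne_zero _ hp0
  have A : ∀ y, g3 (ν * p ^ i) (p ^ (i + 2 + k)) =
      g3 (ν * p ^ i) (p ^ (i + 2 + k)) * eq (ν * y) p := by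
    intro y
    conv_lhs => rw [g3, ← sum_res_affine hq ((per_cub _).mul_eq (ν * p ^ i)) isCoprime_one_left
      (p ^ (k + 1) * y)]
    rw [g3, Finset.sum_mul]
    refine Finset.sum_congr rfl fun x _ => ?_
    rw [one_mul, mul_add, eq_add, cub_pow_right hp0, cub_pow_right hp0,
      cub_congr (a := x + p ^ (k + 1) * y) (b := x) ⟨p ^ k * y, by ring⟩,
      show ν * p ^ i * (p ^ (k + 1) * y) = p ^ (i + 1 + k) * (ν * y) by ring,
      show p ^ (i + 2 + k) = p ^ (i + 1 + k) * p by ring, eq_mul_cancel (pow_ne_zero _ hp0),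
      ← mul_assoc (cub x p ^ _)]
  have B := Finset.sum_congr (rfl : res p = res p) fun y _ => A y
  rw [← Finset.mul_sum, sum_eq hp0, ind_of_not h, zero_mul, mul_zero, Finset.sum_const,
    card_res hp0, nsmul_eq_mul] at B
  exact (mul_eq_zero.1 B).resolve_left (by exact_mod_cast (nm_pos hp0).ne')
theorem g3_prime_pow_of_le {p : O} (hp : Prime p) (hp' : Prim p) (ν : O) {i l : ℕ} (hl : l ≤ i)
    (h1 : 1 ≤ l) : g3 (ν * p ^ i) (p ^ l) =
      if 3 ∣ l then (nm p : ℂ) ^ l - (nm p : ℂ) ^ (l - 1) else 0 := by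
  obtain ⟨k, rfl⟩ := Nat.exists_eq_add_of_le' h1
  have hp0 := hp.ne_zero
  have e : ∀ x, eq (ν * p ^ i * x) (p ^ (k + 1)) = 1 :=
    fun x => eq_of_dvd (((pow_dvd_pow p hl).mul_left ν).mul_right x)
  have hper : Per p fun x => cub x p ^ (k + 1) := fun x y h => by simp only [cub_congr h]
  simp only [g3, e, mul_one, cub_pow_right hp0]
  rw [pow_succ p k, sum_res_mul_per (pow_ne_zero _ hp0) hp0 hper, nm_pow]
  split_ifs with h3
  · obtain ⟨m, hm⟩ := h3
    have e2 : ∀ x, cub x p ^ (k + 1) = 1 - ind (p ∣ 0 - x) := by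
      intro x
      rw [← cub_cube_prime hp hp']
      by_cases h : p ∣ x
      · simp [cub_eq_zero_of_dvd hp hp' h]
      · rw [hm, pow_mul, cub_cube (coprime_of_not_dvd hp h), one_pow]
    simp only [e2]
    rw [Finset.sum_sub_distrib, sum_res_ind hp0, Finset.sum_const, card_res hp0]
    simp only [nsmul_eq_mul, mul_one, Nat.add_sub_cancel]
    push_cast
    ring
  · obtain ⟨a, ha, ha'⟩ := exists_cub_ne_one hp hp'.not_lam_dvd
    rw [sum_char_eq_zero hp0 hper (fun a b => by rw [cub_mul_left, mul_pow]) ha ?_, mul_zero]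
    intro h
    have hc := cub_cube ha
    rw [← Nat.div_add_mod (k + 1) 3, pow_add, pow_mul, hc, one_pow, one_mul] at h
    have : (k + 1) % 3 = 1 ∨ (k + 1) % 3 = 2 := by omega
    rcases this with h2 | h2 <;> rw [h2] at h
    · exact ha' (by simpa using h)
    · exact ha' (by linear_combination hc - cub a p * h)
theorem g3_sq_cube {p ν : O} (hp : Prime p) (hp' : Prim p) (h : ¬p ∣ ν) :
    g3 (ν * p ^ 2) (p ^ 3) = -(nm p : ℂ) ^ 2 := by
  have hp0 := hp.ne_zero
  have e : ∀ x, eq (ν * p ^ 2 * x) (p ^ 3) = eq (ν * x) p := by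
    intro x
    rw [show ν * p ^ 2 * x = p ^ 2 * (ν * x) by ring, pow_succ p 2,
      eq_mul_cancel (pow_ne_zero _ hp0)]
  have hper : Per p fun x => cub x p ^ 3 := fun x y h => by simp only [cub_congr h]
  simp only [g3, e, cub_pow_right hp0]
  rw [pow_succ p 2, sum_res_mul_per (pow_ne_zero _ hp0) hp0 (hper.mul_eq ν), nm_pow]
  have e2 : ∀ x, cub x p ^ 3 * eq (ν * x) p = eq (ν * x) p - ind (p ∣ 0 - x) := by
    intro x
    rw [cub_cube_prime hp hp']
    by_cases hx : p ∣ x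
    · rw [eq_of_dvd (hx.mul_left ν), mul_one]
    · rw [ind_of_not (by simpa using hx)]
      ring
  simp only [e2]
  rw [Finset.sum_sub_distrib, sum_res_ind hp0, sum_eq hp0, ind_of_not h]
  push_cast
  ring
/-- the additive character of `O/p` -/
noncomputable def psiC (p : O) : AddChar (Fq p) ℂ where
  toFun x := eq x.out p
  map_zero_eq_one' := eq_of_dvd (red_eq_zero.1 (red_out p 0))
  map_add_eq_mul' x y := by
    rw [← eq_add]
    exact eq_congr (red_eq_iff.1 (by rw [map_add, red_out, red_out, red_out]))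

theorem psiC_red (p a : O) : psiC p (red p a) = eq a p := eq_congr (dvd_out_sub p a)

theorem psiC_primitive (p : O) [hp : Fact (Prime p)] : (psiC p).IsPrimitive := by
  refine AddChar.IsPrimitive.of_ne_one fun h => ?_
  have h1 := sum_eq hp.1.ne_zero 1
  have e : ∀ x, eq (1 * x) p = 1 := fun x => by rw [one_mul, ← psiC_red, h, AddChar.one_apply]
  simp only [e] at h1
  rw [ind_of_not hp.1.not_dvd_one, zero_mul, Finset.sum_const, card_res hp.1.ne_zero,
    nsmul_eq_mul, mul_one] at h1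
  exact (nm_pos hp.1.ne_zero).ne' (by exact_mod_cast h1)

theorem g3_cube {p : O} (hp : Prime p) (hp' : Prim p) : g3 1 p ^ 3 = -toC p * nm p := by
  have := Fact.mk hp
  have h := gauss_cube hp'.not_lam_dvd hp' toC (by norm_num) (psiC_primitive p)
  rw [map_mul, map_neg, map_natCast] at h
  rw [← h, gaussSum, ← sum_res_quot, g3]
  congr 1
  refine Finset.sum_congr rfl fun x _ => ?_
  rw [MulChar.ringHomComp_apply, chiO_red, psiC_red, cub_prime hp, one_mul]
theorem norm_gt3 {c : O} (hc : Prim c) (hs : Squarefree c) : ‖gt3 c‖ = 1 := by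
  have A : Squarefree c → ‖g3 1 c‖ ^ 2 = nm c := by
    refine Prim.induction (P := fun c => Squarefree c → ‖g3 1 c‖ ^ 2 = nm c) ?_ ?_ hc
    · intro _
      simp [g3_one]
    · intro p n hp hp' hn ih hs
      obtain ⟨h1, -, h2⟩ := squarefree_mul_iff.1 hs
      have h3 := h1.isCoprime
      rw [g3_crt hp.ne_zero hn.ne_zero h3, norm_mul, norm_mul, norm_mul, norm_cub h3,
        norm_cub h3.symm, one_mul, one_mul, mul_pow, ih h2, norm_g3_prime hp hp' hp.not_dvd_one,
        nm_mul, Nat.cast_mul]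
  have hN : (0 : ℝ) < nm c := by exact_mod_cast nm_pos hc.ne_zero
  rw [gt3, norm_div, Complex.norm_real, Real.norm_of_nonneg (Real.sqrt_nonneg _), ← A hs,
    Real.sqrt_sq (norm_nonneg _), div_self]
  intro h0
  rw [← A hs, h0] at hN
  simp at hN
theorem th0_eq {c d : O} (hc : Prim c) (hs : Squarefree c) (hd : Prim d) :
    th0 (c * d ^ 3) = conj (gt3 c) * (√(nm d) : ℝ) := by
  have h : ∃ p : O × O, Prim p.1 ∧ Squarefree p.1 ∧ Prim p.2 ∧ c * d ^ 3 = p.1 * p.2 ^ 3 :=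
    ⟨(c, d), hc, hs, hd, rfl⟩
  obtain ⟨h1, h2, h3, h4⟩ := h.choose_spec
  obtain ⟨e1, e2⟩ := cube_decomp_unique hc hs hd h1 h2 h3 h4
  rw [th0, dif_pos h, ← e1, ← e2]
theorem th0_ne_zero {n : O} (h : th0 n ≠ 0) :
    ∃ c d, Prim c ∧ Squarefree c ∧ Prim d ∧ n = c * d ^ 3 := by
  by_contra hn
  apply h
  rw [th0, dif_neg]
  rintro ⟨p, hp⟩
  exact hn ⟨p.1, p.2, hp⟩

theorem G2.sqrt_nm_mul (a b : O) : √(nm (a * b) : ℝ) = √(nm a) * √(nm b) := by
  rw [nm_mul, Nat.cast_mul, Real.sqrt_mul (Nat.cast_nonneg _)]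

theorem G2.sqrt_nm_ne {a : O} (h : a ≠ 0) : ((√(nm a) : ℝ) : ℂ) ≠ 0 := by
  have := one_le_nm h
  exact Complex.ofReal_ne_zero.2 (Real.sqrt_pos.2 (by linarith)).ne'

theorem G2.sex_per (n : O) : Per n fun x => sex x n := fun _ _ h => sex_congr h
theorem G2.quad_per (n : O) : Per n fun x => quad x n := fun _ _ h => quad_congr h
theorem G2.cub_per (n : O) : Per n fun x => cub x n := fun _ _ h => cub_congr h

theorem gt6_mul {a b : O} (ha : IsP a) (hb : IsP b) (h : IsCoprime a b) :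
    gt6 (a * b) = sex a b * sex b a * gt6 a * gt6 b := by
  have ha0 := ha.1.ne_zero
  have hb0 := hb.1.ne_zero
  have := gs_crt ha0 hb0 h (G2.sex_per a) (G2.sex_per b) (sex_mul_left ha) (sex_mul_left hb) 1
  simp only [one_mul] at this
  simp only [gt6, sex_mul_right ha0 hb0, this, G2.sqrt_nm_mul, Complex.ofReal_mul]
  ring

theorem gt2_mul {a b : O} (ha : ¬(2 : O) ∣ a) (hb : ¬(2 : O) ∣ b) (h : IsCoprime a b) :
    gt2 (a * b) = quad a b * quad b a * gt2 a * gt2 b := by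
  have ha0 : a ≠ 0 := fun h0 => ha (h0 ▸ dvd_zero _)
  have hb0 : b ≠ 0 := fun h0 => hb (h0 ▸ dvd_zero _)
  have := gs_crt ha0 hb0 h (G2.quad_per a) (G2.quad_per b) (quad_mul_left ha) (quad_mul_left hb) 1
  simp only [one_mul] at this
  simp only [gt2, quad_mul_right ha0 hb0, this, G2.sqrt_nm_mul, Complex.ofReal_mul]
  ring

theorem G2.gt3_crt {a b : O} (ha : a ≠ 0) (hb : b ≠ 0) (h : IsCoprime a b) :
    gt3 (a * b) = cub b a * cub a b * gt3 a * gt3 b := by
  simp only [gt3, g3_crt ha hb h, G2.sqrt_nm_mul, Complex.ofReal_mul]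
  ring

theorem G2.coprime_of_not_dvd {p a : O} (hp : Prime p) (h : ¬p ∣ a) : IsCoprime a p :=
  ((Prime.coprime_iff_not_dvd hp).2 h).symm

theorem G2.not_coprime_zero {p : O} (hp : Prime p) : ¬IsCoprime 0 p := fun h =>
  hp.not_unit (isCoprime_zero_left.1 h)

theorem G2.not_dvd_of_coprime {p a : O} (hp : Prime p) (h : IsCoprime a p) : ¬p ∣ a :=
  (Prime.coprime_iff_not_dvd hp).1 h.symm

theorem G2.exists_sex_ne_one {p : O} (hp : Prime p) (hp' : IsP p) : ∃ a, ¬p ∣ a ∧ sex a p ≠ 1 := by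
  obtain ⟨a, ha, h⟩ := exists_quad_ne_one hp hp'.2
  refine ⟨a, G2.not_dvd_of_coprime hp ha, fun h1 => ?_⟩
  have h2 := conj_sex a p
  rw [h1, h, map_one] at h2
  have h3 := cub_cube ha
  rw [show cub a p = -1 by linear_combination h2] at h3
  norm_num at h3

theorem G2.gs_sex_prime {p : O} (hp : Prime p) (hp' : IsP p) :
    (∀ ν, ∑ x ∈ res p, sex x p * eq (ν * x) p = conj (sex ν p) * ∑ x ∈ res p, sex x p * eq x p) ∧
      ‖∑ x ∈ res p, sex x p * eq x p‖ ^ 2 = nm p :=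
  gs_prime hp (G2.sex_per p) (sex_mul_left hp') (sex_eq_zero hp' (G2.not_coprime_zero hp))
    (fun _ h => norm_sex hp' (G2.coprime_of_not_dvd hp h)) (G2.exists_sex_ne_one hp hp')

theorem G2.gs_quad_prime {p : O} (hp : Prime p) (hp' : IsP p) :
    (∀ ν, ∑ x ∈ res p, quad x p * eq (ν * x) p =
      conj (quad ν p) * ∑ x ∈ res p, quad x p * eq x p) ∧
      ‖∑ x ∈ res p, quad x p * eq x p‖ ^ 2 = nm p := by
  obtain ⟨a, ha, h⟩ := exists_quad_ne_one hp hp'.2
  exact gs_prime hp (G2.quad_per p) (quad_mul_left hp'.2) (quad_eq_zero hp'.2 (G2.not_coprime_zero hp))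
    (fun _ h => norm_quad hp'.2 (G2.coprime_of_not_dvd hp h))
    ⟨a, G2.not_dvd_of_coprime hp ha, by rw [h]; norm_num⟩

theorem G2.norm_div_sqrt {z : ℂ} {p : O} (hp : p ≠ 0) (h : ‖z‖ ^ 2 = nm p) :
    ‖z / (√(nm p) : ℝ)‖ = 1 := by
  have := one_le_nm hp
  rw [norm_div, Complex.norm_real, ← h, Real.sqrt_sq (norm_nonneg _), norm_norm, div_self]
  intro h0
  rw [h0] at h
  norm_num at h
  linarith [h.symm ▸ this]

theorem G2.sum_res_one (f : O → ℂ) (hf : Per 1 f) : ∑ x ∈ res 1, f x = f 0 := by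
  rw [sum_res_eq one_ne_zero hf {(0 : O)} id fun x => ⟨0, by simp, by simp⟩]
  simp

theorem G2.gt6_one : gt6 1 = 1 := by
  simp only [gt6, sex_one_right, eq_of_dvd (one_dvd _), one_mul]
  rw [G2.sum_res_one _ fun _ _ _ => rfl]
  simp

theorem G2.gt2_one : gt2 1 = 1 := by
  simp only [gt2, quad_one_right, eq_of_dvd (one_dvd _), one_mul]
  rw [G2.sum_res_one _ fun _ _ _ => rfl]
  simp

theorem norm_gt6 {n : O} (hn : IsS n) : ‖gt6 n‖ = 1 := by
  refine IsS.induction (P := fun n => ‖gt6 n‖ = 1) (by simp [G2.gt6_one]) ?_ hn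
  intro p n hp hp' hn hd ih
  have hc := G2.coprime_of_not_dvd hp hd
  rw [gt6_mul hp'.1 hn.1 hc.symm, norm_mul, norm_mul, norm_mul, norm_sex hn.1 hc.symm,
    norm_sex hp'.1 hc, ih, gt6, G2.norm_div_sqrt hp.ne_zero (G2.gs_sex_prime hp hp'.1).2]
  norm_num

theorem norm_gt2 {n : O} (hn : IsS n) : ‖gt2 n‖ = 1 := by
  refine IsS.induction (P := fun n => ‖gt2 n‖ = 1) (by simp [G2.gt2_one]) ?_ hn
  intro p n hp hp' hn hd ih
  have hc := G2.coprime_of_not_dvd hp hd
  rw [gt2_mul hp'.1.2 hn.1.2 hc.symm, norm_mul, norm_mul, norm_mul, norm_quad hn.1.2 hc.symm,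
    norm_quad hp'.1.2 hc, ih, gt2, G2.norm_div_sqrt hp.ne_zero (G2.gs_quad_prime hp hp'.1).2]
  norm_num

theorem gs_sex {n : O} (hn : IsS n) (ν : O) :
    ∑ x ∈ res n, sex x n * eq (ν * x) n = conj (sex ν n) * gt6 n * (√(nm n) : ℝ) := by
  refine IsS.induction (P := fun n => ∑ x ∈ res n, sex x n * eq (ν * x) n =
    conj (sex ν n) * gt6 n * (√(nm n) : ℝ)) ?_ ?_ hn
  · simp only [sex_one_right, eq_of_dvd (one_dvd _), one_mul, G2.gt6_one]
    rw [G2.sum_res_one _ fun _ _ _ => rfl]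
    simp
  · intro p n hp hp' hn hd ih
    have hc := (G2.coprime_of_not_dvd hp hd).symm
    have hn0 := hn.1.1.ne_zero
    have := gs_crt hp.ne_zero hn0 hc (G2.sex_per p) (G2.sex_per n) (sex_mul_left hp'.1)
      (sex_mul_left hn.1) ν
    simp only [sex_mul_right hp.ne_zero hn0, this, ih, (G2.gs_sex_prime hp hp'.1).1 ν,
      gt6_mul hp'.1 hn.1 hc, G2.sqrt_nm_mul, Complex.ofReal_mul, map_mul]
    have h1 : ∑ x ∈ res p, sex x p * eq x p = gt6 p * (√(nm p) : ℝ) := by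
      rw [gt6, div_mul_cancel₀ _ (G2.sqrt_nm_ne hp.ne_zero)]
    rw [h1]
    ring

theorem gs_quad {n : O} (hn : IsS n) (ν : O) :
    ∑ x ∈ res n, quad x n * eq (ν * x) n = quad ν n * gt2 n * (√(nm n) : ℝ) := by
  refine IsS.induction (P := fun n => ∑ x ∈ res n, quad x n * eq (ν * x) n =
    quad ν n * gt2 n * (√(nm n) : ℝ)) ?_ ?_ hn
  · simp only [quad_one_right, eq_of_dvd (one_dvd _), one_mul, G2.gt2_one]
    rw [G2.sum_res_one _ fun _ _ _ => rfl]
    simp
  · intro p n hp hp' hn hd ih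
    have hc := (G2.coprime_of_not_dvd hp hd).symm
    have hn0 := hn.1.1.ne_zero
    have := gs_crt hp.ne_zero hn0 hc (G2.quad_per p) (G2.quad_per n) (quad_mul_left hp'.1.2)
      (quad_mul_left hn.1.2) ν
    simp only [quad_mul_right hp.ne_zero hn0, this, ih, (G2.gs_quad_prime hp hp'.1).1 ν,
      gt2_mul hp'.1.2 hn.1.2 hc, G2.sqrt_nm_mul, Complex.ofReal_mul, conj_quad]
    have h1 : ∑ x ∈ res p, quad x p * eq x p = gt2 p * (√(nm p) : ℝ) := by
      rw [gt2, div_mul_cancel₀ _ (G2.sqrt_nm_ne hp.ne_zero)]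
    rw [h1]
    ring

/-- duplication formula in a finite field -/
theorem G2.gauss_dup {F : Type*} [Field F] [Fintype F] [DecidableEq F] (hF : ringChar F ≠ 2)
    (χ ρ : MulChar F ℂ) (hρ : ∀ a, ρ a = quadraticChar F a) (h1 : χ * χ ≠ 1) (h2 : χ * ρ ≠ 1)
    (ψ : AddChar F ℂ) (h0 : gaussSum χ ψ ≠ 0) :
    gaussSum χ ψ * gaussSum (χ * ρ) ψ * χ 4 = gaussSum (χ * χ) ψ * gaussSum ρ ψ := by
  have hχ : χ ≠ 1 := fun h => h1 (by rw [h, one_mul])
  have h2' : (2 : F) ≠ 0 := Ring.two_ne_zero hF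
  have hJ : χ 4 * jacobiSum χ χ = jacobiSum χ ρ := by
    have e1 : χ 4 * jacobiSum χ χ = ∑ y : F, χ (1 - y ^ 2) := by
      rw [jacobiSum, Finset.mul_sum]
      refine Fintype.sum_equiv ((Equiv.mulLeft₀ 2 h2').trans (Equiv.subLeft 1)) _ _ fun x => ?_
      rw [← map_mul, ← map_mul]
      congr 1
      simp only [Equiv.trans_apply, Equiv.mulLeft₀_apply, Equiv.subLeft_apply]
      ring
    have e2 : ∑ y : F, χ (1 - y ^ 2) = ∑ t : F, χ (1 - t) * (ρ t + 1) := by
      rw [← Finset.sum_fiberwise (s := Finset.univ) (g := fun y : F => y ^ 2)]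
      refine Finset.sum_congr rfl fun t _ => ?_
      rw [Finset.sum_congr rfl (g := fun _ => χ (1 - t)) fun y hy => by
        rw [(Finset.mem_filter.1 hy).2], Finset.sum_const, nsmul_eq_mul, mul_comm, hρ]
      congr 1
      have := quadraticChar_card_sqrts hF t
      rw [Set.toFinset_ofPred] at this
      exact_mod_cast congrArg (Int.cast : ℤ → ℂ) this
    have e3 : ∑ t : F, χ (1 - t) = 0 := by
      rw [← MulChar.sum_eq_zero_of_ne_one hχ]
      exact Fintype.sum_equiv (Equiv.subLeft 1) _ _ fun _ => rfl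
    rw [e1, e2, jacobiSum_comm, jacobiSum]
    simp only [mul_add, mul_one, Finset.sum_add_distrib, e3, add_zero]
    simp only [mul_comm]
  have e1 := jacobiSum_mul_nontrivial h1 ψ
  have e2 := jacobiSum_mul_nontrivial h2 ψ
  refine mul_left_cancel₀ h0 ?_
  linear_combination (-gaussSum (χ * ρ) ψ * χ 4) * e1 + gaussSum (χ * χ) ψ * e2 +
    gaussSum (χ * χ) ψ * gaussSum (χ * ρ) ψ * hJ

theorem G2.exists_mulChar {p : O} {f : O → ℂ} (hf : Per p f)
    (hm : ∀ a b, f (a * b) = f a * f b) (h0 : ∀ a, ¬IsCoprime a p → f a = 0) (h1 : f 1 = 1) :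
    ∃ χ : MulChar (O ⧸ Ideal.span {p}) ℂ, ∀ x, χ (Ideal.Quotient.mk _ x) = f x := by
  let g : O ⧸ Ideal.span {p} → ℂ := fun y => f y.out
  have hg : ∀ x, g (Ideal.Quotient.mk _ x) = f x := fun x =>
    hf _ _ (Ideal.mem_span_singleton.1 (Ideal.Quotient.eq.1 (Ideal.Quotient.mk_out _)))
  refine ⟨⟨⟨⟨g, by rw [← map_one (Ideal.Quotient.mk _), hg, h1]⟩, fun x y => ?_⟩,
    fun x hx => ?_⟩, hg⟩
  · obtain ⟨x, rfl⟩ := Ideal.Quotient.mk_surjective x
    obtain ⟨y, rfl⟩ := Ideal.Quotient.mk_surjective y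
    simp only [← map_mul, hg, hm]
  · obtain ⟨x, rfl⟩ := Ideal.Quotient.mk_surjective x
    refine (hg x).trans (h0 x fun ⟨a, b, h⟩ => hx (IsUnit.of_mul_eq_one (Ideal.Quotient.mk _ a) ?_))
    rw [← map_mul, ← map_one (Ideal.Quotient.mk _), Ideal.Quotient.eq, Ideal.mem_span_singleton]
    exact ⟨-b, by linear_combination h⟩

theorem G2.exists_addChar (p : O) :
    ∃ ψ : AddChar (O ⧸ Ideal.span {p}) ℂ, ∀ x, ψ (Ideal.Quotient.mk _ x) = eq x p := by
  let g : O ⧸ Ideal.span {p} → ℂ := fun y => eq y.out p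
  have hg : ∀ x, g (Ideal.Quotient.mk _ x) = eq x p := fun x =>
    eq_congr (Ideal.mem_span_singleton.1 (Ideal.Quotient.eq.1 (Ideal.Quotient.mk_out _)))
  refine ⟨⟨g, by rw [← map_zero (Ideal.Quotient.mk _), hg, eq_zero], fun x y => ?_⟩, hg⟩
  obtain ⟨x, rfl⟩ := Ideal.Quotient.mk_surjective x
  obtain ⟨y, rfl⟩ := Ideal.Quotient.mk_surjective y
  simp only [← map_add, hg, eq_add]

theorem G2.gs_dup {p : O} (hp : Prime p) (hp' : IsP p) :
    conj (g3 1 p) * (∑ x ∈ res p, sex x p * eq x p) * conj (cub 4 p) =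
      g3 1 p * ∑ x ∈ res p, quad x p * eq x p := by
  classical
  have : (Ideal.span {p}).IsMaximal :=
    PrincipalIdealRing.isMaximal_of_irreducible hp.irreducible
  let : Field (O ⧸ Ideal.span {p}) := Ideal.Quotient.field _
  have : Finite (O ⧸ Ideal.span {p}) :=
    Nat.finite_of_card_ne_zero (by rw [card_quot hp.ne_zero]; exact (nm_pos hp.ne_zero).ne')
  let : Fintype (O ⧸ Ideal.span {p}) := Fintype.ofFinite _
  have hl := hp'.1.not_lam_dvd
  obtain ⟨χ, hχ⟩ := G2.exists_mulChar (f := fun x => conj (cub x p))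
    (fun _ _ h => congrArg conj (cub_congr h)) (fun a b => by rw [cub_mul_left, map_mul])
    (fun a h => by rw [cub_eq_zero hl h, map_zero]) (by simp)
  obtain ⟨ρ, hρ⟩ := G2.exists_mulChar (G2.quad_per p) (quad_mul_left hp'.2)
    (fun a h => quad_eq_zero hp'.2 h) (by simp)
  obtain ⟨ψ, hψ⟩ := G2.exists_addChar p
  have hz : ∀ x, Ideal.Quotient.mk (Ideal.span {p}) x = 0 ↔ p ∣ x := fun x => by
    rw [Ideal.Quotient.eq_zero_iff_mem, Ideal.mem_span_singleton]
  have hF : ringChar (O ⧸ Ideal.span {p}) ≠ 2 := by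
    intro h
    have h2 : ((2 : ℕ) : O ⧸ Ideal.span {p}) = 0 := by rw [← h]; exact ringChar.Nat.cast_ringChar
    rw [← map_natCast (Ideal.Quotient.mk _), hz] at h2
    exact hp'.2 (hp.irreducible.associated_of_dvd prime_two.irreducible h2).symm.dvd
  have hχχ : ∀ x, (χ * χ) (Ideal.Quotient.mk _ x) = cub x p := fun x => by
    rw [MulChar.mul_apply, hχ, ← sq, ← map_pow, ← conj_cub, Complex.conj_conj]
  have hχρ : ∀ x, (χ * ρ) (Ideal.Quotient.mk _ x) = sex x p := fun x => by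
    rw [MulChar.mul_apply, hχ, hρ, sex, mul_comm]
  have hone : ∀ x, ¬p ∣ x → (1 : MulChar (O ⧸ Ideal.span {p}) ℂ) (Ideal.Quotient.mk _ x) = 1 :=
    fun x hx => MulChar.one_apply (isUnit_iff_ne_zero.2 (mt (hz x).1 hx))
  have hg : ∀ (φ : MulChar (O ⧸ Ideal.span {p}) ℂ) (f : O → ℂ),
      (∀ x, φ (Ideal.Quotient.mk _ x) = f x) → gaussSum φ ψ = ∑ x ∈ res p, f x * eq x p := by
    intro φ f h
    rw [gaussSum, ← sum_res_quot]
    simp only [h, hψ]
  have g1 : gaussSum χ ψ = conj (g3 1 p) := by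
    have := g3_twist hp.ne_zero (t := -1) (isCoprime_one_left.neg_left) 1
    rw [cub_neg_left, cub_one_left, map_one, one_mul, one_mul] at this
    rw [hg χ _ hχ, ← this, g3, map_sum]
    simp [conj_eq]
  have := G2.gauss_dup hF χ ρ (fun a => by
      obtain ⟨a, rfl⟩ := Ideal.Quotient.mk_surjective a
      rw [hρ]
      by_cases ha : p ∣ a
      · rw [(hz a).2 ha, quad_eq_zero hp'.2 fun h => G2.not_dvd_of_coprime hp h ha]
        simp
      · have h1 := quad_prime_eq_one_iff hp hp'.2 ha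
        have h2 : IsSquare (Ideal.Quotient.mk (Ideal.span {p}) a) ↔ ∃ x, p ∣ a - x ^ 2 := by
          refine ⟨fun ⟨y, hy⟩ => ?_, fun ⟨x, hx⟩ => ⟨Ideal.Quotient.mk _ x, ?_⟩⟩
          · obtain ⟨y, rfl⟩ := Ideal.Quotient.mk_surjective y
            exact ⟨y, by rw [← hz, map_sub, hy, map_pow, sq, sub_self]⟩
          · rw [← hz, map_sub, map_pow, sq, sub_eq_zero] at hx
            exact hx
        by_cases h3 : IsSquare (Ideal.Quotient.mk (Ideal.span {p}) a)
        · rw [(quadraticChar_one_iff_isSquare (mt (hz a).1 ha)).2 h3, h1.2 (h2.1 h3)]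
          simp
        · rw [quadraticChar_neg_one_iff_not_isSquare.2 h3,
            (sq_eq_one_iff.1 (quad_sq hp'.2 (G2.coprime_of_not_dvd hp ha))).resolve_left
              fun h => h3 (h2.2 (h1.1 h))]
          simp)
    (fun h => by
      obtain ⟨a, ha, h1⟩ := exists_cub_ne_one hp hl
      exact h1 (by rw [← hχχ, h, hone a (G2.not_dvd_of_coprime hp ha)]))
    (fun h => by
      obtain ⟨a, ha, h1⟩ := G2.exists_sex_ne_one hp hp'
      exact h1 (by rw [← hχρ, h, hone a ha])) ψ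
    (by
      rw [g1, map_ne_zero]
      intro h
      have h1 := norm_g3_prime hp hp'.1 (ν := 1) hp.not_dvd_one
      have h2 := one_le_nm hp.ne_zero
      rw [h] at h1
      norm_num at h1
      linarith [h1.symm ▸ h2])
  rw [g1, hg _ _ hχρ, hg _ _ hχχ, hg _ _ hρ, ← map_ofNat (Ideal.Quotient.mk _) 4, hχ] at this
  simpa only [g3, one_mul] using this

/-- the key identity -/
theorem mu_mul_gt6 {n : O} (hn : IsS n) :
    mu n * gt6 n = cub 4 n * gt2 n * ang n * conj (gt3 n) := by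
  refine IsS.induction (P := fun n => mu n * gt6 n = cub 4 n * gt2 n * ang n * conj (gt3 n))
    ?_ ?_ hn
  · simp [mu_one, G2.gt6_one, G2.gt2_one, ang, gt3, g3_one]
  · intro p n hp hp' hn hd ih
    have hc := (G2.coprime_of_not_dvd hp hd).symm
    have hn0 := hn.1.1.ne_zero
    have key : -gt6 p = cub 4 p * gt2 p * ang p * conj (gt3 p) := by
      have h1 := G2.gs_dup hp hp'.1
      have h2 := g3_cube hp hp'.1.1
      have h3 : g3 1 p * conj (g3 1 p) = nm p := by
        rw [Complex.mul_conj', ← Complex.ofReal_pow, norm_g3_prime hp hp'.1.1 hp.not_dvd_one]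
        simp
      have h4 : cub 4 p * conj (cub 4 p) = 1 := by
        rw [Complex.mul_conj', norm_cub]
        · simp
        · have := hp'.1.coprime_72.symm
          rw [show (72 : O) = 4 * 18 by norm_num] at this
          exact this.of_mul_left_left
      have h5 := G2.sqrt_nm_ne hp.ne_zero
      have h6 : ((√(nm p) : ℝ) : ℂ) ^ 2 = nm p := by
        rw [← Complex.ofReal_pow, Real.sq_sqrt (Nat.cast_nonneg _)]
        simp
      have h7 : (nm p : ℂ) ≠ 0 := by rw [← h6]; exact pow_ne_zero _ h5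
      simp only [gt6, gt2, gt3, ang, map_div₀, Complex.conj_ofReal]
      generalize (∑ x ∈ res p, sex x p * eq x p) = A at *
      generalize (∑ x ∈ res p, quad x p * eq x p) = B at *
      have h8 : -A * nm p = cub 4 p * B * toC p * conj (g3 1 p) := by
        refine mul_left_cancel₀ h7 ?_
        linear_combination -(cub 4 p * g3 1 p ^ 2 * conj (g3 1 p)) * h1 -
          cub 4 p * conj (g3 1 p) * B * h2 + g3 1 p ^ 2 * conj (g3 1 p) ^ 2 * A * h4 +
          A * (g3 1 p * conj (g3 1 p) + nm p) * h3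
      field_simp
      rw [h6]
      linear_combination h8
    rw [mu_mul hc, mu_prime hp, gt6_mul hp'.1 hn.1 hc, gt2_mul hp'.1.2 hn.1.2 hc, ang_mul,
      G2.gt3_crt hp.ne_zero hn0 hc, cub_mul_right hp.ne_zero hn0, sex, sex]
    simp only [map_mul]
    linear_combination (quad p n * conj (cub p n) * quad n p * conj (cub n p)) *
      (mu n * gt6 n * key + cub 4 p * gt2 p * ang p * conj (gt3 p) * ih)

end Vale.Agent.P026
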