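import Vale.Agent.P026.ThDefs

/-! TH-B: calculus of `HasRes`.  `eqOn_Dom` is the identity theorem on the convex open set `Dom`. -/

namespace Vale.Agent.P026

open scoped ComplexConjugate Real Topology ENNReal NNReal InnerProductSpace
open MeasureTheory Filter Set

theorem isOpen_Dom : IsOpen Dom :=
  (isOpen_lt continuous_const Complex.continuous_re).inter <|
    (isOpen_lt Complex.continuous_re continuous_const).inter <|
      (isOpen_lt continuous_const Complex.continuous_im).inter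
        (isOpen_lt Complex.continuous_im continuous_const)
theorem convex_Dom : Convex ℝ Dom :=
  (convex_halfSpace_re_gt _).inter <| (convex_halfSpace_re_lt _).inter <|
    (convex_halfSpace_im_gt _).inter (convex_halfSpace_im_lt _)
theorem sE_mem : ∀ᶠ ε in 𝓝[>] (0 : ℝ), sE ε ∈ Dom := by
  filter_upwards [Ioo_mem_nhdsGT one_pos] with ε hε
  have h1 : (sE ε).re = 4 / 3 + ε := by simp [sE]
  have h2 : (sE ε).im = ε := by simp [sE]
  refine ⟨?_, ?_, ?_, ?_⟩ <;> linarith [hε.1, hε.2]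
theorem tendsto_sE : Tendsto sE (𝓝[>] 0) (𝓝 (4 / 3)) := by
  have : Continuous sE := by unfold sE; fun_prop
  simpa [sE] using (this.tendsto 0).mono_left nhdsWithin_le_nhds
theorem eqOn_Dom {F G : ℂ → ℂ} (hF : DifferentiableOn ℂ F Dom) (hG : DifferentiableOn ℂ G Dom)
    (h : ∀ s ∈ Dom, 2 < s.re → F s = G s) : EqOn F G Dom := by
  have h0 : (⟨5 / 2, 1 / 2⟩ : ℂ) ∈ Dom := by
    refine ⟨?_, ?_, ?_, ?_⟩ <;> norm_num
  refine (hF.analyticOnNhd isOpen_Dom).eqOn_of_preconnected_of_eventuallyEq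
    (hG.analyticOnNhd isOpen_Dom) convex_Dom.isPreconnected h0 ?_
  filter_upwards [isOpen_Dom.mem_nhds h0, (isOpen_lt continuous_const
    Complex.continuous_re).mem_nhds (show (2 : ℝ) < (⟨5 / 2, 1 / 2⟩ : ℂ).re by norm_num)]
    with s h1 h2 using h s h1 h2

variable {f g : ℂ → ℂ} {x y : ℂ}

theorem HasRes.unique (h : HasRes f x) (k : HasRes f y) : x = y := by
  obtain ⟨F, hF, e, t⟩ := h
  obtain ⟨G, hG, e', t'⟩ := k
  have := eqOn_Dom hF hG fun s hs h2 => (e s hs h2).trans (e' s hs h2).symm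
  refine tendsto_nhds_unique t (t'.congr' ?_)
  filter_upwards [sE_mem] with ε hε
  rw [this hε]
theorem HasRes.congr (h : HasRes f x) (e : ∀ s ∈ Dom, 2 < s.re → f s = g s) : HasRes g x := by
  obtain ⟨F, hF, e', t⟩ := h
  exact ⟨F, hF, fun s hs h2 => (e' s hs h2).trans (e s hs h2), t⟩
theorem HasRes.add (h : HasRes f x) (k : HasRes g y) : HasRes (fun s => f s + g s) (x + y) := by
  obtain ⟨F, hF, e, t⟩ := h
  obtain ⟨G, hG, e', t'⟩ := k
  exact ⟨fun s => F s + G s, hF.add hG, fun s hs h2 => by simp only [e s hs h2, e' s hs h2],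
    by simpa only [mul_add] using t.add t'⟩
theorem HasRes.sub (h : HasRes f x) (k : HasRes g y) : HasRes (fun s => f s - g s) (x - y) := by
  obtain ⟨F, hF, e, t⟩ := h
  obtain ⟨G, hG, e', t'⟩ := k
  exact ⟨fun s => F s - G s, hF.sub hG, fun s hs h2 => by simp only [e s hs h2, e' s hs h2],
    by simpa only [mul_sub] using t.sub t'⟩
theorem HasRes.mul_hol (h : HasRes f x) {w : ℂ → ℂ} {a : ℂ} (hw : DifferentiableOn ℂ w Dom)
    (hl : Tendsto (fun ε => w (sE ε)) (𝓝[>] 0) (𝓝 a)) :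
    HasRes (fun s => w s * f s) (a * x) := by
  obtain ⟨F, hF, e, t⟩ := h
  exact ⟨fun s => w s * F s, hw.mul hF, fun s hs h2 => by simp only [e s hs h2],
    (hl.mul t).congr fun ε => by ring⟩
theorem HasRes.const_mul (h : HasRes f x) (c : ℂ) : HasRes (fun s => c * f s) (c * x) :=
  h.mul_hol (differentiableOn_const c) tendsto_const_nhds
theorem HasRes.sum {ι : Type*} (t : Finset ι) {f : ι → ℂ → ℂ} {x : ι → ℂ}
    (h : ∀ i ∈ t, HasRes (f i) (x i)) : HasRes (fun s => ∑ i ∈ t, f i s) (∑ i ∈ t, x i) := by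
  classical
  induction t using Finset.induction_on with
  | empty => exact ⟨0, differentiableOn_const 0, by simp, by simp⟩
  | insert a t ha ih =>
    simp only [Finset.sum_insert ha]
    exact (h a (by simp)).add (ih fun i hi => h i (by simp [hi]))
theorem tendsto_hol_sE {w : ℂ → ℂ} (hw : DifferentiableOn ℂ w {s | 1 < s.re}) :
    Tendsto (fun ε => w (sE ε)) (𝓝[>] 0) (𝓝 (w (4 / 3))) :=
  (hw.continuousOn.continuousAt ((isOpen_lt continuous_const Complex.continuous_re).mem_nhds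
    (by norm_num))).tendsto.comp tendsto_sE
theorem Dom_subset : Dom ⊆ {s | 1 < s.re} := fun s hs => by
  have := hs.1
  simp only [mem_ofPred_eq]
  linarith
/-- a factor holomorphic on `Re s > 1` -/
theorem HasRes.mul_hol' (h : HasRes f x) {w : ℂ → ℂ}
    (hw : DifferentiableOn ℂ w {s | 1 < s.re}) : HasRes (fun s => w s * f s) (w (4 / 3) * x) :=
  h.mul_hol (hw.mono Dom_subset) (tendsto_hol_sE hw)
theorem hasRes_zero (hf : DifferentiableOn ℂ f {s | 1 < s.re}) : HasRes f 0 :=
  ⟨f, hf.mono Dom_subset, fun _ _ _ => rfl, by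
    simpa using (tendsto_sE.sub_const (4 / 3)).mul (tendsto_hol_sE hf)⟩

end Vale.Agent.P026
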