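import Vale.Agent.P026.WhBasic
import Vale.Agent.P026.ThCRes
import Vale.Agent.P026.Count

/-! VOR part 1: the Whittaker function at `s = 4/3`, summability and linearity of `th`.
Plan. `Wh_eq_Wf` (derive it from `Wh_eq` of `WhBasic.lean` by helper12 once that file is on main; direct proof): `(v/(|z|²+v²))^s = v^(-s) (1+|z|²/v²)^(-s)` and `Γ(s) r^(-s) = ∫ u^(s-1) exp(-r u) du`
(`Real.integral_rpow_mul_exp_neg_mul_Ioi`), Fubini (`integral_integral_swap`; the norm of the integrand has `z`-integral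
`u^(1/3) e^(-u) π v²/u`, integrable), Gaussian Fourier transform on `ℂ`
(`GaussianFourier.integral_cexp_neg_mul_sq_norm_add` or `fourierIntegral_gaussian_innerProductSpace`):
`∫ exp(-a|z|²) ec(-νz/9) dz = (π/a) exp(-(c0/9)² N(ν)/a)`, because `ec(-νz/9) = exp(-i (2 c0/9) Im(νz))` and `Im(νz) = ⟪i ν̄, z⟫`.
`Wf_le`: `u/2 + κ² q/u ≥ κ √(2q)`, so `Wf q ≤ C exp(-κ √(2q))`; or `exp(-κ² q/u) ≤ min 1 (2 u²/(κ² q)²)`.
`Wf_smooth`: `q ↦ ∫ u^(-2/3) exp(-u - κ² q/u)` is complex differentiable on `Re q > 0`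
(`hasDerivAt_integral_of_dominated_loc_of_deriv_le`, `u⁻¹ exp(-a/u) ≤ 1/a`), hence analytic (`DifferentiableOn.analyticOnNhd`); take real parts.
`Grow.summable`: `(1+N)^(1/3) (1+N v²)^(-2) ≤ C N^(-5/3)` for `N ≥ 1`, `summable_rpow`. -/

namespace Vale.Agent.P026

open scoped ComplexConjugate Real ContDiff

/-- profile of the Whittaker function at `s = 4/3` -/
noncomputable def Wf (q : ℝ) : ℝ :=
  π / Real.Gamma (4 / 3) *
    ∫ u in Set.Ioi (0 : ℝ), u ^ (-2 / 3 : ℝ) * Real.exp (-u - (c0 / 9) ^ 2 * q / u)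

/-- support and size of theta coefficients -/
def ThCoef (C : ℝ) (τ : O → ℂ) : Prop :=
  ∀ ν, ν ≠ 0 → τ ν ≠ 0 → ∃ (u : O) (j : ℕ) (c d : O), IsUnit u ∧ Prim c ∧
    Squarefree c ∧ Prim d ∧ ν = u * lam ^ j * c * d ^ 3 ∧
    ‖τ ν‖ ≤ C * 3 ^ (j / 3 : ℝ) * (nm c : ℝ) ^ (-1 / 6 : ℝ)

/-- growth condition that makes `th τ` absolutely convergent -/
def Grow (τ : O → ℂ) : Prop := ∃ C : ℝ, ∀ ν, ‖τ ν‖ ≤ C * (1 + nm ν : ℝ) ^ (1 / 3 : ℝ)

theorem Wf_eq_Kr (q : ℝ) : Wf q = π / Real.Gamma (4 / 3) * Kr ((c0 / 9) ^ 2 * q) := by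
  simp only [Wf, Kr, neg_add', sub_eq_add_neg]

theorem Wh_eq_Wf (ν : O) {v : ℝ} (hv : 0 < v) :
    Wh (4 / 3) ν v = ((v ^ (2 / 3 : ℝ) * Wf (nm ν * v ^ 2) : ℝ) : ℂ) := by
  rw [Wh_four_thirds ν hv, Wr, Wf_eq_Kr, mul_assoc (_ ^ 2)]
  congr 1
  ring

theorem Wf_const_pos : 0 < π / Real.Gamma (4 / 3) :=
  div_pos Real.pi_pos (Real.Gamma_pos_of_pos (by norm_num))

theorem Wf_pos {q : ℝ} (hq : 0 ≤ q) : 0 < Wf q := by
  rw [Wf_eq_Kr]
  exact mul_pos Wf_const_pos (Kr_pos (by positivity))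

theorem Wf_le : ∃ C : ℝ, 0 < C ∧ ∀ q : ℝ, 0 ≤ q → Wf q ≤ C / (1 + q) ^ 2 := by
  obtain ⟨C, hC, h⟩ := Kr_decay 2
  have hc : 0 < (c0 / 9) ^ 2 := by unfold c0; positivity
  have h0 := Kr_pos le_rfl
  have h1 := Wf_const_pos
  refine ⟨π / Real.Gamma (4 / 3) * (4 * (Kr 0 + C / ((c0 / 9) ^ 2) ^ 2)), by positivity,
    fun q hq => ?_⟩
  rw [Wf_eq_Kr, mul_div_assoc]
  gcongr
  rw [le_div_iff₀ (by positivity)]
  have h2 : 0 < C / ((c0 / 9) ^ 2) ^ 2 := by positivity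
  rcases le_total q 1 with h3 | h3
  · have h4 := Kr_anti le_rfl (show 0 ≤ (c0 / 9) ^ 2 * q by positivity)
    have h5 : (1 + q) ^ 2 ≤ 4 := by nlinarith
    calc _ ≤ Kr 0 * 4 := by gcongr
      _ ≤ _ := by linarith
  · have h4 := h _ (show 0 < (c0 / 9) ^ 2 * q by positivity)
    have h5 : (1 + q) ^ 2 ≤ 4 * q ^ 2 := by nlinarith
    calc _ ≤ C / ((c0 / 9) ^ 2 * q) ^ 2 * (4 * q ^ 2) := by gcongr
      _ = 4 * (C / ((c0 / 9) ^ 2) ^ 2) := by field_simp
      _ ≤ _ := by linarith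

theorem Kr_smooth : ContDiffOn ℝ ∞ Kr (Set.Ioi 0) := by
  have hU : IsOpen {q : ℂ | 0 < q.re} := isOpen_lt continuous_const Complex.continuous_re
  have h := differentiableOn_integral_of_bound
    (μ := MeasureTheory.volume.restrict (Set.Ioi (0 : ℝ))) hU
    (f := fun q t => ((t ^ (-2 / 3 : ℝ) : ℝ) : ℂ) * Complex.exp (-(t + q / t)))
    (fun q _ => Measurable.aestronglyMeasurable (by fun_prop))
    (Filter.Eventually.of_forall fun t => Differentiable.differentiableOn (by fun_prop))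
    fun q hq => ⟨q.re, _, hq, integrableOn_Kr le_rfl, by
      filter_upwards [MeasureTheory.ae_restrict_mem measurableSet_Ioi] with t ht s hs
      have ht' : 0 < t := ht
      have h1 := (abs_le.1 (Complex.abs_re_le_norm (s - q))).1
      rw [Metric.mem_ball, dist_eq_norm] at hs
      rw [Complex.sub_re] at h1
      rw [norm_mul, Complex.norm_real, Real.norm_of_nonneg (by positivity), Complex.norm_exp]
      simp only [Complex.neg_re, Complex.add_re, Complex.ofReal_re, Complex.div_ofReal_re]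
      gcongr
      linarith⟩
  refine (Complex.reCLM.contDiff.comp_contDiffOn (((h.contDiffOn hU).restrict_scalars ℝ).comp
    Complex.ofRealCLM.contDiff.contDiffOn fun y hy => hy)).congr fun y _ => ?_
  simp only [Function.comp, Complex.ofRealCLM_apply, Complex.reCLM_apply, Kr]
  rw [← Complex.ofReal_re (∫ t in Set.Ioi (0 : ℝ), _), ← integral_complex_ofReal]
  push_cast
  rfl

theorem Wf_smooth : ContDiffOn ℝ ∞ Wf (Set.Ioi 0) := by
  have hc : 0 < (c0 / 9) ^ 2 := by unfold c0; positivity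
  rw [show Wf = _ from funext Wf_eq_Kr]
  exact contDiffOn_const.mul (Kr_smooth.comp (contDiff_const.mul contDiff_id).contDiffOn
    fun q hq => mul_pos hc hq)

theorem ThCoef.grow {C : ℝ} {τ : O → ℂ} (h : ThCoef C τ) : Grow τ := by
  refine ⟨max ‖τ 0‖ (max C 0), fun ν => ?_⟩
  have h1 : (1 : ℝ) ≤ (1 + nm ν : ℝ) ^ (1 / 3 : ℝ) :=
    Real.one_le_rpow (by simp) (by norm_num)
  have h2 : 0 ≤ max ‖τ 0‖ (max C 0) := le_max_of_le_left (norm_nonneg _)
  by_cases h0 : ν = 0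
  · subst h0
    exact (le_max_left _ _).trans (le_mul_of_one_le_right h2 h1)
  by_cases h3 : τ ν = 0
  · rw [h3, norm_zero]
    positivity
  obtain ⟨u, j, c, d, hu, hc, -, hd, rfl, h4⟩ := h ν h0 h3
  have h5 := one_le_nm hc.ne_zero
  have h6 := one_le_nm hd.ne_zero
  have h7 : (3 : ℝ) ^ j ≤ 1 + nm (u * lam ^ j * c * d ^ 3) := by
    rw [nm_mul, nm_mul, nm_mul, nm_pow, nm_pow, nm_lam, isUnit_iff_nm.1 hu]
    push_cast
    have : (3 : ℝ) ^ j * 1 * 1 ≤ 3 ^ j * nm c * nm d ^ 3 := by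
      gcongr
      exact one_le_pow₀ h6
    linarith
  refine h4.trans ?_
  calc _ ≤ max ‖τ 0‖ (max C 0) * 3 ^ (j / 3 : ℝ) * 1 := by
        gcongr
        · exact le_max_of_le_right (le_max_left _ _)
        · exact Real.rpow_le_one_of_one_le_of_nonpos h5 (by norm_num)
    _ ≤ _ := by
        rw [mul_one, div_eq_mul_one_div, Real.rpow_mul (by norm_num), Real.rpow_natCast]
        gcongr

theorem Grow.mul_bdd {τ y : O → ℂ} (h : Grow τ) {M : ℝ} (hy : ∀ ν, ‖y ν‖ ≤ M) :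
    Grow fun ν => τ ν * y ν := by
  obtain ⟨C, h⟩ := h
  refine ⟨C * M, fun ν => ?_⟩
  rw [norm_mul, mul_right_comm]
  exact mul_le_mul (h ν) (hy ν) (norm_nonneg _) ((norm_nonneg _).trans (h ν))

theorem Grow.summable {τ : O → ℂ} (h : Grow τ) {v : ℝ} (hv : 0 < v) :
    Summable fun ν => ‖τ ν * Wh (4 / 3) ν v‖ := by
  obtain ⟨C, h⟩ := h
  obtain ⟨D, hD, h'⟩ := Wf_le
  have hC : 0 ≤ C := by simpa using (norm_nonneg _).trans (h 0)
  refine Summable.of_norm_bounded_eventually ((summable_rpow (σ := 5 / 3) (by norm_num)).mul_left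
    (C * 2 ^ (1 / 3 : ℝ) * (v ^ (2 / 3 : ℝ) * (D / v ^ 4)))) ?_
  filter_upwards [Set.Finite.compl_mem_cofinite (Set.finite_singleton (0 : O))] with ν hν
  have h1 := one_le_nm (show ν ≠ 0 from hν)
  have h2 : (0 : ℝ) ≤ nm ν * v ^ 2 := by positivity
  have h3 := Wf_pos h2
  rw [norm_norm, norm_mul, Wh_eq_Wf ν hv, Complex.norm_real, Real.norm_of_nonneg (by positivity)]
  calc _ ≤ C * (2 * nm ν : ℝ) ^ (1 / 3 : ℝ) * (v ^ (2 / 3 : ℝ) * (D / (nm ν * v ^ 2) ^ 2)) := by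
        gcongr
        · refine (h ν).trans ?_
          gcongr
          linarith
        · refine (h' _ h2).trans ?_
          gcongr
          linarith
    _ = _ := by
        rw [Real.mul_rpow (by norm_num) (by positivity),
          show (-(5 / 3) : ℝ) = 1 / 3 - (2 : ℕ) by norm_num, Real.rpow_sub_natCast (by positivity)]
        field_simp

theorem Grow.summable_th {τ : O → ℂ} (h : Grow τ) (z : ℂ) {v : ℝ} (hv : 0 < v) :
    Summable fun ν => τ ν * Wh (4 / 3) ν v * ec (toC ν * z / 9) :=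
  Summable.of_norm_bounded (h.summable hv) fun ν => by rw [norm_mul, norm_ec, mul_one]

theorem Grow.continuous_th {τ : O → ℂ} (h : Grow τ) {v : ℝ} (hv : 0 < v) :
    Continuous fun z : ℂ => th τ (z, v) :=
  continuous_tsum (f := fun ν z => τ ν * Wh (4 / 3) ν v * ec (toC ν * z / 9))
    (fun ν => continuous_const.mul (continuous_ec.comp
      (f := fun z => toC ν * z / 9) (by fun_prop)))
    (h.summable hv) fun ν z => by rw [norm_mul, norm_ec, mul_one]

theorem Grow.bdd_th {τ : O → ℂ} (h : Grow τ) {v : ℝ} (hv : 0 < v) :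
    ∃ M : ℝ, ∀ z : ℂ, ‖th τ (z, v)‖ ≤ M :=
  ⟨_, fun z => tsum_of_norm_bounded (h.summable hv).hasSum fun ν => by
    rw [norm_mul, norm_ec, mul_one]⟩

theorem th_const_mul (a : ℂ) (τ : O → ℂ) (w : ℂ × ℝ) :
    th (fun ν => a * τ ν) w = a * th τ w := by
  simp only [th, ← tsum_mul_left, mul_assoc]

theorem th_sum {ι : Type*} (s : Finset ι) (τ : ι → O → ℂ) (h : ∀ i ∈ s, Grow (τ i)) (z : ℂ)
    {v : ℝ} (hv : 0 < v) :
    th (fun ν => ∑ i ∈ s, τ i ν) (z, v) = ∑ i ∈ s, th (τ i) (z, v) := by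
  simp only [th, Finset.sum_mul]
  exact Summable.tsum_finsetSum fun i hi => (h i hi).summable_th z hv

theorem th_shift (τ : O → ℂ) (x z : ℂ) (v : ℝ) :
    th τ (x + z, v) = th (fun ν => τ ν * ec (toC ν * x / 9)) (z, v) := by
  simp only [th, mul_add, add_div, ec_add]
  exact tsum_congr fun ν => by ring

end Vale.Agent.P026
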