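import Vale.Agent.P026.Rows
import Vale.Agent.P026.Gauss
import Vale.Agent.P026.VorWh

/-! VOR part 5a: one additive twist; small arithmetic lemmas.
Plan. `act_cusp`: with `ρ = |z|²+v²`, `w' = (-d/c - z̄/(c²ρ), v/(N(c)ρ))`: `c z' + d = -z̄/(cρ)`, `den = 1/(N(c) ρ)`, `a z' + b = -1/c - a z̄/(c²ρ)`.
`th_twist`: `th_shift`, `act_cusp`, automorphy, `Ψ (r g⁻¹) = conj (kap g) * (kap g₀ * Ψ (r g₀⁻¹))` (`Cls.rmul_congr`, `norm_kap`), scalars, `th_const_mul`, `th_shift` again.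
`Sy_ratio`: if `¬ lam ∣ C`, `Sy (kC, d) = cub d k * cub d C`.  Otherwise `d = u d°`, `d' = u d'°` with the same unit `u` (`exists_prim`, `Prim.eq_one_of_isUnit`),
`Sy (kC, d) = cub k d° * cub C d° = cub d° k * cub C d°` (`cub_recip`), `cub C d° = cub C d'°` (`cub_den_congr` with `R = 9 C`), `cub d k = cub u k * cub d° k`.
`sum_res_inv`: `sum_res_perm` with `σ a = x a` if `a` is coprime to `k` and `σ a = a` otherwise.
`norm_fhat_mul`: substitute `x ↦ w x` (`sum_res_affine`). -/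

namespace Vale.Agent.P026

open scoped ComplexConjugate Real

/-- the point on the other side of the cusp with denominator `c` -/
noncomputable def dual (c : O) (z : ℂ) (v : ℝ) : ℂ × ℝ :=
  (-(conj z / (toC c ^ 2 * ((‖z‖ ^ 2 + v ^ 2 : ℝ) : ℂ))), v / (nm c * (‖z‖ ^ 2 + v ^ 2)))

theorem dual_pos {c : O} (hc : c ≠ 0) (z : ℂ) {v : ℝ} (hv : 0 < v) : 0 < (dual c z v).2 := by
  have : (0 : ℝ) < nm c := by exact_mod_cast nm_pos hc
  simp only [dual]
  positivity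

theorem act_cusp (g : SL2) (hc : g.1 1 0 ≠ 0) (z : ℂ) {v : ℝ} (hv : 0 < v) :
    act g (-(toC (g.1 1 1) / toC (g.1 1 0)) + (dual (g.1 1 0) z v).1, (dual (g.1 1 0) z v).2) =
      (toC (g.1 0 0) / toC (g.1 1 0) + z, v) := by
  have hdet := congrArg toC (sl2_det g)
  simp only [map_sub, map_mul, map_one] at hdet
  have hN : (0 : ℝ) < nm (g.1 1 0) := by exact_mod_cast nm_pos hc
  have hN' := norm_toC_sq (g.1 1 0)
  have hc' : toC (g.1 1 0) ≠ 0 := mt toC_eq_zero.1 hc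
  have hρ : 0 < ‖z‖ ^ 2 + v ^ 2 := by positivity
  have hρ' : ((‖z‖ ^ 2 + v ^ 2 : ℝ) : ℂ) ≠ 0 := by exact_mod_cast hρ.ne'
  simp only [act, vr, den, dual]
  generalize toC (g.1 0 0) = a at *
  generalize toC (g.1 0 1) = b at *
  generalize toC (g.1 1 1) = d at *
  rw [← hN'] at hN ⊢
  generalize toC (g.1 1 0) = c at *
  have h1 : c * (-(d / c) + -(conj z / (c ^ 2 * ((‖z‖ ^ 2 + v ^ 2 : ℝ) : ℂ)))) + d =
      -(conj z / (c * ((‖z‖ ^ 2 + v ^ 2 : ℝ) : ℂ))) := by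
    field_simp
    ring
  have h2 : ‖-(conj z / (c * ((‖z‖ ^ 2 + v ^ 2 : ℝ) : ℂ)))‖ ^ 2 +
      ‖c‖ ^ 2 * (v / (‖c‖ ^ 2 * (‖z‖ ^ 2 + v ^ 2))) ^ 2 = 1 / (‖c‖ ^ 2 * (‖z‖ ^ 2 + v ^ 2)) := by
    rw [norm_neg, norm_div, norm_mul, RCLike.norm_conj, Complex.norm_real, Real.norm_of_nonneg hρ.le]
    have : ‖c‖ ≠ 0 := norm_ne_zero_iff.2 hc'
    field_simp
  rw [h1, h2]
  refine Prod.ext ?_ ?_
  · have h3 : ((‖c‖ : ℝ) : ℂ) ^ 2 = c * conj c := by
      rw [Complex.mul_conj, Complex.normSq_eq_norm_sq]; simp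
    have h4 : ((‖z‖ : ℝ) : ℂ) ^ 2 = z * conj z := by
      rw [Complex.mul_conj, Complex.normSq_eq_norm_sq]; simp
    have h5 : conj c ≠ 0 := by simpa using hc'
    have h6 : b = (a * d - 1) / c := by rw [eq_div_iff hc']; linear_combination -hdet
    have h7 : ((‖z‖ ^ 2 + v ^ 2 : ℝ) : ℂ) = z * conj z + (v : ℂ) ^ 2 := by
      rw [← h4]; push_cast; ring
    simp only [map_neg, map_div₀, map_mul, Complex.conj_conj, Complex.conj_ofReal,
      Complex.ofReal_div, Complex.ofReal_mul, Complex.ofReal_one, Complex.ofReal_pow ‖c‖, h3, h6]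
    generalize ((‖z‖ ^ 2 + v ^ 2 : ℝ) : ℂ) = r at *
    field_simp
    rw [h7]
    ring
  · simp only
    field_simp

/-- the two formal properties of the theta coefficients -/
structure VAut (ρ : (O × O → ℂ) → O → ℂ) : Prop where
  aut : ∀ Ψ, Cls 9 Ψ → ∀ (g : SL2) (w : ℂ × ℝ), 0 < w.2 →
    th (ρ Ψ) (act g w) = th (ρ fun r => Ψ (rmul r g⁻¹)) w
  smul : ∀ Ψ, Cls 9 Ψ → ∀ ζ : ℂ, ‖ζ‖ ≤ 1 → ∀ ν, ρ (fun r => ζ * Ψ r) ν = ζ * ρ Ψ ν

theorem cls_ref {Ψ : O × O → ℂ} (h : Cls 9 Ψ) (g₀ : SL2) :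
    Cls 9 fun r => kap g₀ * Ψ (rmul r g₀⁻¹) := (h.comp_rmul dvd_rfl g₀⁻¹).smul (norm_kap g₀).le

theorem th_twist {ρ : (O × O → ℂ) → O → ℂ} (hρ : VAut ρ) {Ψ : O × O → ℂ} (hΨ : Cls 9 Ψ)
    {g g₀ : SL2} (hg : ∀ i j, (9 : O) ∣ g.1 i j - g₀.1 i j) (hc : g.1 1 0 ≠ 0) (z : ℂ) {v : ℝ}
    (hv : 0 < v) :
    th (fun ν => ρ Ψ ν * eq (ν * g.1 0 0) (9 * g.1 1 0)) (z, v) =
      conj (kap g) * th (fun ν => ρ (fun r => kap g₀ * Ψ (rmul r g₀⁻¹)) ν *
        eq (-(ν * g.1 1 1)) (9 * g.1 1 0)) (dual (g.1 1 0) z v) := by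
  have hG : g * g₀⁻¹ ∈ Gam 9 := by
    have h1 : ∀ i j, (9 : O) ∣ (g * g₀⁻¹).1 i j - (1 : SL2).1 i j := fun i j => by
      rw [← mul_inv_cancel g₀, sl2_mul, sl2_mul]
      have := dvd_add ((hg i 0).mul_right (g₀⁻¹.1 0 j)) ((hg i 1).mul_right (g₀⁻¹.1 1 j))
      convert this using 1
      ring
    exact mem_Gam.2 ⟨h1 0 0, by simpa [one_01] using h1 0 1, by simpa [one_10] using h1 1 0, h1 1 1⟩
  have hc' : toC (g.1 1 0) ≠ 0 := mt toC_eq_zero.1 hc
  have h9 : toC 9 = 9 := map_ofNat toC 9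
  have e1 : ∀ ν, eq (ν * g.1 0 0) (9 * g.1 1 0) =
      ec (toC ν * (toC (g.1 0 0) / toC (g.1 1 0)) / 9) := fun ν => by
    simp only [eq, map_mul, h9]
    congr 1
    field_simp
  have e2 : ∀ ν, eq (-(ν * g.1 1 1)) (9 * g.1 1 0) =
      ec (toC ν * (-(toC (g.1 1 1) / toC (g.1 1 0))) / 9) := fun ν => by
    simp only [eq, map_mul, map_neg, h9]
    congr 1
    field_simp
  have e3 : (fun r => Ψ (rmul r g⁻¹)) = fun r => conj (kap g) * (kap g₀ * Ψ (rmul r g₀⁻¹)) := by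
    funext r
    rw [← hΨ.rmul_congr hG r, ← mul_assoc, conj_mul_of_norm (norm_kap g), one_mul]
  have e4 : ρ (fun r => conj (kap g) * (kap g₀ * Ψ (rmul r g₀⁻¹))) =
      fun ν => conj (kap g) * ρ (fun r => kap g₀ * Ψ (rmul r g₀⁻¹)) ν :=
    funext (hρ.smul _ (cls_ref hΨ g₀) _ (by rw [RCLike.norm_conj, norm_kap]))
  simp only [e1, e2]
  rw [← th_shift, ← act_cusp g hc z hv, hρ.aut Ψ hΨ g _ (by exact dual_pos hc z hv), e3, e4, th_const_mul,
    th_shift]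

theorem Sy_ratio {k C d d' : O} (hk : Prim k) (hC : C ≠ 0) (hd : IsCoprime (k * C) d)
    (hd' : IsCoprime (k * C) d') (h : 9 * C ∣ d - d') :
    Sy (k * C, d) * cub d' k = Sy (k * C, d') * cub d k := by
  have hk0 := hk.ne_zero
  by_cases hl : lam ∣ C
  · have hl' : lam ∣ k * C := hl.mul_left k
    obtain ⟨u, e, hu, he, rfl⟩ := exists_prim (rw_not_lam_dvd hd hl')
    obtain ⟨e', he', rfl, h2⟩ := rw_prim_congr hu he (m := 9 * C) ⟨3 * C, by ring⟩ h
    rw [Sy_of_lam_dvd hl', Sy_of_lam_dvd hl', rw_cub_unit_mul hu, rw_cub_unit_mul hu]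
    simp only [cub_mul_left]
    rw [cub_recip hk he, cub_recip hk he',
      cub_den_congr hC he (dvd_mul_right 9 C) (fun p _ hp => hp.mul_left 9) h2]
    ring
  · have hl' : ¬lam ∣ k * C := fun h' => (prime_lam.dvd_or_dvd h').elim hk.not_lam_dvd hl
    rw [Sy_of_not_dvd hl', Sy_of_not_dvd hl', cub_mul_right hk0 hC, cub_mul_right hk0 hC,
      cub_congr (a := d) (b := d') ((dvd_mul_left C 9).trans h)]
    ring

theorem sum_res_inv {k m : O} (hk : k ≠ 0) {F : O → ℂ} (hF : Per k F)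
    (h0 : ∀ a, ¬IsCoprime a k → F a = 0) (x : O → O)
    (hx : ∀ a, IsCoprime a k → k ∣ m * a * x a - 1) :
    ∑ a ∈ res k, ind (IsCoprime a k) * F (x a) = ∑ a ∈ res k, F a := by
  classical
  have hxc : ∀ a, IsCoprime a k → IsCoprime (x a) k ∧ IsCoprime m k := fun a ha => by
    obtain ⟨e, he⟩ := hx a ha
    exact ⟨⟨m * a, -e, by linear_combination he⟩, ⟨a * x a, -e, by linear_combination he⟩⟩
  have hcc : ∀ {a b : O}, k ∣ a - b → IsCoprime a k → IsCoprime b k := by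
    rintro a b ⟨e, he⟩ ⟨u, w, huw⟩
    exact ⟨u, w + u * e, by linear_combination huw - u * he⟩
  rw [← sum_res_perm hk hF (fun a => if IsCoprime a k then x a else a) fun a b => ?_]
  · refine Finset.sum_congr rfl fun a _ => ?_
    by_cases ha : IsCoprime a k
    · rw [ind_of ha, if_pos ha, one_mul]
    · rw [ind_of_not ha, if_neg ha, zero_mul, h0 a ha]
  · by_cases ha : IsCoprime a k <;> by_cases hb : IsCoprime b k <;> simp only [ha, hb, if_true, if_false]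
    · obtain ⟨e, he⟩ := hx a ha
      obtain ⟨e', he'⟩ := hx b hb
      constructor
      · rintro ⟨f, hf⟩
        exact ⟨b * e - a * e' - m * a * b * f, by
          linear_combination b * he - a * he' - m * a * b * hf⟩
      · rintro ⟨f, hf⟩
        exact ⟨x b * e - x a * e' - m * x a * x b * f, by
          linear_combination x b * he - x a * he' - m * x a * x b * hf⟩
    · exact ⟨fun h => absurd (hcc h (hxc a ha).1) hb, fun h => absurd (hcc h ha) hb⟩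
    · exact ⟨fun h => absurd (hcc (dvd_sub_comm.1 h) (hxc b hb).1) ha,
        fun h => absurd (hcc (dvd_sub_comm.1 h) hb) ha⟩

theorem norm_fhat_mul {R w : O} (hR : R ≠ 0) {φ : O → ℂ} (hφ : Per R φ) (hw : IsCoprime w R)
    {η : ℂ} (hη : ‖η‖ = 1) (h : ∀ n, φ (w * n) = η * φ n) (a : O) :
    ‖fhat R φ (w * a)‖ = ‖fhat R φ a‖ := by
  have hP : Per R fun x => φ x * eq (-(a * x)) R := fun x y hxy => by
    simp only
    rw [hφ x y hxy, eq_congr (x := -(a * x)) (y := -(a * y))]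
    rw [neg_sub_neg, ← mul_sub]
    exact (dvd_sub_comm.1 hxy).mul_left a
  have h1 : fhat R φ a = η * fhat R φ (w * a) := by
    simp only [fhat]
    rw [← sum_res_affine hR hP hw 0, ← mul_div_assoc, Finset.mul_sum]
    congr 1
    refine Finset.sum_congr rfl fun x _ => ?_
    rw [add_zero, h, mul_assoc η, mul_left_comm a, mul_assoc w]
  rw [h1, norm_mul, hη, one_mul]

/-- expansion of `conj (sex · k)` in additive characters -/
theorem chi_expand {k : O} (hk : IsS k) (ν : O) :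
    quad ν k * cub ν k = ∑ a ∈ res k,
      conj (gt6 k) / (√(nm k) : ℝ) * (quad a k * conj (cub a k)) * eq (a * ν) k := by
  have h1 := gs_sex hk ν
  have h2 : conj (sex ν k) = quad ν k * cub ν k := by
    rw [sex, map_mul, conj_quad, Complex.conj_conj]
  have h3 := G2.sqrt_nm_ne hk.1.1.ne_zero
  have h4 := conj_mul_of_norm (norm_gt6 hk)
  calc _ = conj (gt6 k) / (√(nm k) : ℝ) * ∑ x ∈ res k, sex x k * eq (ν * x) k := by
        rw [h1, h2]
        field_simp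
        linear_combination (-(quad ν k * cub ν k)) * h4
    _ = _ := by
        rw [Finset.mul_sum]
        refine Finset.sum_congr rfl fun a _ => ?_
        rw [sex, mul_comm ν a]
        ring

end Vale.Agent.P026
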