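import Vale.Agent.P026.VorArithA

/-! VOR part 5b: the twisted theta series at the dual points.
Plan. For `a` write `9 a = G A`, `R = G C`, `A, C` coprime; choose `y` with `C ∣ A k₀² y - 1`.  For `k` choose `w` with `9 R ∣ w k² - k₀²`
(then `Q ∣ w - 1`, `w` coprime to `R`).  `φ ν = ∑_a fhat (w a) eq (w a ν) R`, `chi_expand`.  For `a₁` coprime to `k` choose `x` with `k ∣ 81 C² a₁ x - 1` and
`g = [[9 a₁ C + A w k, b], [k C, 9 C x + k y]]`; `g mod 9` does not depend on `(k, a₁)`; reference `g₀` is the case `k = k₀, w = 1, a₁ = 1`.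
`eq (-ν d) (9 k C) = eq (-ν x) k * eq (-ν y) (9 C)`, `kap g * cub a₁ k = kap g₁` (`g₁`: `a₁ = 1`; `Sy_ratio`), `quad a₁ k = quad x k`, `sum_res_inv`, `gs_quad`. -/

namespace Vale.Agent.P026

open scoped ComplexConjugate Real

theorem va_mat {A C y m k w a₁ x s : O} (hkC : IsCoprime k C)
    (h1 : A * w * k ^ 2 * y - 1 = C * (m + 9 * s)) (h2 : k ∣ 81 * C ^ 2 * a₁ * x - 1) :
    ∃ g : SL2, g.1 0 0 = 9 * a₁ * C + A * w * k ∧ g.1 1 0 = k * C ∧
      g.1 1 1 = 9 * C * x + k * y ∧ (9 : O) ∣ k * g.1 0 1 - m := by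
  have hT : (9 * a₁ * C + A * w * k) * (9 * C * x + k * y) - 1 =
      C * (81 * a₁ * C * x + 9 * a₁ * k * y + 9 * x * A * w * k + m + 9 * s) := by
    linear_combination h1
  have h3 : k ∣ C * (81 * a₁ * C * x + 9 * a₁ * k * y + 9 * x * A * w * k + m + 9 * s) := by
    rw [← hT]
    obtain ⟨e, he⟩ := h2
    exact ⟨e + 9 * a₁ * C * y + A * w * (9 * C * x + k * y), by linear_combination he⟩
  obtain ⟨b, hb⟩ := hkC.dvd_of_dvd_mul_left h3
  refine ⟨⟨!![9 * a₁ * C + A * w * k, b; k * C, 9 * C * x + k * y], ?_⟩, rfl, rfl, rfl, ?_⟩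
  · rw [Matrix.det_fin_two_of]
    linear_combination hT + C * hb
  · exact ⟨9 * a₁ * C * x + a₁ * k * y + x * A * w * k + s, by
      change k * b - m = _
      linear_combination -hb⟩

theorem va_inv {a n : O} (h : IsCoprime a n) : ∃ x, n ∣ a * x - 1 := by
  obtain ⟨u, v, huv⟩ := h
  exact ⟨u, -v, by linear_combination huv⟩

theorem va_grow {τ y : O → ℂ} (h : Grow τ) (a : ℂ) (hy : ∀ ν, ‖y ν‖ ≤ 1) :
    Grow fun ν => a * (τ ν * y ν) := by
  have := h.mul_bdd (y := fun ν => a * y ν) (M := ‖a‖) fun ν => by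
    rw [norm_mul]; exact mul_le_of_le_one_right (norm_nonneg _) (hy ν)
  convert this using 2 with ν
  ring

theorem va_inner {ρ : (O × O → ℂ) → O → ℂ} (hρ : VAut ρ) (hg : ∀ Ψ, Cls 9 Ψ → Grow (ρ Ψ))
    {Ψ : O × O → ℂ} (hΨ : Cls 9 Ψ) {A C y m k w s : O} (hk : IsS k) (hC : C ≠ 0)
    (hkC : IsCoprime k C) (h1 : A * w * k ^ 2 * y - 1 = C * (m + 9 * s)) (g₀ : SL2)
    (h00 : (9 : O) ∣ A * w * k - g₀.1 0 0) (h01 : (9 : O) ∣ k * g₀.1 0 1 - m)
    (h10 : (9 : O) ∣ k * C - g₀.1 1 0) (h11 : (9 : O) ∣ k * y - g₀.1 1 1) :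
    ∃ ζ : ℂ, ‖ζ‖ ≤ 1 ∧ ∀ (z : ℂ) (v : ℝ), 0 < v →
      th (fun ν => ρ Ψ ν * (eq (A * w * ν) (9 * C) * (quad ν k * cub ν k))) (z, v) =
        ζ * th (fun ν => ρ (fun r => kap g₀ * Ψ (rmul r g₀⁻¹)) ν *
          (eq (-(ν * y)) (9 * C) * quad ν k)) (dual (k * C) z v) := by
  have hk0 : k ≠ 0 := hk.1.1.ne_zero
  have hk2 : ¬(2 : O) ∣ k := hk.1.2
  have hk9 : IsCoprime k 9 := hk.1.1.coprime_nine
  have h9C : (9 : O) * C ≠ 0 := mul_ne_zero (by decide) hC
  have hc9 : IsCoprime (9 * C) k := (hk9.mul_right hkC).symm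
  have hm : IsCoprime (81 * C ^ 2) k := by
    have := hc9.pow_left (m := 2)
    rwa [show (9 * C) ^ 2 = 81 * C ^ 2 by ring] at this
  have hx : ∀ a, ∃ x, IsCoprime a k → k ∣ 81 * C ^ 2 * a * x - 1 := fun a => by
    by_cases ha : IsCoprime a k
    · obtain ⟨x, hx⟩ := va_inv (hm.mul_left ha)
      exact ⟨x, fun _ => hx⟩
    · exact ⟨0, fun h => absurd h ha⟩
  choose x hx using hx
  obtain ⟨g₁, -, e10, e11, -⟩ := va_mat hkC h1 (hx 1 isCoprime_one_left)
  have hΦ := hg _ (cls_ref hΨ g₀)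
  set Φ := ρ (fun r => kap g₀ * Ψ (rmul r g₀⁻¹)) with hΦdef
  have hsq : ((√(nm k) : ℝ) : ℂ) ≠ 0 := G2.sqrt_nm_ne hk0
  refine ⟨conj (gt6 k) * conj (kap g₁) * quad (-1) k * gt2 k, ?_, fun z v hv => ?_⟩
  · simp only [norm_mul, RCLike.norm_conj, norm_gt6 hk, norm_kap, norm_gt2 hk, one_mul, mul_one]
    exact norm_quad_le _ _
  have hv' := dual_pos (mul_ne_zero hk0 hC) z hv
  let F : O → ℂ := fun b => quad b k *
    th (fun ν => Φ ν * (eq (-(ν * b)) k * eq (-(ν * y)) (9 * C))) (dual (k * C) z v)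
  have hF : Per k F := fun b b' h => by
    simp only [F]
    rw [quad_congr h]
    congr 2
    funext ν
    rw [eq_congr (x := -(ν * b)) (y := -(ν * b'))]
    rw [show -(ν * b) - -(ν * b') = (b - b') * -ν by ring]
    exact h.mul_right _
  have hterm : ∀ a, (quad a k * conj (cub a k)) *
      th (fun ν => ρ Ψ ν * (eq (a * ν) k * eq (A * w * ν) (9 * C))) (z, v) =
      conj (kap g₁) * (ind (IsCoprime a k) * F (x a)) := fun a => by
    by_cases ha : IsCoprime a k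
    swap
    · simp [quad_eq_zero hk2 ha, ind_of_not ha]
    have hxa := hx a ha
    obtain ⟨g, f00, f10, f11, f01⟩ := va_mat hkC h1 hxa
    have hcong : ∀ i j, (9 : O) ∣ g.1 i j - g₀.1 i j := by
      intro i j
      fin_cases i <;> fin_cases j
      · change (9 : O) ∣ g.1 0 0 - g₀.1 0 0
        rw [f00, add_sub_assoc]
        exact dvd_add ⟨a * C, by ring⟩ h00
      · change (9 : O) ∣ g.1 0 1 - g₀.1 0 1
        refine hk9.symm.dvd_of_dvd_mul_left ?_
        have := dvd_sub f01 h01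
        rwa [show k * g.1 0 1 - m - (k * g₀.1 0 1 - m) = k * (g.1 0 1 - g₀.1 0 1) by ring] at this
      · change (9 : O) ∣ g.1 1 0 - g₀.1 1 0
        rwa [f10]
      · change (9 : O) ∣ g.1 1 1 - g₀.1 1 1
        rw [f11, add_sub_assoc]
        exact dvd_add ⟨C * x a, by ring⟩ h11
    have ht := th_twist hρ hΨ hcong (by rw [f10]; exact mul_ne_zero hk0 hC) z hv
    rw [f00, f10, f11] at ht
    have e1 : ∀ ν, eq (ν * (9 * a * C + A * w * k)) (9 * (k * C)) =
        eq (a * ν) k * eq (A * w * ν) (9 * C) := fun ν => by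
      rw [← eq_crt hk0 h9C]
      congr 1 <;> ring
    have e2 : ∀ ν, eq (-(ν * (9 * C * x a + k * y))) (9 * (k * C)) =
        eq (-(ν * x a)) k * eq (-(ν * y)) (9 * C) := fun ν => by
      rw [← eq_crt hk0 h9C]
      congr 1 <;> ring
    simp only [e1, e2] at ht
    have hd : IsCoprime (k * C) (9 * C * x a + k * y) := by
      have := coprime_row g
      simpa only [row, f10, f11] using this
    have hd1 : IsCoprime (k * C) (9 * C * x 1 + k * y) := by
      have := coprime_row g₁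
      simpa only [row, e10, e11] using this
    have hS := Sy_ratio hk.1.1 hC hd hd1 ⟨x a - x 1, by ring⟩
    have hax : k ∣ a * x a - x 1 := by
      refine hm.symm.dvd_of_dvd_mul_left ?_
      have := dvd_sub hxa (hx 1 isCoprime_one_left)
      rwa [show 81 * C ^ 2 * a * x a - 1 - (81 * C ^ 2 * 1 * x 1 - 1) =
        81 * C ^ 2 * (a * x a - x 1) by ring] at this
    have hcub : cub (9 * C * x 1 + k * y) k = cub a k * cub (9 * C * x a + k * y) k := by
      rw [← cub_mul_left]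
      refine cub_congr ?_
      obtain ⟨e, he⟩ := hax
      exact ⟨-(9 * C * e) + y - a * y, by linear_combination (-(9 * C)) * he⟩
    have hne : cub (9 * C * x a + k * y) k ≠ 0 := fun h => by
      have := norm_cub hd.of_mul_left_left.symm
      rw [h, norm_zero] at this
      exact zero_ne_one this
    have hkap : kap g * cub a k = kap g₁ := by
      simp only [kap, row, f10, f11, e10, e11]
      refine mul_right_cancel₀ hne ?_
      rw [← hS, hcub]
      ring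
    have hxk : IsCoprime (x a) k := by
      obtain ⟨e, he⟩ := hxa
      exact ⟨81 * C ^ 2 * a, -e, by linear_combination he⟩
    have hq : quad a k = quad (x a) k := by
      have q1 : quad ((9 * C) ^ 2 * (a * x a)) k = quad (1 ^ 2) k :=
        quad_congr (by convert hxa using 1; ring)
      rw [quad_mul_left hk2, quad_mul_left hk2, quad_sq_left hk2, quad_sq_left hk2, ind_of hc9,
        ind_of isCoprime_one_left] at q1
      have q2 := quad_sq hk2 hxk
      linear_combination (-quad a k) * q2 + quad (x a) k * q1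
    simp only [F]
    rw [ht, ind_of ha, ← hkap, map_mul, hq]
    ring
  have hL : th (fun ν => ρ Ψ ν * (eq (A * w * ν) (9 * C) * (quad ν k * cub ν k))) (z, v) =
      ∑ a ∈ res k, conj (gt6 k) / (√(nm k) : ℝ) * ((quad a k * conj (cub a k)) *
        th (fun ν => ρ Ψ ν * (eq (a * ν) k * eq (A * w * ν) (9 * C))) (z, v)) := by
    simp only [← mul_assoc _ (quad _ k * _), ← th_const_mul]
    rw [← th_sum _ _ (fun a _ => va_grow (hg Ψ hΨ) _ fun ν => by
      simp only [norm_mul, norm_eq, mul_one, le_refl]) z hv]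
    congr 1
    funext ν
    rw [chi_expand hk, Finset.mul_sum, Finset.mul_sum]
    exact Finset.sum_congr rfl fun a _ => by ring
  have hR : ∑ a ∈ res k, F a = quad (-1) k * gt2 k * (√(nm k) : ℝ) *
      th (fun ν => Φ ν * (eq (-(ν * y)) (9 * C) * quad ν k)) (dual (k * C) z v) := by
    simp only [F, ← th_const_mul]
    rw [← Prod.mk.eta (p := dual (k * C) z v), ← th_sum _ _ (fun a _ => va_grow hΦ _ fun ν => by
      simp only [norm_mul, norm_eq, mul_one, le_refl]) _ hv']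
    congr 1
    funext ν
    have := gs_quad hk (-ν)
    rw [show -ν = -1 * ν by ring, quad_mul_left hk2] at this
    calc _ = Φ ν * eq (-(ν * y)) (9 * C) * ∑ a ∈ res k, quad a k * eq (-1 * ν * a) k := by
          rw [Finset.mul_sum]
          refine Finset.sum_congr rfl fun a _ => ?_
          rw [show -1 * ν * a = -(ν * a) by ring]
          ring
      _ = _ := by rw [this]; ring
  rw [hL]
  simp only [hterm]
  rw [← Finset.mul_sum, ← Finset.mul_sum,
    sum_res_inv hk0 hF (fun a ha => by simp [F, quad_eq_zero hk2 ha]) x hx, hR]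
  field_simp

theorem vor_arith {ρ : (O × O → ℂ) → O → ℂ} (hρ : VAut ρ) (hg : ∀ Ψ, Cls 9 Ψ → Grow (ρ Ψ))
    {Ψ : O × O → ℂ} (hΨ : Cls 9 Ψ) {Q R k₀ : O} (h9 : (9 : O) ∣ Q) (hQ : Q ∣ R) (hR : R ≠ 0)
    {φ : O → ℂ} (hφ : Per R φ) (hφ1 : ∀ n, ‖φ n‖ ≤ 1)
    (he : ∀ w, Q ∣ w - 1 → IsCoprime w R → ∃ η : ℂ, ‖η‖ = 1 ∧ ∀ n, φ (w * n) = η * φ n)
    (hk₀ : IsCoprime k₀ R) :
    ∃ (C y : O → O) (Φ : O → O × O → ℂ), (∀ a, C a ∣ R ∧ Cls 9 (Φ a)) ∧
      ∀ k, IsS k → IsCoprime k R → Q ∣ k - k₀ → ∃ ζ : O → ℂ, (∀ a, ‖ζ a‖ ≤ ‖fhat R φ a‖) ∧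
        ∀ (z : ℂ) (v : ℝ), 0 < v →
          th (fun ν => ρ Ψ ν * (φ ν * (quad ν k * cub ν k))) (z, v) =
            ∑ a ∈ res R, ζ a * th (fun ν => ρ (Φ a) ν * (eq (-(ν * y a)) (9 * C a) * quad ν k))
              (dual (k * C a) z v) := by
  classical
  have h9R : (9 : O) ∣ R := h9.trans hQ
  have hk9 : IsCoprime k₀ 9 := hk₀.of_isCoprime_of_dvd_right h9R
  have hdat : ∀ a : O, ∃ (G A C y m : O) (g₀ : SL2), G ≠ 0 ∧ 9 * a = G * A ∧ R = G * C ∧
      A * k₀ ^ 2 * y - 1 = C * m ∧ (9 : O) ∣ A * k₀ - g₀.1 0 0 ∧ (9 : O) ∣ k₀ * g₀.1 0 1 - m ∧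
      g₀.1 1 0 = k₀ * C ∧ (9 : O) ∣ k₀ * y - g₀.1 1 1 := fun a => by
    let _ := EuclideanDomain.gcdMonoid O
    obtain ⟨A, C, hA, hC, hAC⟩ := extract_gcd (9 * a) R
    have hAC' : IsCoprime A C := (gcd_isUnit_iff A C).1 hAC
    generalize gcd (9 * a) R = G at hA hC
    have hG : G ≠ 0 := by rintro rfl; exact hR (by simpa using hC)
    have hkC : IsCoprime k₀ C := hk₀.of_isCoprime_of_dvd_right ⟨G, by rw [hC]; ring⟩
    obtain ⟨y, m, hm⟩ := va_inv (hAC'.mul_left (hkC.pow_left (m := 2)))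
    have hc9 : IsCoprime (9 * C) k₀ := (hk9.mul_right hkC).symm
    obtain ⟨x, hx⟩ := va_inv (hc9.pow_left (m := 2))
    obtain ⟨g, f00, f10, f11, f01⟩ := va_mat (A := A) (y := y) (m := m) (w := 1) (a₁ := 1) (x := x)
      (s := 0) hkC (by linear_combination hm) (by convert hx using 1; ring)
    exact ⟨G, A, C, y, m, g, hG, hA, hC, hm, ⟨-C, by rw [f00]; ring⟩, f01, f10,
      ⟨-(C * x), by rw [f11]; ring⟩⟩
  choose G A C y m g₀ hG hA hC hm h00 h01 h10 h11 using hdat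
  refine ⟨C, y, fun a r => kap (g₀ a) * Ψ (rmul r (g₀ a)⁻¹),
    fun a => ⟨⟨G a, by rw [hC a]; ring⟩, cls_ref hΨ _⟩, fun k hk hkR hkQ => ?_⟩
  have hk9' : IsCoprime k 9 := hk.1.1.coprime_nine
  obtain ⟨w₀, hw₀⟩ := va_inv ((hk9'.mul_right hkR).pow_left (m := 2))
  obtain ⟨w, s, hs⟩ : ∃ w s, w * k ^ 2 - k₀ ^ 2 = 9 * R * s := by
    obtain ⟨e, he⟩ := hw₀
    exact ⟨w₀ * k₀ ^ 2, k₀ ^ 2 * e, by linear_combination k₀ ^ 2 * he⟩
  have hwQ : Q ∣ w - 1 := by
    refine ((hkR.of_isCoprime_of_dvd_right hQ).pow_left (m := 2)).symm.dvd_of_dvd_mul_right ?_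
    obtain ⟨e, he⟩ := hkQ
    obtain ⟨e', he'⟩ := hQ
    exact ⟨9 * e' * s - e * (k + k₀), by
      linear_combination hs - (k + k₀) * he + 9 * s * he'⟩
  have hwR : IsCoprime w R := by
    obtain ⟨u, u', hu⟩ := hk₀.pow_left (m := 2)
    exact ⟨u * k ^ 2, u' - 9 * s * u, by linear_combination hu + u * hs⟩
  obtain ⟨η, hη, hηφ⟩ := he w hwQ hwR
  have h9k : (9 : O) ∣ k - k₀ := h9.trans hkQ
  have h9w : (9 : O) ∣ w - 1 := h9.trans hwQ
  have hC0 : ∀ a, C a ≠ 0 := fun a h => hR (by rw [hC a, h, mul_zero])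
  have hin : ∀ a, ∃ ζ : ℂ, ‖ζ‖ ≤ 1 ∧ ∀ (z : ℂ) (v : ℝ), 0 < v →
      th (fun ν => ρ Ψ ν * (eq (A a * w * ν) (9 * C a) * (quad ν k * cub ν k))) (z, v) =
        ζ * th (fun ν => ρ (fun r => kap (g₀ a) * Ψ (rmul r (g₀ a)⁻¹)) ν *
          (eq (-(ν * y a)) (9 * C a) * quad ν k)) (dual (k * C a) z v) := fun a => by
    refine va_inner hρ hg hΨ (m := m a) (s := A a * y a * G a * s) hk (hC0 a)
      (hkR.of_isCoprime_of_dvd_right ⟨G a, by rw [hC a]; ring⟩) ?_ (g₀ a) ?_ ?_ ?_ ?_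
    · have := hC a
      linear_combination hm a + A a * y a * hs + 9 * A a * y a * s * this
    · have := dvd_add (h00 a) (dvd_add (h9w.mul_left (A a * k)) (h9k.mul_left (A a)))
      convert this using 1
      ring
    · have := dvd_add (h01 a) (h9k.mul_right ((g₀ a).1 0 1))
      convert this using 1
      ring
    · rw [h10 a, ← sub_mul]
      exact h9k.mul_right _
    · have := dvd_add (h11 a) (h9k.mul_right (y a))
      convert this using 1
      ring
  choose ζ hζ hζ' using hin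
  refine ⟨fun a => fhat R φ (w * a) * ζ a, fun a => ?_, fun z v hv => ?_⟩
  · rw [norm_mul, norm_fhat_mul hR hφ hwR hη hηφ]
    exact mul_le_of_le_one_right (norm_nonneg _) (hζ a)
  have hexp : ∀ ν, φ ν = ∑ a ∈ res R, fhat R φ (w * a) * eq (A a * w * ν) (9 * C a) := fun ν => by
    have hP : Per R fun a => fhat R φ a * eq (a * ν) R := fun a a' h => by
      simp only
      rw [fhat_per R φ a a' h, eq_congr (x := a * ν) (y := a' * ν)]
      rw [← sub_mul]
      exact h.mul_right _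
    rw [fourier_inv hR hφ ν, ← sum_res_affine hR hP hwR 0]
    refine Finset.sum_congr rfl fun a _ => ?_
    simp only [add_zero]
    congr 1
    rw [← eq_mul_cancel (a := 9) (by decide) (w * a * ν) R,
      ← eq_mul_cancel (hG a) (A a * w * ν) (9 * C a)]
    congr 1
    · linear_combination w * ν * hA a
    · linear_combination 9 * hC a
  simp only [mul_assoc (fhat R φ _), ← hζ' _ z v hv, ← th_const_mul]
  rw [← th_sum _ _ (fun a _ => va_grow (hg Ψ hΨ) _ fun ν => by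
    rw [norm_mul, norm_mul, norm_eq, one_mul]
    exact mul_le_one₀ (norm_quad_le _ _) (norm_nonneg _) (norm_cub_le _ _)) z hv]
  congr 1
  funext ν
  rw [hexp ν, Finset.sum_mul, Finset.mul_sum]
  exact Finset.sum_congr rfl fun a _ => by ring

end Vale.Agent.P026
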