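import Vale.Agent.P026.Defs

/-! Basic algebra of `O`: norm, units, primary elements, Möbius. -/

namespace Vale.Agent.P026

open scoped ComplexConjugate Real

theorem toC_injective : Function.Injective toC := by
  intro x y h
  have h1 := congrArg Complex.re h
  have h2 := congrArg Complex.im h
  simp only [toC, RingHom.coe_mk, MonoidHom.coe_mk, OneHom.coe_mk] at h1 h2
  have h3 : (x.im : ℝ) = y.im := mul_right_cancel₀ (by positivity) h2
  have h4 : (x.re : ℝ) = y.re := by linarith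
  ext
  · exact_mod_cast h4
  · exact_mod_cast h3
theorem toC_eq_zero {x : O} : toC x = 0 ↔ x = 0 := by
  exact map_eq_zero_iff _ toC_injective
theorem norm_toC_sq (x : O) : ‖toC x‖ ^ 2 = nm x := by
  have h : √3 * √3 = 3 := Real.mul_self_sqrt (by norm_num)
  have h2 : (nm x : ℝ) = ((nm x : ℤ) : ℝ) := by push_cast; rfl
  rw [Complex.sq_norm, Complex.normSq_apply, h2, nm_int]
  simp only [toC, RingHom.coe_mk, MonoidHom.coe_mk, OneHom.coe_mk]
  push_cast
  linear_combination (x.im * x.im / 4 : ℝ) * h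
theorem norm_toC (x : O) : ‖toC x‖ = √(nm x) := by
  rw [← norm_toC_sq, Real.sqrt_sq (norm_nonneg _)]
theorem toC_star (x : O) : toC (star x) = conj (toC x) := by
  apply Complex.ext <;> simp [toC]
  ring
theorem toC_lam : toC lam = Complex.I * (√3 : ℝ) := by
  apply Complex.ext <;> simp [toC, lam]
  ring
theorem om_sq_add : om ^ 2 + om + 1 = 0 := by
  decide
theorem om_cube : om ^ 3 = 1 := by
  decide
theorem lam_sq : lam ^ 2 = -3 := by
  decide
@[simp] theorem nm_zero : nm 0 = 0 := by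
  decide
@[simp] theorem nm_one : nm 1 = 1 := by
  decide
@[simp] theorem nm_neg (x : O) : nm (-x) = nm x := by
  simp [nm]
theorem nm_pow (x : O) (k : ℕ) : nm (x ^ k) = nm x ^ k := by
  induction k with
  | zero => simp
  | succ k ih => rw [pow_succ, nm_mul, ih, pow_succ]
theorem nm_natCast (k : ℕ) : nm (k : O) = k ^ 2 := by
  zify
  rw [nm_int]
  simp
theorem nm_intCast (k : ℤ) : nm (k : O) = k.natAbs ^ 2 := by
  zify
  rw [nm_int]
  simp
theorem nm_lam : nm lam = 3 := by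
  decide
theorem nm_two : nm 2 = 4 := by
  decide
theorem nm_pos {x : O} (h : x ≠ 0) : 0 < nm x := by
  exact Nat.pos_of_ne_zero (mt nm_eq_zero.1 h)
theorem one_le_nm {x : O} (h : x ≠ 0) : (1 : ℝ) ≤ nm x := by
  exact_mod_cast nm_pos h
theorem nm_dvd {x y : O} (h : x ∣ y) : nm x ∣ nm y := by
  obtain ⟨c, rfl⟩ := h
  exact ⟨nm c, nm_mul _ _⟩
theorem nm_le_of_dvd {x y : O} (hy : y ≠ 0) (h : x ∣ y) : nm x ≤ nm y := by
  exact Nat.le_of_dvd (nm_pos hy) (nm_dvd h)
theorem isUnit_iff_nm {u : O} : IsUnit u ↔ nm u = 1 := by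
  refine ⟨fun h => Nat.dvd_one.1 (nm_one ▸ nm_dvd h.dvd), fun h => ?_⟩
  exact IsUnit.of_mul_eq_one (star u) (by rw [mul_star_self, h, Nat.cast_one])
theorem isUnit_iff {u : O} :
    IsUnit u ↔ u = 1 ∨ u = -1 ∨ u = om ∨ u = -om ∨ u = om ^ 2 ∨ u = -om ^ 2 := by
  refine ⟨fun h => ?_, fun h => isUnit_iff_nm.2 ?_⟩
  · have h1 := nm_int u
    rw [isUnit_iff_nm.1 h, Nat.cast_one] at h1
    obtain ⟨a, b⟩ := u
    simp only at h1
    have : -1 ≤ a := by nlinarith [sq_nonneg (a - 2 * b)]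
    have : a ≤ 1 := by nlinarith [sq_nonneg (a - 2 * b)]
    have : -1 ≤ b := by nlinarith [sq_nonneg (2 * a - b)]
    have : b ≤ 1 := by nlinarith [sq_nonneg (2 * a - b)]
    interval_cases a <;> interval_cases b <;> first | decide | omega
  · rcases h with rfl | rfl | rfl | rfl | rfl | rfl <;> decide
theorem nm_of_associated {x y : O} (h : Associated x y) : nm x = nm y := by
  exact Nat.dvd_antisymm (nm_dvd h.dvd) (nm_dvd h.symm.dvd)
theorem irreducible_of_nm_prime {p : O} (hp : (nm p).Prime) : Irreducible p := by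
  refine ⟨by rw [isUnit_iff_nm]; exact hp.ne_one, fun a b h => ?_⟩
  rw [h, nm_mul] at hp
  rw [isUnit_iff_nm, isUnit_iff_nm]
  exact (Nat.irreducible_iff_nat_prime _ |>.2 hp).isUnit_or_isUnit rfl |>.imp
    Nat.isUnit_iff.1 Nat.isUnit_iff.1
theorem nm_mod_three_ne_two (a : O) : nm a % 3 ≠ 2 := by
  have h := nm_int a
  have h1 : (a.re ^ 2 - a.re * a.im + a.im ^ 2) % 3 = (a.re + a.im) ^ 2 % 3 := by
    have : a.re ^ 2 - a.re * a.im + a.im ^ 2 = (a.re + a.im) ^ 2 + 3 * (-(a.re * a.im)) := by ring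
    rw [this, Int.add_mul_emod_self_left]
  have h2 : (a.re + a.im) ^ 2 % 3 ≠ 2 := by
    generalize a.re + a.im = t
    rcases (by omega : t % 3 = 0 ∨ t % 3 = 1 ∨ t % 3 = 2) with h | h | h <;>
      simp [pow_two, Int.mul_emod, h]
  omega
theorem prime_lam : Prime lam := by
  exact (irreducible_of_nm_prime (by rw [nm_lam]; norm_num)).prime
theorem prime_two : Prime (2 : O) := by
  refine Irreducible.prime ⟨by rw [isUnit_iff_nm, nm_two]; norm_num, fun a b h => ?_⟩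
  have h1 : nm a * nm b = 4 := by rw [← nm_mul, ← h, nm_two]
  have h2 := nm_mod_three_ne_two a
  rw [isUnit_iff_nm, isUnit_iff_nm]
  have : nm a ≤ 4 := Nat.le_of_dvd (by norm_num) ⟨_, h1.symm⟩
  interval_cases nm a <;> omega
theorem dvd_iff_int (k : ℤ) (x : O) : (k : O) ∣ x ↔ k ∣ x.re ∧ k ∣ x.im := by
  refine ⟨?_, fun ⟨⟨a, ha⟩, ⟨b, hb⟩⟩ => ⟨⟨a, b⟩, ?_⟩⟩
  · rintro ⟨c, rfl⟩
    exact ⟨⟨c.re, by simp⟩, ⟨c.im, by simp⟩⟩
  · ext <;> simp [ha, hb]
/-- a prime has norm `ℓ` or `ℓ²`, `ℓ` the rational prime below it -/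
theorem nm_prime {p : O} (hp : Prime p) :
    ∃ l : ℕ, l.Prime ∧ p ∣ (l : O) ∧ (nm p = l ∨ (nm p = l ^ 2 ∧ Associated p l)) := by
  have h0 : (nm p) ≠ 0 := (nm_pos hp.ne_zero).ne'
  have h1 : p ∣ ((nm p).primeFactorsList.map (Nat.cast : ℕ → O)).prod := by
    rw [← Nat.cast_list_prod, Nat.prod_primeFactorsList h0, ← mul_star_self]
    exact dvd_mul_right _ _
  obtain ⟨x, hx, hd⟩ := (Prime.dvd_prod_iff hp).1 h1
  obtain ⟨l, hl, rfl⟩ := List.mem_map.1 hx
  have hl' := Nat.prime_of_mem_primeFactorsList hl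
  refine ⟨l, hl', hd, ?_⟩
  have h2 := nm_dvd hd
  rw [nm_natCast] at h2
  obtain ⟨i, hi, e⟩ := (Nat.dvd_prime_pow hl').1 h2
  interval_cases i
  · exact absurd (isUnit_iff_nm.2 (by simpa using e)) hp.not_isUnit
  · exact Or.inl (by simpa using e)
  · refine Or.inr ⟨e, ?_⟩
    obtain ⟨c, hc⟩ := hd
    have h3 : nm (l : O) = nm p * nm c := by rw [hc, nm_mul]
    rw [nm_natCast, e] at h3
    have h4 : nm c = 1 := (Nat.mul_eq_left (pow_pos hl'.pos 2).ne').1 h3.symm
    rw [hc]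
    exact associated_mul_unit_right _ _ (isUnit_iff_nm.2 h4)

theorem mem_ball {X : ℝ} {x : O} : x ∈ ball X ↔ (nm x : ℝ) ≤ X := by
  simp only [ball, Finset.mem_filter, Finset.mem_image, Finset.mem_product, Finset.mem_Icc,
    and_iff_right_iff_imp]
  intro h
  have h1 : (nm x : ℤ) ≤ ⌈X⌉ := by exact_mod_cast h.trans (Int.le_ceil X)
  have h0 : (0 : ℤ) ≤ nm x := Int.natCast_nonneg _
  rw [nm_int] at h1 h0
  refine ⟨(x.re, x.im), ⟨⟨?_, ?_⟩, ?_, ?_⟩, rfl⟩ <;> simp only <;> by_contra h2 <;>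
    nlinarith [sq_nonneg (2 * x.re - x.im), sq_nonneg (x.re - 2 * x.im)]
theorem mem_sball {X : ℝ} {x : O} : x ∈ sball X ↔ IsS x ∧ (nm x : ℝ) ≤ X := by
  simp only [sball, Finset.mem_filter, mem_ball, and_comm]
theorem mem_pdiv {n e : O} (hn : n ≠ 0) : e ∈ pdiv n ↔ Prim e ∧ e ∣ n := by
  simp only [pdiv, Finset.mem_filter, mem_ball, and_iff_right_iff_imp]
  exact fun h => by exact_mod_cast nm_le_of_dvd hn h.2

theorem lam_dvd_three : lam ∣ 3 := ⟨-lam, by decide⟩
theorem Prim.eq_one_of_isUnit' {a : O} (ha : Prim a) (h : IsUnit a) : a = 1 := by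
  have h3 := (dvd_iff_int 3 (a - 1)).1 ha
  rcases isUnit_iff.1 h with rfl | rfl | rfl | rfl | rfl | rfl <;>
    first | rfl | exact absurd h3 (by decide)
theorem prim_one : Prim 1 := by
  simp [Prim]
theorem prim_neg_two : Prim (-2) := by
  exact ⟨-1, by norm_num⟩
theorem Prim.mul {a b : O} (ha : Prim a) (hb : Prim b) : Prim (a * b) := by
  have := dvd_add (ha.mul_right b) hb
  rwa [show (a - 1) * b + (b - 1) = a * b - 1 by ring] at this
theorem Prim.pow {a : O} (ha : Prim a) (k : ℕ) : Prim (a ^ k) := by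
  induction k with
  | zero => simpa using prim_one
  | succ k ih => rw [pow_succ]; exact ih.mul ha
theorem Prim.of_mul {a b : O} (ha : Prim a) (hab : Prim (a * b)) : Prim b := by
  have := dvd_sub hab (Dvd.dvd.mul_right ha b)
  rwa [show a * b - 1 - (a - 1) * b = b - 1 by ring] at this
theorem Prim.not_lam_dvd {a : O} (ha : Prim a) : ¬lam ∣ a := by
  intro h
  have h1 : lam ∣ a - (a - 1) := dvd_sub h (lam_dvd_three.trans ha)
  rw [sub_sub_cancel] at h1
  exact prime_lam.not_isUnit (isUnit_of_dvd_one h1)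
theorem Prim.ne_zero {a : O} (ha : Prim a) : a ≠ 0 := by
  rintro rfl
  exact ha.not_lam_dvd (dvd_zero _)
theorem Prim.star {a : O} (ha : Prim a) : Prim (star a) := by
  obtain ⟨c, hc⟩ := ha
  refine ⟨Star.star c, ?_⟩
  have := congrArg Star.star hc
  simpa [mul_comm] using this
theorem Prim.of_dvd_sub {a b q : O} (ha : Prim a) (hq : (3 : O) ∣ q) (h : q ∣ b - a) : Prim b := by
  have := dvd_add (hq.trans h) ha
  rwa [sub_add_sub_cancel] at this
theorem Prim.eq_of_associated {a b : O} (ha : Prim a) (hb : Prim b) (h : Associated a b) :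
    a = b := by
  obtain ⟨u, rfl⟩ := h
  rw [(ha.of_mul hb).eq_one_of_isUnit' u.isUnit, mul_one]
theorem Prim.eq_one_of_isUnit {a : O} (ha : Prim a) (h : IsUnit a) : a = 1 := by
  exact ha.eq_one_of_isUnit' h
theorem Prim.cube {a : O} (ha : Prim a) : (9 : O) ∣ a ^ 3 - 1 := by
  obtain ⟨c, hc⟩ := ha
  obtain rfl : a = 1 + 3 * c := by linear_combination hc
  exact ⟨c + 3 * c ^ 2 + 3 * c ^ 3, by ring⟩
theorem Prim.coprime_nine {a : O} (ha : Prim a) : IsCoprime a 9 := by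
  obtain ⟨c, hc⟩ := ha.cube
  exact ⟨a ^ 2, -c, by linear_combination hc⟩
theorem Prim.nm_mod {a : O} (ha : Prim a) : nm a % 3 = 1 := by
  obtain ⟨c, hc⟩ := ha
  obtain rfl : a = 1 + 3 * c := by linear_combination hc
  have h := nm_int (1 + 3 * c)
  have e1 : (1 + 3 * c).re = 1 + 3 * c.re := by
    simp [QuadraticAlgebra.re_one, show (3 : O).re = 3 from rfl, show (3 : O).im = 0 from rfl]
  have e2 : (1 + 3 * c).im = 3 * c.im := by
    simp [QuadraticAlgebra.im_one, show (3 : O).re = 3 from rfl, show (3 : O).im = 0 from rfl]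
  rw [e1, e2] at h
  have : (nm (1 + 3 * c) : ℤ) =
      1 + 3 * (2 * c.re - c.im + 3 * (c.re ^ 2 - c.re * c.im + c.im ^ 2)) := by rw [h]; ring
  omega
theorem exists_prim {n : O} (h : ¬lam ∣ n) : ∃ u c : O, IsUnit u ∧ Prim c ∧ n = u * c := by
  have key : ∃ u : O, IsUnit u ∧ Prim (u * n) := by
    have hn : n = (⟨n.re % 3, n.im % 3⟩ : O) + 3 * ⟨n.re / 3, n.im / 3⟩ := by
      ext <;> simp [show (3 : O).re = 3 from rfl, show (3 : O).im = 0 from rfl] <;> omega
    have h1 : ¬lam ∣ (⟨n.re % 3, n.im % 3⟩ : O) := fun h' =>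
      h (hn ▸ dvd_add h' (lam_dvd_three.mul_right _))
    have h2 : ∃ u : O, IsUnit u ∧ Prim (u * ⟨n.re % 3, n.im % 3⟩) := by
      have hu : ∀ u : O, nm u = 1 → ∀ x c : O, u * x - 1 = 3 * c → ∃ u : O, IsUnit u ∧
        Prim (u * x) := fun u hu x c hc => ⟨u, isUnit_iff_nm.2 hu, c, hc⟩
      rcases (by omega : n.re % 3 = 0 ∨ n.re % 3 = 1 ∨ n.re % 3 = 2) with a | a | a <;>
      rcases (by omega : n.im % 3 = 0 ∨ n.im % 3 = 1 ∨ n.im % 3 = 2) with b | b | b <;>
      rw [a, b] at h1 ⊢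
      · exact absurd ⟨0, by decide⟩ h1
      · exact hu (om ^ 2) (by decide) _ 0 (by decide)
      · exact hu (-om ^ 2) (by decide) _ (-1) (by decide)
      · exact hu 1 (by decide) _ 0 (by decide)
      · exact hu (-om) (by decide) _ 0 (by decide)
      · exact absurd ⟨1, by decide⟩ h1
      · exact hu (-1) (by decide) _ (-1) (by decide)
      · exact absurd ⟨-om, by decide⟩ h1
      · exact hu om (by decide) _ (-1) (by decide)
    obtain ⟨u, hu, h2⟩ := h2
    refine ⟨u, hu, h2.of_dvd_sub dvd_rfl ⟨u * ⟨n.re / 3, n.im / 3⟩, ?_⟩⟩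
    linear_combination u * hn
  obtain ⟨u, hu, h2⟩ := key
  obtain ⟨v, rfl⟩ := hu
  exact ⟨↑v⁻¹, v * n, v⁻¹.isUnit, h2, by simp⟩
theorem exists_decomp {n : O} (h : n ≠ 0) :
    ∃ (u : O) (j : ℕ) (c : O), IsUnit u ∧ Prim c ∧ n = u * lam ^ j * c := by
  obtain ⟨j, m, hm, rfl⟩ := WfDvdMonoid.max_power_factor h prime_lam.irreducible
  obtain ⟨u, c, hu, hc, rfl⟩ := exists_prim hm
  exact ⟨u, j, c, hu, hc, by ring⟩
theorem decomp_unique {u u' c c' : O} {j j' : ℕ} (hu : IsUnit u) (hu' : IsUnit u') (hc : Prim c)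
    (hc' : Prim c') (h : u * lam ^ j * c = u' * lam ^ j' * c') : u = u' ∧ j = j' ∧ c = c' := by
  have key : ∀ {u u' c c' : O} {j j' : ℕ}, IsUnit u → Prim c →
      u * lam ^ j * c = u' * lam ^ j' * c' → j' ≤ j := by
    intro u u' c c' j j' hu hc h
    by_contra hlt
    obtain ⟨k, rfl⟩ := Nat.exists_eq_add_of_lt (not_le.1 hlt)
    have h1 : u * c = lam * (u' * lam ^ k * c') :=
      mul_left_cancel₀ (pow_ne_zero j prime_lam.ne_zero) (by linear_combination h)
    exact hc.not_lam_dvd (hu.dvd_mul_left.1 ⟨_, h1⟩)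
  obtain rfl : j = j' := le_antisymm (key hu' hc' h.symm) (key hu hc h)
  have h1 : u * c = u' * c' :=
    mul_left_cancel₀ (pow_ne_zero j prime_lam.ne_zero) (by linear_combination h)
  obtain rfl : c = c' := hc.eq_of_associated hc' ((associated_unit_mul_right _ _ hu).trans
    (h1 ▸ associated_unit_mul_left _ _ hu'))
  exact ⟨mul_right_cancel₀ hc.ne_zero h1, rfl, rfl⟩
/-- `c d³` with `c` squarefree is unique -/
theorem cube_decomp_unique {c d c' d' : O} (hc : Prim c) (hs : Squarefree c) (hd : Prim d)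
    (hc' : Prim c') (hs' : Squarefree c') (hd' : Prim d') (h : c * d ^ 3 = c' * d' ^ 3) :
    c = c' ∧ d = d' := by
  have key : ∀ {c d c' d' : O}, d ≠ 0 → Squarefree c → c * d ^ 3 = c' * d' ^ 3 → d' ∣ d := by
    intro c d c' d' hd hs h
    obtain ⟨a, b, g, hab, rfl, rfl⟩ := UniqueFactorizationMonoid.exists_reduced_factors d hd d'
    have hg : g ≠ 0 := left_ne_zero_of_mul hd
    have h1 : c * a ^ 3 = b * b * (b * c') :=
      mul_left_cancel₀ (pow_ne_zero 3 hg) (by linear_combination h)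
    have h2 : IsRelPrime (b * b) (a ^ 3) := (hab.symm.mul_left hab.symm).pow_right
    have h3 : IsUnit b := hs b (h2.dvd_of_dvd_mul_right ⟨_, h1⟩)
    exact mul_dvd_mul_left g h3.dvd
  obtain rfl : d = d' := hd.eq_of_associated hd'
    (associated_of_dvd_dvd (key hd'.ne_zero hs' h.symm) (key hd.ne_zero hs h))
  exact ⟨mul_right_cancel₀ (pow_ne_zero 3 hd.ne_zero) h, rfl⟩
theorem Prim.induction {P : O → Prop} (h1 : P 1)
    (hs : ∀ p n, Prime p → Prim p → Prim n → P n → P (p * n)) {n : O} (hn : Prim n) : P n := by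
  induction hk : nm n using Nat.strong_induction_on generalizing n with
  | _ k ih =>
    by_cases h : IsUnit n
    · rwa [hn.eq_one_of_isUnit h]
    obtain ⟨q, hq, hd⟩ := WfDvdMonoid.exists_irreducible_factor h hn.ne_zero
    obtain ⟨u, p, hu, hp, rfl⟩ := exists_prim fun h' => hn.not_lam_dvd (h'.trans hd)
    obtain ⟨m, rfl⟩ := (dvd_mul_left p u).trans hd
    have hp' : Prime p := (associated_unit_mul_left _ _ hu).prime hq.prime
    have hm := hp.of_mul hn
    refine hs p m hp' hp hm (ih (nm m) ?_ hm rfl)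
    rw [← hk, nm_mul]
    have h1 := nm_pos hm.ne_zero
    have h2 := nm_pos hp.ne_zero
    have h3 := mt isUnit_iff_nm.2 hp'.not_isUnit
    nlinarith [(by omega : 2 ≤ nm p)]
theorem IsS.induction {P : O → Prop} (h1 : P 1)
    (hs : ∀ p n, Prime p → IsS p → IsS n → ¬p ∣ n → P n → P (p * n)) {n : O} (hn : IsS n) :
    P n := by
  refine Prim.induction (P := fun n => IsS n → P n) (fun _ => h1) (fun p n hp hp' hn' ih h => ?_)
    hn.1.1 hn
  have h2 : IsS n := ⟨⟨hn', fun h' => h.1.2 (h'.mul_left _)⟩, h.2.of_mul_right⟩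
  exact hs p n hp ⟨⟨hp', fun h' => h.1.2 (h'.mul_right _)⟩, h.2.of_mul_left⟩ h2
    (fun h' => hp.not_isUnit (h.2 p (mul_dvd_mul_left p h'))) (ih h2)
theorem exists_prim_gcd {a : O} (b : O) (ha : Prim a) :
    ∃ d, Prim d ∧ d ∣ a ∧ d ∣ b ∧ ∀ e, e ∣ a → e ∣ b → e ∣ d := by
  obtain ⟨u, d, hu, hd, e⟩ := exists_prim (n := EuclideanDomain.gcd a b)
    fun h => ha.not_lam_dvd (h.trans (EuclideanDomain.gcd_dvd_left a b))
  have h1 : d ∣ EuclideanDomain.gcd a b := e ▸ dvd_mul_left d u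
  exact ⟨d, hd, h1.trans (EuclideanDomain.gcd_dvd_left a b),
    h1.trans (EuclideanDomain.gcd_dvd_right a b),
    fun x h2 h3 => hu.dvd_mul_left.1 (e ▸ EuclideanDomain.dvd_gcd h2 h3)⟩
theorem isP_one : IsP 1 := by
  exact ⟨prim_one, fun h => prime_two.not_isUnit (isUnit_of_dvd_one h)⟩
theorem isS_one : IsS 1 := by
  exact ⟨isP_one, squarefree_one⟩
theorem IsP.mul {a b : O} (ha : IsP a) (hb : IsP b) : IsP (a * b) := by
  exact ⟨ha.1.mul hb.1, fun h => (prime_two.dvd_or_dvd h).elim ha.2 hb.2⟩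
theorem IsP.of_dvd {a e : O} (ha : IsP a) (he : Prim e) (h : e ∣ a) : IsP e := by
  exact ⟨he, fun h' => ha.2 (h'.trans h)⟩
theorem IsS.of_dvd {a e : O} (ha : IsS a) (he : Prim e) (h : e ∣ a) : IsS e := by
  exact ⟨ha.1.of_dvd he h, ha.2.squarefree_of_dvd h⟩
theorem IsS.mul {a b : O} (ha : IsS a) (hb : IsS b) (h : IsCoprime a b) : IsS (a * b) := by
  exact ⟨ha.1.mul hb.1, squarefree_mul_iff.2 ⟨h.isRelPrime, ha.2, hb.2⟩⟩
theorem IsS.coprime {a b : O} (h : IsS (a * b)) : IsCoprime a b := by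
  exact (squarefree_mul_iff.1 h.2).1.isCoprime
theorem IsP.coprime_72 {a : O} (ha : IsP a) : IsCoprime a 72 := by
  have h2 : IsCoprime a 2 := ((prime_two.irreducible.coprime_iff_not_dvd).2 ha.2).symm
  rw [show (72 : O) = 2 ^ 3 * 9 by norm_num]
  exact h2.pow_right.mul_right ha.1.coprime_nine
theorem IsP.of_dvd_sub {a b q : O} (ha : IsP a) (hq : (6 : O) ∣ q) (h : q ∣ b - a) : IsP b := by
  refine ⟨ha.1.of_dvd_sub (Dvd.dvd.trans ⟨2, by norm_num⟩ hq) h, fun h' => ha.2 ?_⟩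
  have := dvd_sub h' ((Dvd.dvd.trans ⟨3, by norm_num⟩ hq).trans h)
  rwa [sub_sub_cancel] at this
theorem IsP.four_lt_nm {p : O} (h : IsP p) (h1 : p ≠ 1) : 7 ≤ nm p := by
  have h2 := h.1.nm_mod
  have h3 : nm p ≠ 1 := fun h' => h1 (h.1.eq_one_of_isUnit (isUnit_iff_nm.2 h'))
  have h4 : nm p ≠ 4 := fun h' => by
    have : (2 : O) ∣ p * Star.star p := ⟨2, by rw [mul_star_self, h']; norm_num⟩
    rcases prime_two.dvd_or_dvd this with h5 | ⟨c, h5⟩
    · exact h.2 h5
    · exact h.2 ⟨Star.star c, by simpa [mul_comm] using congrArg Star.star h5⟩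
  omega

theorem ind_of {p : Prop} (h : p) : ind p = 1 := by
  simp [ind, h]
theorem ind_of_not {p : Prop} (h : ¬p) : ind p = 0 := by
  simp [ind, h]
theorem ind_and (p q : Prop) : ind (p ∧ q) = ind p * ind q := by
  by_cases hp : p <;> by_cases hq : q <;> simp [ind, hp, hq]
theorem norm_ind_le (p : Prop) : ‖ind p‖ ≤ 1 := by
  by_cases hp : p <;> simp [ind, hp]
theorem mu_one : mu 1 = 1 := by
  simp [mu]
theorem mu_prime {p : O} (hp : Prime p) : mu p = -1 := by
  simp [mu, hp.irreducible.moebius_eq]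
theorem mu_mul {a b : O} (h : IsCoprime a b) : mu (a * b) = mu a * mu b := by
  simp [mu, h.isRelPrime.moebius_mul]
theorem mu_eq_zero {a : O} (h : ¬Squarefree a) : mu a = 0 := by
  simp [mu, UniqueFactorizationMonoid.moebius_of_not_squarefree h]
theorem mu_sq {a : O} (h : Squarefree a) : mu a * mu a = 1 := by
  simp [mu, h.moebius_eq, ← mul_pow]
theorem conj_mu (a : O) : conj (mu a) = mu a := by
  simp [mu]
theorem norm_mu_le (a : O) : ‖mu a‖ ≤ 1 := by
  by_cases h : Squarefree a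
  · simp [mu, h.moebius_eq]
  · simp [mu_eq_zero h]
theorem sum_mu_pdiv {n : O} (hn : Prim n) : ∑ e ∈ pdiv n, mu e = ind (n = 1) := by
  classical
  refine Prim.induction (P := fun n => ∑ e ∈ pdiv n, mu e = ind (n = 1)) ?_
    (fun p n hp hp' hn _ => ?_) hn
  · have : pdiv 1 = {1} := by
      ext e
      rw [mem_pdiv one_ne_zero, Finset.mem_singleton]
      exact ⟨fun h => h.1.eq_one_of_isUnit (isUnit_of_dvd_one h.2), 
        fun h => by subst h; exact ⟨prim_one, dvd_rfl⟩⟩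
    rw [this, Finset.sum_singleton, mu_one, ind_of rfl]
  have h0 := (hp'.mul hn).ne_zero
  rw [ind_of_not fun h => hp.not_isUnit (IsUnit.of_mul_eq_one _ h),
    ← Finset.sum_filter_add_sum_filter_not _ (p ∣ ·),
    ← Finset.sum_filter_add_sum_filter_not ((pdiv (p * n)).filter (p ∣ ·)) (p * p ∣ ·),
    Finset.sum_eq_zero fun e he => mu_eq_zero fun h => hp.not_isUnit
      (h p (Finset.mem_filter.1 he).2), zero_add, add_eq_zero_iff_eq_neg,
    ← Finset.sum_neg_distrib]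
  symm
  refine Finset.sum_bij (fun e _ => p * e) (fun e he => ?_) (fun a _ b _ h => ?_)
    (fun e he => ?_) fun e he => ?_
  · simp only [Finset.mem_filter, mem_pdiv h0] at he ⊢
    exact ⟨⟨⟨hp'.mul he.1.1, mul_dvd_mul_left p ((hp.irreducible.coprime_iff_not_dvd.2
      he.2).symm.dvd_of_dvd_mul_left he.1.2)⟩, dvd_mul_right _ _⟩,
      fun h => he.2 ((mul_dvd_mul_iff_left hp.ne_zero).1 h)⟩
  · exact mul_left_cancel₀ hp.ne_zero h
  · simp only [Finset.mem_filter, mem_pdiv h0] at he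
    obtain ⟨⟨⟨h1, h2⟩, c, rfl⟩, h3⟩ := he
    refine ⟨c, ?_, rfl⟩
    simp only [Finset.mem_filter, mem_pdiv h0]
    exact ⟨⟨hp'.of_mul h1, (dvd_mul_left c p).trans h2⟩, fun h => h3 (mul_dvd_mul_left p h)⟩
  · rw [mu_mul (hp.irreducible.coprime_iff_not_dvd.2 (Finset.mem_filter.1 he).2), mu_prime hp,
      neg_one_mul]
theorem ind_coprime {D : O} (hD : Prim D) (h : O) :
    ind (IsCoprime h D) = ∑ e ∈ pdiv D, mu e * ind (e ∣ h) := by
  classical
  obtain ⟨d, hd, h1, h2, h3⟩ := exists_prim_gcd h hD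
  have e1 : IsCoprime h D ↔ d = 1 := by
    refine ⟨fun hc => hd.eq_one_of_isUnit (hc.isUnit_of_dvd' h2 h1), fun e => ?_⟩
    exact IsRelPrime.isCoprime fun x a b => isUnit_of_dvd_one (e ▸ h3 x b a)
  rw [propext e1, ← sum_mu_pdiv hd]
  have e2 : pdiv d = (pdiv D).filter (· ∣ h) := by
    ext e
    simp only [Finset.mem_filter, mem_pdiv hd.ne_zero, mem_pdiv hD.ne_zero]
    exact ⟨fun a => ⟨⟨a.1, a.2.trans h1⟩, a.2.trans h2⟩, fun a => ⟨a.1.1, h3 e a.1.2 a.2⟩⟩
  rw [e2, Finset.sum_filter]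
  refine Finset.sum_congr rfl fun e _ => ?_
  split_ifs with h4
  · rw [ind_of h4, mul_one]
  · rw [ind_of_not h4, mul_zero]
theorem norm_ang {n : O} (h : n ≠ 0) : ‖ang n‖ = 1 := by
  have : 0 < √(nm n : ℝ) := Real.sqrt_pos.2 (by exact_mod_cast nm_pos h)
  rw [ang, norm_div, norm_toC, Complex.norm_real, Real.norm_of_nonneg this.le, div_self this.ne']
theorem ang_mul (a b : O) : ang (a * b) = ang a * ang b := by
  simp only [ang, map_mul, nm_mul, Nat.cast_mul, Real.sqrt_mul (Nat.cast_nonneg _),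
    Complex.ofReal_mul]
  exact mul_div_mul_comm _ _ _ _
theorem norm_nt (n : O) (t : ℝ) : ‖nt n t‖ = 1 := by
  rw [nt, mul_assoc, ← Complex.ofReal_mul, mul_comm, Complex.norm_exp_ofReal_mul_I]
theorem nt_mul {a b : O} (ha : a ≠ 0) (hb : b ≠ 0) (t : ℝ) : nt (a * b) t = nt a t * nt b t := by
  rw [nt, nt, nt, ← Complex.exp_add, nm_mul, Nat.cast_mul,
    Real.log_mul (by exact_mod_cast (nm_pos ha).ne') (by exact_mod_cast (nm_pos hb).ne')]
  push_cast
  ring_nf
theorem nt_add (a : O) (t t' : ℝ) : nt a (t + t') = nt a t * nt a t' := by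
  rw [nt, nt, nt, ← Complex.exp_add]
  push_cast
  ring_nf
theorem conj_nt (a : O) (t : ℝ) : conj (nt a t) = nt a (-t) := by
  rw [nt, nt, ← Complex.exp_conj]
  simp only [map_mul, Complex.conj_I, Complex.conj_ofReal]
  push_cast
  ring_nf

end Vale.Agent.P026
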