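import Vale.Agent.P026.Sym

/-! The cubic character of `O/p` with values in `O`, the Jacobi sum `J = -p`, the cube of the
Gauss sum in any domain, and the Gauss sum congruence behind cubic reciprocity. -/

namespace Vale.Agent.P026

open scoped ComplexConjugate Real

/-- residue ring -/
abbrev Fq (p : O) : Type := O ⧸ Ideal.span {p}

/-- reduction map -/
abbrev red (p : O) : O →+* Fq p := Ideal.Quotient.mk _

theorem red_eq_iff {p a b : O} : red p a = red p b ↔ p ∣ a - b := by
  rw [Ideal.Quotient.eq, Ideal.mem_span_singleton]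

theorem red_eq_zero {p a : O} : red p a = 0 ↔ p ∣ a := by
  rw [Ideal.Quotient.eq_zero_iff_mem, Ideal.mem_span_singleton]

theorem red_out (p : O) (x : Fq p) : red p x.out = x := Ideal.Quotient.mk_out x

theorem dvd_out_sub (p a : O) : p ∣ (red p a).out - a := red_eq_iff.1 (red_out p _)

instance instMaxP {p : O} [hp : Fact (Prime p)] : (Ideal.span {p}).IsMaximal :=
  PrincipalIdealRing.isMaximal_of_irreducible hp.1.irreducible

noncomputable instance instFieldFq {p : O} [Fact (Prime p)] : Field (Fq p) :=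
  Ideal.Quotient.field _

instance instFiniteFq {p : O} [hp : Fact (Prime p)] : Finite (Fq p) :=
  Nat.finite_of_card_ne_zero (by rw [card_quot hp.1.ne_zero]; exact (nm_pos hp.1.ne_zero).ne')

noncomputable instance instFintypeFq {p : O} [Fact (Prime p)] : Fintype (Fq p) :=
  Fintype.ofFinite _

theorem card_Fq (p : O) [hp : Fact (Prime p)] : Fintype.card (Fq p) = nm p := by
  rw [← Nat.card_eq_fintype_card, card_quot hp.1.ne_zero]

theorem cubP_congr {p a b : O} (hp : Prime p) (h : p ∣ a - b) : cubP a p = cubP b p :=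
  toC_injective (by rw [← cub_prime hp, ← cub_prime hp, cub_congr h])

theorem cubP_mul {p : O} (hp : Prime p) (a b : O) : cubP (a * b) p = cubP a p * cubP b p :=
  toC_injective (by rw [map_mul, ← cub_prime hp, ← cub_prime hp, ← cub_prime hp, cub_mul_left])

theorem coprime_of_not_dvd {p a : O} (hp : Prime p) (h : ¬p ∣ a) : IsCoprime a p :=
  (hp.irreducible.coprime_iff_not_dvd.2 h).symm

theorem not_coprime_of_dvd {p a : O} (hp : Prime p) (h : p ∣ a) : ¬IsCoprime a p :=
  fun hc => hp.irreducible.coprime_iff_not_dvd.1 hc.symm h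

/-- the cubic character of `O/p` -/
noncomputable def chiO (p : O) [hp : Fact (Prime p)] (hl : ¬lam ∣ p) : MulChar (Fq p) O where
  toFun x := cubP x.out p
  map_one' := by
    rw [← map_one (red p), cubP_congr hp.1 (dvd_out_sub p 1)]
    exact toC_injective (by rw [← cub_prime hp.1, cub_one_left, map_one])
  map_mul' x y := by
    rw [← cubP_mul hp.1]
    exact cubP_congr hp.1 (red_eq_iff.1 (by rw [map_mul, red_out, red_out, red_out]))
  map_nonunit' x hx := by
    have h0 : x = 0 := by simpa using hx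
    have : p ∣ x.out := red_eq_zero.1 (by rw [red_out, h0])
    exact toC_injective (by
      rw [← cub_prime hp.1, map_zero, cub_eq_zero hl (not_coprime_of_dvd hp.1 this)])

section
variable {p : O} [hp : Fact (Prime p)] (hl : ¬lam ∣ p)

theorem chiO_red (a : O) : chiO p hl (red p a) = cubP a p :=
  cubP_congr hp.1 (dvd_out_sub p a)

theorem chiO_pow_three : chiO p hl ^ 3 = 1 := by
  refine MulChar.ext fun x => ?_
  obtain ⟨a, ha⟩ := Ideal.Quotient.mk_surjective (x : Fq p)
  have hd : ¬p ∣ a := fun h => x.ne_zero (ha ▸ red_eq_zero.2 h)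
  rw [MulChar.pow_apply_coe, MulChar.one_apply_coe, ← ha, chiO_red]
  exact toC_injective (by
    rw [map_pow, ← cub_prime hp.1, map_one, cub_cube (coprime_of_not_dvd hp.1 hd)])

theorem chiO_comp_pow_three {R : Type*} [CommRing R] (φ : O →+* R) :
    (chiO p hl).ringHomComp φ ^ 3 = 1 := by
  rw [MulChar.ringHomComp_pow, chiO_pow_three, MulChar.ringHomComp_one]

theorem chiO_comp_ne_one {R : Type*} [CommRing R] (φ : O →+* R) (h3 : (3 : R) ≠ 0) :
    (chiO p hl).ringHomComp φ ≠ 1 := by
  intro h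
  obtain ⟨a, ha, hne⟩ := exists_cub_ne_one hp.1 hl
  have hd : ¬p ∣ a := fun h => not_coprime_of_dvd hp.1 h ha
  have hu : IsUnit (red p a) := Ne.isUnit (mt red_eq_zero.1 hd)
  have h1 : φ (cubP a p) = 1 := by
    rw [← chiO_red hl, ← MulChar.ringHomComp_apply, h, MulChar.one_apply hu]
  have h2 := congrArg φ om_sq_add
  have h4 := congrArg φ om_cube
  have h5 := norm_cub ha
  simp only [map_add, map_pow, map_one, map_zero] at h2 h4
  rw [cub_prime hp.1] at hne h5
  rcases cubP_cases a p with e | e | e | e <;> rw [e] at h1 hne h5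
  · simp at h5
  · simp at hne
  · apply h3
    rw [h1] at h2
    linear_combination h2
  · apply h3
    rw [map_pow] at h1
    have : φ om = 1 := by linear_combination h4 - φ om * h1
    rw [this] at h2
    linear_combination h2

theorem sq_ne_one_of_cube {G : Type*} [Monoid G] {x : G} (h3 : x ^ 3 = 1) (h1 : x ≠ 1) :
    x * x ≠ 1 := by
  intro h
  apply h1
  rw [pow_succ, pow_two, h, one_mul] at h3
  exact h3

theorem isPrimitiveRoot_om : IsPrimitiveRoot om 3 := by
  have : Fact (Nat.Prime 3) := ⟨Nat.prime_three⟩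
  rw [← orderOf_eq_prime om_cube (by decide)]
  exact IsPrimitiveRoot.orderOf om

theorem nm_jacobi : nm (jacobiSum (chiO p hl) (chiO p hl)) = nm p := by
  have h1 := chiO_comp_ne_one hl toC (by norm_num)
  have h3 := chiO_comp_pow_three hl toC
  have hc : ringChar ℂ ≠ ringChar (Fq p) := by
    rw [ringChar.eq_zero]
    exact (CharP.ringChar_ne_zero_of_finite (Fq p)).symm
  have h := jacobiSum_mul_jacobiSum_inv hc h1 h1 (sq_ne_one_of_cube h3 h1)
  have e : jacobiSum ((chiO p hl).ringHomComp toC)⁻¹ ((chiO p hl).ringHomComp toC)⁻¹ =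
      conj (jacobiSum ((chiO p hl).ringHomComp toC) ((chiO p hl).ringHomComp toC)) := by
    simp only [jacobiSum, map_sum, map_mul, ← MulChar.star_apply', starRingEnd_apply]
  rw [e, Complex.mul_conj, jacobiSum_ringHomComp, card_Fq, Complex.normSq_eq_norm_sq,
    norm_toC_sq] at h
  exact_mod_cast h

theorem dvd_jacobi (h3 : nm p % 3 = 1) : p ∣ jacobiSum (chiO p hl) (chiO p hl) := by
  rw [← red_eq_zero, jacobiSum, map_sum]
  set m := (nm p - 1) / 3 with hm
  have e : ∀ x : Fq p, red p (chiO p hl x) = x ^ m := by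
    intro x
    obtain ⟨a, rfl⟩ := Ideal.Quotient.mk_surjective x
    rw [chiO_red, ← map_pow]
    exact (red_eq_iff.2 (cubP_dvd hp.1 hl a)).symm
  have h1 : 1 < nm p := by
    rw [← card_Fq]
    exact Fintype.one_lt_card
  simp only [map_mul, e, sub_eq_neg_add, add_pow, one_pow, mul_one, Finset.mul_sum]
  rw [Finset.sum_comm]
  refine Finset.sum_eq_zero fun k hk => ?_
  have hk' := Finset.mem_range.1 hk
  have e2 : ∀ x : Fq p, x ^ m * ((-x) ^ k * (m.choose k : Fq p)) =
      ((-1) ^ k * (m.choose k : Fq p)) * x ^ (m + k) := by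
    intro x
    rw [neg_pow]
    ring
  simp only [e2]
  rw [← Finset.mul_sum, FiniteField.sum_pow_lt_card_sub_one _ _ (by rw [card_Fq]; omega), mul_zero]

theorem jacobi_eq (hp' : Prim p) : jacobiSum (chiO p hl) (chiO p hl) = -p := by
  have h3 := hp'.nm_mod
  obtain ⟨z, -, hz⟩ := exists_jacobiSum_eq_neg_one_add (n := 3) (by norm_num) (chiO_pow_three hl)
    (chiO_pow_three hl) (by rw [card_Fq]; omega) isPrimitiveRoot_om
  have hprim : Prim (-jacobiSum (chiO p hl) (chiO p hl)) := by
    refine ⟨z * om, ?_⟩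
    rw [hz]
    linear_combination (-z) * om_sq_add
  obtain ⟨u, hu⟩ := dvd_jacobi hl h3
  have hn := nm_jacobi hl
  rw [hu, nm_mul] at hn
  have hu1 : IsUnit u := isUnit_iff_nm.2
    (Nat.eq_of_mul_eq_mul_left (nm_pos hp.1.ne_zero) (by rw [hn, mul_one]))
  have := hp'.eq_of_associated hprim ⟨-hu1.unit, by simp [hu]⟩
  rw [← neg_eq_iff_eq_neg]
  exact this.symm

/-- the cube of the cubic Gauss sum in any domain -/
theorem gauss_cube (hp' : Prim p) {R : Type*} [CommRing R] [IsDomain R] (φ : O →+* R)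
    (h3 : (3 : R) ≠ 0) {ψ : AddChar (Fq p) R} (hψ : ψ.IsPrimitive) :
    gaussSum ((chiO p hl).ringHomComp φ) ψ ^ 3 = φ (-p * nm p) := by
  have : Fact (Nat.Prime 3) := ⟨Nat.prime_three⟩
  have hc := chiO_comp_pow_three hl φ
  have ho := orderOf_eq_prime hc (chiO_comp_ne_one hl φ h3)
  have h := gaussSum_pow_eq_prod_jacobiSum (χ := (chiO p hl).ringHomComp φ) (by omega) hψ
  have e : (chiO p hl).ringHomComp φ (-1) = 1 := by
    have h1 : ((chiO p hl).ringHomComp φ ^ 3) (-1) = 1 := by
      rw [hc, MulChar.one_apply isUnit_one.neg]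
    rw [MulChar.pow_apply' _ (by norm_num), ← map_pow] at h1
    norm_num at h1
    exact h1
  rw [ho, e] at h
  rw [h]
  simp only [Nat.add_one_sub_one, Nat.Ico_succ_singleton, Finset.prod_singleton, pow_one, one_mul]
  rw [jacobiSum_ringHomComp, jacobi_eq hl hp', card_Fq, map_mul, map_natCast, mul_comm]

end

theorem gaussSum_frob_pow {R R' : Type*} [CommRing R] [Fintype R] [CommRing R'] (l : ℕ)
    [Fact l.Prime] [CharP R' l] (χ : MulChar R R') (ψ : AddChar R R') (n : ℕ) :
    gaussSum χ ψ ^ l ^ n = gaussSum (χ ^ l ^ n) (ψ ^ l ^ n) := by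
  induction n with
  | zero => simp
  | succ n ih => rw [pow_succ, pow_mul, ih, gaussSum_frob, ← pow_mul, ← pow_mul]

/-- the congruence behind cubic reciprocity -/
theorem recip_core {a b : O} (ha : Prime a) (ha' : Prim a) (hb : Prime b) (hb' : Prim b)
    (h : ¬a ∣ (nm b : O)) : cub (nm a * a) b = conj (cub (nm b) a) := by
  have := Fact.mk ha
  have := Fact.mk hb
  have hla := ha'.not_lam_dvd
  obtain ⟨n', hl', hc'⟩ := FiniteField.card (Fq b) (ringChar (Fq b))
  have hq : ((nm b : ℕ) : Fq a) ≠ 0 := by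
    rw [← map_natCast (red a)]
    exact mt red_eq_zero.1 h
  have hch : ringChar (Fq b) ≠ ringChar (Fq a) := by
    intro e
    apply hq
    rw [← card_Fq, hc', e, Nat.cast_pow, ringChar.Nat.cast_ringChar, zero_pow n'.ne_zero]
  let ψ := AddChar.FiniteField.primitiveChar (Fq a) (Fq b) hch
  let K := CyclotomicField ψ.n (Fq b)
  have hinj := (algebraMap (Fq b) K).injective
  let φ : O →+* K := (algebraMap (Fq b) K).comp (red b)
  have hφ : ∀ x y, φ x = φ y → b ∣ x - y := fun x y e => red_eq_iff.1 (hinj e)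
  have h3 : (3 : K) ≠ 0 := by
    intro e
    have h1 := hφ 3 0 (by rw [map_zero, map_ofNat, e])
    rw [sub_zero] at h1
    have h2 : b ∣ lam ^ 2 := by rw [lam_sq]; exact h1.neg_right
    have h4 := hb.dvd_of_dvd_pow h2
    exact hb'.not_lam_dvd ((hb.irreducible.associated_of_dvd prime_lam.irreducible h4).symm.dvd)
  have : Fact (ringChar (Fq b)).Prime := ⟨hl'⟩
  have : CharP K (ringChar (Fq b)) := charP_of_injective_algebraMap hinj _
  set χ := (chiO a hla).ringHomComp φ with hχ
  have hc := chiO_comp_pow_three hla φ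
  have g3 := gauss_cube hla ha' φ h3 ψ.prim
  have hm := hb'.nm_mod
  have hN : nm b = 3 * ((nm b - 1) / 3) + 1 := by omega
  have hf := gaussSum_frob_pow (ringChar (Fq b)) χ ψ.char n'
  rw [← hc', card_Fq, AddChar.pow_mulShift] at hf
  have e1 : χ ^ nm b = χ := by rw [hN, pow_succ, pow_mul, hc, one_pow, one_mul]
  have e2 := gaussSum_mulShift χ ψ.char (Units.mk0 _ hq)
  rw [Units.val_mk0] at e2
  rw [e1] at hf
  have hg : gaussSum χ ψ.char ≠ 0 := by
    intro e
    rw [e, zero_pow (by norm_num)] at g3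
    have h1 := hφ _ 0 (by rw [← g3, map_zero])
    rw [sub_zero, ← mul_star_self] at h1
    have h2 : b ∣ a ∨ b ∣ star a := by
      rcases hb.dvd_or_dvd h1 with h2 | h2
      · exact Or.inl (dvd_neg.1 h2)
      · exact hb.dvd_or_dvd h2
    apply h
    rw [← mul_star_self]
    rcases h2 with h2 | h2
    · exact (hb.irreducible.associated_of_dvd ha.irreducible h2).symm.dvd.mul_right _
    · have h4 : star b ∣ a := by simpa [starRingEnd_apply] using map_dvd (starRingEnd O) h2
      have h5 : Prime (star b) := (MulEquiv.prime_iff (starRingAut (R := O)).toMulEquiv).2 hb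
      exact (h5.irreducible.associated_of_dvd ha.irreducible h4).symm.dvd.mul_left _
  have e3 : χ (nm b) * φ ((-a * nm a) ^ ((nm b - 1) / 3)) = 1 := by
    apply mul_right_cancel₀ hg
    rw [one_mul, map_pow, ← g3, ← pow_mul, mul_assoc, ← pow_succ, ← hN, hf, e2]
  have e4 : χ (nm b) = φ (cubP (nm b) a) := by
    rw [hχ, MulChar.ringHomComp_apply, ← map_natCast (red a), chiO_red]
  have e5 : χ (nm b) ^ 3 = 1 := by
    rw [← MulChar.pow_apply' _ (by norm_num), hc, MulChar.one_apply hq.isUnit]
  have e6 : φ ((-a * nm a) ^ ((nm b - 1) / 3)) = φ (cubP (nm b) a ^ 2) := by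
    rw [map_pow φ (cubP _ _), ← e4]
    linear_combination χ (nm b) ^ 2 * e3 - φ ((-a * nm a) ^ ((nm b - 1) / 3)) * e5
  have e7 := cubP_eq_of_dvd hb hb'.not_lam_dvd (by
    rcases cubP_cases (nm b) a with e | e | e | e <;> rw [e]
    · simp
    · simp
    · simp
    · refine Or.inr (Or.inr (Or.inl ?_))
      linear_combination om * om_cube) (hφ _ _ e6)
  rw [conj_cub, cub_prime ha, ← map_pow, ← e7, ← cub_prime hb, neg_mul, cub_neg_left, mul_comm]

end Vale.Agent.P026
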