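import Mathlib

/-! # P026 (quasi-RH): shared definitions.  See `notes/P026.md`. -/

namespace Vale.Agent.P026

open scoped ComplexConjugate Real ContDiff

/-- Eisenstein integers `re + im * ω`, `ω² = -1 - ω`. -/
abbrev O : Type := QuadraticAlgebra ℤ (-1) (-1)

/-- `ω` -/
def om : O := ⟨0, 1⟩
/-- `λ = √-3 = 1 + 2ω` -/
def lam : O := ⟨1, 2⟩

/-- the norm, as a natural number -/
def nm (x : O) : ℕ := (x.re ^ 2 - x.re * x.im + x.im ^ 2).natAbs

theorem nm_int (x : O) : (nm x : ℤ) = x.re ^ 2 - x.re * x.im + x.im ^ 2 :=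
  Int.natAbs_of_nonneg (by nlinarith [sq_nonneg (2 * x.re - x.im), sq_nonneg x.im])

theorem nm_mul (x y : O) : nm (x * y) = nm x * nm y := by
  zify
  simp only [nm_int, QuadraticAlgebra.re_mul, QuadraticAlgebra.im_mul]
  ring

theorem nm_eq_zero {x : O} : nm x = 0 ↔ x = 0 := by
  refine ⟨fun h => ?_, fun h => by simp [h, nm]⟩
  have h1 := nm_int x
  rw [h, Nat.cast_zero] at h1
  have h2 : x.im = 0 := pow_eq_zero_iff two_ne_zero |>.1
    (le_antisymm (by nlinarith [sq_nonneg (2 * x.re - x.im)]) (sq_nonneg x.im))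
  have h3 : x.re = 0 := by
    rw [h2] at h1
    exact pow_eq_zero_iff two_ne_zero |>.1 (by linarith)
  ext <;> simp [h2, h3]

/-- nearest integer to `a / n` -/
def rdiv (a n : ℤ) : ℤ := (2 * a + n) / (2 * n)

theorem rdiv_spec (a n : ℤ) (hn : 0 < n) :
    -n ≤ 2 * (a - n * rdiv a n) ∧ 2 * (a - n * rdiv a n) < n := by
  have h1 := Int.mul_ediv_add_emod (2 * a + n) (2 * n)
  have h2 := Int.emod_nonneg (2 * a + n) (by omega : 2 * n ≠ 0)
  have h3 := Int.emod_lt_of_pos (2 * a + n) (by omega : 0 < 2 * n)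
  unfold rdiv
  constructor <;> nlinarith

/-- Euclidean quotient -/
def equo (x y : O) : O := ⟨rdiv (x * star y).re (nm y), rdiv (x * star y).im (nm y)⟩

theorem nm_star (x : O) : nm (star x) = nm x := by
  zify
  simp only [nm_int, QuadraticAlgebra.re_star, QuadraticAlgebra.im_star]
  ring

theorem mul_star_self (y : O) : y * star y = (nm y : O) := by
  have : ((nm y : ℤ) : O) = (nm y : O) := by push_cast; rfl
  rw [← this, nm_int]
  ext <;> simp [QuadraticAlgebra.re_mul, QuadraticAlgebra.im_mul, pow_two] <;> ring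

theorem nm_sub_equo (x y : O) (hy : y ≠ 0) : 4 * nm (x - y * equo x y) ≤ 3 * nm y := by
  have hn : 0 < (nm y : ℤ) := by exact_mod_cast Nat.pos_of_ne_zero (mt nm_eq_zero.1 hy)
  have h1 : (x - y * equo x y) * star y = x * star y - (nm y : O) * equo x y := by
    rw [← mul_star_self]; ring
  have h2 := congrArg (fun z => (nm z : ℤ)) h1
  simp only [nm_mul, nm_star] at h2
  push_cast at h2
  rw [nm_int (x * star y - _)] at h2
  have e1 : (x * star y - (nm y : O) * equo x y).re =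
      (x * star y).re - nm y * rdiv (x * star y).re (nm y) := by
    simp [equo, QuadraticAlgebra.re_mul]
  have e2 : (x * star y - (nm y : O) * equo x y).im =
      (x * star y).im - nm y * rdiv (x * star y).im (nm y) := by
    simp [equo, QuadraticAlgebra.im_mul]
  rw [e1, e2] at h2
  obtain ⟨a1, a2⟩ := rdiv_spec (x * star y).re _ hn
  obtain ⟨b1, b2⟩ := rdiv_spec (x * star y).im _ hn
  generalize (x * star y).re - nm y * rdiv (x * star y).re (nm y) = a at *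
  generalize (x * star y).im - nm y * rdiv (x * star y).im (nm y) = b at *
  zify
  have : 4 * (a ^ 2 - a * b + b ^ 2) ≤ 3 * (nm y : ℤ) ^ 2 := by nlinarith
  nlinarith

instance : EuclideanDomain O where
  quotient := equo
  quotient_zero x := by ext <;> simp [equo, rdiv, nm]
  remainder x y := x - y * equo x y
  quotient_mul_add_remainder_eq x y := by ring
  r x y := nm x < nm y
  r_wellFounded := (measure nm).wf
  remainder_lt x y hy := by
    have := nm_sub_equo x y hy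
    have := Nat.pos_of_ne_zero (mt nm_eq_zero.1 hy)
    omega
  mul_left_not_lt x y hy := by
    rw [nm_mul]
    exact not_lt.2 (Nat.le_mul_of_pos_right _ (Nat.pos_of_ne_zero (mt nm_eq_zero.1 hy)))

/-- the embedding `O → ℂ`, `ω ↦ (-1 + i√3)/2` -/
noncomputable def toC : O →+* ℂ where
  toFun x := ⟨x.re - x.im / 2, x.im * (√3 / 2)⟩
  map_one' := by
    apply Complex.ext <;> simp [QuadraticAlgebra.re_one, QuadraticAlgebra.im_one]
  map_zero' := by apply Complex.ext <;> simp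
  map_add' x y := by apply Complex.ext <;> simp <;> ring
  map_mul' x y := by
    have h : √3 * √3 = 3 := Real.mul_self_sqrt (by norm_num)
    apply Complex.ext
    · simp only [QuadraticAlgebra.re_mul, QuadraticAlgebra.im_mul, Complex.mul_re]
      push_cast
      linear_combination (x.im * y.im / 4 : ℝ) * h
    · simp only [QuadraticAlgebra.im_mul, Complex.mul_im]
      push_cast
      ring

/-- the additive character `z ↦ e(Tr(z/√-3))` of `ℂ`; trivial on `O`, and `O` is self-dual -/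
noncomputable def ec (z : ℂ) : ℂ := Complex.exp (2 * π * Complex.I * ((2 * z.im / √3 : ℝ) : ℂ))

/-- `ec (x / n)` -/
noncomputable def eq (x n : O) : ℂ := ec (toC x / toC n)

/-- primary: `≡ 1 mod 3` -/
def Prim (n : O) : Prop := (3 : O) ∣ n - 1
/-- primary and odd -/
def IsP (n : O) : Prop := Prim n ∧ ¬(2 : O) ∣ n
/-- primary, odd and squarefree -/
def IsS (n : O) : Prop := IsP n ∧ Squarefree n

/-- all `x` with `nm x ≤ X` (see `mem_ball`) -/
noncomputable def ball (X : ℝ) : Finset O :=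
  open Classical in
  (((Finset.Icc (-2 * ⌈X⌉) (2 * ⌈X⌉)) ×ˢ (Finset.Icc (-2 * ⌈X⌉) (2 * ⌈X⌉))).image
    fun p : ℤ × ℤ => (⟨p.1, p.2⟩ : O)).filter fun x => (nm x : ℝ) ≤ X

/-- `IsS` elements of norm at most `X` -/
noncomputable def sball (X : ℝ) : Finset O := open Classical in (ball X).filter IsS

/-- primary divisors -/
noncomputable def pdiv (n : O) : Finset O :=
  open Classical in (ball (nm n)).filter fun e => Prim e ∧ e ∣ n

/-- a complete residue system mod `n ≠ 0` (see `res_spec`) -/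
noncomputable def res (n : O) : Finset O :=
  open Classical in
  if h : (Set.range (Quotient.out : O ⧸ Ideal.span {n} → O)).Finite then h.toFinset else ∅

/-- Möbius function -/
noncomputable def mu (n : O) : ℂ := (UniqueFactorizationMonoid.moebius n : ℤ)

/-- indicator -/
noncomputable def ind (p : Prop) : ℂ := open Classical in if p then 1 else 0

/-- cubic residue symbol at a prime (equal to `1` at `λ`) -/
noncomputable def cubP (a p : O) : O :=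
  open Classical in
  if p ∣ a ^ ((nm p - 1) / 3) - 1 then 1
  else if p ∣ a ^ ((nm p - 1) / 3) - om then om
  else if p ∣ a ^ ((nm p - 1) / 3) - om ^ 2 then om ^ 2 else 0

/-- quadratic residue symbol at an odd prime -/
noncomputable def quadP (a p : O) : O :=
  open Classical in
  if p ∣ a ^ ((nm p - 1) / 2) - 1 then 1 else if p ∣ a ^ ((nm p - 1) / 2) + 1 then -1 else 0

/-- cubic symbol `(a/n)₃`; ignores the `λ`-part of `n` -/
noncomputable def cub (a n : O) : ℂ :=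
  ((UniqueFactorizationMonoid.factors n).map fun p => toC (cubP a p)).prod

/-- quadratic symbol `(a/n)₂` (for odd `n`) -/
noncomputable def quad (a n : O) : ℂ :=
  ((UniqueFactorizationMonoid.factors n).map fun p => toC (quadP a p)).prod

/-- sextic symbol `χ_n(a)` -/
noncomputable def sex (a n : O) : ℂ := quad a n * conj (cub a n)

/-- cubic Gauss sum `g(ν, n)` -/
noncomputable def g3 (ν n : O) : ℂ := ∑ x ∈ res n, cub x n * eq (ν * x) n
/-- normalised cubic Gauss sum -/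
noncomputable def gt3 (n : O) : ℂ := g3 1 n / (√(nm n) : ℝ)
/-- normalised sextic Gauss sum -/
noncomputable def gt6 (n : O) : ℂ := (∑ x ∈ res n, sex x n * eq x n) / (√(nm n) : ℝ)
/-- normalised quadratic Gauss sum -/
noncomputable def gt2 (n : O) : ℂ := (∑ x ∈ res n, quad x n * eq x n) / (√(nm n) : ℝ)

/-- `n / |n|` -/
noncomputable def ang (n : O) : ℂ := toC n / (√(nm n) : ℝ)
/-- `N(n)^{it}` -/
noncomputable def nt (n : O) (t : ℝ) : ℂ := Complex.exp (Complex.I * t * Real.log (nm n))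
/-- `2π/√3` -/
noncomputable def c0 : ℝ := 2 * π / √3

/-- `f` has period `q` -/
def Per (q : O) (f : O → ℂ) : Prop := ∀ x y, q ∣ x - y → f x = f y

/-- smooth weight supported in `[1/B, B]` -/
def Adm (B : ℝ) (V : ℝ → ℝ) : Prop :=
  1 ≤ B ∧ ContDiff ℝ ∞ V ∧ ∀ x, V x ≠ 0 → 1 / B ≤ x ∧ x ≤ B

/-- A family of primitive characters `X n` mod `n`, with Gauss sums and reciprocity sign. -/
structure Fam where
  X : O → O → ℂ
  g : O → ℂ
  ε : O → O → ℂ
  mul_left : ∀ m n a, IsP m → IsP n → X (m * n) a = X m a * X n a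
  mul_right : ∀ n a b, IsP n → X n (a * b) = X n a * X n b
  one_left : ∀ a, X 1 a = 1
  per : ∀ n, Per n (X n)
  norm_X : ∀ n a, IsP n → IsCoprime a n → ‖X n a‖ = 1
  X_eq_zero : ∀ n a, IsP n → ¬IsCoprime a n → X n a = 0
  norm_g : ∀ n, IsS n → ‖g n‖ = 1
  norm_ε : ∀ a b, ‖ε a b‖ ≤ 1
  ε_per : ∀ a a' b b', (72 : O) ∣ a - a' → (72 : O) ∣ b - b' → ε a b = ε a' b'
  ft : ∀ m₁ m₂ k, IsS m₁ → IsS m₂ → IsCoprime m₁ m₂ →
    ∑ x ∈ res (m₁ * m₂), X m₁ x * conj (X m₂ x) * eq (k * x) (m₁ * m₂) =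
      (√(nm m₁) * √(nm m₂) : ℝ) * g m₁ * conj (g m₂) * ε m₁ m₂ * conj (X m₁ k) * X m₂ k

/-! ## rows, theta -/

/-- the cubic symbol of a primitive row `(c, d)` -/
noncomputable def Sy (r : O × O) : ℂ :=
  open Classical in if lam ∣ r.1 then cub r.1 r.2 else cub r.2 r.1

/-- `Ψ = Sy * η` with `η` periodic mod `m`, `|η| ≤ 1`, supported on primitive rows -/
def Cls (m : O) (Ψ : O × O → ℂ) : Prop :=
  (∀ r : O × O, ¬IsCoprime r.1 r.2 → Ψ r = 0) ∧ (∀ r, ‖Ψ r‖ ≤ 1) ∧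
  ∀ r r' : O × O, IsCoprime r.1 r.2 → IsCoprime r'.1 r'.2 → m ∣ r.1 - r'.1 → m ∣ r.2 - r'.2 →
    Ψ r * Sy r' = Ψ r' * Sy r

/-- row vector times matrix -/
def rmul (r : O × O) (g : Matrix.SpecialLinearGroup (Fin 2) O) : O × O :=
  (r.1 * g.1 0 0 + r.2 * g.1 1 0, r.1 * g.1 0 1 + r.2 * g.1 1 1)

/-- `|cz+d|² + |c|²v²` -/
noncomputable def den (r : O × O) (w : ℂ × ℝ) : ℝ :=
  ‖toC r.1 * w.1 + toC r.2‖ ^ 2 + ‖toC r.1‖ ^ 2 * w.2 ^ 2

/-- height of `γ w` when `γ` has bottom row `r` -/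
noncomputable def vr (r : O × O) (w : ℂ × ℝ) : ℝ := w.2 / den r w

/-- the action of `SL₂(O)` on hyperbolic 3-space `{(z, v) : v > 0}` -/
noncomputable def act (g : Matrix.SpecialLinearGroup (Fin 2) O) (w : ℂ × ℝ) : ℂ × ℝ :=
  (((toC (g.1 0 0) * w.1 + toC (g.1 0 1)) * conj (toC (g.1 1 0) * w.1 + toC (g.1 1 1)) +
      toC (g.1 0 0) * conj (toC (g.1 1 0)) * (w.2 : ℂ) ^ 2) / (den (g.1 1 0, g.1 1 1) w : ℝ),
    vr (g.1 1 0, g.1 1 1) w)

/-- Whittaker function -/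
noncomputable def Wh (s : ℂ) (ν : O) (v : ℝ) : ℂ :=
  ∫ z : ℂ, ((v / (‖z‖ ^ 2 + v ^ 2) : ℝ) : ℂ) ^ s * ec (-(toC ν * z / 9))

/-- the Fourier series with coefficients `τ` -/
noncomputable def th (τ : O → ℂ) (w : ℂ × ℝ) : ℂ :=
  ∑' ν : O, τ ν * Wh (4 / 3) ν w.2 * ec (toC ν * w.1 / 9)

/-- normalised theta coefficients on primary `n = c d³` -/
noncomputable def th0 (n : O) : ℂ :=
  open Classical in
  if h : ∃ p : O × O, Prim p.1 ∧ Squarefree p.1 ∧ Prim p.2 ∧ n = p.1 * p.2 ^ 3 then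
    conj (gt3 h.choose.1) * (√(nm h.choose.2) : ℝ) else 0

/-! ## interfaces -/

/-- quadratic large sieve (weak form) -/
def QLSStmt : Prop :=
  ∃ C : ℝ, 0 < C ∧ ∀ (M X : ℝ) (a : O → ℂ), 1 ≤ M → 1 ≤ X →
    ∑ k ∈ sball M, ‖∑ n ∈ sball X, a n * quad n k‖ ^ 2 ≤
      C * (M ^ (6 / 5 : ℝ) + X ^ (41 / 25 : ℝ)) * ∑ n ∈ sball X, ‖a n‖ ^ 2

/-- the cubic theta functions -/
def ThetaStmt : Prop :=
  ∃ (ρ : (O × O → ℂ) → O → ℂ) (C : ℝ),
    (∀ Ψ, Cls 9 Ψ → ∀ (g : Matrix.SpecialLinearGroup (Fin 2) O) (w : ℂ × ℝ), 0 < w.2 →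
      th (ρ Ψ) (act g w) = th (ρ fun r => Ψ (rmul r g⁻¹)) w) ∧
    (∀ Ψ, Cls 9 Ψ → ∀ ζ : ℂ, ‖ζ‖ ≤ 1 → ∀ ν, ρ (fun r => ζ * Ψ r) ν = ζ * ρ Ψ ν) ∧
    (∀ Ψ, Cls 9 Ψ → ∀ ν, ν ≠ 0 → ρ Ψ ν ≠ 0 → ∃ (u : O) (j : ℕ) (c d : O), IsUnit u ∧ Prim c ∧
      Squarefree c ∧ Prim d ∧ ν = u * lam ^ j * c * d ^ 3 ∧
      ‖ρ Ψ ν‖ ≤ C * 3 ^ (j / 3 : ℝ) * (nm c : ℝ) ^ (-1 / 6 : ℝ)) ∧
    ∃ (u : O) (j : ℕ) (κ : ℂ), IsUnit u ∧ κ ≠ 0 ∧ ∀ α, Prim α → ∃ Ψ, Cls 9 Ψ ∧
      ∀ n, (9 : O) ∣ n - α → ρ Ψ (u * lam ^ j * n) = κ * th0 n * ((nm n : ℝ) ^ (-1 / 6 : ℝ) : ℝ)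

open Classical in
/-- Voronoi bound -/
def VBStmt : Prop :=
  ∀ (Q : O) (B : ℝ) (V : ℝ → ℝ) (ε : ℝ), Q ≠ 0 → (72 : O) ∣ Q → Adm B V → 0 < ε →
    ∃ C A : ℝ, 0 < C ∧ 0 ≤ A ∧ ∀ (N K t : ℝ) (R : O) (φ η : O → ℂ), 1 / B ≤ N → 1 ≤ K → R ≠ 0 →
      Q ∣ R → Per R φ → (∀ n, ‖φ n‖ ≤ 1) → (∀ n, ¬Prim n → φ n = 0) →
      (∀ u, Q ∣ u - 1 → IsCoprime u R → ‖η u‖ = 1 ∧ ∀ n, φ (u * n) = η u * φ n) →
      ∑ k ∈ (sball K).filter (fun k => IsCoprime k R), ‖∑ n ∈ ball (B * N),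
          th0 n * ang n * φ n * (quad n k * cub n k) * V (nm n / N) * nt n t‖ ^ 2 ≤
        C * (1 + |t|) ^ A * (K * nm R) ^ ε * nm R * N *
          (K ^ (6 / 5 : ℝ) + (K ^ 2 * (nm R : ℝ) ^ 2 / N) ^ (41 / 25 : ℝ))

/-- the twisted Möbius sum -/
noncomputable def Asum (Q α : O) (B : ℝ) (V : ℝ → ℝ) (N t : ℝ) (h : O) : ℂ :=
  ∑ n ∈ sball (B * N), ind (Q ∣ n - α) * mu n * sex h n * V (nm n / N) * nt n t

/-- mean square bound with loss `N^θ` -/
def PStmt (Q : O) (θ : ℝ) : Prop :=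
  ∀ (B : ℝ) (V : ℝ → ℝ) (ε : ℝ), Adm B V → 0 < ε →
    ∃ C A : ℝ, 0 < C ∧ 0 ≤ A ∧ ∀ (N H t : ℝ) (α : O), 0 < N → 1 ≤ H → N ^ (599 / 500 : ℝ) ≤ H →
      ∑ h ∈ ball H, ‖Asum Q α B V N t h‖ ^ 2 ≤ C * (1 + |t|) ^ A * H ^ (1 + ε) * N ^ (1 + θ)

end Vale.Agent.P026
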