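import Vale.Agent.P026.Poisson

/-! The Landsberg-Schaar relation in `O` (analytic part of `QGauss`). -/

namespace Vale.Agent.P026

open scoped ComplexConjugate Real
open Filter Topology

namespace QG

theorem c0_pos : 0 < c0 := by unfold c0; positivity

theorem lim_per {q : O} (hq : q ≠ 0) {f : O → ℂ} (hf : Per q f) :
    Tendsto (fun t : ℝ => (t : ℂ) * ∑' h : O, f h * (Real.exp (-(t * nm h)) : ℝ)) (𝓝[>] 0)
      (𝓝 ((c0 / nm q : ℝ) * ∑ x ∈ res q, f x)) := by
  have hN : (0 : ℝ) < nm q := by exact_mod_cast nm_pos hq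
  have hc := c0_pos
  classical
  have h1 : Tendsto (fun t : ℝ => ∑' k : O, (∑ x ∈ res q, f x * eq (k * x) q) *
      (Real.exp (-(c0 ^ 2 * t⁻¹ * nm k / nm q)) : ℝ)) (𝓝[>] 0)
      (𝓝 (∑' k : O, if k = 0 then ∑ x ∈ res q, f x else 0)) := by
    refine tendsto_tsum_of_dominated_convergence
      (bound := fun k => (∑ x ∈ res q, ‖f x‖) * Real.exp (-(c0 ^ 2 / nm q * nm k)))
      ((summable_exp (by positivity)).mul_left _) (fun k => ?_) ?_
    · split_ifs with hk
      · subst hk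
        simp
      · have hk' : (0 : ℝ) < nm k := by exact_mod_cast nm_pos hk
        have h2 : Tendsto (fun t : ℝ => Real.exp (-(c0 ^ 2 * t⁻¹ * nm k / nm q))) (𝓝[>] 0)
            (𝓝 0) := by
          refine Real.tendsto_exp_neg_atTop_nhds_zero.comp ?_
          have := tendsto_inv_nhdsGT_zero.const_mul_atTop
            (by positivity : 0 < c0 ^ 2 * nm k / nm q)
          refine this.congr fun t => by ring
        have h3 := (Complex.continuous_ofReal.tendsto 0).comp h2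
        simpa using h3.const_mul (∑ x ∈ res q, f x * eq (k * x) q)
    · filter_upwards [Ioo_mem_nhdsGT (zero_lt_one' ℝ)] with t ht k
      rw [norm_mul, Complex.norm_real, Real.norm_of_nonneg (Real.exp_pos _).le]
      refine mul_le_mul ((norm_sum_le _ _).trans (le_of_eq ?_)) ?_ (Real.exp_pos _).le
        (Finset.sum_nonneg fun _ _ => norm_nonneg _)
      · simp [norm_eq]
      · apply Real.exp_le_exp.2
        have h4 : 1 ≤ t⁻¹ := one_le_inv_iff₀.2 ⟨ht.1, ht.2.le⟩
        have h5 : 0 ≤ c0 ^ 2 / nm q * nm k := by positivity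
        have : c0 ^ 2 * t⁻¹ * nm k / nm q = t⁻¹ * (c0 ^ 2 / nm q * nm k) := by ring
        rw [this]
        nlinarith
  rw [tsum_ite_eq] at h1
  refine (h1.const_mul ((c0 / nm q : ℝ) : ℂ)).congr' ?_
  filter_upwards [self_mem_nhdsWithin] with t ht
  have ht' : (0 : ℝ) < t := ht
  have := poisson_gauss hq hf (inv_pos.2 ht')
  simp only [div_inv_eq_mul, mul_comm (nm _ : ℝ) t] at this
  rw [this, ← mul_assoc]
  congr 1
  have : (t : ℂ) ≠ 0 := by exact_mod_cast ht'.ne'
  push_cast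
  field_simp

theorem lim_one : Tendsto (fun t : ℝ => t * ∑' h : O, Real.exp (-(t * nm h))) (𝓝[>] 0) (𝓝 c0) := by
  have h := lim_per (q := 1) one_ne_zero (f := fun _ => 1) (fun _ _ _ => rfl)
  have h2 := (Complex.continuous_re.tendsto _).comp h
  have e : (((c0 / nm 1 : ℝ) : ℂ) * ∑ x ∈ res 1, (1 : ℂ)).re = c0 := by
    simp [card_res]
  rw [e] at h2
  refine h2.congr fun t => ?_
  simp only [Function.comp, one_mul]
  rw [← Complex.ofReal_tsum, ← Complex.ofReal_mul, Complex.ofReal_re]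

theorem lim_pert {q : O} (hq : q ≠ 0) {f : O → ℂ} (hf : Per q f) (hf1 : ∀ y, ‖f y‖ ≤ 1)
    {l : Filter ℝ} {t η : ℝ → ℝ} (ht : Tendsto t l (𝓝[>] 0)) (hη : Tendsto η l (𝓝 0))
    (F : ℝ → O → ℂ) (hF : ∀ᶠ δ in l, ∀ y, ‖F δ y - f y‖ ≤ η δ * (t δ * nm y)) :
    Tendsto (fun δ => (t δ : ℂ) * ∑' y : O, F δ y * (Real.exp (-(t δ * nm y)) : ℝ)) l
      (𝓝 ((c0 / nm q : ℝ) * ∑ x ∈ res q, f x)) := by
  have h1 := (lim_per hq hf).comp ht
  have ht2 : Tendsto (fun δ => t δ / 2) l (𝓝[>] 0) := by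
    rw [tendsto_nhdsWithin_iff] at ht ⊢
    refine ⟨by simpa using ht.1.div_const 2, ht.2.mono fun δ h => ?_⟩
    exact half_pos (show 0 < t δ from h)
  have h2 := ((lim_one.comp ht2).const_mul 4).mul (hη.abs)
  simp only [abs_zero, mul_zero] at h2
  have h3 : Tendsto (fun δ => (t δ : ℂ) * ∑' y : O, (F δ y - f y) * (Real.exp (-(t δ * nm y)) : ℝ))
      l (𝓝 0) ∧ ∀ᶠ δ in l, Summable fun y : O => (F δ y - f y) * (Real.exp (-(t δ * nm y)) : ℝ) := by
    have key : ∀ᶠ δ in l, 0 < t δ ∧ ∀ y : O, ‖(F δ y - f y) * (Real.exp (-(t δ * nm y)) : ℝ)‖ ≤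
        2 * |η δ| * Real.exp (-(t δ / 2 * nm y)) := by
      filter_upwards [hF, (tendsto_nhdsWithin_iff.1 ht).2] with δ h hδ
      have hδ' : 0 < t δ := hδ
      refine ⟨hδ', fun y => ?_⟩
      rw [norm_mul, Complex.norm_real, Real.norm_of_nonneg (Real.exp_pos _).le]
      have hx : 0 ≤ t δ * nm y := by positivity
      have e : Real.exp (-(t δ * nm y)) =
          Real.exp (-(t δ / 2 * nm y)) * Real.exp (-(t δ / 2 * nm y)) := by
        rw [← Real.exp_add]; congr 1; ring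
      have h4 : t δ * nm y * Real.exp (-(t δ / 2 * nm y)) ≤ 2 := by
        have h5 := Real.add_one_le_exp (t δ / 2 * nm y)
        rw [Real.exp_neg, ← div_eq_mul_inv, div_le_iff₀ (Real.exp_pos _)]
        linarith
      calc ‖F δ y - f y‖ * Real.exp (-(t δ * nm y))
          ≤ |η δ| * (t δ * nm y) * Real.exp (-(t δ * nm y)) := by
            refine mul_le_mul_of_nonneg_right ((h y).trans ?_) (Real.exp_pos _).le
            exact mul_le_mul_of_nonneg_right (le_abs_self _) hx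
        _ = |η δ| * (t δ * nm y * Real.exp (-(t δ / 2 * nm y))) *
              Real.exp (-(t δ / 2 * nm y)) := by rw [e]; ring
        _ ≤ |η δ| * 2 * Real.exp (-(t δ / 2 * nm y)) := by gcongr
        _ = _ := by ring
    refine ⟨squeeze_zero_norm' ?_ h2, key.mono fun δ h => ?_⟩
    · filter_upwards [key] with δ h
      rw [norm_mul, Complex.norm_real, Real.norm_of_nonneg h.1.le]
      have hs := (summable_exp (half_pos h.1)).mul_left (2 * |η δ|)
      have := tsum_of_norm_bounded hs.hasSum h.2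
      rw [tsum_mul_left] at this
      calc t δ * _ ≤ t δ * (2 * |η δ| * ∑' y : O, Real.exp (-(t δ / 2 * nm y))) :=
            mul_le_mul_of_nonneg_left this h.1.le
        _ = _ := by simp only [Function.comp]; ring
    · exact Summable.of_norm_bounded ((summable_exp (half_pos h.1)).mul_left _) h.2
  have h4 := h1.add h3.1
  rw [add_zero] at h4
  refine h4.congr' ?_
  filter_upwards [h3.2, (tendsto_nhdsWithin_iff.1 ht).2] with δ hs hδ
  have hδ' : 0 < t δ := hδ
  have hs' : Summable fun y : O => f y * (Real.exp (-(t δ * nm y)) : ℝ) := by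
    refine Summable.of_norm_bounded (summable_exp hδ') fun y => ?_
    rw [norm_mul, Complex.norm_real, Real.norm_of_nonneg (Real.exp_pos _).le]
    exact mul_le_of_le_one_left (Real.exp_pos _).le (hf1 y)
  simp only [Function.comp]
  rw [← mul_add, ← hs'.tsum_add hs]
  congr 1
  exact tsum_congr fun y => by ring

theorem norm_ec_sub (a b : ℂ) : ‖ec a - ec b‖ ≤ 2 * c0 * ‖a - b‖ := by
  have e : ec a - ec b = ec b * (ec (a - b) - 1) := by
    rw [mul_sub, ← ec_add, mul_one]; congr 2; ring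
  rw [e, norm_mul, norm_ec, one_mul]
  have e2 : ec (a - b) = Complex.exp (Complex.I * ((2 * c0 * (a - b).im : ℝ) : ℂ)) := by
    unfold ec c0
    congr 1
    push_cast
    ring
  rw [e2]
  refine Real.norm_exp_I_mul_ofReal_sub_one_le.trans ?_
  have hc := c0_pos
  rw [Real.norm_eq_abs, abs_mul, abs_of_pos (by positivity : 0 < 2 * c0)]
  exact mul_le_mul_of_nonneg_left (Complex.abs_im_le_norm _) (by positivity)

theorem ls_formula {n : O} (hn : n ≠ 0) :
    ∑ x ∈ res n, eq (x ^ 2) n = (√(nm n) : ℝ) * ((∑ y ∈ res 2, eq (-(n * y ^ 2)) 4) / 2) := by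
  have hc := c0_pos
  have hN : (0 : ℝ) < nm n := by exact_mod_cast nm_pos hn
  have hn' : toC n ≠ 0 := mt toC_eq_zero.1 hn
  set κ : ℂ := (toC n)⁻¹ with hκ
  have hk2 : ‖κ‖ ^ 2 = (nm n : ℝ)⁻¹ := by rw [hκ, norm_inv, inv_pow, norm_toC_sq]
  have hA : 0 < 4 * c0 ^ 2 * ‖κ‖ ^ 2 := by rw [hk2]; positivity
  set A := 4 * c0 ^ 2 * ‖κ‖ ^ 2 with hAdef
  have h1 := lim_per hn (f := fun x => eq (x ^ 2) n) (fun x y h => eq_congr
    (h.trans ⟨x + y, by ring⟩))
  have ht : Tendsto (fun δ : ℝ => c0 ^ 2 * δ / (δ ^ 2 + A)) (𝓝[>] 0) (𝓝[>] 0) := by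
    rw [tendsto_nhdsWithin_iff]
    constructor
    · have : ContinuousAt (fun δ : ℝ => c0 ^ 2 * δ / (δ ^ 2 + A)) 0 := by
        refine ContinuousAt.div (by fun_prop) (by fun_prop) ?_
        simpa using hA.ne'
      simpa using this.tendsto.mono_left nhdsWithin_le_nhds
    · filter_upwards [self_mem_nhdsWithin] with δ hδ
      have : 0 < δ := hδ
      rw [Set.mem_Ioi]
      positivity
  have hη : Tendsto (fun δ : ℝ => ‖toC n‖ / (2 * c0) * δ) (𝓝[>] 0) (𝓝 0) := by
    have : ContinuousAt (fun δ : ℝ => ‖toC n‖ / (2 * c0) * δ) 0 := by fun_prop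
    simpa using this.tendsto.mono_left nhdsWithin_le_nhds
  have h2 := lim_pert (q := 2) two_ne_zero (f := fun y => eq (-(n * y ^ 2)) 4)
    (fun x y h => eq_congr (by
      obtain ⟨k, hk⟩ := h
      have : x = y + 2 * k := by rw [← hk]; ring
      exact ⟨-(n * (y * k + k ^ 2)), by rw [this]; ring⟩))
    (fun y => (norm_eq _ _).le) ht hη
    (fun δ y => ec (-((c0 ^ 2 / (δ ^ 2 + A) : ℝ) * conj κ * toC y ^ 2))) (by
      filter_upwards [self_mem_nhdsWithin] with δ hδ y
      have hδ' : 0 < δ := hδ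
      refine (norm_ec_sub _ _).trans (le_of_eq ?_)
      have hck : conj κ = toC n * ((‖κ‖ ^ 2 : ℝ) : ℂ) := by
        rw [← Complex.normSq_eq_norm_sq, Complex.normSq_eq_conj_mul_self, hκ]
        field_simp
      have hD : ((δ ^ 2 + A : ℝ) : ℂ) ≠ 0 := by exact_mod_cast (by positivity : δ ^ 2 + A ≠ 0)
      have e : -(((c0 ^ 2 / (δ ^ 2 + A) : ℝ) : ℂ) * conj κ * toC y ^ 2) -
          toC (-(n * y ^ 2)) / toC 4 = ((δ ^ 2 / (4 * (δ ^ 2 + A)) : ℝ) : ℂ) * toC n * toC y ^ 2 := by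
        rw [hck, map_neg, map_mul, map_pow, map_ofNat]
        have : (((‖κ‖ ^ 2 : ℝ) : ℂ)) = (A : ℂ) / (4 * c0 ^ 2) := by
          have : (c0 : ℂ) ≠ 0 := by exact_mod_cast hc.ne'
          rw [hAdef]; push_cast; field_simp
        rw [this]
        have : (c0 : ℂ) ≠ 0 := by exact_mod_cast hc.ne'
        push_cast at hD ⊢
        field_simp
        ring
      rw [e, norm_mul, norm_mul, norm_pow, norm_toC_sq, Complex.norm_real,
        Real.norm_of_nonneg (by positivity)]
      field_simp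
      ring)
  have h3 : Tendsto (fun δ : ℝ => ((√(δ ^ 2 + A) / c0 : ℝ) : ℂ)) (𝓝[>] 0)
      (𝓝 ((√A / c0 : ℝ) : ℂ)) := by
    have : ContinuousAt (fun δ : ℝ => ((√(δ ^ 2 + A) / c0 : ℝ) : ℂ)) 0 := by fun_prop
    simpa using this.tendsto.mono_left nhdsWithin_le_nhds
  have h4 := tendsto_nhds_unique h1 ((h3.mul h2).congr' (by
    filter_upwards [self_mem_nhdsWithin] with δ hδ
    have hδ' : 0 < δ := hδ
    have hp := poisson_general hδ' κ 0
    simp only [add_zero, mul_zero, ec_zero, mul_one, norm_toC_sq] at hp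
    have e1 : ∑' h : O, eq (h ^ 2) n * (Real.exp (-(δ * nm h)) : ℝ) =
        ∑' x : O, Complex.exp (-(δ * nm x : ℝ)) * ec (κ * toC x ^ 2) := by
      refine tsum_congr fun x => ?_
      rw [mul_comm, Complex.ofReal_exp, Complex.ofReal_neg, eq, map_pow, hκ, div_eq_inv_mul]
    rw [e1, hp, ← hAdef, ← mul_assoc, ← mul_assoc]
    congr 1
    · have hD : 0 < δ ^ 2 + A := by positivity
      have hs := Real.sqrt_pos.2 hD
      have hss := Real.mul_self_sqrt hD.le
      rw [← Complex.ofReal_mul, ← Complex.ofReal_mul]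
      congr 1
      field_simp
      rw [sq, hss]
    · refine tsum_congr fun y => ?_
      rw [mul_comm, Complex.ofReal_exp, Complex.ofReal_neg]))
  have hs := Real.sqrt_pos.2 hN
  have hss := Real.mul_self_sqrt hN.le
  have e3 : √A = 2 * c0 / √(nm n) := by
    rw [Real.sqrt_eq_iff_mul_self_eq hA.le (by positivity), hAdef, hk2]
    field_simp
    rw [sq, hss]
    ring
  rw [e3, nm_two] at h4
  have hc' : (c0 : ℂ) ≠ 0 := by exact_mod_cast hc.ne'
  have hs' : ((√(nm n) : ℝ) : ℂ) ≠ 0 := by exact_mod_cast hs.ne'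
  have hN' : ((nm n : ℝ) : ℂ) = ((√(nm n) : ℝ) : ℂ) * ((√(nm n) : ℝ) : ℂ) := by
    rw [← Complex.ofReal_mul, hss]
  simp only [Complex.ofReal_div, Complex.ofReal_mul] at h4
  rw [hN'] at h4
  push_cast at h4
  field_simp at h4
  linear_combination h4 / 4

end QG

end Vale.Agent.P026
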