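import Vale.Agent.P026.Gauss
import Vale.Agent.P026.QGauss_A

/-! Quadratic Gauss sums and quadratic reciprocity in `O`.
The analytic input is `QG.ls_formula`.  Finite facts about `gam` are checked on coordinates mod 4. -/

namespace Vale.Agent.P026

open scoped ComplexConjugate Real

/-- the value of the normalised quadratic Gauss sum -/
noncomputable def gam (n : O) : ℂ := (∑ y ∈ res 2, eq (-(n * y ^ 2)) 4) / 2

theorem sum_eq_sq {n : O} (hn : n ≠ 0) :
    ∑ x ∈ res n, eq (x ^ 2) n = (√(nm n) : ℝ) * gam n := QG.ls_formula hn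

namespace QG

/-- coordinates mod 4 -/
abbrev Z4 : Type := ZMod 4 × ZMod 4
def red4 (n : O) : Z4 := ((n.re : ZMod 4), (n.im : ZMod 4))
def mul4 (x y : Z4) : Z4 := (x.1 * y.1 - x.2 * y.2, x.1 * y.2 + x.2 * y.1 - x.2 * y.2)
def iz (k : ZMod 4) : GaussianInt :=
  if k = 0 then ⟨1, 0⟩ else if k = 1 then ⟨0, 1⟩ else if k = 2 then ⟨-1, 0⟩ else ⟨0, -1⟩
def GG (x : Z4) : GaussianInt := 1 + iz (-x.2) + iz x.1 + iz (x.2 - x.1)
def ev (x : Z4) : Prop := 2 * x.1 = 0 ∧ 2 * x.2 = 0
instance (x : Z4) : Decidable (ev x) := inferInstanceAs (Decidable (2 * x.1 = 0 ∧ 2 * x.2 = 0))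
def BB (x y : Z4) : GaussianInt :=
  if ¬ev x ∧ ¬ev y then GG (mul4 x y) * star (GG x) * star (GG y) else 0

theorem red_mul (a b : O) : red4 (a * b) = mul4 (red4 a) (red4 b) := by
  simp only [red4, mul4, QuadraticAlgebra.re_mul, QuadraticAlgebra.im_mul]
  push_cast
  congr 1 <;> ring

theorem red_congr {a b : O} (h : (4 : O) ∣ a - b) : red4 a = red4 b := by
  have h' := (dvd_iff_int 4 (a - b)).1 (by exact_mod_cast h)
  simp only [QuadraticAlgebra.re_sub, QuadraticAlgebra.im_sub] at h'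
  simp only [red4]
  congr 1
  · exact ((ZMod.intCast_eq_intCast_iff_dvd_sub _ _ 4).2 h'.1).symm
  · exact ((ZMod.intCast_eq_intCast_iff_dvd_sub _ _ 4).2 h'.2).symm

theorem two_mul_cast (k : ℤ) : 2 * (k : ZMod 4) = 0 ↔ 2 ∣ k := by
  have : 2 * (k : ZMod 4) = ((2 * k : ℤ) : ZMod 4) := by push_cast; rfl
  rw [this, ZMod.intCast_zmod_eq_zero_iff_dvd]
  omega

theorem ev_red (n : O) : ev (red4 n) ↔ (2 : O) ∣ n := by
  have h := dvd_iff_int 2 n
  simp only [ev, red4, two_mul_cast]
  exact_mod_cast h.symm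

theorem iz_add (a b : ZMod 4) : iz (a + b) = iz a * iz b := by
  revert a b
  decide

theorem exp_iz (k : ℤ) :
    Complex.exp (2 * π * Complex.I * (k / 4)) = GaussianInt.toComplex (iz (k : ZMod 4)) := by
  have h1 : Complex.exp (2 * π * Complex.I * (1 / 4)) = Complex.I := by
    rw [show 2 * π * Complex.I * (1 / 4) = π / 2 * Complex.I by ring, Complex.exp_pi_div_two_mul_I]
  have hi : GaussianInt.toComplex (iz 1) = Complex.I := by
    simp [iz, GaussianInt.toComplex_def, show (1 : ZMod 4) ≠ 0 by decide]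
  induction k using Int.induction_on with
  | zero => simp [iz, GaussianInt.toComplex_def]
  | succ k ih =>
    push_cast at ih ⊢
    rw [iz_add, map_mul, ← ih, hi, ← h1, ← Complex.exp_add, h1]
    congr 1; ring
  | pred k ih =>
    push_cast at ih ⊢
    have e : (-(k : ZMod 4)) = (-k - 1) + 1 := by ring
    rw [e, iz_add, map_mul, hi] at ih
    apply mul_right_cancel₀ Complex.I_ne_zero
    rw [← ih]
    conv_lhs => rw [← h1, ← Complex.exp_add, h1]
    congr 1; ring

theorem eq_four (x : O) : eq x 4 = GaussianInt.toComplex (iz (x.im : ZMod 4)) := by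
  rw [eq_def (by decide) x, ← exp_iz]
  have h1 : (x * star 4).im = 4 * x.im := by
    have : (4 : O) = ⟨4, 0⟩ := rfl
    rw [this]
    simp [QuadraticAlgebra.im_mul]
    ring
  have h2 : nm 4 = 16 := by decide
  rw [h1, h2]
  push_cast
  congr 1
  ring

theorem gam_eq (n : O) : gam n = GaussianInt.toComplex (GG (red4 n)) / 2 := by
  unfold gam
  congr 1
  rw [sum_res_eq two_ne_zero (f := fun y => eq (-(n * y ^ 2)) 4) (fun x y h => eq_congr (by
      obtain ⟨k, hk⟩ := h
      have : x = y + 2 * k := by rw [← hk]; ring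
      exact ⟨-(n * (y * k + k ^ 2)), by rw [this]; ring⟩))
    (({0, 1} : Finset ℤ) ×ˢ ({0, 1} : Finset ℤ)) (fun i => ⟨i.1, i.2⟩)]
  · rw [Finset.sum_product, Finset.sum_pair (by norm_num), Finset.sum_pair (by norm_num),
      Finset.sum_pair (by norm_num)]
    simp only [eq_four, GG, red4, map_add, map_one, pow_two, QuadraticAlgebra.im_neg,
      QuadraticAlgebra.im_mul, QuadraticAlgebra.re_mul]
    have h0 : GaussianInt.toComplex (iz 0) = 1 := by simp [iz, GaussianInt.toComplex_def]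
    push_cast
    ring_nf
    rw [h0]
  · intro x
    refine ⟨(x.re % 2, x.im % 2), ⟨?_, ?_⟩, ?_⟩
    · simp only [Finset.mem_product, Finset.mem_insert, Finset.mem_singleton]
      omega
    · have := (dvd_iff_int 2 (x - ⟨x.re % 2, x.im % 2⟩)).2 (by
        simp only [QuadraticAlgebra.re_sub, QuadraticAlgebra.im_sub]
        omega)
      exact_mod_cast this
    · rintro ⟨i, j⟩ ⟨h1, h2⟩
      have := (dvd_iff_int 2 (x - ⟨i, j⟩)).1 (by exact_mod_cast h2)
      simp only [QuadraticAlgebra.re_sub, QuadraticAlgebra.im_sub, Finset.mem_product,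
        Finset.mem_insert, Finset.mem_singleton] at this h1
      simp only [Prod.mk.injEq]
      omega

theorem GG_norm : ∀ x : Z4, ¬ev x → GG x * star (GG x) = 4 := by decide +kernel
theorem GG_sq : ∀ x y : Z4, ¬ev y → GG (mul4 x (mul4 y y)) = GG x := by decide +kernel
theorem BB_mul : ∀ x y z : Z4, BB (mul4 x y) z * 8 = BB x z * BB y z := by decide +kernel
theorem BB_sq : ∀ x y : Z4, ¬ev x → ¬ev y → BB x y * BB x y = 64 := by decide +kernel

end QG

open QG

theorem gam_congr {n n' : O} (h : (4 : O) ∣ n - n') : gam n = gam n' := by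
  rw [gam_eq, gam_eq, red_congr h]

theorem norm_gam {n : O} (h : ¬(2 : O) ∣ n) : ‖gam n‖ = 1 := by
  have h1 := congrArg GaussianInt.toComplex (GG_norm (red4 n) (mt (ev_red n).1 h))
  rw [map_mul, GaussianInt.toComplex_star, Complex.mul_conj, map_ofNat,
    Complex.normSq_eq_norm_sq] at h1
  have h2 : ‖GaussianInt.toComplex (GG (red4 n))‖ ^ 2 = 2 ^ 2 := by
    have : ((‖GaussianInt.toComplex (GG (red4 n))‖ ^ 2 : ℝ) : ℂ) = ((2 ^ 2 : ℝ) : ℂ) := by
      rw [h1]; norm_num
    exact_mod_cast this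
  rw [gam_eq, norm_div, (pow_left_inj₀ (norm_nonneg _) (by norm_num) two_ne_zero).1 h2]
  simp

theorem norm_gam_le_two (n : O) : ‖gam n‖ ≤ 2 := by
  unfold gam
  have := norm_sum_le (res 2) fun y => eq (-(n * y ^ 2)) 4
  simp only [norm_eq, Finset.sum_const, card_res two_ne_zero, nm_two, nsmul_eq_mul] at this
  rw [norm_div, div_le_iff₀ (by simp)]
  norm_num at this ⊢
  exact this

theorem gam_mul_sq {m : O} (h : ¬(2 : O) ∣ m) (n : O) : gam (n * m ^ 2) = gam n := by
  rw [gam_eq, gam_eq, sq, red_mul, red_mul, GG_sq _ _ (mt (ev_red m).1 h)]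

theorem gam_one : gam 1 = 1 := by
  have : GG (red4 1) = 2 := by decide +kernel
  rw [gam_eq, this, map_ofNat]
  norm_num

namespace QG

theorem quad_cases {a n : O} (h2 : ¬(2 : O) ∣ n) (h : IsCoprime a n) :
    quad a n = 1 ∨ quad a n = -1 := sq_eq_one_iff.1 (quad_sq h2 h)

theorem sum_sq_prime {p : O} (hp : Prime p) (h2 : ¬(2 : O) ∣ p) {F : O → ℂ} (hF : Per p F) :
    ∑ x ∈ res p, F (x ^ 2) = ∑ y ∈ res p, (1 + quad y p) * F y := by
  classical
  have hmax : (Ideal.span {p}).IsMaximal := PrincipalIdealRing.isMaximal_of_irreducible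
    hp.irreducible
  let : Field (O ⧸ Ideal.span {p}) := Ideal.Quotient.field _
  have : Finite (O ⧸ Ideal.span {p}) :=
    Nat.finite_of_card_ne_zero (by rw [card_quot hp.ne_zero]; exact (nm_pos hp.ne_zero).ne')
  let : Fintype (O ⧸ Ideal.span {p}) := Fintype.ofFinite _
  have hmk : ∀ x y : O, Ideal.Quotient.mk (Ideal.span {p}) x = Ideal.Quotient.mk _ y ↔
      p ∣ x - y := fun x y => by rw [Ideal.Quotient.eq, Ideal.mem_span_singleton]
  have hF' : ∀ x, F (Ideal.Quotient.mk (Ideal.span {p}) x).out = F x := fun x =>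
    hF _ _ ((hmk _ _).1 (Ideal.Quotient.mk_out _))
  have hch : ringChar (O ⧸ Ideal.span {p}) ≠ 2 := by
    intro h
    have h3 : ((2 : ℕ) : O ⧸ Ideal.span {p}) = 0 := by rw [← h]; exact ringChar.Nat.cast_ringChar
    have h4 : p ∣ 2 := by
      have := (hmk 2 0).1 (by simpa [map_ofNat] using h3)
      simpa using this
    exact h2 (hp.associated_of_dvd prime_two h4).symm.dvd
  have hq : ∀ y : O, ((quadraticChar _ (Ideal.Quotient.mk (Ideal.span {p}) y) : ℤ) : ℂ) =
      quad y p := fun y => by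
    by_cases hy : p ∣ y
    · have : Ideal.Quotient.mk (Ideal.span {p}) y = 0 := by
        rw [Ideal.Quotient.eq_zero_iff_mem, Ideal.mem_span_singleton]; exact hy
      rw [this, quadraticChar_zero, quad_eq_zero h2 fun hc => hp.not_isUnit
        (hc.isUnit_of_dvd' hy dvd_rfl)]
      simp
    · have h0 : Ideal.Quotient.mk (Ideal.span {p}) y ≠ 0 := by
        rwa [Ne, Ideal.Quotient.eq_zero_iff_mem, Ideal.mem_span_singleton]
      have hsq : IsSquare (Ideal.Quotient.mk (Ideal.span {p}) y) ↔ quad y p = 1 := by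
        rw [quad_prime_eq_one_iff hp h2 hy]
        constructor
        · rintro ⟨r, hr⟩
          obtain ⟨r, rfl⟩ := Ideal.Quotient.mk_surjective r
          exact ⟨r, (hmk _ _).1 (by rw [hr, sq, map_mul])⟩
        · rintro ⟨x, hx⟩
          exact ⟨Ideal.Quotient.mk _ x, by rw [(hmk _ _).2 hx, sq, map_mul]⟩
      have hc : IsCoprime y p := ((Prime.coprime_iff_not_dvd hp).2 hy).symm
      by_cases hs : IsSquare (Ideal.Quotient.mk (Ideal.span {p}) y)
      · rw [(quadraticChar_one_iff_isSquare h0).2 hs, hsq.1 hs]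
        simp
      · rw [quadraticChar_neg_one_iff_not_isSquare.2 hs,
          (quad_cases h2 hc).resolve_left (mt hsq.2 hs)]
        simp
  have e1 := sum_res_quot (n := p) fun z => F (z ^ 2).out
  have e2 := sum_res_quot (n := p) fun z => (1 + ((quadraticChar _ z : ℤ) : ℂ)) * F z.out
  simp only [← map_pow, hF', hq] at e1 e2
  rw [e1, e2, ← Finset.sum_fiberwise Finset.univ (fun z => z ^ 2)]
  refine Finset.sum_congr rfl fun y _ => ?_
  rw [Finset.sum_congr rfl (g := fun _ => F y.out) fun z hz => by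
    rw [(Finset.mem_filter.1 hz).2], Finset.sum_const, nsmul_eq_mul]
  congr 1
  have := quadraticChar_card_sqrts hch y
  rw [Set.toFinset_ofPred] at this
  rw [add_comm]
  exact_mod_cast this

theorem per_quad (n : O) : Per n fun x => quad x n := fun _ _ h => quad_congr h

theorem sum_sq_twist {n : O} (h : ¬(2 : O) ∣ n) (hs : Squarefree n) :
    ∀ a, IsCoprime a n →
      ∑ x ∈ res n, eq (a * x ^ 2) n = quad a n * ∑ x ∈ res n, quad x n * eq x n := by
  induction n using UniqueFactorizationMonoid.induction_on_prime with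
  | h₁ => exact absurd (dvd_zero 2) h
  | h₂ u hu =>
    intro a _
    simp only [quad_unit_right hu, one_mul, eq_of_dvd (hu.dvd)]
  | h₃ m p hm hp ih =>
    intro a ha
    have h2p : ¬(2 : O) ∣ p := fun h' => h (h'.mul_right m)
    have h2m : ¬(2 : O) ∣ m := fun h' => h (h'.mul_left p)
    have hpm : IsCoprime p m := (IsRelPrime.of_squarefree_mul hs).isCoprime
    have hprime : ∀ b, IsCoprime b p → ∑ x ∈ res p, eq (b * x ^ 2) p =
        quad b p * ∑ x ∈ res p, quad x p * eq x p := fun b hb => by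
      rw [sum_sq_prime hp h2p (F := fun y => eq (b * y) p)
        (fun x y h' => eq_congr (by rw [← mul_sub]; exact h'.mul_left b))]
      simp only [add_mul, one_mul, Finset.sum_add_distrib]
      rw [sum_eq hp.ne_zero, ind_of_not fun h' => hp.not_isUnit (hb.isUnit_of_dvd' h' dvd_rfl),
        zero_mul, zero_add]
      have := gs_twist hp.ne_zero (per_quad p) (quad_mul_left h2p) hb 1
      simp only [one_mul] at this
      rw [← this, ← mul_assoc, ← sq, quad_sq h2p hb, one_mul]
    rw [sum_res_crt hp.ne_zero hm hpm (f := fun x => eq (a * x ^ 2) (p * m))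
      (fun x y h' => eq_congr (h'.trans ⟨a * (x + y), by ring⟩))]
    have e : ∀ x y : O, eq (a * (m * x + p * y) ^ 2) (p * m) =
        eq (a * m * x ^ 2) p * eq (a * p * y ^ 2) m := fun x y => by
      rw [← eq_crt hp.ne_zero hm]
      exact eq_congr ⟨2 * a * x * y, by ring⟩
    simp only [e, ← Finset.mul_sum, ← Finset.sum_mul]
    rw [hprime _ (ha.of_mul_right_left.mul_left hpm.symm),
      ih h2m hs.of_mul_right _ (ha.of_mul_right_right.mul_left hpm)]
    have := gs_crt hp.ne_zero hm hpm (per_quad p) (per_quad m) (quad_mul_left h2p)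
      (quad_mul_left h2m) 1
    simp only [one_mul] at this
    simp only [quad_mul_right hp.ne_zero hm]
    rw [this, quad_mul_left h2p, quad_mul_left h2m]
    ring

end QG

theorem gt2_eq {n : O} (h : ¬(2 : O) ∣ n) (hs : Squarefree n) : gt2 n = gam n := by
  have h1 := sum_sq_twist h hs 1 isCoprime_one_left
  simp only [one_mul, quad_one_left] at h1
  have hN : (0 : ℝ) < nm n := by exact_mod_cast nm_pos hs.ne_zero
  have hs' : ((√(nm n) : ℝ) : ℂ) ≠ 0 := by exact_mod_cast (Real.sqrt_pos.2 hN).ne'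
  rw [gt2, ← h1, sum_eq_sq hs.ne_zero, mul_div_cancel_left₀ _ hs']

/-- reciprocity sign -/
noncomputable def bq (a b : O) : ℂ :=
  ind (¬(2 : O) ∣ a ∧ ¬(2 : O) ∣ b) * (gam (a * b) * conj (gam a) * conj (gam b))

theorem QG.bq_eq (a b : O) : bq a b = GaussianInt.toComplex (BB (red4 a) (red4 b)) / 8 := by
  unfold bq BB
  by_cases h : ¬(2 : O) ∣ a ∧ ¬(2 : O) ∣ b
  · rw [if_pos (by rwa [ev_red, ev_red]), ind_of h, gam_eq, gam_eq, gam_eq, red_mul]
    simp only [map_mul, map_div₀, GaussianInt.toComplex_star, map_ofNat]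
    ring
  · rw [if_neg (by rwa [ev_red, ev_red]), ind_of_not h]
    simp

theorem bq_congr {a a' b b' : O} (ha : (4 : O) ∣ a - a') (hb : (4 : O) ∣ b - b') :
    bq a b = bq a' b' := by
  rw [bq_eq, bq_eq, red_congr ha, red_congr hb]

theorem bq_comm (a b : O) : bq a b = bq b a := by
  unfold bq
  rw [and_comm, mul_comm a b]
  ring

theorem bq_mul_left (a a' b : O) : bq (a * a') b = bq a b * bq a' b := by
  have := congrArg GaussianInt.toComplex (BB_mul (red4 a) (red4 a') (red4 b))
  rw [map_mul, map_mul, map_ofNat] at this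
  rw [bq_eq, bq_eq, bq_eq, red_mul]
  linear_combination this / 64

theorem bq_sq {a b : O} (ha : ¬(2 : O) ∣ a) (hb : ¬(2 : O) ∣ b) : bq a b ^ 2 = 1 := by
  have := congrArg GaussianInt.toComplex
    (BB_sq (red4 a) (red4 b) (mt (ev_red a).1 ha) (mt (ev_red b).1 hb))
  rw [map_mul, map_ofNat] at this
  rw [bq_eq]
  linear_combination this / 64

theorem norm_bq_le (a b : O) : ‖bq a b‖ ≤ 1 := by
  by_cases h : ¬(2 : O) ∣ a ∧ ¬(2 : O) ∣ b
  · have := congrArg norm (bq_sq h.1 h.2)
    rw [norm_pow, norm_one] at this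
    exact ((pow_eq_one_iff_of_nonneg (norm_nonneg _) two_ne_zero).1 this).le
  · unfold bq
    rw [ind_of_not h]
    simp

namespace QG

theorem recip_sqfree {a b : O} (ha : ¬(2 : O) ∣ a) (hb : ¬(2 : O) ∣ b) (sa : Squarefree a)
    (sb : Squarefree b) : quad a b = bq a b * quad b a := by
  by_cases h : IsCoprime a b
  · have hab : ¬(2 : O) ∣ a * b := fun h' => (prime_two.dvd_or_dvd h').elim ha hb
    have h1 := gt2_mul ha hb h
    rw [gt2_eq hab ((squarefree_mul_iff).2 ⟨h.isRelPrime, sa, sb⟩), gt2_eq ha sa,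
      gt2_eq hb sb] at h1
    have h2 : gam a * conj (gam a) = 1 := by
      rw [Complex.mul_conj, Complex.normSq_eq_norm_sq, norm_gam ha]; simp
    have h3 : gam b * conj (gam b) = 1 := by
      rw [Complex.mul_conj, Complex.normSq_eq_norm_sq, norm_gam hb]; simp
    have h4 := quad_sq ha h.symm
    rw [bq, ind_of ⟨ha, hb⟩, h1]
    calc quad a b = quad a b * quad b a ^ 2 * (gam a * conj (gam a)) * (gam b * conj (gam b)) := by
          rw [h2, h3, h4]; ring
      _ = _ := by ring
  · rw [quad_eq_zero hb h, quad_eq_zero ha fun h' => h h'.symm, mul_zero]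

theorem recip_left {b : O} (hb : ¬(2 : O) ∣ b) (sb : Squarefree b) (a : O) :
    ¬(2 : O) ∣ a → quad a b = bq a b * quad b a := by
  induction a using UniqueFactorizationMonoid.induction_on_prime with
  | h₁ => exact fun h => absurd (dvd_zero 2) h
  | h₂ u hu => exact fun h => recip_sqfree h hb hu.squarefree sb
  | h₃ m p hm hp ih =>
    intro h
    rw [quad_mul_left hb, bq_mul_left, quad_mul_right hp.ne_zero hm,
      ih fun h' => h (h'.mul_left p),
      recip_sqfree (fun h' => h (h'.mul_right m)) hb hp.squarefree sb]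
    ring

theorem odd_nm {n : O} (hn : ¬(2 : O) ∣ n) : Odd (nm n) := by
  have h := dvd_iff_int 2 n
  have h1 : ¬(2 ∣ n.re ∧ 2 ∣ n.im) := fun h' => hn (by exact_mod_cast h.2 h')
  have h2 := nm_int n
  rw [← Int.odd_coe_nat, h2]
  rcases Int.even_or_odd' n.re with ⟨k, hk | hk⟩ <;>
    rcases Int.even_or_odd' n.im with ⟨l, hl | hl⟩
  · exact absurd ⟨⟨k, hk⟩, ⟨l, hl⟩⟩ h1
  · rw [hk, hl]; exact ⟨2 * k ^ 2 - k * (2 * l + 1) + 2 * l ^ 2 + 2 * l, by ring⟩
  · rw [hk, hl]; exact ⟨2 * k ^ 2 + 2 * k - (2 * k + 1) * l + 2 * l ^ 2, by ring⟩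
  · rw [hk, hl]; exact ⟨2 * k ^ 2 + k - 2 * k * l + 2 * l ^ 2 + l, by ring⟩

theorem quad_two_congr {n n' : O} (hn : ¬(2 : O) ∣ n) (hn' : ¬(2 : O) ∣ n')
    (h : (8 : O) ∣ n - n') : quad 2 n = quad 2 n' := by
  have h1 := quad_int hn 2
  have h2 := quad_int hn' 2
  rw [jacobiSym.at_two (odd_nm hn)] at h1
  rw [jacobiSym.at_two (odd_nm hn')] at h2
  have h3 : ((nm n : ℕ) : ZMod 8) = ((nm n' : ℕ) : ZMod 8) := by
    obtain ⟨⟨k, hk⟩, ⟨l, hl⟩⟩ := (dvd_iff_int 8 (n - n')).1 (by exact_mod_cast h)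
    simp only [QuadraticAlgebra.re_sub, QuadraticAlgebra.im_sub] at hk hl
    rw [← Int.cast_natCast, ← Int.cast_natCast (nm n'), ZMod.intCast_eq_intCast_iff_dvd_sub,
      nm_int, nm_int, show n.re = n'.re + 8 * k by omega, show n.im = n'.im + 8 * l by omega]
    exact ⟨-(2 * n'.re * k + 8 * k ^ 2 - n'.re * l - k * n'.im - 8 * k * l + 2 * n'.im * l +
      8 * l ^ 2), by push_cast; ring⟩
  push_cast at h1 h2
  rw [h1, h2, h3]

end QG

theorem quad_recip {a b : O} (ha : ¬(2 : O) ∣ a) (hb : ¬(2 : O) ∣ b) :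
    quad a b = bq a b * quad b a := by
  induction b using UniqueFactorizationMonoid.induction_on_prime with
  | h₁ => exact absurd (dvd_zero 2) hb
  | h₂ u hu => exact recip_left hb hu.squarefree a ha
  | h₃ m p hm hp ih =>
    rw [quad_mul_left ha, bq_comm, bq_mul_left, quad_mul_right hp.ne_zero hm,
      ih fun h' => hb (h'.mul_left p),
      recip_left (fun h' => hb (h'.mul_right m)) hp.squarefree a ha, bq_comm p a, bq_comm m a]
    ring

theorem quad_den_congr {a n n' R : O} (ha : a ≠ 0) (hn : ¬(2 : O) ∣ n) (h8 : (8 : O) ∣ R)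
    (hR : ∀ p, Prime p → p ∣ a → p ∣ R) (h : R ∣ n - n') : quad a n = quad a n' := by
  have h8' := h8.trans h
  have h4 : (4 : O) ∣ n - n' := (show (4 : O) ∣ 8 from ⟨2, by norm_num⟩).trans h8'
  have h2 : (2 : O) ∣ n - n' := (show (2 : O) ∣ 8 from ⟨4, by norm_num⟩).trans h8'
  have hn' : ¬(2 : O) ∣ n' := fun h' => hn (by simpa using h2.add h')
  have hodd : ∀ b : O, ¬(2 : O) ∣ b → b ∣ n - n' → quad b n = quad b n' := fun b hb hb' => by
    rw [quad_recip hb hn, quad_recip hb hn', quad_congr hb', bq_congr (a := b) (a' := b) (by simp) h4]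
  have hu : ∀ u : O, IsUnit u → quad u n = quad u n' := fun u hu =>
    hodd u (fun h' => prime_two.not_isUnit (isUnit_of_dvd_unit h' hu)) hu.dvd
  induction a using UniqueFactorizationMonoid.induction_on_prime with
  | h₁ => exact absurd rfl ha
  | h₂ u hu' => exact hu u hu'
  | h₃ m p hm hp ih =>
    rw [quad_mul_left hn, quad_mul_left hn', ih hm fun q hq hq' => hR q hq (hq'.mul_left p)]
    congr 1
    by_cases hp2 : (2 : O) ∣ p
    · obtain ⟨u, rfl⟩ := prime_two.associated_of_dvd hp hp2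
      rw [quad_mul_left hn, quad_mul_left hn', hu u u.isUnit, quad_two_congr hn hn' h8']
    · exact hodd p hp2 ((hR p hp (dvd_mul_right p m)).trans h)

end Vale.Agent.P026
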