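import Vale.Agent.P026.Cubic
import Vale.Agent.P026.QGauss

/-! The three character families. -/

namespace Vale.Agent.P026

open scoped ComplexConjugate Real

theorem sex_recip {a b : O} (ha : IsP a) (hb : IsP b) : sex a b = bq a b * sex b a := by
  unfold sex
  rw [quad_recip ha.2 hb.2, cub_recip ha.1 hb.1, mul_assoc]

theorem sex_den_congr {a n n' R : O} (ha : a ≠ 0) (hn : IsP n) (h72 : (72 : O) ∣ R)
    (hR : ∀ p, Prime p → p ∣ a → p ∣ R) (h : R ∣ n - n') : sex a n = sex a n' := by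
  unfold sex
  rw [quad_den_congr ha hn.2 (Dvd.dvd.trans ⟨9, by norm_num⟩ h72) hR h,
    cub_den_congr ha hn.1 (Dvd.dvd.trans ⟨8, by norm_num⟩ h72) hR h]

theorem fam_isP_congr {n n' : O} (h : (72 : O) ∣ n - n') : IsP n ↔ IsP n' :=
  ⟨fun hn => hn.of_dvd_sub ⟨12, by norm_num⟩ (dvd_sub_comm.1 h),
    fun hn => hn.of_dvd_sub ⟨12, by norm_num⟩ h⟩

theorem fam_four_dvd {n : O} (h : (72 : O) ∣ n) : (4 : O) ∣ n :=
  Dvd.dvd.trans ⟨18, by norm_num⟩ h

/-- `mu * gt6 = ξ₀ * ang * conj gt3` with `ξ₀` unimodular and depending only on the class mod 72 -/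
theorem exists_xi0 : ∃ ξ : O → ℂ, Per 72 ξ ∧ (∀ n, ‖ξ n‖ = 1) ∧
    ∀ n, IsS n → mu n * gt6 n = ξ n * ang n * conj (gt3 n) := by
  classical
  refine ⟨fun n => if IsP n then cub 4 n * gam n else 1, fun n n' h => ?_, fun n => ?_,
    fun n hn => ?_⟩ <;> beta_reduce
  · by_cases hn : IsP n
    · have hn' := (fam_isP_congr h).1 hn
      rw [if_pos hn, if_pos hn', cub_four_congr hn.1 hn'.1 (Dvd.dvd.trans ⟨36, by norm_num⟩ h),
        gam_congr (fam_four_dvd h)]
    · rw [if_neg hn, if_neg fun k => hn ((fam_isP_congr h).2 k)]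
  · split_ifs with hn
    · have h4 : IsCoprime (4 : O) n := by
        rw [show (4 : O) = 2 ^ 2 by norm_num]
        exact (prime_two.coprime_iff_not_dvd.2 hn.2).pow_left
      rw [norm_mul, norm_cub h4, norm_gam hn.2, one_mul]
    · exact norm_one
  · rw [if_pos hn.1, mu_mul_gt6 hn, gt2_eq hn.1.2 hn.2]

theorem sex_neg_one_congr {n n' : O} (hn : IsP n) (h : (72 : O) ∣ n - n') :
    sex (-1) n = sex (-1) n' :=
  sex_den_congr (by norm_num) hn dvd_rfl
    (fun _ hp k => absurd (isUnit_of_dvd_one (dvd_neg.1 k)) hp.not_isUnit) h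

theorem fam_ind_congr {b b' : O} (h : (72 : O) ∣ b - b') {x y : ℂ} (e : IsP b → x = y) :
    ind (IsP b) * x = ind (IsP b') * y := by
  by_cases hb : IsP b
  · rw [ind_of hb, ind_of ((fam_isP_congr h).1 hb), e hb]
  · rw [ind_of_not hb, ind_of_not fun k => hb ((fam_isP_congr h).2 k), zero_mul, zero_mul]

theorem fam_norm_ind_mul {p : Prop} {x : ℂ} (h : p → ‖x‖ ≤ 1) : ‖ind p * x‖ ≤ 1 := by
  by_cases hp : p
  · rw [ind_of hp, one_mul]
    exact h hp
  · rw [ind_of_not hp, zero_mul, norm_zero]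
    exact zero_le_one

theorem fam_mul_conj {z : ℂ} (h : ‖z‖ = 1) : z * conj z = 1 := by
  rw [Complex.mul_conj, Complex.normSq_eq_norm_sq, h]
  simp

theorem exists_famS : ∃ F : Fam, (∀ n a, F.X n a = sex a n) ∧ ∀ n, F.g n = gt6 n := by
  refine ⟨⟨fun n a => sex a n, gt6, fun a b => ind (IsP b) * (bq b a * sex (-1) b),
    fun m n a hm hn => sex_mul_right hm.1.ne_zero hn.1.ne_zero a,
    fun n a b hn => sex_mul_left hn a b, sex_one_right, fun n x y h => sex_congr h,
    fun n a hn h => norm_sex hn h, fun n a hn h => sex_eq_zero hn h, fun n hn => norm_gt6 hn,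
    fun a b => fam_norm_ind_mul fun _ => ?_, fun a a' b b' ha hb => fam_ind_congr hb fun k => ?_,
    fun m₁ m₂ k h1 h2 h => ?_⟩, fun _ _ => rfl, fun _ => rfl⟩
  · rw [norm_mul]
    exact mul_le_one₀ (norm_bq_le _ _) (norm_nonneg _) (norm_sex_le _ _)
  · rw [bq_congr (fam_four_dvd hb) (fam_four_dvd ha), sex_neg_one_congr k hb]
  · have a1 := gs_crt h1.1.1.ne_zero h2.1.1.ne_zero h (f := fun x => sex x m₁)
      (g := fun x => conj (sex x m₂)) (fun x y e => sex_congr e)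
      (fun x y e => by beta_reduce; rw [sex_congr e]) (sex_mul_left h1.1)
      (fun a b => by rw [sex_mul_left h2.1, map_mul]) k
    have a2 : ∑ x ∈ res m₂, conj (sex x m₂) * eq (k * x) m₂ =
        sex (-1) m₂ * sex k m₂ * conj (gt6 m₂) * (√(nm m₂) : ℝ) := by
      have := congrArg conj (gs_sex h2 (-1 * k))
      rw [map_sum, map_mul, map_mul, Complex.conj_conj, Complex.conj_ofReal,
        sex_mul_left h2.1] at this
      rw [← this]
      refine Finset.sum_congr rfl fun x _ => ?_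
      rw [map_mul, conj_eq]
      congr 2
      ring
    have a3 := fam_mul_conj (norm_sex h2.1 h)
    rw [a1, a2, gs_sex h1, sex_recip h2.1 h1.1, ind_of h2.1]
    push_cast
    linear_combination (bq m₂ m₁ * conj (sex k m₁) * gt6 m₁ * (√(nm m₁) : ℝ) * sex (-1) m₂ *
      sex k m₂ * conj (gt6 m₂) * (√(nm m₂) : ℝ)) * a3

/-- the conjugate family -/
noncomputable def Fam.cj (F : Fam) : Fam where
  X n a := conj (F.X n a)
  g n := F.X n (-1) * conj (F.g n)
  ε a b := conj (F.ε a b)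
  mul_left m n a hm hn := by rw [F.mul_left m n a hm hn, map_mul]
  mul_right n a b hn := by rw [F.mul_right n a b hn, map_mul]
  one_left a := by rw [F.one_left, map_one]
  per n x y h := by
    beta_reduce
    rw [F.per n x y h]
  norm_X n a hn h := by rw [Complex.norm_conj, F.norm_X n a hn h]
  X_eq_zero n a hn h := by rw [F.X_eq_zero n a hn h, map_zero]
  norm_g n hn := by
    rw [norm_mul, Complex.norm_conj, F.norm_g n hn, F.norm_X n _ hn.1 isCoprime_one_left.neg_left,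
      one_mul]
  norm_ε a b := by
    rw [Complex.norm_conj]
    exact F.norm_ε a b
  ε_per a a' b b' ha hb := by rw [F.ε_per a a' b b' ha hb]
  ft m₁ m₂ k h1 h2 h := by
    have := congrArg conj (F.ft m₁ m₂ (-1 * k) h1 h2 h)
    rw [map_sum, F.mul_right _ _ _ h1.1, F.mul_right _ _ _ h2.1] at this
    rw [Finset.sum_congr rfl fun x _ => show conj (F.X m₁ x) * conj (conj (F.X m₂ x)) *
      eq (k * x) (m₁ * m₂) = conj (F.X m₁ x * conj (F.X m₂ x) * eq (-1 * k * x) (m₁ * m₂)) from by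
        rw [map_mul, map_mul, conj_eq]
        congr 2
        ring, this]
    simp only [map_mul, Complex.conj_conj, Complex.conj_ofReal]
    ring

theorem exists_famS' : ∃ F : Fam, (∀ n a, F.X n a = conj (sex a n)) ∧
    ∀ n, F.g n = sex (-1) n * conj (gt6 n) := by
  obtain ⟨F, h1, h2⟩ := exists_famS
  exact ⟨F.cj, fun n a => by rw [← h1]; rfl, fun n => by rw [← h1, ← h2]; rfl⟩

theorem exists_famQ : ∃ F : Fam, (∀ n a, F.X n a = quad a n) ∧ (∀ n, F.g n = gt2 n) ∧
    ∀ m₁ m₂, IsS m₁ → IsS m₂ → IsCoprime m₁ m₂ → (72 : O) ∣ m₁ - m₂ →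
      F.g m₁ * conj (F.g m₂) * F.ε m₁ m₂ = 1 := by
  refine ⟨⟨fun n a => quad a n, gt2, fun a b => ind (IsP b) * (bq b a * gam b ^ 2),
    fun m n a hm hn => quad_mul_right hm.1.ne_zero hn.1.ne_zero a,
    fun n a b hn => quad_mul_left hn.2 a b, quad_one_right, fun n x y h => quad_congr h,
    fun n a hn h => norm_quad hn.2 h, fun n a hn h => quad_eq_zero hn.2 h,
    fun n hn => norm_gt2 hn, fun a b => fam_norm_ind_mul fun k => ?_,
    fun a a' b b' ha hb => fam_ind_congr hb fun _ => ?_,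
    fun m₁ m₂ k h1 h2 h => ?_⟩, fun _ _ => rfl, fun _ => rfl, fun m₁ m₂ h1 h2 _ h => ?_⟩
  · rw [norm_mul, norm_pow, norm_gam k.2, one_pow, mul_one]
    exact norm_bq_le _ _
  · rw [bq_congr (fam_four_dvd hb) (fam_four_dvd ha), gam_congr (fam_four_dvd hb)]
  · have a1 := gs_crt h1.1.1.ne_zero h2.1.1.ne_zero h (f := fun x => quad x m₁)
      (g := fun x => quad x m₂) (fun x y e => quad_congr e) (fun x y e => quad_congr e)
      (quad_mul_left h1.1.2) (quad_mul_left h2.1.2) k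
    have a2 := quad_sq h2.1.2 h
    have a3 := fam_mul_conj (norm_gam h2.1.2)
    simp only [conj_quad]
    rw [a1, gs_quad h1, gs_quad h2, quad_recip h2.1.2 h1.1.2, ind_of h2.1, gt2_eq h2.1.2 h2.2]
    push_cast
    linear_combination (bq m₂ m₁ * quad k m₁ * gt2 m₁ * (√(nm m₁) : ℝ) * quad k m₂ * gam m₂ *
      (√(nm m₂) : ℝ)) * (a2 - a3)
  · have a1 := fam_mul_conj (norm_gam h1.1.2)
    have a2 := fam_mul_conj (norm_gam h2.1.2)
    have a3 : gam (m₂ * m₁) = 1 := by
      rw [← gam_one, ← gam_mul_sq h1.1.2 1]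
      refine gam_congr ?_
      rw [show m₂ * m₁ - 1 * m₁ ^ 2 = -m₁ * (m₁ - m₂) by ring]
      exact (fam_four_dvd h).mul_left _
    show gt2 m₁ * conj (gt2 m₂) * (ind (IsP m₂) * (bq m₂ m₁ * gam m₂ ^ 2)) = 1
    rw [ind_of h2.1, gt2_eq h1.1.2 h1.2, gt2_eq h2.1.2 h2.2, bq, ind_of ⟨h2.1.2, h1.1.2⟩, a3]
    linear_combination (gam m₂ * conj (gam m₂)) ^ 2 * a1 + (gam m₂ * conj (gam m₂) + 1) * a2

end Vale.Agent.P026
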