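import Mathlib

/-! # Separation of variables.

Plan. Let `χ` be a `ContDiffBump (0 : ℝ)` with `rIn = L + 1`, `rOut = L + 2`, and
`G y u = χ u * exp (-u / 2) * exp (-c * y * exp (-u))`. Fourier inversion
(`Continuous.fourierInv_fourier_eq`, or the Schwartz space) gives `φ y t = (2π)⁻¹ * 𝓕 (G y) (t / (2π))`.
Decay in `t`: `Real.fourier_iteratedDeriv` (or `Real.pow_mul_norm_iteratedFDeriv_fourier_le`) reduces to
`|iteratedDeriv n (G y) u| ≤ C n * (1 + y) ^ (-5)` on `|u| ≤ L + 2`. For this write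
`E y u = exp (-c * y * exp (-u))`; by induction the `n`-th derivative of `E y` is `P n (c y exp (-u)) * E y u` for real
polynomials `P n` (`P (n+1) = X * P n - X * derivative (P n)`), and `|P x| * exp (-x) ≤ C (1 + x) ^ (-5)` for `x ≥ 0`;
Leibniz bound `norm_iteratedFDeriv_mul_le`. -/

namespace Vale.Agent.P026

open MeasureTheory

open scoped FourierTransform ContDiff

/-- The family of test functions closed under differentiation. -/
noncomputable def sepF (c : ℝ) (ψ : ℝ → ℂ) (j : ℕ) (y u : ℝ) : ℂ :=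
  ψ u * ((y ^ j * Real.exp (-(c * y * Real.exp (-u))) : ℝ) : ℂ)

theorem sepF_hasDerivAt (c : ℝ) {ψ : ℝ → ℂ} (hψ : Differentiable ℝ ψ) (j : ℕ) (y u : ℝ) :
    HasDerivAt (sepF c ψ j y)
      (sepF c (deriv ψ) j y u + sepF c (fun u => ((c * Real.exp (-u) : ℝ) : ℂ) * ψ u) (j + 1) y u) u := by
  have h1 : HasDerivAt (fun u : ℝ => Real.exp (-u)) (Real.exp (-u) * (-1)) u :=
    (hasDerivAt_neg u).exp
  have h2 : HasDerivAt (fun u : ℝ => y ^ j * Real.exp (-(c * y * Real.exp (-u))))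
      (y ^ j * (Real.exp (-(c * y * Real.exp (-u))) * (-(c * y * (Real.exp (-u) * (-1)))))) u :=
    ((h1.const_mul (c * y)).neg.exp).const_mul _
  have h3 := (hψ u).hasDerivAt.mul h2.ofReal_comp
  refine HasDerivAt.congr_deriv (f := sepF c ψ j y) h3 ?_
  simp only [sepF]
  push_cast
  ring

theorem sepF_cont (c : ℝ) {ψ : ℝ → ℂ} (hψ : Continuous ψ) (j : ℕ) (y : ℝ) : Continuous (sepF c ψ j y) := by
  unfold sepF
  fun_prop

theorem sepF_supp (c : ℝ) {ψ : ℝ → ℂ} (hψ : HasCompactSupport ψ) (j : ℕ) (y : ℝ) :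
    HasCompactSupport (sepF c ψ j y) :=
  hψ.mul_right

theorem sepF_int (c : ℝ) {ψ : ℝ → ℂ} (h1 : Continuous ψ) (h2 : HasCompactSupport ψ) (j : ℕ) (y : ℝ) :
    Integrable (sepF c ψ j y) :=
  (sepF_cont c h1 j y).integrable_of_hasCompactSupport (sepF_supp c h2 j y)

theorem pow_exp_le {a : ℝ} (ha : 0 < a) (k : ℕ) : ∃ K : ℝ, 0 < K ∧ ∀ y : ℝ, 0 ≤ y →
    (1 + y) ^ k * Real.exp (-(a * y)) ≤ K := by
  refine ⟨(k.factorial : ℝ) / a ^ k * Real.exp a, by positivity, fun y hy => ?_⟩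
  have h := Real.pow_div_factorial_le_exp (a * (1 + y)) (by positivity) k
  have hk : (0 : ℝ) < k.factorial := by positivity
  have hak : 0 < a ^ k := by positivity
  rw [div_le_iff₀ hk, mul_pow] at h
  have e : Real.exp (a * (1 + y)) * Real.exp (-(a * y)) = Real.exp a := by
    rw [← Real.exp_add]; congr 1; ring
  have hE : 0 < Real.exp (-(a * y)) := Real.exp_pos _
  rw [div_mul_eq_mul_div, le_div_iff₀ hak, ← e]
  nlinarith [mul_le_mul_of_nonneg_right h hE.le]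

theorem sepF_base {c : ℝ} (hc : 0 < c) {ψ : ℝ → ℂ} (h1 : Continuous ψ) (h2 : HasCompactSupport ψ) (j : ℕ) :
    ∃ C : ℝ, 0 ≤ C ∧ ∀ y : ℝ, 0 ≤ y → ∀ ξ : ℝ, (1 + y) ^ 5 * ‖𝓕 (sepF c ψ j y) ξ‖ ≤ C := by
  obtain ⟨R, -, hR⟩ := h2.exists_pos_le_norm
  obtain ⟨K, hK, hK'⟩ := pow_exp_le (a := c * Real.exp (-R)) (by positivity) (j + 5)
  refine ⟨(∫ u, ‖ψ u‖) * K, mul_nonneg (integral_nonneg fun u => norm_nonneg _) hK.le, fun y hy ξ => ?_⟩
  have hb : ‖𝓕 (sepF c ψ j y) ξ‖ ≤ ∫ u, ‖sepF c ψ j y u‖ :=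
    VectorFourier.norm_fourierIntegral_le_integral_norm _ _ _ _ _
  have hp : ∀ u, (1 + y) ^ 5 * ‖sepF c ψ j y u‖ ≤ ‖ψ u‖ * K := by
    intro u
    by_cases hu : R ≤ ‖u‖
    · simp [sepF, hR u hu]
    · have hu' : u ≤ R := (le_abs_self u).trans (not_le.mp hu).le
      have e1 : Real.exp (-(c * y * Real.exp (-u))) ≤ Real.exp (-(c * Real.exp (-R) * y)) := by
        apply Real.exp_le_exp.mpr
        have : Real.exp (-R) ≤ Real.exp (-u) := Real.exp_le_exp.mpr (by linarith)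
        have : c * y * Real.exp (-R) ≤ c * y * Real.exp (-u) := mul_le_mul_of_nonneg_left this (by positivity)
        linarith
      have e2 : y ^ j ≤ (1 + y) ^ j := pow_le_pow_left₀ hy (by linarith) j
      have e3 : (1 + y) ^ 5 * (y ^ j * Real.exp (-(c * y * Real.exp (-u)))) ≤ K := by
        refine le_trans ?_ (hK' y hy)
        rw [pow_add]
        have : y ^ j * Real.exp (-(c * y * Real.exp (-u))) ≤ (1 + y) ^ j * Real.exp (-(c * Real.exp (-R) * y)) :=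
          mul_le_mul e2 e1 (Real.exp_pos _).le (by positivity)
        calc _ ≤ (1 + y) ^ 5 * ((1 + y) ^ j * Real.exp (-(c * Real.exp (-R) * y))) :=
              mul_le_mul_of_nonneg_left this (by positivity)
          _ = _ := by ring
      simp only [sepF, norm_mul, Complex.norm_real, Real.norm_eq_abs]
      rw [← abs_mul, abs_of_nonneg (by positivity)]
      calc _ = ‖ψ u‖ * ((1 + y) ^ 5 * (y ^ j * Real.exp (-(c * y * Real.exp (-u))))) := by ring
        _ ≤ _ := mul_le_mul_of_nonneg_left e3 (norm_nonneg _)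
  calc (1 + y) ^ 5 * ‖𝓕 (sepF c ψ j y) ξ‖ ≤ (1 + y) ^ 5 * ∫ u, ‖sepF c ψ j y u‖ :=
        mul_le_mul_of_nonneg_left hb (by positivity)
    _ = ∫ u, (1 + y) ^ 5 * ‖sepF c ψ j y u‖ := (integral_const_mul _ _).symm
    _ ≤ ∫ u, ‖ψ u‖ * K := integral_mono ((sepF_int c h1 h2 j y).norm.const_mul _)
        ((h1.integrable_of_hasCompactSupport h2).norm.mul_const _) hp
    _ = _ := integral_mul_const _ _

theorem sepF_bound {c : ℝ} (hc : 0 < c) (n : ℕ) : ∀ (ψ : ℝ → ℂ), ContDiff ℝ ∞ ψ → HasCompactSupport ψ → ∀ j : ℕ,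
    ∃ C : ℝ, 0 ≤ C ∧ ∀ y : ℝ, 0 ≤ y → ∀ ξ : ℝ, (1 + y) ^ 5 * ((1 + |ξ|) ^ n * ‖𝓕 (sepF c ψ j y) ξ‖) ≤ C := by
  induction n with
  | zero =>
    intro ψ h1 h2 j
    simpa using sepF_base hc h1.continuous h2 j
  | succ n ih =>
    intro ψ h1 h2 j
    have hd : ContDiff ℝ ∞ (deriv ψ) := (contDiff_infty_iff_deriv.mp h1).2
    have he : ContDiff ℝ ∞ (fun u : ℝ => ((c * Real.exp (-u) : ℝ) : ℂ) * ψ u) := by
      refine ContDiff.mul ?_ h1
      exact Complex.ofRealCLM.contDiff.comp (by fun_prop : ContDiff ℝ ∞ (fun u : ℝ => c * Real.exp (-u)))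
    have hes : HasCompactSupport (fun u : ℝ => ((c * Real.exp (-u) : ℝ) : ℂ) * ψ u) := h2.mul_left
    obtain ⟨C0, hC0, H0⟩ := ih ψ h1 h2 j
    obtain ⟨C1, hC1, H1⟩ := ih _ hd h2.deriv j
    obtain ⟨C2, hC2, H2⟩ := ih _ he hes (j + 1)
    refine ⟨C0 + C1 + C2, by positivity, fun y hy ξ => ?_⟩
    have hdf : Differentiable ℝ ψ := (contDiff_infty_iff_deriv.mp h1).1
    have i1 := sepF_int c hd.continuous h2.deriv j y
    have i2 := sepF_int c he.continuous hes (j + 1) y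
    have hder : deriv (sepF c ψ j y) = sepF c (deriv ψ) j y +
        sepF c (fun u => ((c * Real.exp (-u) : ℝ) : ℂ) * ψ u) (j + 1) y := by
      funext u
      exact (sepF_hasDerivAt c hdf j y u).deriv
    have hF := Real.fourier_deriv (sepF_int c h1.continuous h2 j y)
      (fun u => (sepF_hasDerivAt c hdf j y u).differentiableAt) (by rw [hder]; exact i1.add i2)
    have hadd : 𝓕 (deriv (sepF c ψ j y)) = 𝓕 (sepF c (deriv ψ) j y) +
        𝓕 (sepF c (fun u => ((c * Real.exp (-u) : ℝ) : ℂ) * ψ u) (j + 1) y) := by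
      rw [hder]
      exact VectorFourier.fourierIntegral_add Real.continuous_fourierChar (by fun_prop) i1 i2
    have hx := congrFun hF ξ
    rw [hadd] at hx
    have hn : |ξ| * ‖𝓕 (sepF c ψ j y) ξ‖ ≤ ‖𝓕 (sepF c (deriv ψ) j y) ξ‖ +
        ‖𝓕 (sepF c (fun u => ((c * Real.exp (-u) : ℝ) : ℂ) * ψ u) (j + 1) y) ξ‖ := by
      refine le_trans ?_ (norm_add_le _ _)
      have := congrArg norm hx
      simp only [Pi.add_apply] at this
      rw [this, norm_smul]
      refine mul_le_mul_of_nonneg_right ?_ (norm_nonneg _)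
      simp only [norm_mul, Complex.norm_real, Complex.norm_I, Real.norm_eq_abs, Complex.norm_ofNat,
        abs_of_pos Real.pi_pos]
      nlinarith [Real.pi_gt_three, abs_nonneg ξ]
    have a0 := H0 y hy ξ
    have a1 := H1 y hy ξ
    have a2 := H2 y hy ξ
    have hP : 0 ≤ (1 + y) ^ 5 * (1 + |ξ|) ^ n := by positivity
    have := mul_le_mul_of_nonneg_left hn hP
    rw [pow_succ (1 + |ξ|)]
    nlinarith

theorem sep {c : ℝ} (hc : 0 < c) (L : ℝ) (hL : 0 ≤ L) (A : ℕ) : ∃ C : ℝ, 0 < C ∧ ∀ y : ℝ, 0 ≤ y →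
    ∃ φ : ℝ → ℂ, Continuous φ ∧ (∀ t, ‖φ t‖ ≤ C * (1 + y) ^ (-5 : ℝ) * (1 + |t|) ^ (-(A : ℝ))) ∧
      ∀ u : ℝ, |u| ≤ L → ((Real.exp (-u / 2) * Real.exp (-(c * y * Real.exp (-u))) : ℝ) : ℂ) =
        ∫ t : ℝ, φ t * Complex.exp (Complex.I * t * u) := by
  let χ : ContDiffBump (0 : ℝ) := ⟨L + 1, L + 2, by linarith, by linarith⟩
  let ψ : ℝ → ℂ := fun u => ((χ u * Real.exp (-u / 2) : ℝ) : ℂ)
  have h1 : ContDiff ℝ ∞ ψ :=
    Complex.ofRealCLM.contDiff.comp (χ.contDiff.mul (by fun_prop : ContDiff ℝ ∞ (fun u : ℝ => Real.exp (-u / 2))))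
  have h2 : HasCompactSupport ψ :=
    (χ.hasCompactSupport.mul_right (f' := fun u => Real.exp (-u / 2))).comp_left (g := Complex.ofReal)
      Complex.ofReal_zero
  obtain ⟨C, hC, H⟩ := sepF_bound hc A ψ h1 h2 0
  obtain ⟨C2, hC2, H2⟩ := sepF_bound hc 2 ψ h1 h2 0
  have hπ := Real.pi_pos
  have hπ3 := Real.pi_gt_three
  refine ⟨(C + 1) * (2 * Real.pi) ^ A, by positivity, fun y hy => ?_⟩
  have hint := sepF_int c h1.continuous h2 0 y
  have hcont : Continuous (𝓕 (sepF c ψ 0 y)) :=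
    VectorFourier.fourierIntegral_continuous Real.continuous_fourierChar (by fun_prop) hint
  refine ⟨fun t => ((2 * Real.pi : ℝ) : ℂ)⁻¹ * 𝓕 (sepF c ψ 0 y) (t / (2 * Real.pi)), by fun_prop, fun t => ?_,
    fun u hu => ?_⟩
  · have a := H y hy (t / (2 * Real.pi))
    have hy1 : 0 < 1 + y := by linarith
    have ht1 : 0 < 1 + |t| := by positivity
    have r1 : (1 + y) ^ (-5 : ℝ) = ((1 + y) ^ 5)⁻¹ := by
      rw [Real.rpow_neg hy1.le]; norm_cast
    have r2 : (1 + |t|) ^ (-(A : ℝ)) = ((1 + |t|) ^ A)⁻¹ := by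
      rw [Real.rpow_neg ht1.le, Real.rpow_natCast]
    have b : (1 + |t|) ^ A ≤ (2 * Real.pi) ^ A * (1 + |t / (2 * Real.pi)|) ^ A := by
      rw [← mul_pow]
      refine pow_le_pow_left₀ ht1.le ?_ A
      rw [abs_div, abs_of_pos (by positivity : 0 < 2 * Real.pi), mul_add, mul_div_cancel₀ _ (by positivity)]
      linarith
    rw [r1, r2, mul_assoc, ← mul_inv, ← div_eq_mul_inv, le_div_iff₀ (by positivity), norm_mul, norm_inv,
      Complex.norm_real, Real.norm_eq_abs, abs_of_pos (by positivity : 0 < 2 * Real.pi)]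
    set N := ‖𝓕 (sepF c ψ 0 y) (t / (2 * Real.pi))‖ with hN
    have hN0 : 0 ≤ N := norm_nonneg _
    have hi : (2 * Real.pi)⁻¹ ≤ 1 := inv_le_one_of_one_le₀ (by linarith)
    calc (2 * Real.pi)⁻¹ * N * ((1 + y) ^ 5 * (1 + |t|) ^ A)
        ≤ 1 * N * ((1 + y) ^ 5 * ((2 * Real.pi) ^ A * (1 + |t / (2 * Real.pi)|) ^ A)) := by gcongr
      _ = (1 + y) ^ 5 * ((1 + |t / (2 * Real.pi)|) ^ A * N) * (2 * Real.pi) ^ A := by ring
      _ ≤ (C + 1) * (2 * Real.pi) ^ A := by gcongr; linarith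
  · have hFi : Integrable (𝓕 (sepF c ψ 0 y)) := by
      have hi := (integrable_one_add_norm (E := ℝ) (μ := volume) (r := 2) (by simp)).const_mul C2
      refine hi.mono' hcont.aestronglyMeasurable (Filter.Eventually.of_forall fun ξ => ?_)
      have a := H2 y hy ξ
      have hx : 0 < 1 + |ξ| := by positivity
      rw [Real.norm_eq_abs, Real.rpow_neg hx.le, ← div_eq_mul_inv, le_div_iff₀ (by positivity)]
      have h5 : 1 ≤ (1 + y) ^ 5 := one_le_pow₀ (by linarith)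
      have : 0 ≤ (1 + |ξ|) ^ 2 * ‖𝓕 (sepF c ψ 0 y) ξ‖ := by positivity
      rw [Real.rpow_two]
      nlinarith
    have hinv := congrFun ((sepF_cont c h1.continuous 0 y).fourierInv_fourier_eq hint hFi) u
    rw [Real.fourierInv_eq'] at hinv
    have hχ : χ u = 1 := χ.one_of_mem_closedBall (by
      simp only [Metric.mem_closedBall, dist_zero_right, Real.norm_eq_abs, χ]; linarith)
    have hval : sepF c ψ 0 y u = ((Real.exp (-u / 2) * Real.exp (-(c * y * Real.exp (-u))) : ℝ) : ℂ) := by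
      simp only [sepF, ψ, hχ]
      push_cast
      ring
    rw [← hval, ← hinv]
    have hcv := Measure.integral_comp_div (fun v : ℝ =>
      Complex.exp (((2 * Real.pi * inner ℝ v u : ℝ) : ℂ) * Complex.I) • 𝓕 (sepF c ψ 0 y) v) (2 * Real.pi)
    rw [abs_of_pos (by positivity : 0 < 2 * Real.pi)] at hcv
    have hne : ((2 * Real.pi : ℝ) : ℂ) ≠ 0 := by exact_mod_cast (by positivity : (2 * Real.pi : ℝ) ≠ 0)
    have e : ∀ t : ℝ, ((2 * Real.pi : ℝ) : ℂ)⁻¹ * 𝓕 (sepF c ψ 0 y) (t / (2 * Real.pi)) *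
        Complex.exp (Complex.I * t * u) = ((2 * Real.pi : ℝ) : ℂ)⁻¹ *
        (Complex.exp (((2 * Real.pi * inner ℝ (t / (2 * Real.pi)) u : ℝ) : ℂ) * Complex.I) •
          𝓕 (sepF c ψ 0 y) (t / (2 * Real.pi))) := by
      intro t
      have : (2 * Real.pi * inner ℝ (t / (2 * Real.pi)) u : ℝ) = t * u := by
        simp only [RCLike.inner_apply, conj_trivial]
        field_simp
      rw [this, smul_eq_mul]
      push_cast
      rw [show Complex.I * (t : ℂ) * u = t * u * Complex.I by ring]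
      ring
    simp_rw [e]
    rw [integral_const_mul, hcv, Complex.real_smul, ← mul_assoc, inv_mul_cancel₀ hne, one_mul]

end Vale.Agent.P026
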