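import Vale.Agent.P026.PSDefs
import Vale.Agent.P026.PSSep

/-! # The dual form is bounded by mean squares of linear forms.

Plan. `dual_alg`: for `m₁, m₂ ∈ sball Z`: `ind (IsCoprime m₁ m₂) = ∑ f ∈ sball Z, mu f * ind (f ∣ m₁) * ind (f ∣ m₂)`
(`ind_coprime_sball`), `ε m₁ m₂ = ∑ α₁ α₂ ∈ res 72, ind .. * ind .. * ε α₁ α₂` (`sum_res_ind`, `F.ε_per`), `conj_nt`;
then `‖x * conj y‖ ≤ (‖x‖ ^ 2 + ‖y‖ ^ 2) / 2`, `card_res`.
`dual_sep`: `nm mᵢ = X * exp uᵢ`, `|uᵢ| ≤ log B`; `dker y m₁ m₂ k = X⁻¹ * exp (-u/2) * exp (-c0² y' exp (-u))`, `u = u₁ + u₂`,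
`y' = y * nm k / X ^ 2`; `sep` with `L = 2 log B` and exponent `A`; `exp (I t u) = nt m₁ t * nt m₂ t * exp (-2 I t log X)`;
finite sums commute with the integral; `norm_integral_le_integral_norm`, `dual_alg`, symmetry `t ↦ -t`
(`integral_neg_eq_self`). Integrability: `Tl` is continuous and bounded in `t`, `integrable_one_add_norm`.
`ps2`: take `A ≥ A' + 2`, sum `dual_sep` over `i`, exchange with the integral, `∫ (1 + |t|) ^ (-2) < ∞`. -/

namespace Vale.Agent.P026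

open scoped ComplexConjugate Real
open MeasureTheory

theorem pstwo_conj_ind (p : Prop) : conj (ind p) = ind p := by
  by_cases h : p
  · rw [ind_of h, map_one]
  · rw [ind_of_not h, map_zero]

theorem pstwo_eps (F : Fam) (m1 m2 : O) : F.ε m1 m2 = ∑ α₁ ∈ res 72, ∑ α₂ ∈ res 72,
    F.ε α₁ α₂ * (ind ((72 : O) ∣ m1 - α₁) * ind ((72 : O) ∣ m2 - α₂)) := by
  have h0 : (72 : O) ≠ 0 := by norm_num
  calc F.ε m1 m2 = F.ε m1 m2 * ((∑ α₁ ∈ res 72, ind ((72 : O) ∣ m1 - α₁)) *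
        ∑ α₂ ∈ res 72, ind ((72 : O) ∣ m2 - α₂)) := by
        rw [sum_res_ind h0, sum_res_ind h0, mul_one, mul_one]
    _ = _ := by
        rw [Finset.sum_mul_sum, Finset.mul_sum]
        refine Finset.sum_congr rfl fun α₁ _ => ?_
        rw [Finset.mul_sum]
        refine Finset.sum_congr rfl fun α₂ _ => ?_
        by_cases h1 : (72 : O) ∣ m1 - α₁
        · by_cases h2 : (72 : O) ∣ m2 - α₂
          · rw [F.ε_per _ _ _ _ h1 h2]
          · rw [ind_of_not h2, mul_zero, mul_zero, mul_zero]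
        · rw [ind_of_not h1, zero_mul, mul_zero, mul_zero]

theorem pstwo_cont_nt (m : O) : Continuous fun t : ℝ => nt m t := by
  unfold nt
  fun_prop

theorem pstwo_int {A : ℝ} (hA : 1 < A) : Integrable fun t : ℝ => (1 + |t|) ^ (-A) := by
  simpa only [Real.norm_eq_abs] using
    integrable_one_add_norm (E := ℝ) (μ := volume) (r := A) (by simpa using hA)

theorem pstwo_dker {B X y : ℝ} (hB : 1 ≤ B) (hX : 0 < X) {m1 m2 : O} (k : O)
    (h1 : X / B ≤ nm m1 ∧ nm m1 ≤ B * X) (h2 : X / B ≤ nm m2 ∧ nm m2 ≤ B * X) :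
    ∃ u : ℝ, |u| ≤ 2 * Real.log B ∧ dker y m1 m2 k = X⁻¹ *
      (Real.exp (-u / 2) * Real.exp (-(c0 ^ 2 * (y * nm k / X ^ 2) * Real.exp (-u)))) ∧
      ∀ t : ℝ, Complex.exp (Complex.I * t * u) =
        Complex.exp (-(Complex.I * t * (2 * Real.log X : ℝ))) * (nt m1 t * nt m2 t) := by
  have hB0 : 0 < B := by linarith
  have key : ∀ {a : ℝ}, X / B ≤ a ∧ a ≤ B * X → 0 < a ∧ |Real.log a - Real.log X| ≤ Real.log B :=
    fun {a} h => by
      have ha : 0 < a := lt_of_lt_of_le (by positivity) h.1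
      have e1 := Real.log_le_log (by positivity) h.1
      have e2 := Real.log_le_log ha h.2
      rw [Real.log_div hX.ne' hB0.ne'] at e1
      rw [Real.log_mul hB0.ne' hX.ne'] at e2
      exact ⟨ha, abs_le.2 ⟨by linarith, by linarith⟩⟩
  obtain ⟨a1, b1⟩ := key h1
  obtain ⟨a2, b2⟩ := key h2
  refine ⟨Real.log (nm m1) - Real.log X + (Real.log (nm m2) - Real.log X),
    (abs_add_le _ _).trans (by linarith), ?_, fun t => ?_⟩
  · have e1 : Real.exp (-(Real.log (nm m1) - Real.log X + (Real.log (nm m2) - Real.log X))) =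
        X ^ 2 / (nm m1 * nm m2) := by
      rw [Real.exp_neg, Real.exp_add, Real.exp_sub, Real.exp_sub, Real.exp_log a1, Real.exp_log a2,
        Real.exp_log hX]
      field_simp
    rw [Real.exp_half, e1, dker, Real.sqrt_div (sq_nonneg _), Real.sqrt_sq hX.le,
      Real.sqrt_mul a1.le, ← mul_assoc]
    congr 1
    · field_simp
    · congr 1
      field_simp
  · simp only [nt, ← Complex.exp_add]
    congr 1
    push_cast
    ring

theorem dual_alg (F : Fam) (Z : ℝ) (β : O → ℂ) (k : O) (t : ℝ) :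
    ‖∑ m1 ∈ sball Z, ∑ m2 ∈ sball Z, ind (IsCoprime m1 m2) * (β m1 * conj (β m2)) * F.ε m1 m2 *
        (conj (F.X m1 k) * F.X m2 k) * (nt m1 t * nt m2 t)‖ ≤
      2592 * ∑ α ∈ res 72, ∑ f ∈ sball Z,
        (‖Tl F Z β k f α t‖ ^ 2 + ‖Tl F Z β k f α (-t)‖ ^ 2) := by
  have e1 : ∑ m1 ∈ sball Z, ∑ m2 ∈ sball Z, ind (IsCoprime m1 m2) * (β m1 * conj (β m2)) *
      F.ε m1 m2 * (conj (F.X m1 k) * F.X m2 k) * (nt m1 t * nt m2 t) =
      ∑ x ∈ (res 72 ×ˢ res 72) ×ˢ sball Z, mu x.2 * F.ε x.1.1 x.1.2 *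
        (Tl F Z β k x.2 x.1.1 t * conj (Tl F Z β k x.2 x.1.2 (-t))) := by
    simp only [Tl, map_sum, map_mul, pstwo_conj_ind, conj_nt, neg_neg, Complex.conj_conj,
      Finset.sum_mul_sum]
    simp only [Finset.mul_sum]
    rw [Finset.sum_comm (s := (res 72 ×ˢ res 72) ×ˢ sball Z)]
    refine Finset.sum_congr rfl fun m1 h1 => ?_
    rw [Finset.sum_comm (s := (res 72 ×ˢ res 72) ×ˢ sball Z)]
    refine Finset.sum_congr rfl fun m2 _ => ?_
    have e2 : ind (IsCoprime m1 m2) * F.ε m1 m2 = ∑ x ∈ (res 72 ×ˢ res 72) ×ˢ sball Z,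
        F.ε x.1.1 x.1.2 * (ind ((72 : O) ∣ m1 - x.1.1) * ind ((72 : O) ∣ m2 - x.1.2)) *
          (mu x.2 * (ind (x.2 ∣ m1) * ind (x.2 ∣ m2))) := by
      rw [ind_coprime_sball h1, pstwo_eps, mul_comm, ← Finset.sum_product', Finset.sum_mul_sum,
        Finset.sum_product (res 72 ×ˢ res 72)]
    calc _ = ind (IsCoprime m1 m2) * F.ε m1 m2 * (β m1 * conj (β m2) *
          (conj (F.X m1 k) * F.X m2 k) * (nt m1 t * nt m2 t)) := by ring
      _ = _ := by
          rw [e2, Finset.sum_mul]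
          exact Finset.sum_congr rfl fun x _ => by ring
  have hc : ((res 72).card : ℝ) = 5184 := by
    rw [card_res (by norm_num), show (72 : O) = ((72 : ℕ) : O) by norm_num, nm_natCast]
    norm_num
  rw [e1]
  refine (norm_sum_le _ _).trans ((Finset.sum_le_sum (g := fun x => (‖Tl F Z β k x.2 x.1.1 t‖ ^ 2 +
    ‖Tl F Z β k x.2 x.1.2 (-t)‖ ^ 2) / 2) fun x _ => ?_).trans_eq ?_)
  · rw [norm_mul, norm_mul, norm_mul, Complex.norm_conj]
    have := mul_le_one₀ (norm_mu_le x.2) (norm_nonneg _) (F.norm_ε x.1.1 x.1.2)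
    refine (mul_le_of_le_one_left (by positivity) this).trans ?_
    nlinarith [sq_nonneg (‖Tl F Z β k x.2 x.1.1 t‖ - ‖Tl F Z β k x.2 x.1.2 (-t)‖)]
  · rw [← Finset.sum_div, Finset.sum_product, Finset.sum_product]
    simp only [Finset.sum_add_distrib, Finset.sum_const, nsmul_eq_mul, hc, ← Finset.mul_sum]
    ring

theorem integrable_Tl (F : Fam) (Z : ℝ) (β : O → ℂ) (k f α : O) {A : ℝ} (hA : 1 < A) :
    Integrable fun t : ℝ => (1 + |t|) ^ (-A) * ‖Tl F Z β k f α t‖ ^ 2 := by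
  have hc : Continuous fun t : ℝ => ‖Tl F Z β k f α t‖ ^ 2 := by
    have := pstwo_cont_nt
    unfold Tl
    fun_prop
  refine (pstwo_int hA).mul_bdd (c := (∑ m ∈ sball Z, ‖ind ((72 : O) ∣ m - α) * ind (f ∣ m) * β m *
    conj (F.X m k)‖) ^ 2) hc.aestronglyMeasurable (Filter.Eventually.of_forall fun t => ?_)
  rw [norm_pow, norm_norm]
  refine pow_le_pow_left₀ (norm_nonneg _) ((norm_sum_le _ _).trans_eq ?_) 2
  exact Finset.sum_congr rfl fun m _ => by rw [norm_mul, norm_nt, mul_one]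

theorem dual_sep (F : Fam) {B : ℝ} (hB : 1 ≤ B) (A : ℕ) (hA : 2 ≤ A) : ∃ C : ℝ, 0 < C ∧
    ∀ (Z X y : ℝ) (β : O → ℂ) (k : O), 0 < X → 0 ≤ y →
      (∀ m ∈ sball Z, β m ≠ 0 → X / B ≤ nm m ∧ nm m ≤ B * X) →
      ‖Dual F Z y β k‖ ≤ C / X * (1 + y * nm k / X ^ 2) ^ (-5 : ℝ) *
        ∫ t : ℝ, (1 + |t|) ^ (-(A : ℝ)) *
          ∑ α ∈ res 72, ∑ f ∈ sball Z, ‖Tl F Z β k f α t‖ ^ 2 := by
  obtain ⟨C, hC, hs⟩ := sep (pow_pos c0_pos 2) (2 * Real.log B)
    (mul_nonneg zero_le_two (Real.log_nonneg hB)) A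
  refine ⟨5184 * C, by positivity, fun Z X y β k hX hy hβ => ?_⟩
  obtain ⟨φ, hφc, hφb, hφ⟩ := hs (y * nm k / X ^ 2) (by positivity)
  have hA1 : (1 : ℝ) < A := by exact_mod_cast hA
  have hφi : Integrable φ := ((pstwo_int hA1).const_mul _).mono' hφc.aestronglyMeasurable
    (Filter.Eventually.of_forall hφb)
  obtain ⟨E, hE⟩ : ∃ E : ℝ → ℂ, ∀ t, E t = Complex.exp (-(Complex.I * t * (2 * Real.log X : ℝ))) :=
    ⟨_, fun _ => rfl⟩
  have hE1 : ∀ t, ‖E t‖ = 1 := fun t => by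
    rw [hE, Complex.norm_exp]
    simp
  have hEc : Continuous E := by
    rw [funext hE]
    fun_prop
  obtain ⟨a, ha⟩ : ∃ a : O → O → ℂ, ∀ m1 m2, a m1 m2 = ind (IsCoprime m1 m2) *
    (β m1 * conj (β m2)) * F.ε m1 m2 * (conj (F.X m1 k) * F.X m2 k) := ⟨_, fun _ _ => rfl⟩
  have hi : ∀ m1 m2, Integrable fun t => φ t * (X⁻¹ * E t * (a m1 m2 * (nt m1 t * nt m2 t))) :=
    fun m1 m2 => hφi.mul_bdd (c := ‖((X⁻¹ : ℝ) : ℂ)‖ * ‖a m1 m2‖) (by
      have := pstwo_cont_nt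
      fun_prop) (Filter.Eventually.of_forall fun t => by
        simp only [norm_mul, hE1, norm_nt, mul_one, le_refl])
  have e1 : Dual F Z y β k = ∫ t, φ t * (X⁻¹ * E t *
      ∑ m1 ∈ sball Z, ∑ m2 ∈ sball Z, a m1 m2 * (nt m1 t * nt m2 t)) := by
    simp only [Finset.mul_sum]
    rw [integral_finsetSum _ fun m1 _ => integrable_finsetSum _ fun m2 _ => hi m1 m2]
    refine Finset.sum_congr rfl fun m1 h1 => ?_
    rw [integral_finsetSum _ fun m2 _ => hi m1 m2]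
    refine Finset.sum_congr rfl fun m2 h2 => ?_
    rw [← ha]
    by_cases h0 : β m1 = 0 ∨ β m2 = 0
    · have : a m1 m2 = 0 := by rcases h0 with h | h <;> simp [ha, h]
      simp [this]
    push Not at h0
    obtain ⟨u, hu, e2, e3⟩ := pstwo_dker (y := y) hB hX k (hβ m1 h1 h0.1) (hβ m2 h2 h0.2)
    rw [e2, Complex.ofReal_mul, hφ u hu, ← integral_const_mul, ← integral_const_mul]
    refine integral_congr_ae (Filter.Eventually.of_forall fun t => ?_)
    simp only [e3, hE]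
    push_cast
    ring
  obtain ⟨S, hS⟩ : ∃ S : ℝ → ℝ, ∀ t, S t = (1 + |t|) ^ (-(A : ℝ)) *
    ∑ α ∈ res 72, ∑ f ∈ sball Z, ‖Tl F Z β k f α t‖ ^ 2 := ⟨_, fun _ => rfl⟩
  have hSi : Integrable S := by
    rw [funext hS]
    simp only [Finset.mul_sum]
    exact integrable_finsetSum _ fun α _ => integrable_finsetSum _ fun f _ =>
      integrable_Tl F Z β k f α hA1
  simp only [← hS]
  obtain ⟨K, hK⟩ : ∃ K : ℝ, K = C * (1 + y * nm k / X ^ 2) ^ (-5 : ℝ) := ⟨_, rfl⟩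
  have hK0 : 0 ≤ K := by rw [hK]; positivity
  rw [e1]
  refine (norm_integral_le_of_norm_le ((hSi.add hSi.comp_neg).const_mul (2592 * K / X))
    (Filter.Eventually.of_forall fun t => ?_)).trans_eq ?_
  · rw [norm_mul, norm_mul, norm_mul, hE1, mul_one, Complex.norm_real,
      Real.norm_of_nonneg (inv_pos.2 hX).le]
    simp only [ha]
    refine (mul_le_mul (hφb t) (mul_le_mul_of_nonneg_left (dual_alg F Z β k t) (by positivity))
      (by positivity) (by positivity)).trans_eq ?_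
    simp only [Pi.add_apply, hS, abs_neg, Finset.sum_add_distrib, ← hK]
    ring
  · rw [integral_const_mul]
    simp only [Pi.add_apply]
    rw [integral_add hSi hSi.comp_neg, integral_neg_eq_self, hK]
    ring

theorem ps2 (F : Fam) {B : ℝ} (hB : 1 ≤ B) (A' : ℝ) : ∃ C : ℝ, 0 < C ∧
    ∀ (ι : Type) (I : Finset ι) (w X y : ι → ℝ) (β : ι → O → ℂ) (k : ι → O) (Z D : ℝ),
      (∀ i ∈ I, 0 ≤ w i ∧ 0 < X i ∧ 0 ≤ y i ∧
        ∀ m ∈ sball Z, β i m ≠ 0 → X i / B ≤ nm m ∧ nm m ≤ B * X i) →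
      (∀ (t : ℝ) (α : O), ∑ i ∈ I, w i / X i * (1 + y i * nm (k i) / X i ^ 2) ^ (-5 : ℝ) *
        ∑ f ∈ sball Z, ‖Tl F Z (β i) (k i) f α t‖ ^ 2 ≤ D * (1 + |t|) ^ A') →
      ∑ i ∈ I, w i * ‖Dual F Z (y i) (β i) (k i)‖ ≤ C * D := by
  obtain ⟨A, hA2, hA⟩ : ∃ A : ℕ, 2 ≤ A ∧ A' + 2 ≤ A :=
    ⟨⌈A'⌉₊ + 2, by omega, by push_cast; linarith [Nat.le_ceil A']⟩
  obtain ⟨C, hC, hs⟩ := dual_sep F hB A hA2
  have hA1 : (1 : ℝ) < A := by exact_mod_cast hA2
  have h2 := pstwo_int (A := 2) one_lt_two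
  have hI : 0 ≤ ∫ t : ℝ, (1 + |t|) ^ (-(2 : ℝ)) := integral_nonneg fun _ => by positivity
  refine ⟨C * ((res 72).card + 1) * (∫ t : ℝ, (1 + |t|) ^ (-(2 : ℝ))) + 1, by positivity,
    fun ι I w X y β k Z D h hD => ?_⟩
  have hD0 : 0 ≤ D := by
    have := hD 0 0
    rw [abs_zero, add_zero, Real.one_rpow, mul_one] at this
    refine le_trans (Finset.sum_nonneg fun i hi => ?_) this
    obtain ⟨a, b, c, -⟩ := h i hi
    positivity
  obtain ⟨v, hv⟩ : ∃ v : ι → ℝ, ∀ i, v i = w i / X i * (1 + y i * nm (k i) / X i ^ 2) ^ (-5 : ℝ) :=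
    ⟨_, fun _ => rfl⟩
  have hi : ∀ i, Integrable fun t : ℝ => v i * ((1 + |t|) ^ (-(A : ℝ)) *
      ∑ α ∈ res 72, ∑ f ∈ sball Z, ‖Tl F Z (β i) (k i) f α t‖ ^ 2) := fun i => by
    refine Integrable.const_mul ?_ _
    simp only [Finset.mul_sum]
    exact integrable_finsetSum _ fun α _ => integrable_finsetSum _ fun f _ =>
      integrable_Tl F Z _ _ f α hA1
  calc _ ≤ ∑ i ∈ I, C * ∫ t : ℝ, v i * ((1 + |t|) ^ (-(A : ℝ)) *
        ∑ α ∈ res 72, ∑ f ∈ sball Z, ‖Tl F Z (β i) (k i) f α t‖ ^ 2) := by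
        refine Finset.sum_le_sum fun i hi => ?_
        obtain ⟨a, b, c, d⟩ := h i hi
        refine (mul_le_mul_of_nonneg_left (hs Z (X i) (y i) (β i) (k i) b c d) a).trans_eq ?_
        rw [integral_const_mul, hv]
        ring
    _ ≤ C * ∫ t : ℝ, (res 72).card * D * (1 + |t|) ^ (-(2 : ℝ)) := by
        rw [← Finset.mul_sum, ← integral_finsetSum _ fun i _ => hi i]
        refine mul_le_mul_of_nonneg_left (integral_mono (integrable_finsetSum _ fun i _ => hi i)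
          (h2.const_mul _) fun t => ?_) hC.le
        have ht : 1 ≤ 1 + |t| := by linarith [abs_nonneg t]
        calc _ = (1 + |t|) ^ (-(A : ℝ)) * ∑ α ∈ res 72, ∑ i ∈ I,
              v i * ∑ f ∈ sball Z, ‖Tl F Z (β i) (k i) f α t‖ ^ 2 := by
              rw [Finset.sum_comm, Finset.mul_sum]
              exact Finset.sum_congr rfl fun i _ => by rw [← Finset.mul_sum, mul_left_comm]
          _ ≤ (1 + |t|) ^ (-(A : ℝ)) * ((res 72).card * (D * (1 + |t|) ^ A')) := by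
              refine mul_le_mul_of_nonneg_left ?_ (by positivity)
              rw [← nsmul_eq_mul]
              exact Finset.sum_le_card_nsmul _ _ _ fun α _ => by simpa only [hv] using hD t α
          _ = (res 72).card * D * (1 + |t|) ^ (-(A : ℝ) + A') := by
              rw [Real.rpow_add (by linarith)]
              ring
          _ ≤ _ := mul_le_mul_of_nonneg_left
              (Real.rpow_le_rpow_of_exponent_le ht (by linarith)) (by positivity)
    _ ≤ _ := by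
        rw [integral_const_mul]
        have := mul_nonneg (mul_nonneg hC.le hI) hD0
        nlinarith

end Vale.Agent.P026
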