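import Vale.Agent.P026.PSSq
import Vale.Agent.P026.PSOne
import Vale.Agent.P026.PSTwo

/-! # The Poisson step (exports `sq_expand0`, `sq_expand_le`, `bil_eq`, `ps3`, `psx0`).

Plan. `ps3`: `‖∑' k, ind (p k) * D k‖ ≤ ∑' k, ‖ind (p k)‖ * ‖D k‖`; the finite sum over `(Δ, e)` goes inside the `tsum`;
`Real.tsum_le_of_sum_le`; for a finite `s` apply `ps2` with index set the triples `(Δ, e, k)`, `k ∈ s`, `p Δ e k`,
`w = c Δ * Y / nm e`, `X / nm Δ`, `y = Y / nm e`. `psx0`: `bil_eq`, split off `k = 0` (`Summable.tsum_eq_add_tsum_ite`),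
`dual_zero`, `ps3` with `p = (k ≠ 0)`. -/

namespace Vale.Agent.P026

open scoped ComplexConjugate Real

open Classical in
theorem ps3 (F : Fam) {B : ℝ} (hB : 1 ≤ B) (A' : ℝ) : ∃ C : ℝ, 0 < C ∧
    ∀ (X Y D : ℝ) (b : O → ℂ) (c : O → ℝ) (p : O → O → O → Prop), 0 < X → 0 < Y →
      (∀ n, b n ≠ 0 → X / B ≤ nm n ∧ nm n ≤ B * X) → (∀ Δ, 0 ≤ c Δ) →
      (∀ (t : ℝ) (α : O) (s : Finset O),
        ∑ Δ ∈ sball (B * X), ∑ e ∈ pdiv Δ, c Δ * (Y * nm Δ / (nm e * X)) *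
          ∑ f ∈ sball (B * X), ∑ k ∈ s.filter (p Δ e),
            (1 + Y * nm Δ ^ 2 * nm k / (nm e * X ^ 2)) ^ (-5 : ℝ) *
              ‖Tl F (B * X) (dco F b Δ e) k f α t‖ ^ 2 ≤ D * (1 + |t|) ^ A') →
      ∑ Δ ∈ sball (B * X), c Δ * ‖∑ e ∈ pdiv Δ, mu e * (c0 * Y / nm e : ℝ) *
        ∑' k : O, ind (p Δ e k) * Dual F (B * X) (Y / nm e) (dco F b Δ e) k‖ ≤ C * D := by
  obtain ⟨C, hC, h2⟩ := ps2 F hB A'
  refine ⟨c0 * C, mul_pos c0_pos hC, fun X Y D b c p hX hY hb hc hD => ?_⟩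
  obtain ⟨g, hg⟩ : ∃ g : (Σ _ : O, O) → O → ℝ, ∀ x k, g x k = c x.1 * (Y / nm x.2) *
    ‖ind (p x.1 x.2 k) * Dual F (B * X) (Y / nm x.2) (dco F b x.1 x.2) k‖ := ⟨_, fun _ _ => rfl⟩
  have hg0 : ∀ x k, 0 ≤ g x k := fun x k => by
    rw [hg]
    exact mul_nonneg (mul_nonneg (hc _) (by positivity)) (norm_nonneg _)
  have hI : ∀ x ∈ (sball (B * X)).sigma fun Δ => pdiv Δ, (0 : ℝ) < nm x.1 ∧ (0 : ℝ) < nm x.2 :=
    fun x hx => by
      obtain ⟨a1, a2⟩ := Finset.mem_sigma.1 hx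
      have := (mem_sball.1 a1).1.1.1.ne_zero
      exact ⟨by exact_mod_cast nm_pos this,
        by exact_mod_cast nm_pos ((mem_pdiv this).1 a2).1.ne_zero⟩
  have hs : ∀ x ∈ (sball (B * X)).sigma fun Δ => pdiv Δ, Summable fun k =>
      ‖ind (p x.1 x.2 k) * Dual F (B * X) (Y / nm x.2) (dco F b x.1 x.2) k‖ := fun x hx =>
    (summable_dual F (B * X) (div_pos hY (hI x hx).2) _).norm.of_nonneg_of_le
      (fun _ => norm_nonneg _) fun k => by
        rw [norm_mul]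
        exact mul_le_of_le_one_left (norm_nonneg _) (norm_ind_le _)
  have hs' : ∀ x ∈ (sball (B * X)).sigma fun Δ => pdiv Δ, Summable (g x) := fun x hx => by
    rw [funext (hg x)]
    exact (hs x hx).mul_left _
  calc _ ≤ c0 * ∑ x ∈ (sball (B * X)).sigma fun Δ => pdiv Δ, ∑' k, g x k := by
        rw [Finset.sum_sigma, Finset.mul_sum]
        refine Finset.sum_le_sum fun Δ hΔ => ?_
        refine (mul_le_mul_of_nonneg_left (norm_sum_le _ _) (hc Δ)).trans ?_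
        rw [Finset.mul_sum, Finset.mul_sum]
        refine Finset.sum_le_sum fun e he => ?_
        have hx : (⟨Δ, e⟩ : Σ _ : O, O) ∈ (sball (B * X)).sigma fun Δ => pdiv Δ :=
          Finset.mem_sigma.2 ⟨hΔ, he⟩
        have h0 : 0 ≤ c0 * Y / nm e := div_nonneg (mul_pos c0_pos hY).le (Nat.cast_nonneg _)
        simp only [hg, tsum_mul_left]
        rw [norm_mul, norm_mul, Complex.norm_real, Real.norm_of_nonneg h0]
        refine (mul_le_mul_of_nonneg_left (mul_le_mul (mul_le_of_le_one_left h0 (norm_mu_le e))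
          (norm_tsum_le_tsum_norm (hs _ hx)) (norm_nonneg _) h0) (hc Δ)).trans_eq (by ring)
    _ ≤ _ := by
        rw [mul_assoc, ← Summable.tsum_finsetSum hs']
        refine mul_le_mul_of_nonneg_left (Real.tsum_le_of_sum_le
          (fun k => Finset.sum_nonneg fun x _ => hg0 x k) fun s => ?_) c0_pos.le
        have h3 := h2 _ (((sball (B * X)).sigma fun Δ => pdiv Δ).sigma fun x =>
          s.filter (p x.1 x.2)) (fun i => c i.1.1 * (Y / nm i.1.2)) (fun i => X / nm i.1.1)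
          (fun i => Y / nm i.1.2) (fun i => dco F b i.1.1 i.1.2) (fun i => i.2) (B * X) D
          (fun i hi => ?_) fun t α => ?_
        · rw [Finset.sum_sigma] at h3
          rw [Finset.sum_comm]
          refine le_trans (Finset.sum_le_sum fun x _ => ?_) h3
          rw [Finset.sum_filter]
          refine Finset.sum_le_sum fun k _ => ?_
          rw [hg]
          split_ifs with h
          · rw [ind_of h, one_mul]
          · rw [ind_of_not h, zero_mul, norm_zero, mul_zero]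
        · obtain ⟨a1, a2⟩ := hI _ (Finset.mem_sigma.1 hi).1
          refine ⟨mul_nonneg (hc _) (by positivity), by positivity, by positivity,
            fun m _ hm => ?_⟩
          obtain ⟨b1, b2⟩ := hb _ (left_ne_zero_of_mul (left_ne_zero_of_mul hm))
          rw [nm_mul, Nat.cast_mul] at b1 b2
          rw [div_right_comm, div_le_iff₀' a1, ← mul_div_assoc, le_div_iff₀' a1]
          exact ⟨b1, b2⟩
        · refine le_trans (le_of_eq ?_) (hD t α s)
          rw [Finset.sum_sigma, Finset.sum_sigma]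
          refine Finset.sum_congr rfl fun Δ hΔ => Finset.sum_congr rfl fun e he => ?_
          obtain ⟨a1, a2⟩ := hI ⟨Δ, e⟩ (Finset.mem_sigma.2 ⟨hΔ, he⟩)
          rw [Finset.sum_comm, Finset.mul_sum]
          refine Finset.sum_congr rfl fun k _ => ?_
          rw [← Finset.mul_sum, ← mul_assoc]
          simp only at a1 a2 ⊢
          congr 2
          · field_simp
          · congr 2
            field_simp

theorem psx0 (F : Fam) {B : ℝ} (hB : 1 ≤ B) (A' : ℝ) : ∃ C : ℝ, 0 < C ∧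
    ∀ (X Y D : ℝ) (b : O → ℂ) (c : O → ℝ), 0 < X → 0 < Y →
      (∀ n, b n ≠ 0 → X / B ≤ nm n ∧ nm n ≤ B * X) → (∀ Δ, 0 ≤ c Δ) →
      (∀ (t : ℝ) (α : O) (s : Finset O), 0 ∉ s →
        ∑ Δ ∈ sball (B * X), ∑ e ∈ pdiv Δ, c Δ * (Y * nm Δ / (nm e * X)) *
          ∑ f ∈ sball (B * X), ∑ k ∈ s,
            (1 + Y * nm Δ ^ 2 * nm k / (nm e * X ^ 2)) ^ (-5 : ℝ) *
              ‖∑ m ∈ sball (B * X), ind ((72 : O) ∣ m - α) * ind (f ∣ m) * b (Δ * m) * F.X m e *
                F.g m * conj (F.X m k) * nt m t‖ ^ 2 ≤ D * (1 + |t|) ^ A') →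
      ∑ Δ ∈ sball (B * X), c Δ * ‖Bil F Y (B * X) b Δ‖ ≤
        C * (D + Y * ∑ Δ ∈ sball (B * X), c Δ * ‖b Δ‖ ^ 2) := by
  classical
  obtain ⟨C, hC, h3⟩ := ps3 F hB A'
  refine ⟨C + c0, add_pos hC c0_pos, fun X Y D b c hX hY hb hc hD => ?_⟩
  have hD0 : 0 ≤ D := by simpa using hD 0 0 ∅ (Finset.notMem_empty _)
  have h4 := h3 X Y D b c (fun _ _ k => k ≠ 0) hX hY hb hc fun t α s => by
    have := hD t α (s.filter (· ≠ 0)) (by simp)
    simp only [← mul_assoc, Tl, dco] at this ⊢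
    convert this
  have h5 : ∀ Δ ∈ sball (B * X), ‖Bil F Y (B * X) b Δ‖ ≤ c0 * Y * ‖b Δ‖ ^ 2 +
      ‖∑ e ∈ pdiv Δ, mu e * (c0 * Y / nm e : ℝ) *
        ∑' k : O, ind (k ≠ 0) * Dual F (B * X) (Y / nm e) (dco F b Δ e) k‖ := fun Δ hΔ => by
    have hS := (mem_sball.1 hΔ).1
    refine le_trans ?_ (add_le_add_left (dual_zero F hY (B * X) b hS) _)
    refine le_trans (le_of_eq ?_) (norm_add_le _ _)
    rw [bil_eq F hY _ b hS.1.1, ← Finset.sum_add_distrib]
    congr 1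
    refine Finset.sum_congr rfl fun e he => ?_
    have h0 : (0 : ℝ) < nm e := by
      exact_mod_cast nm_pos ((mem_pdiv hS.1.1.ne_zero).1 he).1.ne_zero
    rw [← mul_add, (summable_dual F (B * X) (div_pos hY h0) _).tsum_eq_add_tsum_ite 0]
    congr 2
    refine tsum_congr fun k => ?_
    split_ifs with h
    · rw [ind_of_not (not_not.2 h), zero_mul]
    · rw [ind_of h, one_mul]
  refine (Finset.sum_le_sum fun Δ hΔ => mul_le_mul_of_nonneg_left (h5 Δ hΔ) (hc Δ)).trans ?_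
  simp only [mul_add, Finset.sum_add_distrib]
  have h6 : ∑ Δ ∈ sball (B * X), c Δ * (c0 * Y * ‖b Δ‖ ^ 2) =
      c0 * (Y * ∑ Δ ∈ sball (B * X), c Δ * ‖b Δ‖ ^ 2) := by
    rw [Finset.mul_sum, Finset.mul_sum]
    exact Finset.sum_congr rfl fun _ _ => by ring
  have h7 : 0 ≤ Y * ∑ Δ ∈ sball (B * X), c Δ * ‖b Δ‖ ^ 2 :=
    mul_nonneg hY.le (Finset.sum_nonneg fun Δ _ => mul_nonneg (hc Δ) (sq_nonneg _))
  rw [h6]
  nlinarith [mul_nonneg hC.le h7, mul_nonneg c0_pos.le hD0]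

end Vale.Agent.P026
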