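import Vale.Agent.P026.PSDefs

/-! # Square expansion according to the gcd.

Plan. `sq_point`: expand `‖z‖ ^ 2 = z * conj z` as a sum over pairs `(n₁, n₂)`; the map
`(Δ, m₁, m₂) ↦ (Δ m₁, Δ m₂)` is a bijection from coprime triples with `Δ mᵢ ∈ sball Z` onto all pairs
(`exists_prim_gcd`, `Prim.eq_of_associated`; e.g. insert `1 = ∑ Δ, ind (Δ is the primary gcd)` or use
`Finset.sum_bij_ne_zero`); `g ∣ Δ m₁ ∧ g ∣ Δ m₂ ↔ g ∣ Δ`; `X Δ h * conj (X Δ h) = ind (IsCoprime h Δ)`.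
`sq_expand_w`: `tsum` of finite sums (`Summable.tsum_finsetSum`, `tsum_mul_left`; all factors have norm `≤ 1`).
`bil_mobius0`: `ind_coprime_sball` turns `Bil` into `∑ f, mu f * ∑' h, exp .. * ind .. * ‖∑ m, ..‖ ^ 2`. -/

namespace Vale.Agent.P026

open scoped ComplexConjugate Real

theorem pss_conj_ind (p : Prop) : conj (ind p) = ind p := by
  by_cases h : p
  · rw [ind_of h, map_one]
  · rw [ind_of_not h, map_zero]

theorem pss_dvd_iff {m1 m2 : O} (h : IsCoprime m1 m2) (g Δ : O) :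
    g ∣ Δ * m1 ∧ g ∣ Δ * m2 ↔ g ∣ Δ := by
  refine ⟨fun ⟨h1, h2⟩ => ?_, fun h1 => ⟨h1.mul_right _, h1.mul_right _⟩⟩
  obtain ⟨u, v, huv⟩ := h
  have : Δ = u * (Δ * m1) + v * (Δ * m2) := by linear_combination (-Δ) * huv
  rw [this]
  exact dvd_add (h1.mul_left _) (h2.mul_left _)

theorem pss_X_mul_conj (F : Fam) {Δ : O} (hΔ : IsP Δ) (h : O) :
    F.X Δ h * conj (F.X Δ h) = ind (IsCoprime h Δ) := by
  by_cases hc : IsCoprime h Δ
  · rw [ind_of hc, fam_mul_conj (F.norm_X Δ h hΔ hc)]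
  · rw [ind_of_not hc, F.X_eq_zero Δ h hΔ hc, zero_mul]

theorem pss_summable (F : Fam) {w : O → ℂ} (hw : Summable w) (Δ : O) {m1 m2 : O} (h1 : IsP m1)
    (h2 : IsP m2) : Summable fun h : O => w h * ind (IsCoprime h Δ) * F.X m1 h * conj (F.X m2 h) := by
  refine Summable.of_norm_bounded hw.norm fun h => ?_
  rw [norm_mul, norm_mul, norm_mul, Complex.norm_conj, mul_assoc, mul_assoc]
  exact mul_le_of_le_one_right (norm_nonneg _) (mul_le_one₀ (norm_ind_le _) (by positivity)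
    (mul_le_one₀ (norm_X_le F h1 h) (norm_nonneg _) (norm_X_le F h2 h)))

theorem sq_point (F : Fam) {Z : ℝ} {b : O → ℂ} (hb : ∀ n, b n ≠ 0 → n ∈ sball Z) (g h : O) :
    ((‖∑ n ∈ sball Z, ind (g ∣ n) * b n * F.X n h‖ ^ 2 : ℝ) : ℂ) =
      ∑ Δ ∈ sball Z, ind (g ∣ Δ) * ∑ m1 ∈ sball Z, ∑ m2 ∈ sball Z,
        ind (IsCoprime m1 m2) * (b (Δ * m1) * conj (b (Δ * m2))) *
          (ind (IsCoprime h Δ) * F.X m1 h * conj (F.X m2 h)) := by
  classical
  have hL : ((‖∑ n ∈ sball Z, ind (g ∣ n) * b n * F.X n h‖ ^ 2 : ℝ) : ℂ) =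
      ∑ p ∈ sball Z ×ˢ sball Z,
        ind (g ∣ p.1) * b p.1 * F.X p.1 h * conj (ind (g ∣ p.2) * b p.2 * F.X p.2 h) := by
    rw [Finset.sum_product, ← Complex.normSq_eq_norm_sq, ← Complex.mul_conj, map_sum,
      Finset.sum_mul_sum]
  have hR : ∑ Δ ∈ sball Z, ind (g ∣ Δ) * ∑ m1 ∈ sball Z, ∑ m2 ∈ sball Z,
        ind (IsCoprime m1 m2) * (b (Δ * m1) * conj (b (Δ * m2))) *
          (ind (IsCoprime h Δ) * F.X m1 h * conj (F.X m2 h)) =
      ∑ q ∈ (sball Z ×ˢ sball Z ×ˢ sball Z).filter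
        (fun q => IsCoprime q.2.1 q.2.2 ∧ q.1 * q.2.1 ∈ sball Z ∧ q.1 * q.2.2 ∈ sball Z),
        ind (g ∣ q.1) * ((b (q.1 * q.2.1) * conj (b (q.1 * q.2.2))) *
          (ind (IsCoprime h q.1) * F.X q.2.1 h * conj (F.X q.2.2 h))) := by
    rw [Finset.sum_filter, Finset.sum_product]
    refine Finset.sum_congr rfl fun Δ _ => ?_
    rw [Finset.sum_product, Finset.mul_sum]
    refine Finset.sum_congr rfl fun m1 _ => ?_
    rw [Finset.mul_sum]
    refine Finset.sum_congr rfl fun m2 _ => ?_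
    split_ifs with hc
    · rw [ind_of hc.1, one_mul]
    · by_cases h1 : IsCoprime m1 m2
      · by_cases h2 : b (Δ * m1) = 0
        · simp [h2]
        · by_cases h3 : b (Δ * m2) = 0
          · simp [h3]
          · exact absurd ⟨h1, hb _ h2, hb _ h3⟩ hc
      · simp [ind_of_not h1]
  rw [hL, hR]
  symm
  refine Finset.sum_bij (fun q _ => (q.1 * q.2.1, q.1 * q.2.2)) ?_ ?_ ?_ ?_
  · intro q hq
    rw [Finset.mem_filter] at hq
    exact Finset.mem_product.2 ⟨hq.2.2.1, hq.2.2.2⟩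
  · intro q hq r hr e
    rw [Finset.mem_filter, Finset.mem_product] at hq hr
    have pq := (mem_sball.1 hq.1.1).1.1.1
    have pr := (mem_sball.1 hr.1.1).1.1.1
    have e1 : q.1 * q.2.1 = r.1 * r.2.1 := congrArg Prod.fst e
    have e2 : q.1 * q.2.2 = r.1 * r.2.2 := congrArg Prod.snd e
    have d1 : q.1 ∣ r.1 := (pss_dvd_iff hr.2.1 _ _).1 ⟨e1 ▸ dvd_mul_right _ _, e2 ▸ dvd_mul_right _ _⟩
    have d2 : r.1 ∣ q.1 := (pss_dvd_iff hq.2.1 _ _).1 ⟨e1 ▸ dvd_mul_right _ _, e2 ▸ dvd_mul_right _ _⟩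
    have e3 : q.1 = r.1 := pq.eq_of_associated pr (associated_of_dvd_dvd d1 d2)
    rw [e3] at e1 e2
    exact Prod.ext e3 (Prod.ext (mul_left_cancel₀ pr.ne_zero e1) (mul_left_cancel₀ pr.ne_zero e2))
  · rintro ⟨n1, n2⟩ hp
    rw [Finset.mem_product] at hp
    obtain ⟨hp1, hp2⟩ := hp
    have s1 := (mem_sball.1 hp1).1
    have s2 := (mem_sball.1 hp2).1
    obtain ⟨d, hd, ⟨m1, rfl⟩, ⟨m2, rfl⟩, hmax⟩ := exists_prim_gcd n2 s1.1.1
    have k1 : m1 ∈ sball Z := psd_pdiv_subset hp1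
      ((mem_pdiv s1.1.1.ne_zero).2 ⟨hd.of_mul s1.1.1, dvd_mul_left _ _⟩)
    have k2 : m2 ∈ sball Z := psd_pdiv_subset hp2
      ((mem_pdiv s2.1.1.ne_zero).2 ⟨hd.of_mul s2.1.1, dvd_mul_left _ _⟩)
    have k3 : d ∈ sball Z := psd_pdiv_subset hp1
      ((mem_pdiv s1.1.1.ne_zero).2 ⟨hd, dvd_mul_right _ _⟩)
    refine ⟨(d, m1, m2), ?_, rfl⟩
    rw [Finset.mem_filter, Finset.mem_product, Finset.mem_product]
    refine ⟨⟨k3, k1, k2⟩, ?_, hp1, hp2⟩
    refine IsRelPrime.isCoprime fun e h1 h2 => ?_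
    have := hmax (d * e) (mul_dvd_mul_left d h1) (mul_dvd_mul_left d h2)
    exact isUnit_of_dvd_one ((mul_dvd_mul_iff_left hd.ne_zero).1 (by rwa [mul_one]))
  · intro q hq
    rw [Finset.mem_filter, Finset.mem_product, Finset.mem_product] at hq
    have p0 := (mem_sball.1 hq.1.1).1.1
    have p1 := (mem_sball.1 hq.1.2.1).1.1
    have p2 := (mem_sball.1 hq.1.2.2).1.1
    have e1 : ind (g ∣ q.1) = ind (g ∣ q.1 * q.2.1) * ind (g ∣ q.1 * q.2.2) := by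
      rw [← ind_and, pss_dvd_iff hq.2.1]
    rw [e1, ← pss_X_mul_conj F p0, F.mul_left _ _ _ p0 p1, F.mul_left _ _ _ p0 p2]
    simp only [map_mul, pss_conj_ind]
    ring

theorem sq_expand_w (F : Fam) {w : O → ℂ} (hw : Summable w) {Z : ℝ} {b : O → ℂ}
    (hb : ∀ n, b n ≠ 0 → n ∈ sball Z) (g : O) :
    ∑' h : O, w h * ((‖∑ n ∈ sball Z, ind (g ∣ n) * b n * F.X n h‖ ^ 2 : ℝ) : ℂ) =
      ∑ Δ ∈ sball Z, ind (g ∣ Δ) * BilW F w Z b Δ := by
  have hs : ∀ Δ, ∀ m1 ∈ sball Z, ∀ m2 ∈ sball Z, HasSum (fun h : O =>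
      ind (IsCoprime m1 m2) * (b (Δ * m1) * conj (b (Δ * m2))) *
        (w h * ind (IsCoprime h Δ) * F.X m1 h * conj (F.X m2 h)))
      (ind (IsCoprime m1 m2) * (b (Δ * m1) * conj (b (Δ * m2))) *
        ∑' h : O, w h * ind (IsCoprime h Δ) * F.X m1 h * conj (F.X m2 h)) := fun Δ m1 h1 m2 h2 =>
    (pss_summable F hw Δ (mem_sball.1 h1).1.1 (mem_sball.1 h2).1.1).hasSum.mul_left _
  have h := hasSum_sum (s := sball Z) fun Δ _ =>
    (hasSum_sum fun m1 h1 => hasSum_sum fun m2 h2 => hs Δ m1 h1 m2 h2).mul_left (ind (g ∣ Δ))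
  refine Eq.trans (tsum_congr fun k => ?_) h.tsum_eq
  rw [sq_point F hb g k, Finset.mul_sum]
  refine Finset.sum_congr rfl fun Δ _ => ?_
  rw [mul_left_comm, Finset.mul_sum]
  congr 1
  refine Finset.sum_congr rfl fun m1 _ => ?_
  rw [Finset.mul_sum]
  refine Finset.sum_congr rfl fun m2 _ => ?_
  ring

theorem summable_gw {Y : ℝ} (hY : 0 < Y) : Summable fun h : O => Real.exp (-(nm h / Y)) := by
  have := summable_exp (inv_pos.2 hY)
  simpa only [div_eq_inv_mul] using this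

theorem summable_sq0 (F : Fam) {Y : ℝ} (hY : 0 < Y) (Z : ℝ) (b : O → ℂ) :
    Summable fun h : O => Real.exp (-(nm h / Y)) * ‖∑ n ∈ sball Z, b n * F.X n h‖ ^ 2 := by
  refine Summable.of_nonneg_of_le (fun h => by positivity) (fun h => ?_)
    ((summable_gw hY).mul_right ((∑ n ∈ sball Z, ‖b n‖) ^ 2))
  refine mul_le_mul_of_nonneg_left (pow_le_pow_left₀ (norm_nonneg _) ?_ 2) (by positivity)
  refine (norm_sum_le _ _).trans (Finset.sum_le_sum fun n hn => ?_)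
  rw [norm_mul]
  exact mul_le_of_le_one_right (norm_nonneg _) (norm_X_le F (mem_sball.1 hn).1.1 h)

theorem sq_expand0 (F : Fam) {Y : ℝ} (hY : 0 < Y) {Z : ℝ} {b : O → ℂ}
    (hb : ∀ n, b n ≠ 0 → n ∈ sball Z) (g : O) :
    ((∑' h : O, Real.exp (-(nm h / Y)) * ‖∑ n ∈ sball Z, ind (g ∣ n) * b n * F.X n h‖ ^ 2 : ℝ) : ℂ) =
      ∑ Δ ∈ sball Z, ind (g ∣ Δ) * Bil F Y Z b Δ := by
  rw [Complex.ofReal_tsum]
  simp only [bil_eq_bilW]
  rw [← sq_expand_w F (Complex.summable_ofReal.2 (summable_gw hY)) hb g]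
  exact tsum_congr fun h => Complex.ofReal_mul _ _

/-- the real form used most often -/
theorem sq_expand_le (F : Fam) {Y : ℝ} (hY : 0 < Y) {Z : ℝ} {b : O → ℂ}
    (hb : ∀ n, b n ≠ 0 → n ∈ sball Z) (g : O) :
    ∑' h : O, Real.exp (-(nm h / Y)) * ‖∑ n ∈ sball Z, ind (g ∣ n) * b n * F.X n h‖ ^ 2 ≤
      ∑ Δ ∈ sball Z, ‖ind (g ∣ Δ)‖ * ‖Bil F Y Z b Δ‖ := by
  refine (Real.le_norm_self _).trans ?_
  rw [← Complex.norm_real, sq_expand0 F hY hb g]
  exact (norm_sum_le _ _).trans (Finset.sum_le_sum fun Δ _ => (norm_mul _ _).le)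

theorem bil_mobius0 (F : Fam) {Y : ℝ} (hY : 0 < Y) (Z : ℝ) (b : O → ℂ) (Δ : O) :
    ‖Bil F Y Z b Δ‖ ≤ ∑ f ∈ sball Z, ∑' h : O, Real.exp (-(nm h / Y)) *
      ‖∑ m ∈ sball Z, ind (f ∣ m) * b (Δ * m) * F.X m h‖ ^ 2 := by
  have hw : Summable fun h : O => ((Real.exp (-(nm h / Y)) : ℝ) : ℂ) :=
    Complex.summable_ofReal.2 (summable_gw hY)
  have key : Bil F Y Z b Δ = ∑ f ∈ sball Z, mu f * ∑' h : O, ind (IsCoprime h Δ) *
      ((Real.exp (-(nm h / Y)) * ‖∑ m ∈ sball Z, ind (f ∣ m) * b (Δ * m) * F.X m h‖ ^ 2 : ℝ) : ℂ) := by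
    have h1 : ∀ f : O, ∑' h : O, ind (IsCoprime h Δ) *
        ((Real.exp (-(nm h / Y)) * ‖∑ m ∈ sball Z, ind (f ∣ m) * b (Δ * m) * F.X m h‖ ^ 2 : ℝ) : ℂ) =
        ∑ m1 ∈ sball Z, ∑ m2 ∈ sball Z, (ind (f ∣ m1) * ind (f ∣ m2)) *
          (b (Δ * m1) * conj (b (Δ * m2))) * ∑' h : O, (Real.exp (-(nm h / Y)) : ℝ) *
            ind (IsCoprime h Δ) * F.X m1 h * conj (F.X m2 h) := by
      intro f
      have h := hasSum_sum (s := sball Z) fun m1 h1 => hasSum_sum (s := sball Z) fun m2 h2 =>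
        (pss_summable F hw Δ (mem_sball.1 h1).1.1 (mem_sball.1 h2).1.1).hasSum.mul_left
          ((ind (f ∣ m1) * ind (f ∣ m2)) * (b (Δ * m1) * conj (b (Δ * m2))))
      refine Eq.trans (tsum_congr fun k => ?_) h.tsum_eq
      rw [Complex.ofReal_mul, ← Complex.normSq_eq_norm_sq, ← Complex.mul_conj, map_sum,
        Finset.sum_mul_sum, Finset.mul_sum, Finset.mul_sum]
      refine Finset.sum_congr rfl fun m1 _ => ?_
      rw [Finset.mul_sum, Finset.mul_sum]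
      refine Finset.sum_congr rfl fun m2 _ => ?_
      simp only [map_mul, pss_conj_ind]
      ring
    simp only [h1, Finset.mul_sum]
    rw [Finset.sum_comm]
    refine Finset.sum_congr rfl fun m1 hm1 => ?_
    rw [Finset.sum_comm]
    refine Finset.sum_congr rfl fun m2 _ => ?_
    rw [ind_coprime_sball hm1 m2, Finset.sum_mul, Finset.sum_mul]
    refine Finset.sum_congr rfl fun f _ => ?_
    ring
  rw [key]
  refine (norm_sum_le _ _).trans (Finset.sum_le_sum fun f _ => ?_)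
  rw [norm_mul]
  refine (mul_le_of_le_one_left (norm_nonneg _) (norm_mu_le f)).trans ?_
  have hs := summable_sq0 F hY Z fun m => ind (f ∣ m) * b (Δ * m)
  refine tsum_of_norm_bounded hs.hasSum fun h => ?_
  rw [norm_mul, Complex.norm_real, Real.norm_of_nonneg (by positivity)]
  exact mul_le_of_le_one_left (by positivity) (norm_ind_le _)

end Vale.Agent.P026
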