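import Vale.Agent.P026.PSDefs

/-! # A smooth lattice point count.

Plan. `ls0`: layer cake `exp (-(N / Z) ^ 2) = ∫ y in Ioi 0, (if N ≤ Z * y then 1 else 0) * (2 y exp (-y ^ 2))`, exchange sum and
integral (`MeasureTheory.integral_tsum` or `hasSum_integral_of_summable_integral_norm`), so the full sum over `l` is
`∫ y in Ioi 0, card (ball (Z y)) * 2 y exp (-y ^ 2)`; `card_ball`; `I = c0 * ∫ y in Ioi 0, 2 y ^ 2 exp (-y ^ 2)` (value not needed),
`√(Z y) ≤ √Z * (1 + y)`; the term `l = 0` costs `1`.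
`ls`: `ind_coprime`, substitute `l = d l'`, `ls0` with `Z / nm d`. -/

namespace Vale.Agent.P026

open scoped ComplexConjugate Real
open MeasureTheory Set

theorem summable_exp_sq {Z : ℝ} (hZ : 0 < Z) :
    Summable fun l : O => Real.exp (-((nm l : ℝ) / Z) ^ 2) := by
  refine Summable.of_nonneg_of_le (fun l => (Real.exp_pos _).le) (fun l => ?_)
    ((summable_exp (inv_pos.2 hZ)).mul_left (Real.exp 1))
  rw [← Real.exp_add, inv_mul_eq_div]
  exact Real.exp_le_exp.2 (by nlinarith [sq_nonneg ((nm l : ℝ) / Z - 1)])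

theorem qlat_cake {Z : ℝ} (hZ : 0 < Z) :
    HasSum (fun l : O => Real.exp (-((nm l : ℝ) / Z) ^ 2))
      (∫ u in Ici (0 : ℝ), (ball (Z * √u)).card * Real.exp (-u)) := by
  have : Countable O := PoissonAux.E1.symm.injective.countable
  have h1 : ∀ a : ℝ, ∫ u in Ici (0 : ℝ), (Ici (a ^ 2)).indicator (fun u => Real.exp (-u)) u =
      Real.exp (-a ^ 2) := fun a => by
    rw [setIntegral_indicator measurableSet_Ici, inter_eq_right.2 (Ici_subset_Ici.2 (sq_nonneg a)),
      integral_Ici_eq_integral_Ioi, integral_exp_neg_Ioi]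
  have i0 : IntegrableOn (fun u : ℝ => Real.exp (-u)) (Ici 0) :=
    (integrableOn_Ici_iff_integrableOn_Ioi).2 (integrableOn_exp_neg_Ioi 0)
  have h2 := hasSum_integral_of_summable_integral_norm (μ := volume.restrict (Ici (0 : ℝ)))
    (F := fun (l : O) u => (Ici (((nm l : ℝ) / Z) ^ 2)).indicator (fun u => Real.exp (-u)) u)
    (fun l => Integrable.indicator i0 measurableSet_Ici) (by
      refine (summable_exp_sq hZ).congr fun l => ?_
      rw [← h1]
      congr 1
      funext u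
      exact (Real.norm_of_nonneg (indicator_nonneg (fun u _ => (Real.exp_pos _).le) u)).symm)
  simp only [h1] at h2
  refine (setIntegral_congr_fun measurableSet_Ici fun u hu => ?_ :
    _ = ∫ u in Ici (0 : ℝ), (ball (Z * √u)).card * Real.exp (-u)) ▸ h2
  have h3 : ∀ l : O, u ∈ Ici (((nm l : ℝ) / Z) ^ 2) ↔ l ∈ ball (Z * √u) := fun l => by
    rw [mem_ball, mem_Ici, ← div_le_iff₀' hZ, Real.le_sqrt (by positivity) hu]
  rw [tsum_eq_sum (s := ball (Z * √u)) fun l hl => indicator_of_notMem (mt (h3 l).1 hl) _,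
    Finset.sum_congr rfl fun l hl => indicator_of_mem ((h3 l).2 hl) _, Finset.sum_const,
    nsmul_eq_mul]

theorem ls0 : ∃ I C : ℝ, 0 < C ∧ ∀ Z : ℝ, 0 < Z →
    ‖∑' l : O, ind (l ≠ 0) * (Real.exp (-((nm l : ℝ) / Z) ^ 2) : ℝ) - (I * Z : ℝ)‖ ≤ C * (1 + √Z) := by
  obtain ⟨C, hC, hc⟩ := card_ball
  have i1 : IntegrableOn (fun u : ℝ => √u * Real.exp (-u)) (Ici 0) := by
    rw [integrableOn_Ici_iff_integrableOn_Ioi]
    refine (Real.GammaIntegral_convergent (s := 3 / 2) (by norm_num)).congr_fun (fun u _ => ?_)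
      measurableSet_Ioi
    simp only [Real.sqrt_eq_rpow]
    norm_num [mul_comm]
  have i0 : IntegrableOn (fun u : ℝ => Real.exp (-u)) (Ici 0) :=
    (integrableOn_Ici_iff_integrableOn_Ioi).2 (integrableOn_exp_neg_Ioi 0)
  obtain ⟨J, hJ⟩ : ∃ J, J = ∫ u in Ici (0 : ℝ), √u * Real.exp (-u) := ⟨_, rfl⟩
  have hJ0 : 0 ≤ J := hJ ▸ integral_nonneg fun u => by positivity
  refine ⟨c0 * J, C * (1 + J) + 1, by positivity, fun Z hZ => ?_⟩
  have hs := summable_exp_sq hZ
  have h1 : ∑' l : O, ind (l ≠ 0) * (Real.exp (-((nm l : ℝ) / Z) ^ 2) : ℝ) =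
      ((∑' l : O, Real.exp (-((nm l : ℝ) / Z) ^ 2) - 1 : ℝ) : ℂ) := by
    classical
    rw [hs.tsum_eq_add_tsum_ite 0, nm_eq_zero.2 rfl, Nat.cast_zero, zero_div, zero_pow two_ne_zero,
      neg_zero, Real.exp_zero, add_sub_cancel_left, Complex.ofReal_tsum]
    refine tsum_congr fun l => ?_
    split_ifs with h
    · rw [ind_of_not (not_not.2 h), zero_mul, Complex.ofReal_zero]
    · rw [ind_of h, one_mul]
  have hb : ∀ u : ℝ, ‖((ball (Z * √u)).card - c0 * (Z * √u)) * Real.exp (-u)‖ ≤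
      C * (1 + √Z) * (Real.exp (-u) + √u * Real.exp (-u)) := fun u => by
    rw [norm_mul, Real.norm_of_nonneg (Real.exp_pos _).le, ← one_add_mul, ← mul_assoc (C * _)]
    refine mul_le_mul_of_nonneg_right ((hc (Z * √u) (by positivity)).trans ?_) (Real.exp_pos _).le
    rw [mul_assoc, Real.sqrt_mul hZ.le]
    refine mul_le_mul_of_nonneg_left ?_ hC.le
    have h2 : √(√u) ≤ 1 + √u := by
      nlinarith [Real.sq_sqrt (Real.sqrt_nonneg u), Real.sqrt_nonneg (√u), sq_nonneg (√(√u) - 1)]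
    nlinarith [mul_le_mul_of_nonneg_left h2 (Real.sqrt_nonneg Z), Real.sqrt_nonneg u]
  have hm : Measurable fun u : ℝ => ((ball (Z * √u)).card : ℝ) :=
    Monotone.measurable fun u v h => Nat.cast_le.2 (Finset.card_le_card fun l hl => mem_ball.2
      ((mem_ball.1 hl).trans (mul_le_mul_of_nonneg_left (Real.sqrt_le_sqrt h) hZ.le)))
  have i2 := (i0.add i1).const_mul (C * (1 + √Z))
  have i3 : IntegrableOn (fun u : ℝ => ((ball (Z * √u)).card - c0 * (Z * √u)) * Real.exp (-u))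
      (Ici 0) := i2.mono' (by fun_prop) (ae_of_all _ hb)
  have h2 := norm_integral_le_of_norm_le i2 (ae_of_all _ hb)
  simp only [Pi.add_apply] at h2
  rw [integral_const_mul, integral_add i0 i1, ← hJ, integral_Ici_eq_integral_Ioi (f := fun u =>
    Real.exp (-u)), integral_exp_neg_Ioi_zero] at h2
  have h3 : ∑' l : O, Real.exp (-((nm l : ℝ) / Z) ^ 2) =
      (∫ u in Ici (0 : ℝ), ((ball (Z * √u)).card - c0 * (Z * √u)) * Real.exp (-u)) + c0 * J * Z := by
    rw [(qlat_cake hZ).tsum_eq, hJ, mul_right_comm, ← integral_const_mul,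
      ← integral_add i3 (i1.const_mul _)]
    congr 1
    funext u
    ring
  rw [h1, ← Complex.ofReal_sub, Complex.norm_real, h3, Real.norm_eq_abs, abs_le]
  rw [Real.norm_eq_abs, abs_le] at h2
  constructor <;> nlinarith [Real.sqrt_nonneg Z]

theorem ls : ∃ I C : ℝ, 0 < C ∧ ∀ (D : O) (Z : ℝ), Prim D → 0 < Z →
    ‖∑' l : O, ind (l ≠ 0) * ind (IsCoprime l D) * (Real.exp (-((nm l : ℝ) / Z) ^ 2) : ℝ) -
      (I * Z : ℝ) * phiS D‖ ≤ C * (pdiv D).card * (1 + √Z) := by
  obtain ⟨I, C, hC, h⟩ := ls0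
  refine ⟨I, C, hC, fun D Z hD hZ => ?_⟩
  have hs : ∀ p q : O → Prop, Summable fun l : O =>
      ind (p l) * ind (q l) * (Real.exp (-((nm l : ℝ) / Z) ^ 2) : ℝ) := fun p q =>
    Summable.of_norm_bounded (summable_exp_sq hZ) fun l => by
      rw [norm_mul, ← ind_and, Complex.norm_real, Real.norm_of_nonneg (Real.exp_pos _).le]
      exact mul_le_of_le_one_left (Real.exp_pos _).le (norm_ind_le _)
  have h1 : ∀ l : O, ind (l ≠ 0) * ind (IsCoprime l D) * (Real.exp (-((nm l : ℝ) / Z) ^ 2) : ℝ) =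
      ∑ e ∈ pdiv D, mu e * (ind (l ≠ 0) * ind (e ∣ l) * (Real.exp (-((nm l : ℝ) / Z) ^ 2) : ℝ)) :=
    fun l => by
      rw [ind_coprime hD, Finset.mul_sum, Finset.sum_mul]
      exact Finset.sum_congr rfl fun e _ => by ring
  simp only [h1]
  rw [Summable.tsum_finsetSum fun e _ => (hs _ _).mul_left _, phiS, Finset.mul_sum,
    ← Finset.sum_sub_distrib]
  refine (norm_sum_le _ _).trans ((Finset.sum_le_card_nsmul _ _ (C * (1 + √Z)) fun e he => ?_).trans
    (le_of_eq (by rw [nsmul_eq_mul]; ring)))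
  have he0 := ((mem_pdiv hD.ne_zero).1 he).1.ne_zero
  have he1 := one_le_nm he0
  have h2 : ∑' l : O, ind (l ≠ 0) * ind (e ∣ l) * (Real.exp (-((nm l : ℝ) / Z) ^ 2) : ℝ) =
      ∑' l : O, ind (l ≠ 0) * (Real.exp (-((nm l : ℝ) / (Z / nm e)) ^ 2) : ℝ) := by
    rw [← (mul_right_injective₀ he0).tsum_eq fun l hl => by
      by_contra h0
      refine hl ?_
      beta_reduce
      rw [ind_of_not (p := e ∣ l) fun ⟨x, hx⟩ => h0 ⟨x, hx.symm⟩, mul_zero, zero_mul]]
    refine tsum_congr fun l => ?_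
    rw [ind_of (dvd_mul_right e l), mul_one, nm_mul, Nat.cast_mul, div_div_eq_mul_div,
      mul_comm (nm e : ℝ), propext (mul_ne_zero_iff_left he0)]
  rw [tsum_mul_left, h2, show ((I * Z : ℝ) : ℂ) * (mu e / nm e) = mu e * (I * (Z / nm e) : ℝ) by
    push_cast; ring, ← mul_sub, norm_mul]
  refine (mul_le_of_le_one_left (norm_nonneg _) (norm_mu_le e)).trans ((h _ (by positivity)).trans
    (mul_le_mul_of_nonneg_left ?_ hC.le))
  exact add_le_add le_rfl (Real.sqrt_le_sqrt (div_le_self hZ.le he1))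

end Vale.Agent.P026
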