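import Vale.Agent.P026.QKer
import Vale.Agent.P026.QLat

/-! # Cancellation of the main terms for one kernel `b`.

Plan. `IsS.split`: `Δ = Δ₁ Δ₂`, `Δ₁ ∣ b`, `Δ₂` coprime to `b`; `sum_pdiv_mul`; for `e = e₁ e₂`: `dvd_ker_iff`, substitute
`l = e₂ l'` (`IsCoprime (e₂ l') q ↔ IsCoprime l' q`), the exponent becomes `-(nm l' / Z₂) ^ 2` with
`Z₂ = nm e₁ * √(nm q) / (c0 * √(Y * nm b))`; `ls` with `D = q`. Main term of `(e₁, e₂)`:
`mu e₁ * (mu e₂ / nm e₂) * I * √(Y / nm b) * phiS q`; `sum_mu_pdiv` gives `ind (Δ₁ = 1) = ind (IsCoprime b Δ)`; `phiS_mul`.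
Second sum: `ls` with `D = Δ q`, `Z₁ = √(Y / nm b) ≤ √Y`; `card_pdiv_mul`.
Errors: `c0 Y / (nm e √(nm q)) ≤ c0 Y / √(nm q)`, and `Z₂ ≤ nm e √(nm q) / (c0 √Y)` gives
`c0 Y / (nm e √(nm q)) * √Z₂ ≤ √c0 * Y ^ (3/4) / nm q ^ (1/4)`. -/

namespace Vale.Agent.P026

open scoped ComplexConjugate Real

theorem qpb_real {c y n E₁ E₂ B : ℝ} (hc : 0 < c) (hy : 0 < y) (hn : 0 < n) (h1 : 1 ≤ E₁)
    (h2 : 1 ≤ E₂) (hB : 1 ≤ B) :
    c ^ 2 * y ^ 4 / (E₁ * E₂ * n ^ 2) * (1 + √(E₁ * n ^ 2 / (c ^ 2 * √(y ^ 4 * B)))) ≤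
      c ^ 2 * (y ^ 4 / n ^ 2) + c * (y ^ 3 / n) := by
  have a1 : y ^ 2 ≤ √(y ^ 4 * B) := Real.le_sqrt_of_sq_le (by
    have := mul_le_mul_of_nonneg_left hB (pow_pos hy 4).le
    linarith)
  have a2 : √(E₁ * n ^ 2 / (c ^ 2 * √(y ^ 4 * B))) ≤ E₁ * n / (c * y) := by
    refine Real.sqrt_le_iff.2 ⟨by positivity, ?_⟩
    rw [div_pow, mul_pow, mul_pow]
    gcongr
    nlinarith
  have a3 : 1 ≤ E₁ * E₂ := one_le_mul_of_one_le_of_one_le h1 h2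
  rw [mul_add, mul_one]
  refine add_le_add ?_ ?_
  · rw [← mul_div_assoc]
    gcongr
    exact le_mul_of_one_le_left (by positivity) a3
  · calc _ ≤ c ^ 2 * y ^ 4 / (E₁ * E₂ * n ^ 2) * (E₁ * n / (c * y)) := by gcongr
      _ = c * (y ^ 3 / (E₂ * n)) := by field_simp
      _ ≤ _ := by
        gcongr
        exact le_mul_of_one_le_left hn.le h2

theorem qpb_sub {e₁ e₂ b q : O} {Y : ℝ} (h1 : e₁ ∣ b) (h2 : IsCoprime e₂ b) (hs : Squarefree e₂)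
    (h0 : e₁ ≠ 0) (hq : q ≠ 0) (hb : b ≠ 0) (hc : IsCoprime e₂ q) (hY : 0 < Y) :
    ∑' l : O, ind (l ≠ 0) * ind (e₁ * e₂ ∣ b * l ^ 2) * ind (IsCoprime l q) *
        (Real.exp (-(c0 ^ 2 * Y * (nm b * nm l ^ 2) / (nm (e₁ * e₂) ^ 2 * nm q))) : ℝ) =
      ∑' l : O, ind (l ≠ 0) * ind (IsCoprime l q) *
        (Real.exp (-((nm l : ℝ) / (nm e₁ * √(nm q) / (c0 * √(Y * nm b)))) ^ 2) : ℝ) := by
  have he := hs.ne_zero
  rw [← (mul_right_injective₀ he).tsum_eq]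
  · refine tsum_congr fun l => ?_
    have k1 : (e₂ * l ≠ 0) ↔ l ≠ 0 := by simp [he]
    have k2 : IsCoprime (e₂ * l) q ↔ IsCoprime l q := by simp [IsCoprime.mul_left_iff, hc]
    have p1 := one_le_nm h0
    have p2 := one_le_nm he
    have p3 := one_le_nm hq
    have p4 := one_le_nm hb
    have p5 := c0_pos
    have k3 : c0 ^ 2 * Y * (nm b * (nm (e₂ * l) : ℝ) ^ 2) / (nm (e₁ * e₂) ^ 2 * nm q) =
        ((nm l : ℝ) / (nm e₁ * √(nm q) / (c0 * √(Y * nm b)))) ^ 2 := by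
      rw [div_pow, div_pow, mul_pow, mul_pow, Real.sq_sqrt (by positivity),
        Real.sq_sqrt (by positivity), nm_mul, nm_mul]
      push_cast
      field_simp
    rw [ind_of ((dvd_ker_iff h1 h2 hs _).2 (dvd_mul_right _ _)), mul_one, propext k1, propext k2, k3]
  · intro l hl
    by_contra h
    apply hl
    beta_reduce
    rw [ind_of_not (p := e₁ * e₂ ∣ b * l ^ 2), mul_zero, zero_mul, zero_mul]
    rw [dvd_ker_iff h1 h2 hs]
    rintro ⟨m, rfl⟩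
    exact h ⟨m, rfl⟩

theorem pair_b : ∃ C : ℝ, 0 < C ∧ ∀ (Δ q b : O) (Y : ℝ), IsS Δ → Prim q → IsCoprime Δ q → b ≠ 0 →
    0 < Y →
    ‖∑ e ∈ pdiv Δ, mu e * (c0 * Y / (nm e * √(nm q)) : ℝ) *
        ∑' l : O, ind (l ≠ 0) * ind (e ∣ b * l ^ 2) * ind (IsCoprime l q) *
          (Real.exp (-(c0 ^ 2 * Y * (nm b * nm l ^ 2) / (nm e ^ 2 * nm q))) : ℝ) -
      ind (IsCoprime b Δ) * ∑' l : O, ind (l ≠ 0) * ind (IsCoprime l (Δ * q)) *
        (Real.exp (-(nm b * nm l ^ 2 / Y)) : ℝ)‖ ≤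
      C * (pdiv Δ).card * (pdiv q).card *
        (1 + Y ^ (1 / 4 : ℝ) + Y / √(nm q) + Y ^ (3 / 4 : ℝ) / (nm q : ℝ) ^ (1 / 4 : ℝ)) := by
  obtain ⟨I, C, hC, hls⟩ := ls
  have p0 := c0_pos
  refine ⟨C * (1 + c0 + √c0), by positivity, fun Δ q b Y hΔ hq hΔq hb hY => ?_⟩
  obtain ⟨D₁, D₂, s1, s2, h12, rfl, d1, d2⟩ := hΔ.split b
  have hP := hΔ.1.1
  have pq := one_le_nm hq.ne_zero
  have pb := one_le_nm hb
  obtain ⟨y, hy, ey⟩ : ∃ y : ℝ, 0 < y ∧ Y = y ^ 4 :=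
    ⟨Y ^ (1 / 4 : ℝ), by positivity, by rw [← Real.rpow_natCast, ← Real.rpow_mul hY.le]; norm_num⟩
  obtain ⟨n, hn, en⟩ : ∃ n : ℝ, 0 < n ∧ (nm q : ℝ) = n ^ 4 :=
    ⟨(nm q : ℝ) ^ (1 / 4 : ℝ), by positivity, by
      rw [← Real.rpow_natCast, ← Real.rpow_mul (by positivity)]; norm_num⟩
  have y1 : Y ^ (1 / 4 : ℝ) = y := by
    rw [ey, ← Real.rpow_natCast, ← Real.rpow_mul hy.le]; norm_num
  have y3 : Y ^ (3 / 4 : ℝ) = y ^ 3 := by
    rw [ey, ← Real.rpow_natCast, ← Real.rpow_mul hy.le, ← Real.rpow_natCast]; norm_num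
  have n1 : (nm q : ℝ) ^ (1 / 4 : ℝ) = n := by
    rw [en, ← Real.rpow_natCast, ← Real.rpow_mul hn.le]; norm_num
  have n2 : √(nm q : ℝ) = n ^ 2 := by
    rw [en, Real.sqrt_eq_iff_mul_self_eq (by positivity) (by positivity)]; ring
  have hZ : 0 < √(Y / nm b) := by positivity
  -- first sum
  have A : ∀ e₁ ∈ pdiv D₁, ∀ e₂ ∈ pdiv D₂,
      ‖mu (e₁ * e₂) * (c0 * Y / (nm (e₁ * e₂) * √(nm q)) : ℝ) *
        ∑' l : O, ind (l ≠ 0) * ind (e₁ * e₂ ∣ b * l ^ 2) * ind (IsCoprime l q) *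
          (Real.exp (-(c0 ^ 2 * Y * (nm b * nm l ^ 2) / (nm (e₁ * e₂) ^ 2 * nm q))) : ℝ) -
        mu e₁ * (mu e₂ / nm e₂) * ((I * √(Y / nm b) : ℝ) * phiS q)‖ ≤
      C * (pdiv q).card * (c0 * (y ^ 4 / n ^ 2) + √c0 * (y ^ 3 / n)) := by
    intro e₁ m1 e₂ m2
    obtain ⟨q1, r1⟩ := (mem_pdiv s1.1.1.ne_zero).1 m1
    obtain ⟨q2, r2⟩ := (mem_pdiv s2.1.1.ne_zero).1 m2
    have p1 := one_le_nm q1.ne_zero
    have p2 := one_le_nm q2.ne_zero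
    rw [qpb_sub (r1.trans d1) (d2.of_isCoprime_of_dvd_left r2) (s2.2.squarefree_of_dvd r2)
      q1.ne_zero hq.ne_zero hb (hΔq.of_isCoprime_of_dvd_left (r2.mul_left _)) hY]
    have k := hls q (nm e₁ * √(nm q) / (c0 * √(Y * nm b))) hq (by positivity)
    have e1 : I * √(Y / nm b) / nm e₂ = c0 * Y / (nm (e₁ * e₂) * √(nm q)) *
        (I * (nm e₁ * √(nm q) / (c0 * √(Y * nm b)))) := by
      have : √(Y / nm b) * √(Y * nm b) = Y := by
        rw [← Real.sqrt_mul (by positivity), Real.sqrt_eq_iff_mul_self_eq (by positivity) hY.le]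
        field_simp
      have h' : 0 < √(Y * nm b) := by positivity
      rw [nm_mul, eq_div_of_mul_eq h'.ne' this]
      push_cast
      field_simp
    have e2 : mu e₁ * (mu e₂ / nm e₂) * ((I * √(Y / nm b) : ℝ) * phiS q) =
        mu (e₁ * e₂) * (c0 * Y / (nm (e₁ * e₂) * √(nm q)) : ℝ) *
          ((I * (nm e₁ * √(nm q) / (c0 * √(Y * nm b))) : ℝ) * phiS q) := by
      have e1' := congrArg (fun t : ℝ => (t : ℂ)) e1
      simp only [Complex.ofReal_div (I * _), Complex.ofReal_mul (c0 * Y / _),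
        Complex.ofReal_natCast] at e1'
      rw [mu_mul ((h12.of_isCoprime_of_dvd_left r1).of_isCoprime_of_dvd_right r2)]
      linear_combination mu e₁ * mu e₂ * phiS q * e1'
    rw [e2, ← mul_sub, norm_mul, norm_mul, Complex.norm_real, Real.norm_of_nonneg (by positivity)]
    have k2 := qpb_real (Real.sqrt_pos.2 p0) hy hn p1 p2 pb
    rw [Real.sq_sqrt p0.le, ← n2, ← ey, ← Nat.cast_mul, ← nm_mul] at k2
    calc _ ≤ 1 * (c0 * Y / (nm (e₁ * e₂) * √(nm q))) * (C * (pdiv q).card *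
          (1 + √(nm e₁ * √(nm q) / (c0 * √(Y * nm b))))) := by
          gcongr
          exact norm_mu_le _
      _ = C * (pdiv q).card * (c0 * Y / (nm (e₁ * e₂) * √(nm q)) *
          (1 + √(nm e₁ * √(nm q) / (c0 * √(Y * nm b))))) := by rw [one_mul, mul_left_comm]
      _ ≤ _ := by
          rw [← n2, ← ey]
          exact mul_le_mul_of_nonneg_left k2 (mul_nonneg hC.le (Nat.cast_nonneg _))
  -- main terms
  have M : ∑ e₁ ∈ pdiv D₁, ∑ e₂ ∈ pdiv D₂,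
      mu e₁ * (mu e₂ / nm e₂) * ((I * √(Y / nm b) : ℝ) * phiS q) =
      ind (IsCoprime b (D₁ * D₂)) * ((I * √(Y / nm b) : ℝ) * phiS (D₁ * D₂ * q)) := by
    simp only [← Finset.sum_mul, ← Finset.mul_sum]
    rw [sum_mu_pdiv s1.1.1]
    by_cases h : D₁ = 1
    · subst h
      rw [one_mul] at hΔq ⊢
      rw [ind_of rfl, ind_of d2.symm, phiS_mul s2.1.1 hq hΔq, ← phiS]
      ring
    · rw [ind_of_not h, ind_of_not, zero_mul, zero_mul, zero_mul]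
      exact fun h' => h (s1.1.1.eq_one_of_isUnit (h'.isUnit_of_dvd' d1 (dvd_mul_right _ _)))
  -- second sum
  have B := hls (D₁ * D₂ * q) _ (hP.mul hq) hZ
  have e3 : ∀ l : O, ((nm l : ℝ) / √(Y / nm b)) ^ 2 = nm b * nm l ^ 2 / Y := fun l => by
    rw [div_pow, Real.sq_sqrt (by positivity)]
    field_simp
  simp only [e3] at B
  have e4 : √(√(Y / nm b)) ≤ y := by
    refine Real.sqrt_le_iff.2 ⟨hy.le, Real.sqrt_le_iff.2 ⟨by positivity, ?_⟩⟩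
    refine (div_le_self hY.le pb).trans_eq ?_
    rw [ey]; ring
  rw [card_pdiv_mul hP hq hΔq] at B
  rw [sum_pdiv_mul s1.1.1 s2.1.1 h12, y1, y3, n1, n2]
  refine (norm_sub_le_norm_sub_add_norm_sub _
    (ind (IsCoprime b (D₁ * D₂)) * ((I * √(Y / nm b) : ℝ) * phiS (D₁ * D₂ * q))) _).trans ?_
  have A' := (norm_sum_le _ _).trans (Finset.sum_le_card_nsmul _ _ _ fun e₁ m1 =>
    (norm_sum_le _ _).trans (Finset.sum_le_card_nsmul _ _ _ fun e₂ m2 => A e₁ m1 e₂ m2))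
  simp only [Finset.sum_sub_distrib] at A'
  rw [M, smul_smul, nsmul_eq_mul, ← card_pdiv_mul s1.1.1 s2.1.1 h12, n2] at A'
  have t0 : 0 ≤ C * ((pdiv (D₁ * D₂)).card * (pdiv q).card) :=
    mul_nonneg hC.le (mul_nonneg (Nat.cast_nonneg _) (Nat.cast_nonneg _))
  refine (add_le_add A' (?_ : _ ≤ C * ((pdiv (D₁ * D₂)).card * (pdiv q).card) * (1 + y))).trans ?_
  · rw [← mul_sub, norm_mul, norm_sub_rev]
    refine (mul_le_of_le_one_left (norm_nonneg _) (norm_ind_le _)).trans (B.trans ?_)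
    rw [Nat.cast_mul]
    exact mul_le_mul_of_nonneg_left (by linarith) t0
  · rw [← ey]
    have t1 : 0 ≤ Y / n ^ 2 := by positivity
    have t2 : 0 ≤ y ^ 3 / n := by positivity
    have t3 := Real.sqrt_nonneg c0
    have t4 : c0 * (Y / n ^ 2) + √c0 * (y ^ 3 / n) + (1 + y) ≤
        (1 + c0 + √c0) * (1 + y + Y / n ^ 2 + y ^ 3 / n) := by
      nlinarith [mul_nonneg p0.le t2, mul_nonneg t3 t1, mul_nonneg p0.le hy.le, mul_nonneg t3 hy.le]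
    calc _ = C * ((pdiv (D₁ * D₂)).card * (pdiv q).card) *
          (c0 * (Y / n ^ 2) + √c0 * (y ^ 3 / n) + (1 + y)) := by ring
      _ ≤ C * ((pdiv (D₁ * D₂)).card * (pdiv q).card) *
          ((1 + c0 + √c0) * (1 + y + Y / n ^ 2 + y ^ 3 / n)) := mul_le_mul_of_nonneg_left t4 t0
      _ = _ := by ring

end Vale.Agent.P026
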