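import Vale.Agent.P026.Fam
import Vale.Agent.P026.Count

/-! REC part (`VBStmt → PStmt Q θ` for all `θ > 0`): shared definitions.  Overview in `notes/P026_REC.md`. -/

namespace Vale.Agent.P026

open scoped ComplexConjugate Real

/-- number of primary divisors -/
noncomputable def tau (n : O) : ℝ := (pdiv n).card

/-- primary elements of norm at most `X` -/
noncomputable def pball (X : ℝ) : Finset O := open Classical in (ball X).filter Prim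

/-- `φ` is bounded by `1` and has period `Q` on `IsP` elements -/
def PerP (Q : O) (φ : O → ℂ) : Prop :=
  (∀ n, ‖φ n‖ ≤ 1) ∧ ∀ n n', IsP n → IsP n' → Q ∣ n - n' → φ n = φ n'

/-- twisted Möbius sum with periodic weight `φ` and coprimality to `q` -/
noncomputable def Bs (φ : O → ℂ) (q : O) (B : ℝ) (V : ℝ → ℝ) (M t : ℝ) (h : O) : ℂ :=
  ∑ n ∈ sball (B * M), φ n * ind (IsCoprime n q) * mu n * sex h n * V (nm n / M) * nt n t

/-- maximal form of `PStmt` -/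
def PM (Q : O) (θ : ℝ) : Prop :=
  ∀ (B : ℝ) (V : ℝ → ℝ) (ε : ℝ), Adm B V → 0 < ε →
    ∃ C A : ℝ, 0 < C ∧ 0 ≤ A ∧ ∀ H M₀ t : ℝ, 1 ≤ H → 0 < M₀ → M₀ ^ (599 / 500 : ℝ) ≤ H →
      ∃ G : O → ℝ, (∀ h, 0 ≤ G h) ∧
        (∀ (φ : O → ℂ) (q : O) (M : ℝ) (h : O), PerP Q φ → Prim q → 0 < M → M ≤ M₀ →
          ‖Bs φ q B V M t h‖ ^ 2 ≤ tau q ^ 2 * M * G h) ∧
        ∀ s : Finset O, ∑ h ∈ s, (1 + (nm h : ℝ) / H) ^ (-3 : ℝ) * G h ≤
          C * (1 + |t|) ^ A * H ^ (1 + ε) * M₀ ^ θ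

/-- the part of the mean square with gcd `Δ` -/
noncomputable def Bil (F : Fam) (Y Z : ℝ) (b : O → ℂ) (Δ : O) : ℂ :=
  ∑ m₁ ∈ sball Z, ∑ m₂ ∈ sball Z, ind (IsCoprime m₁ m₂) * (b (Δ * m₁) * conj (b (Δ * m₂))) *
    ∑' h : O, (Real.exp (-(nm h / Y)) : ℝ) * ind (IsCoprime h Δ) * F.X m₁ h * conj (F.X m₂ h)

/-- the dual sum -/
noncomputable def Ts (φ : O → ℂ) (d e g : O) (B : ℝ) (V : ℝ → ℝ) (N t : ℝ) (k : O) : ℂ :=
  ∑ m ∈ sball (B * N), φ m * ind (IsCoprime m d) * ind (g ∣ m) * (mu m * gt6 m) * sex e m *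
    conj (sex k m) * V (nm m / N) * nt m t

/-- the theta sum -/
noncomputable def Ws (φ : O → ℂ) (B : ℝ) (V : ℝ → ℝ) (N t : ℝ) (k : O) : ℂ :=
  ∑ n ∈ ball (B * N), th0 n * ang n * φ n * conj (sex k n) * V (nm n / N) * nt n t

/-- the conditions on the periodic weight in the Voronoi bound -/
def VBw (Q L : O) (φ : O → ℂ) : Prop :=
  Per L φ ∧ (∀ n, ‖φ n‖ ≤ 1) ∧ (∀ n, ¬IsP n → φ n = 0) ∧
    ∃ η : O → ℂ, ∀ u, Q ∣ u - 1 → IsCoprime u L → ‖η u‖ = 1 ∧ ∀ n, φ (u * n) = η u * φ n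

end Vale.Agent.P026
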