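import Vale.Agent.P026.RecSmall

/-! REC: the hypothesis of the first Poisson step, for one pair `(d, e)`; `γ = 1/10000`.
Plan.  `N₁ = N / nm d ≥ 1`, `K = nm e N₁² / H` (so the weight is `(1 + nm k/K)^(-5)` and the prefactor times `K` is `N₁`), `D₀ = N^γ`, `D = N^(8γ)`, `K' = N^(401/500) ≥ max K 1`.
`nm f ≥ D₀`: `ts` with `Gm = D₀`, `L = H`: `N₁ (N₁ + H (N₁/D₀)^θ) ≤ 2 H N₁ N^((1-γ)θ)`.
`nm f < D₀` (at most `C D₀` values): `ts_small`; `D₀ D^8 D₀^10 (K'^(6/5) + (K'^2 nm d/N)^(41/25)) ≤ 2 N^(1-γ) ≤ 2 N₁` and `D₀ D^(-1/4) N^θ = N^(θ-γ) ≤ N^((1-γ)θ)`. -/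

namespace Vale.Agent.P026

open scoped ComplexConjugate Real

theorem hyp_exp1 {N δ f : ℝ} (hN : 1 ≤ N) (hδ : 1 ≤ δ) (hδN : δ ≤ N ^ (1 / 10000 : ℝ))
    (hf0 : 0 ≤ f) (hf : f ≤ N ^ (1 / 10000 : ℝ)) :
    N ^ (1 / 10000 : ℝ) * ((N ^ (8 / 10000 : ℝ)) ^ 8 * (δ * f) ^ 5 *
      ((N ^ (401 / 500 : ℝ)) ^ (6 / 5 : ℝ) +
        ((N ^ (401 / 500 : ℝ)) ^ 2 / (N / δ)) ^ (41 / 25 : ℝ))) ≤ 2 * (N / δ) := by
  have hN0 : 0 < N := by linarith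
  have hp : ∀ a b : ℝ, a ≤ b → N ^ a ≤ N ^ b := fun a b h =>
    Real.rpow_le_rpow_of_exponent_le hN h
  have a1 : (N ^ (8 / 10000 : ℝ)) ^ 8 = N ^ (64 / 10000 : ℝ) := by
    rw [← Real.rpow_mul_natCast hN0.le]; norm_num
  have a2 : (δ * f) ^ 5 ≤ N ^ (10 / 10000 : ℝ) := by
    calc _ ≤ (N ^ (1 / 10000 : ℝ) * N ^ (1 / 10000 : ℝ)) ^ 5 := by gcongr
      _ = _ := by rw [← Real.rpow_add hN0, ← Real.rpow_mul_natCast hN0.le]; norm_num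
  have a3 : (N ^ (401 / 500 : ℝ)) ^ (6 / 5 : ℝ) ≤ N ^ (9924 / 10000 : ℝ) := by
    rw [← Real.rpow_mul hN0.le]; exact hp _ _ (by norm_num)
  have a4 : (N ^ (401 / 500 : ℝ)) ^ 2 / (N / δ) ≤ N ^ (6041 / 10000 : ℝ) := by
    rw [div_div_eq_mul_div, div_le_iff₀ hN0, ← Real.rpow_mul_natCast hN0.le]
    calc _ ≤ N ^ (401 / 500 * (2 : ℕ) : ℝ) * N ^ (1 / 10000 : ℝ) := by gcongr
      _ = N ^ (6041 / 10000 : ℝ) * N ^ (1 : ℝ) := by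
        rw [← Real.rpow_add hN0, ← Real.rpow_add hN0]; norm_num
      _ = _ := by rw [Real.rpow_one]
  have a5 : ((N ^ (401 / 500 : ℝ)) ^ 2 / (N / δ)) ^ (41 / 25 : ℝ) ≤ N ^ (9924 / 10000 : ℝ) := by
    refine (Real.rpow_le_rpow (by positivity) a4 (by norm_num)).trans ?_
    rw [← Real.rpow_mul hN0.le]; exact hp _ _ (by norm_num)
  have a6 : N ^ (9999 / 10000 : ℝ) ≤ N / δ := by
    rw [le_div_iff₀ (by linarith)]
    calc _ ≤ N ^ (9999 / 10000 : ℝ) * N ^ (1 / 10000 : ℝ) := by gcongr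
      _ = _ := by rw [← Real.rpow_add hN0]; norm_num
  calc _ ≤ N ^ (1 / 10000 : ℝ) * (N ^ (64 / 10000 : ℝ) * N ^ (10 / 10000 : ℝ) *
        (N ^ (9924 / 10000 : ℝ) + N ^ (9924 / 10000 : ℝ))) := by rw [a1]; gcongr
    _ = 2 * (N ^ (1 / 10000 : ℝ) * N ^ (64 / 10000 : ℝ) * N ^ (10 / 10000 : ℝ) *
        N ^ (9924 / 10000 : ℝ)) := by ring
    _ = 2 * N ^ (9999 / 10000 : ℝ) := by
        rw [← Real.rpow_add hN0, ← Real.rpow_add hN0, ← Real.rpow_add hN0]; norm_num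
    _ ≤ _ := by gcongr

theorem hyp_exp2 {N δ θ : ℝ} (hN : 1 ≤ N) (hδ : 1 ≤ δ) (hθ : 0 ≤ θ) (hθ1 : θ ≤ 1) :
    N ^ (1 / 10000 : ℝ) * ((N / δ) ^ θ * (N ^ (8 / 10000 : ℝ)) ^ (-1 / 4 : ℝ)) ≤
      N ^ ((1 - 1 / 10000) * θ) := by
  have hN0 : 0 < N := by linarith
  have a1 : (N / δ) ^ θ ≤ N ^ θ :=
    Real.rpow_le_rpow (by positivity) (div_le_self hN0.le hδ) hθ
  calc _ ≤ N ^ (1 / 10000 : ℝ) * (N ^ θ * (N ^ (8 / 10000 : ℝ)) ^ (-1 / 4 : ℝ)) := by gcongr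
    _ ≤ _ := by
      rw [← Real.rpow_mul hN0.le, ← Real.rpow_add hN0, ← Real.rpow_add hN0]
      exact Real.rpow_le_rpow_of_exponent_le hN (by linarith)

theorem hyp_exp3 {N δ θ : ℝ} (hN : 1 ≤ N) (hδ : 1 ≤ δ) (hθ : 0 ≤ θ) :
    (N / δ / N ^ (1 / 10000 : ℝ)) ^ θ ≤ N ^ ((1 - 1 / 10000) * θ) := by
  have hN0 : 0 < N := by linarith
  rw [Real.rpow_mul hN0.le, Real.rpow_sub hN0, Real.rpow_one]
  gcongr
  exact div_le_self hN0.le hδ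

theorem hyp_fin {C₁ C₂ C₃ T₁ T₂ T E H N₁ Y S₁ S₂ U W : ℝ} (hC₁ : 0 < C₁) (hC₂ : 0 < C₂)
    (hC₃ : 0 < C₃) (h1 : T₁ ≤ T) (h2 : T₂ ≤ T) (hT₁ : 0 ≤ T₁) (hT₂ : 0 ≤ T₂) (hE : 0 ≤ E)
    (hN : 0 ≤ N₁) (hNH : N₁ ≤ H) (hY : 1 ≤ Y) (hU : U ≤ Y) (hW : W ≤ Y)
    (hS₁ : S₁ ≤ C₁ * T₁ * E * N₁ * (N₁ + H * U))
    (hS₂ : S₂ ≤ C₃ * (C₂ * T₂ * E * (H * (2 * N₁) + N₁ * H * W))) :
    S₁ + S₂ ≤ (2 * C₁ + 3 * (C₃ * C₂)) * T * (H * E) * (N₁ * Y) := by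
  have hH : 0 ≤ H := hN.trans hNH
  have hT : 0 ≤ T := hT₁.trans h1
  have hY0 : 0 ≤ Y := by linarith
  have b1 : N₁ + H * U ≤ 2 * (H * Y) := by
    have := mul_le_mul_of_nonneg_left hU hH
    have := mul_le_mul_of_nonneg_left hY hH
    linarith
  have b2 : H * (2 * N₁) + N₁ * H * W ≤ 3 * (N₁ * H * Y) := by
    have := mul_le_mul_of_nonneg_left hW (mul_nonneg hN hH)
    have := mul_le_mul_of_nonneg_left hY (mul_nonneg hN hH)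
    linarith
  have c1 : S₁ ≤ C₁ * T * E * N₁ * (2 * (H * Y)) :=
    hS₁.trans ((mul_le_mul_of_nonneg_left b1 (by positivity)).trans (by gcongr))
  have c2 : S₂ ≤ C₃ * (C₂ * T * E * (3 * (N₁ * H * Y))) :=
    hS₂.trans (mul_le_mul_of_nonneg_left
      ((mul_le_mul_of_nonneg_left b2 (by positivity)).trans (by gcongr)) hC₃.le)
  refine (add_le_add c1 c2).trans_eq ?_
  ring

theorem step_hyp (hvb : VBStmt) {Q : O} (hQ : Q ≠ 0) (h72 : (72 : O) ∣ Q) {θ : ℝ} (hθ : 0 ≤ θ)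
    (hθ1 : θ ≤ 1) (hP : PM Q θ) {B : ℝ} {V : ℝ → ℝ} (hV : Adm B V) {ε : ℝ} (hε : 0 < ε) :
    ∃ C A : ℝ, 0 < C ∧ 0 ≤ A ∧
    ∀ (N H t : ℝ) (φ : O → ℂ) (d e : O) (s : Finset O), PerP Q φ → IsS d → e ∈ pdiv d →
      (0 : O) ∉ s → 1 ≤ N → N ^ (599 / 500 : ℝ) ≤ H → (nm d : ℝ) ≤ N ^ (1 / 10000 : ℝ) →
      H * nm d / (nm e * N) * ∑ f ∈ sball (B * N), ∑ k ∈ s,
          (1 + H * (nm d : ℝ) ^ 2 * nm k / (nm e * N ^ 2)) ^ (-5 : ℝ) *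
          ‖Ts φ d e f B V (N / nm d) t k‖ ^ 2 ≤
        C * (1 + |t|) ^ A * H ^ (1 + ε) * N ^ (1 + (1 - 1 / 10000) * θ) / nm d := by
  classical
  obtain ⟨C₁, A₁, hC₁, hA₁, h1⟩ := ts h72 hP hV hε
  obtain ⟨C₂, A₂, hC₂, hA₂, h2⟩ := ts_small hvb hQ h72 hθ hP hV hε
  obtain ⟨C₃, hC₃, h3⟩ := card_le_of_nm
  refine ⟨2 * C₁ + 3 * (C₃ * C₂), max A₁ A₂, by positivity, le_max_of_le_left hA₁, ?_⟩
  intro N H t φ d e s hφ hd he hs hN hH hdN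
  have hd0 : d ≠ 0 := hd.1.1.ne_zero
  obtain ⟨heP, hed⟩ := (mem_pdiv hd0).1 he
  have nd : (1 : ℝ) ≤ nm d := one_le_nm hd0
  have ne : (1 : ℝ) ≤ nm e := one_le_nm heP.ne_zero
  have ned : (nm e : ℝ) ≤ nm d := by exact_mod_cast nm_le_of_dvd hd0 hed
  have hN0 : 0 < N := by linarith
  have hp : ∀ a b : ℝ, a ≤ b → N ^ a ≤ N ^ b := fun a b h =>
    Real.rpow_le_rpow_of_exponent_le hN h
  have hNH : N ≤ H := le_trans (by simpa using hp 1 (599 / 500) (by norm_num)) hH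
  have hH1 : 1 ≤ H := hN.trans hNH
  have hH0 : 0 < H := by linarith
  have hD₀N : N ^ (1 / 10000 : ℝ) ≤ N := by simpa using hp (1 / 10000) 1 (by norm_num)
  have hD₀ : 1 ≤ N ^ (1 / 10000 : ℝ) := Real.one_le_rpow hN (by norm_num)
  have hN₁ : 1 ≤ N / nm d := (one_le_div (by linarith)).2 (hdN.trans hD₀N)
  have hN₁N : N / nm d ≤ N := div_le_self hN0.le nd
  obtain ⟨K, hK⟩ : ∃ K : ℝ, K = nm e * (N / nm d) ^ 2 / H := ⟨_, rfl⟩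
  have hK0 : 0 < K := by rw [hK]; positivity
  have hKH : nm e * (N / nm d) ^ 2 / K ≤ H := by rw [hK]; exact le_of_eq (by field_simp)
  have hKK : K ≤ N ^ (401 / 500 : ℝ) := by
    rw [hK, div_le_iff₀ hH0]
    calc (nm e : ℝ) * (N / nm d) ^ 2 ≤ nm d * (N / nm d) ^ 2 := by gcongr
      _ = N * (N / nm d) := by field_simp
      _ ≤ N * N := by gcongr
      _ = N ^ (401 / 500 : ℝ) * N ^ (599 / 500 : ℝ) := by
        rw [← Real.rpow_add hN0, ← pow_two, ← Real.rpow_natCast]; norm_num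
      _ ≤ _ := by gcongr
  have hw : ∀ k : O, H * (nm d : ℝ) ^ 2 * nm k / (nm e * N ^ 2) = nm k / K := fun k => by
    rw [hK]; field_simp
  simp only [hw]
  have hr : ∀ x : ℝ, 0 ≤ x → x ≤ N → x ^ (599 / 500 : ℝ) ≤ H := fun x h0 h =>
    (Real.rpow_le_rpow h0 h (by norm_num)).trans hH
  have hL := h1 (N / nm d) K (N ^ (1 / 10000 : ℝ)) H H t φ d e
    ((sball (B * N)).filter fun f => N ^ (1 / 10000 : ℝ) ≤ nm f) s hφ hd.1.1 heP.ne_zero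
    (fun g hg => ⟨(mem_sball.1 (Finset.mem_filter.1 hg).1).1, (Finset.mem_filter.1 hg).2⟩) hD₀
    (by positivity) hK0 hH1 hKH
    (hr _ (by positivity) ((div_le_self (by positivity) hD₀).trans hN₁N)) (hN₁N.trans hNH) le_rfl
    (hdN.trans (hD₀N.trans hNH))
  obtain ⟨P, hPd⟩ : ∃ P : ℝ, P = H * nm d / (nm e * N) := ⟨_, rfl⟩
  rw [← hPd]
  have hP0 : 0 ≤ P := by rw [hPd]; positivity
  have hPK : P * K = N / nm d := by rw [hPd, hK]; field_simp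
  have hPN : P * (N / nm d) ≤ H := by
    calc _ = H / nm e := by rw [hPd]; field_simp
      _ ≤ _ := div_le_self hH0.le ne
  have hS : ∀ f ∈ (sball (B * N)).filter (fun f => ¬N ^ (1 / 10000 : ℝ) ≤ nm f),
      P * ∑ k ∈ s, (1 + (nm k : ℝ) / K) ^ (-5 : ℝ) * ‖Ts φ d e f B V (N / nm d) t k‖ ^ 2 ≤
        C₂ * (1 + |t|) ^ A₂ * H ^ ε * (H * (2 * (N / nm d)) + N / nm d * H *
          N ^ ((1 - 1 / 10000) * θ)) / N ^ (1 / 10000 : ℝ) := by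
    intro f hf
    obtain ⟨hf1, hf2⟩ := Finset.mem_filter.1 hf
    have hf3 := (not_le.1 hf2).le
    have := h2 (N / nm d) K (N ^ (401 / 500 : ℝ)) (N ^ (8 / 10000 : ℝ)) H t φ d e f s hφ hd.1.1 hed
      (mem_sball.1 hf1).1 hs hN₁ hK0 hKK (Real.one_le_rpow hN (by norm_num))
      (Real.one_le_rpow hN (by norm_num)) ((hp _ _ (by norm_num)).trans hH) hKH
      (hr _ (by positivity) hN₁N) (hdN.trans (hD₀N.trans hNH)) (hf3.trans (hD₀N.trans hNH))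
    refine (mul_le_mul_of_nonneg_left this hP0).trans ?_
    rw [le_div_iff₀ (by positivity)]
    have e1 := hyp_exp1 hN nd hdN (Nat.cast_nonneg (nm f)) hf3
    have e2 := hyp_exp2 hN nd hθ hθ1
    calc _ = C₂ * (1 + |t|) ^ A₂ * H ^ ε * (P * (N / nm d) * (N ^ (1 / 10000 : ℝ) *
          ((N ^ (8 / 10000 : ℝ)) ^ 8 * ((nm d : ℝ) * nm f) ^ 5 *
          ((N ^ (401 / 500 : ℝ)) ^ (6 / 5 : ℝ) +
            ((N ^ (401 / 500 : ℝ)) ^ 2 / (N / nm d)) ^ (41 / 25 : ℝ)))) +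
          P * K * H * (N ^ (1 / 10000 : ℝ) *
            ((N / nm d) ^ θ * (N ^ (8 / 10000 : ℝ)) ^ (-1 / 4 : ℝ)))) := by ring
      _ ≤ _ := by rw [hPK]; gcongr
  have hcard := h3 (N ^ (1 / 10000 : ℝ))
    ((sball (B * N)).filter fun f => ¬N ^ (1 / 10000 : ℝ) ≤ nm f) (by positivity) fun f hf =>
      ⟨(mem_sball.1 (Finset.mem_filter.1 hf).1).1.1.1.ne_zero,
        (not_le.1 (Finset.mem_filter.1 hf).2).le⟩
  have ht : 1 ≤ 1 + |t| := by linarith [abs_nonneg t]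
  rw [← Finset.sum_filter_add_sum_filter_not _ (fun f => N ^ (1 / 10000 : ℝ) ≤ nm f), mul_add,
    Real.rpow_add hH0, Real.rpow_add hN0, Real.rpow_one, Real.rpow_one, mul_div_assoc,
    mul_div_right_comm]
  refine hyp_fin hC₁ hC₂ hC₃ (Real.rpow_le_rpow_of_exponent_le ht (le_max_left A₁ A₂))
    (Real.rpow_le_rpow_of_exponent_le ht (le_max_right A₁ A₂)) (by positivity) (by positivity)
    (by positivity) (by positivity) (hN₁N.trans hNH) (Real.one_le_rpow hN (by positivity))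
    (hyp_exp3 hN nd hθ) le_rfl ?_ ?_
  · refine (mul_le_mul_of_nonneg_left hL hP0).trans_eq ?_
    rw [← hPK]
    ring
  · rw [Finset.mul_sum]
    refine (Finset.sum_le_card_nsmul _ _ _ hS).trans ?_
    rw [nsmul_eq_mul]
    refine (mul_le_mul_of_nonneg_right hcard (by positivity)).trans_eq ?_
    field_simp

end Vale.Agent.P026
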