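import Vale.Agent.P026.RecAux
import Vale.Agent.P026.PS

/-! REC: the Poisson step in the form used twice (families `famS`, `famS'`).
Plans.
* `sq_expand`: expand the square, swap the finite sums with `∑'` (`summable_exp`, `‖F.X n h‖ ≤ 1`), then the bijection `(n₁,n₂) ↔ (Δ,m₁,m₂)`, `Δ` the primary gcd
  (`exists_prim_gcd`); `g ∣ n₁ ∧ g ∣ n₂ ↔ g ∣ Δ`; `F.X Δ h * conj (F.X Δ h) = ind (IsCoprime h Δ)`.
* `bil_mobius`: `ind (IsCoprime m₁ m₂) = ∑_{f ∈ sball Z} mu f * ind (f ∣ m₁) * ind (f ∣ m₂)` (`ind_coprime`), so `Bil = ∑_f mu f ∑'_h e^{..} ind(..) |∑_m …|²`.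
* `psx`: PS1 for each pair, PS2 for the family `i = (Δ, e)`, `w = c Δ c0 Y / nm e`, `X_i = X/(B nm Δ)`, `Y_i = Y / nm e`, ratio `B²`; `k = 0` only for `m₁ = m₂ = 1`. -/

namespace Vale.Agent.P026

open scoped ComplexConjugate Real

theorem summable_sq (F : Fam) {Y : ℝ} (hY : 0 < Y) (Z : ℝ) (a : O → ℂ) :
    Summable fun h : O => Real.exp (-(nm h / Y)) * ‖∑ n ∈ sball Z, a n * F.X n h‖ ^ 2 :=
  summable_sq0 F hY Z a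

theorem sq_expand (F : Fam) {Y : ℝ} (hY : 0 < Y) (Z : ℝ) {b : O → ℂ}
    (hb : ∀ n, b n ≠ 0 → n ∈ sball Z) {g : O} (hg : Prim g) :
    ((∑' h : O, Real.exp (-(nm h / Y)) * ‖∑ n ∈ sball Z, ind (g ∣ n) * b n * F.X n h‖ ^ 2 : ℝ) : ℂ) =
      ∑ Δ ∈ sball Z, ind (g ∣ Δ) * Bil F Y Z b Δ :=
  sq_expand0 F hY hb g

theorem bil_mobius (F : Fam) {Y : ℝ} (hY : 0 < Y) (Z : ℝ) (b : O → ℂ) (Δ : O) :
    ‖Bil F Y Z b Δ‖ ≤ ∑ f ∈ sball Z, ∑' h : O, Real.exp (-(nm h / Y)) *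
      ‖∑ m ∈ sball Z, ind (f ∣ m) * b (Δ * m) * F.X m h‖ ^ 2 :=
  bil_mobius0 F hY Z b Δ

theorem psx (F : Fam) {B A : ℝ} (hB : 1 ≤ B) (hA : 0 ≤ A) : ∃ C : ℝ, 0 < C ∧
    ∀ (X Y D : ℝ) (b : O → ℂ) (c : O → ℝ), 0 < X → 0 < Y → (∀ Δ, 0 ≤ c Δ) →
      (∀ n, b n ≠ 0 → IsS n ∧ X / B ≤ nm n ∧ (nm n : ℝ) ≤ B * X) →
      (∀ (t : ℝ) (al : O) (s : Finset O), (0 : O) ∉ s →
        ∑ Δ ∈ sball (B * X), ∑ e ∈ pdiv Δ, c Δ * (Y * nm Δ / (nm e * X)) *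
          ∑ f ∈ sball (B * X), ∑ k ∈ s,
            (1 + Y * (nm Δ : ℝ) ^ 2 * nm k / (nm e * X ^ 2)) ^ (-5 : ℝ) *
            ‖∑ m ∈ sball (B * X), ind ((72 : O) ∣ m - al) * ind (f ∣ m) * b (Δ * m) * F.X m e *
              F.g m * conj (F.X m k) * nt m t‖ ^ 2 ≤ D * (1 + |t|) ^ A) →
      ∑ Δ ∈ sball (B * X), c Δ * ‖Bil F Y (B * X) b Δ‖ ≤
        C * (D + Y * ∑ Δ ∈ sball (B * X), c Δ * tau Δ * ‖b Δ‖ ^ 2) := by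
  obtain ⟨C, hC, h⟩ := psx0 F hB A
  refine ⟨C, hC, fun X Y D b c hX hY hc hb hyp =>
    (h X Y D b c hX hY (fun n hn => (hb n hn).2) hc hyp).trans ?_⟩
  gcongr with Δ hΔ
  exact le_mul_of_one_le_right (hc Δ) (one_le_tau (mem_sball.1 hΔ).1.1.1.ne_zero)

end Vale.Agent.P026
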