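import Vale.Agent.P026.RecAux

/-! REC: the Voronoi bound for all `k ≠ 0`.
Plans.
* `vb_twist`: `φ' n = φ n * conj (sex r n) * conj (bq κ n)`.  Periodic mod `R` by `sex_den_congr`, `bq_congr` (`IsP n ↔ IsP n'` mod 6; `φ = 0` off `IsP`);
  `η' u = η u * conj (sex r u)` (`u ≡ 1 mod 72` is `IsP`).  For `k₁ ∈ S`, `k₁ ≡ κ (4)`, `n` in `IsP`: `conj (sex (r k₁) n) = conj (sex r n) * conj (bq κ n) * quad n k₁ * cub n k₁`
  (`sex_mul_left`, `sex_recip`, `conj_sex`).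
* `vb2`: `k_decomp`; cover `s` by triples `(l, b, k₁)`, `l ∈ ball K`, `l ≠ 0`, `nm l² ≤ K`, `b ∣ L l`, `k₁ ∈ (sball (K/nm l²)).filter (coprime to L l)` (`sum_le_sum_cover`), split `k₁` by classes in `res 4`,
  apply `VBStmt` with `R = L l`, `K/nm l²` and `ε/2` (WLOG `ε ≤ 1/5`), `card_div_le`; `∑_l nm l^(1 - 12/5 + ε)` and `∑_l nm l^(1 + 82/25 - 164/25 + ε)` converge (`sum_rpow_le_const`). -/

namespace Vale.Agent.P026

open scoped ComplexConjugate Real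

theorem vb_twist {Q L R r : O} (h72 : (72 : O) ∣ Q) (hQL : Q ∣ L) (hLR : L ∣ R) (hr : r ≠ 0)
    (hrR : ∀ p, Prime p → p ∣ r → p ∣ R) {φ : O → ℂ} (hφ : VBw Q L φ) (κ : O) :
    ∃ φ' : O → ℂ, VBw Q R φ' ∧ ∀ (k₁ : O), IsS k₁ → (4 : O) ∣ k₁ - κ →
      ∀ (B : ℝ) (V : ℝ → ℝ) (N t : ℝ), Ws φ B V N t (r * k₁) = ∑ n ∈ ball (B * N),
        th0 n * ang n * φ' n * (quad n k₁ * cub n k₁) * V (nm n / N) * nt n t := by
  obtain ⟨hper, hbd, hz, η, hη⟩ := hφ
  have h72R : (72 : O) ∣ R := h72.trans (hQL.trans hLR)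
  refine ⟨fun n => φ n * conj (sex r n) * conj (bq κ n), ⟨fun x y h => ?_, fun n => ?_,
    fun n hn => by simp [hz n hn], fun u => η u * conj (sex r u),
    fun u hu hc => ?_⟩, fun k₁ hk hκ B V N t => Finset.sum_congr rfl fun n _ => ?_⟩
  · beta_reduce
    rw [← hper x y (hLR.trans h)]
    by_cases hx : IsP x
    · rw [sex_den_congr hr hx h72R hrR h,
        bq_congr (a := κ) (a' := κ) (by simp) (fam_four_dvd (h72R.trans h))]
    · rw [hz x hx]; simp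
  · simp only [norm_mul, Complex.norm_conj]
    exact mul_le_one₀ (mul_le_one₀ (hbd n) (norm_nonneg _) (norm_sex_le _ _)) (norm_nonneg _)
      (norm_bq_le _ _)
  · have hu' : IsP u := (fam_isP_congr (h72.trans hu)).2 isP_one
    obtain ⟨h1, h2⟩ := hη u hu (hc.of_isCoprime_of_dvd_right hLR)
    have h3 : IsCoprime r u := isCoprime_of_prime_dvd (fun h => hr h.1) fun p hp h4 h5 =>
      hp.not_isUnit (hc.isUnit_of_dvd' h5 (hrR p hp h4))
    refine ⟨by rw [norm_mul, h1, Complex.norm_conj, norm_sex hu' h3, mul_one], fun n => ?_⟩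
    beta_reduce
    rw [h2]
    by_cases hn : IsP n
    · rw [sex_mul_right hu'.1.ne_zero hn.1.ne_zero, map_mul,
        bq_congr (a := κ) (a' := κ) (b := u * n) (b' := n) (by simp)
          (by rw [← sub_one_mul]; exact (fam_four_dvd (h72.trans hu)).mul_right n)]
      ring
    · simp [hz n hn]
  · by_cases hn : IsP n
    · rw [sex_mul_left hn, sex_recip hk.1 hn, map_mul, map_mul, conj_sex n k₁,
        bq_congr (b := n) (b' := n) hκ (by simp)]
      ring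
    · simp [hz n hn]

theorem vb2 (hvb : VBStmt) {Q : O} (hQ : Q ≠ 0) (h72 : (72 : O) ∣ Q) {B : ℝ} {V : ℝ → ℝ}
    (hV : Adm B V) {ε : ℝ} (hε : 0 < ε) : ∃ C A : ℝ, 0 < C ∧ 0 ≤ A ∧
    ∀ (N K t : ℝ) (L : O) (φ : O → ℂ) (s : Finset O), 1 / B ≤ N → 1 ≤ K → L ≠ 0 → Q ∣ L →
      VBw Q L φ → (∀ k ∈ s, k ≠ 0 ∧ (nm k : ℝ) ≤ K) →
      ∑ k ∈ s, ‖Ws φ B V N t k‖ ^ 2 ≤ C * (1 + |t|) ^ A * (K * nm L) ^ ε * nm L * N *
        (K ^ (6 / 5 : ℝ) + (K ^ 2 * (nm L : ℝ) ^ 2 / N) ^ (41 / 25 : ℝ)) := by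
  classical
  obtain ⟨C, A, hC, hA, h1⟩ := hvb Q B V (ε / 2) hQ h72 hV (half_pos hε)
  obtain ⟨C₂, hC₂, h2⟩ := card_div_le (min (ε / 2) (1 / 5)) (lt_min (half_pos hε) (by norm_num))
  obtain ⟨C₃, hC₃, h3⟩ := sum_rpow_le_const (σ := 6 / 5) (by norm_num)
  refine ⟨16 * C * C₂ * C₃, A, by positivity, hA, fun N K t L φ s hN hK hL hQL hφ hs => ?_⟩
  have hB0 : 0 < B := by linarith [hV.1]
  have hN0 : 0 < N := lt_of_lt_of_le (by positivity) hN
  have hL1 := one_le_nm hL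
  set T := (ball K).filter fun l => l ≠ 0 ∧ (nm l : ℝ) ^ 2 ≤ K with hT
  set Dv : O → Finset O := fun l => (ball (nm (L * l))).filter (· ∣ L * l) with hDv
  set S : O → Finset O :=
    fun l => (sball (K / (nm l : ℝ) ^ 2)).filter fun k => IsCoprime k (L * l) with hS
  have h4 := sum_le_sum_cover s (T.sigma fun l => Dv l ×ˢ S l)
    (fun i => i.2.1 * i.1 ^ 2 * i.2.2) (fun k => ‖Ws φ B V N t k‖ ^ 2) (fun _ => sq_nonneg _)
    fun k hk => by
      obtain ⟨l, b, k₁, hl, hb, hk₁, hc, rfl⟩ := k_decomp (hs k hk).1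
        ((Dvd.intro (12 : O) (by norm_num)).trans (h72.trans hQL))
      have hLl := mul_ne_zero hL hl
      have e1 := one_le_nm (ne_zero_of_dvd_ne_zero hLl hb)
      have e2 := one_le_nm hl
      have e3 := one_le_nm hk₁.1.1.ne_zero
      have e4 := (hs _ hk).2
      rw [nm_mul, nm_mul, nm_pow] at e4
      push_cast at e4
      have e5 : (nm l : ℝ) ^ 2 * nm k₁ ≤ K := by
        rw [mul_assoc] at e4
        exact (le_mul_of_one_le_left (by positivity) e1).trans e4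
      have e6 : (nm l : ℝ) ^ 2 ≤ K := (le_mul_of_one_le_right (by positivity) e3).trans e5
      refine ⟨⟨l, b, k₁⟩, Finset.mem_sigma.2 ⟨Finset.mem_filter.2 ⟨mem_ball.2 (by nlinarith),
        hl, e6⟩, Finset.mem_product.2 ⟨Finset.mem_filter.2 ⟨mem_ball.2
          (by exact_mod_cast nm_le_of_dvd hLl hb), hb⟩, Finset.mem_filter.2 ⟨mem_sball.2 ⟨hk₁, ?_⟩,
          hc⟩⟩⟩, rfl⟩
      rw [le_div_iff₀ (by positivity), mul_comm]
      exact e5
  obtain ⟨X, hX⟩ : ∃ X, X = K ^ (6 / 5 : ℝ) + (K ^ 2 * (nm L : ℝ) ^ 2 / N) ^ (41 / 25 : ℝ) :=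
    ⟨_, rfl⟩
  have hX0 : 0 ≤ X := by rw [hX]; positivity
  obtain ⟨Y, hY⟩ : ∃ Y, Y = C * (1 + |t|) ^ A * (K * nm L) ^ (ε / 2) * nm L * N * X := ⟨_, rfl⟩
  have hY0 : 0 ≤ Y := by rw [hY]; positivity
  have h5 : ∀ l ∈ T, ∀ b ∈ Dv l, ∑ k ∈ S l, ‖Ws φ B V N t (b * l ^ 2 * k)‖ ^ 2 ≤
      16 * (Y * (nm l : ℝ) ^ (-(7 / 5) : ℝ)) := by
    intro l hl b hb
    obtain ⟨-, hl0, hlK⟩ := Finset.mem_filter.1 hl
    have hbd := (Finset.mem_filter.1 hb).2
    have hLl := mul_ne_zero hL hl0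
    have e2 := one_le_nm hl0
    have hl1 : (0 : ℝ) < nm l := by linarith
    choose φ' hφ' hW using fun κ => vb_twist (r := b * l ^ 2) h72 hQL (dvd_mul_right L l)
      (mul_ne_zero (ne_zero_of_dvd_ne_zero hLl hbd) (pow_ne_zero 2 hl0))
      (fun p hp h => (hp.dvd_or_dvd h).elim (fun h => h.trans hbd)
        fun h => (hp.dvd_of_dvd_pow h).mul_left L) hφ κ
    have h6 : ∀ κ ∈ res 4, ∑ k ∈ S l, ‖∑ n ∈ ball (B * N),
        th0 n * ang n * φ' κ n * (quad n k * cub n k) * V (nm n / N) * nt n t‖ ^ 2 ≤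
        Y * (nm l : ℝ) ^ (-(7 / 5) : ℝ) := by
      intro κ _
      obtain ⟨p1, p2, p3, η, p4⟩ := hφ' κ
      refine le_trans (le_of_eq (by rw [hS])) ((h1 N (K / (nm l : ℝ) ^ 2) t (L * l) (φ' κ)
        η hN ((one_le_div (by positivity)).2 hlK) hLl (hQL.mul_right l) p1 p2
        (fun n hn => p3 n fun h => hn h.1) p4).trans ?_)
      rw [nm_mul]
      push_cast
      have q1 : (K / (nm l : ℝ) ^ 2 * (nm L * nm l)) ^ (ε / 2) ≤ (K * nm L) ^ (ε / 2) := by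
        refine Real.rpow_le_rpow (by positivity) ?_ (by positivity)
        rw [div_mul_eq_mul_div, div_le_iff₀ (by positivity)]
        have : 0 ≤ K * nm L * nm l := by positivity
        nlinarith
      have q2 : (nm l : ℝ) * (K / (nm l : ℝ) ^ 2) ^ (6 / 5 : ℝ) =
          K ^ (6 / 5 : ℝ) * (nm l : ℝ) ^ (-(7 / 5) : ℝ) := by
        rw [Real.div_rpow (by positivity) (by positivity), ← Real.rpow_natCast,
          ← Real.rpow_mul hl1.le, show (-(7 / 5) : ℝ) = 1 - (2 : ℕ) * (6 / 5) by norm_num,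
          Real.rpow_sub hl1, Real.rpow_one]
        ring
      have q3 : (nm l : ℝ) * ((K / (nm l : ℝ) ^ 2) ^ 2 * (nm L * nm l) ^ 2 / N) ^ (41 / 25 : ℝ) ≤
          (K ^ 2 * (nm L : ℝ) ^ 2 / N) ^ (41 / 25 : ℝ) * (nm l : ℝ) ^ (-(7 / 5) : ℝ) := by
        have q4 : (K / (nm l : ℝ) ^ 2) ^ 2 * (nm L * nm l) ^ 2 / N =
            K ^ 2 * (nm L : ℝ) ^ 2 / N / (nm l : ℝ) ^ 2 := by field_simp
        have q5 : (nm l : ℝ) / ((nm l : ℝ) ^ 2) ^ (41 / 25 : ℝ) ≤ (nm l : ℝ) ^ (-(7 / 5) : ℝ) := by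
          rw [← Real.rpow_natCast, ← Real.rpow_mul hl1.le, ← Real.rpow_one_sub' hl1.le
            (by norm_num)]
          exact Real.rpow_le_rpow_of_exponent_le e2 (by norm_num)
        rw [q4, Real.div_rpow (by positivity) (by positivity), mul_div_left_comm]
        exact mul_le_mul_of_nonneg_left q5 (by positivity)
      have q6 : (nm l : ℝ) * ((K / (nm l : ℝ) ^ 2) ^ (6 / 5 : ℝ) +
          ((K / (nm l : ℝ) ^ 2) ^ 2 * (nm L * nm l) ^ 2 / N) ^ (41 / 25 : ℝ)) ≤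
          X * (nm l : ℝ) ^ (-(7 / 5) : ℝ) := by
        rw [mul_add, q2, hX, add_mul]
        exact add_le_add le_rfl q3
      have q7 := mul_le_mul_of_nonneg_left (mul_le_mul q1 q6 (by positivity) (by positivity))
        (by positivity : 0 ≤ C * (1 + |t|) ^ A * nm L * N)
      refine le_trans (le_of_eq (by ring)) (q7.trans (le_of_eq ?_))
      rw [hY]; ring
    have h7 := Finset.sum_le_card_nsmul _ _ _ h6
    rw [card_res (by decide), nsmul_eq_mul, Finset.sum_comm] at h7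
    refine (Finset.sum_le_sum fun k hk => ?_).trans (h7.trans (le_of_eq ?_))
    · obtain ⟨κ, ⟨hκ, hκ'⟩, -⟩ := res_spec (n := 4) (by decide) k
      rw [hW κ k (mem_sball.1 (Finset.mem_filter.1 hk).1).1 hκ']
      exact Finset.single_le_sum (f := fun κ => ‖∑ n ∈ ball (B * N),
        th0 n * ang n * φ' κ n * (quad n k * cub n k) * V (nm n / N) * nt n t‖ ^ 2)
        (fun _ _ => sq_nonneg _) hκ
    · have : nm 4 = 16 := by decide
      rw [this]; norm_num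
  have h8 : ∀ l ∈ T, ∑ b ∈ Dv l, ∑ k ∈ S l, ‖Ws φ B V N t (b * l ^ 2 * k)‖ ^ 2 ≤
      16 * C₂ * (K * nm L) ^ (ε / 2) * Y * (nm l : ℝ) ^ (-(6 / 5) : ℝ) := by
    intro l hl
    have hl0 := (Finset.mem_filter.1 hl).2.1
    have e2 := one_le_nm hl0
    have hl1 : (0 : ℝ) < nm l := by linarith
    have h9 := Finset.sum_le_card_nsmul _ _ _ (h5 l hl)
    rw [nsmul_eq_mul] at h9
    have h10 : ((Dv l).card : ℝ) ≤ C₂ * ((K * nm L) ^ (ε / 2) * (nm l : ℝ) ^ (1 / 5 : ℝ)) := by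
      refine le_trans (le_of_eq (by rw [hDv])) ((h2 (L * l) (mul_ne_zero hL hl0)).trans
        (mul_le_mul_of_nonneg_left ?_ hC₂.le))
      rw [nm_mul]
      push_cast
      rw [Real.mul_rpow (by positivity) hl1.le]
      refine mul_le_mul ?_ (Real.rpow_le_rpow_of_exponent_le e2 (min_le_right _ _))
        (by positivity) (by positivity)
      exact (Real.rpow_le_rpow_of_exponent_le hL1 (min_le_left _ _)).trans
        (Real.rpow_le_rpow (by positivity) (le_mul_of_one_le_left (by positivity) hK)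
          (by positivity))
    refine h9.trans ((mul_le_mul_of_nonneg_right h10 (by positivity)).trans (le_of_eq ?_))
    rw [show (-(6 / 5) : ℝ) = 1 / 5 + -(7 / 5) by norm_num, Real.rpow_add hl1]
    ring
  rw [Finset.sum_sigma] at h4
  simp only [Finset.sum_product] at h4
  refine h4.trans ((Finset.sum_le_sum h8).trans ?_)
  rw [← Finset.mul_sum]
  refine (mul_le_mul_of_nonneg_left (h3 T) (by positivity)).trans (le_of_eq ?_)
  have h11 : (K * nm L) ^ ε = (K * nm L) ^ (ε / 2) * (K * nm L) ^ (ε / 2) := by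
    rw [← Real.rpow_add (by positivity), add_halves]
  rw [h11, hY, hX]; ring

end Vale.Agent.P026
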