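import Vale.Agent.P026.RecTS2
import Vale.Agent.P026.RecVB
import Vale.Agent.P026.RecCube

/-! REC: the bound for `Ts` with small `f`.
Plans.
* `small_main`: `K ≤ K'`; Cauchy-Schwarz over `δ` (`card_le_of_nm`: at most `C D` terms); `Ws = 0` if `N/nm δ³ < 1/B` (only `n = 0`, `th0 0 = 0`); else `dyadic_weight` (`A = 5`, `p = 4`) with
  `vb2` at `y K'`, `L = Q d f`, `ε' = min (ε/3) (1/2)`; `nm δ * (N/nm δ³) ≤ D N`, `(nm δ³)^(41/25) ≤ D^5`, `nm L^(1+82/25) ≤ (nm Q nm d nm f)^5`.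
* `small_tail`: `sq_sum_le_weight` with `w δ = nm δ^(-5/4)`, `sum_rpow_tail`; `Ts = 0` if `B N/nm δ³ < 1`; else `ts` with `Gs = {g δ}`, `Gm = 1`, `H_δ = B² H / nm δ^(1797/500)`, `L = B² H`,
  `N/nm δ³ ≤ H_δ`, `(N/nm δ³)^θ ≤ N^θ`; `∑ nm δ^(5/4 + 1 - 1797/500) tau δ²` converges.
* `ts_small`: `ts_split`, `(a+b)² ≤ 2a²+2b²`. -/

namespace Vale.Agent.P026

open scoped ComplexConjugate Real

theorem rpow_le_pow_of {x y a : ℝ} {n : ℕ} (hx : 0 ≤ x) (hxy : x ≤ y) (hy : 1 ≤ y) (ha : 0 ≤ a)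
    (h : a ≤ n) : x ^ a ≤ y ^ n := by
  rw [← Real.rpow_natCast]
  exact (Real.rpow_le_rpow hx hxy ha).trans (Real.rpow_le_rpow_of_exponent_le hy h)

theorem small_num {n D N y K H l q η ε : ℝ} (hn : 1 ≤ n) (hD : n ≤ D) (hN : 1 ≤ N) (hy : 1 ≤ y)
    (hK : 1 ≤ K) (hH : K ≤ H) (hl : 1 ≤ l) (hq : 1 ≤ q) (hlq : l ≤ q * H ^ 2) (hη : 0 < η)
    (hη1 : η ≤ 1 / 2) (hηε : 3 * η ≤ ε) :
    n * ((y * K * l) ^ η * l * (N / n ^ 3) *
      ((y * K) ^ (6 / 5 : ℝ) + ((y * K) ^ 2 * l ^ 2 / (N / n ^ 3)) ^ (41 / 25 : ℝ))) ≤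
      q * H ^ ε * (D ^ 6 * l ^ 5 * N * (K ^ (6 / 5 : ℝ) + (K ^ 2 / N) ^ (41 / 25 : ℝ))) *
        y ^ (4 : ℝ) := by
  have hH1 : 1 ≤ H := hK.trans hH
  have hD1 : 1 ≤ D := hn.trans hD
  have y0 : 0 < y := by linarith
  have a1 : (y * K * l) ^ η ≤ y ^ (1 / 2 : ℝ) * (q * H ^ ε) := by
    rw [mul_assoc, Real.mul_rpow y0.le (by positivity)]
    refine mul_le_mul (Real.rpow_le_rpow_of_exponent_le hy hη1) ?_ (by positivity) (by positivity)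
    calc (K * l) ^ η ≤ (q * H ^ 3) ^ η := Real.rpow_le_rpow (by positivity)
          (by calc K * l ≤ H * (q * H ^ 2) := by gcongr
                _ = _ := by ring) hη.le
      _ = q ^ η * H ^ (3 * η) := by
          rw [Real.mul_rpow (by positivity) (by positivity), ← Real.rpow_natCast,
            ← Real.rpow_mul (by positivity)]
          norm_num
      _ ≤ _ := mul_le_mul (by simpa using Real.rpow_le_rpow_of_exponent_le hq (by linarith : η ≤ 1))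
          (Real.rpow_le_rpow_of_exponent_le hH1 hηε) (by positivity) (by positivity)
  have a2 : N / n ^ 3 ≤ N := div_le_self (by linarith) (one_le_pow₀ hn)
  have b0 : 1 ≤ l ^ 4 * D ^ 5 := one_le_mul_of_one_le_of_one_le (one_le_pow₀ hl) (one_le_pow₀ hD1)
  have a3 : (y * K) ^ (6 / 5 : ℝ) ≤ y ^ (7 / 2 : ℝ) * (l ^ 4 * D ^ 5) * K ^ (6 / 5 : ℝ) := by
    rw [Real.mul_rpow y0.le (by positivity)]
    gcongr
    exact (Real.rpow_le_rpow_of_exponent_le hy (by norm_num)).trans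
      (le_mul_of_one_le_right (by positivity) b0)
  have a4 : ((y * K) ^ 2 * l ^ 2 / (N / n ^ 3)) ^ (41 / 25 : ℝ) ≤
      y ^ (7 / 2 : ℝ) * (l ^ 4 * D ^ 5) * (K ^ 2 / N) ^ (41 / 25 : ℝ) := by
    rw [show (y * K) ^ 2 * l ^ 2 / (N / n ^ 3) = y ^ 2 * (l ^ 2 * n ^ 3) * (K ^ 2 / N) by
      field_simp, Real.mul_rpow (by positivity) (by positivity),
      Real.mul_rpow (by positivity) (by positivity), Real.mul_rpow (by positivity) (by positivity),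
      ← Real.rpow_natCast_mul y0.le, ← Real.rpow_natCast_mul (by positivity),
      ← Real.rpow_natCast_mul (by positivity)]
    gcongr
    · norm_num
    · exact rpow_le_pow_of (by positivity) le_rfl hl (by norm_num) (by norm_num)
    · exact rpow_le_pow_of (by positivity) hD hD1 (by norm_num) (by norm_num)
  have a5 : y ^ (4 : ℝ) = y ^ (1 / 2 : ℝ) * y ^ (7 / 2 : ℝ) := by
    rw [← Real.rpow_add y0]
    norm_num
  calc _ ≤ D * (y ^ (1 / 2 : ℝ) * (q * H ^ ε) * l * N *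
        (y ^ (7 / 2 : ℝ) * (l ^ 4 * D ^ 5) * K ^ (6 / 5 : ℝ) +
          y ^ (7 / 2 : ℝ) * (l ^ 4 * D ^ 5) * (K ^ 2 / N) ^ (41 / 25 : ℝ))) := by gcongr
    _ = _ := by rw [a5]; ring

theorem Ws_eq_zero {B N : ℝ} (h : B * N < 1) (φ : O → ℂ) (V : ℝ → ℝ) (t : ℝ) (k : O) :
    Ws φ B V N t k = 0 := by
  refine Finset.sum_eq_zero fun n hn => ?_
  have h0 : th0 n = 0 := by
    by_contra h0
    obtain ⟨c, d, hc, -, hd, rfl⟩ := th0_ne_zero h0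
    linarith [one_le_nm (hc.mul (hd.pow 3)).ne_zero, mem_ball.1 hn]
  simp [h0]

theorem small_main (hvb : VBStmt) {Q : O} (hQ : Q ≠ 0) (h72 : (72 : O) ∣ Q) {B : ℝ} {V : ℝ → ℝ}
    (hV : Adm B V) {ε : ℝ} (hε : 0 < ε) : ∃ C A : ℝ, 0 < C ∧ 0 ≤ A ∧
    ∀ (N K K' D H t : ℝ) (φ₁ : O → O → ℂ) (d f : O) (s : Finset O), d ≠ 0 → f ≠ 0 →
      (∀ δ, Prim δ → VBw Q (Q * d * f) (φ₁ δ)) → (0 : O) ∉ s → 1 ≤ N → 0 < K → K ≤ K' → 1 ≤ K' →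
      1 ≤ D → K' ≤ H → (nm d : ℝ) ≤ H → (nm f : ℝ) ≤ H →
      ∑ k ∈ s, (1 + (nm k : ℝ) / K) ^ (-5 : ℝ) *
          (∑ δ ∈ pball D, √(nm δ) * ‖Ws (φ₁ δ) B V (N / (nm δ : ℝ) ^ 3) t k‖) ^ 2 ≤
        C * (1 + |t|) ^ A * H ^ ε * (D ^ 8 * ((nm d : ℝ) * nm f) ^ 5 * N *
          (K' ^ (6 / 5 : ℝ) + (K' ^ 2 / N) ^ (41 / 25 : ℝ))) := by
  classical
  obtain ⟨η, hη0, hη1, hη3⟩ : ∃ η : ℝ, 0 < η ∧ η ≤ 1 / 2 ∧ 3 * η ≤ ε :=
    ⟨min (ε / 3) (1 / 2), lt_min (by linarith) (by norm_num), min_le_right _ _,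
      by have := min_le_left (ε / 3) (1 / 2); linarith⟩
  obtain ⟨C₀, A, hC₀, hA, h0⟩ := vb2 hvb hQ h72 hV hη0
  obtain ⟨C₁, hC₁, h1⟩ := dyadic_weight (A := 5) (p := 4) (by norm_num) (by norm_num)
  obtain ⟨C₂, hC₂, h2⟩ := card_le_of_nm
  have hq : (1 : ℝ) ≤ nm Q := one_le_nm hQ
  have hB : 0 < B := lt_of_lt_of_le one_pos hV.1
  refine ⟨C₁ * C₂ ^ 2 * C₀ * nm Q ^ 6, A, by positivity, hA, ?_⟩
  intro N K K' D H t φ₁ d f s hd hf hφ hs hN hK hKK hK' hD hH hdH hfH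
  have hL : Q * d * f ≠ 0 := mul_ne_zero (mul_ne_zero hQ hd) hf
  have hH0 : 0 < H := by linarith
  obtain ⟨X, hX⟩ : ∃ X : ℝ, X = C₀ * (1 + |t|) ^ A * (nm Q * H ^ ε * (D ^ 6 * (nm (Q * d * f) : ℝ) ^ 5 *
    N * (K' ^ (6 / 5 : ℝ) + (K' ^ 2 / N) ^ (41 / 25 : ℝ)))) := ⟨_, rfl⟩
  have hX0 : 0 ≤ X := by rw [hX]; positivity
  have hc : ((pball D).card : ℝ) ≤ C₂ * D := h2 D _ (by linarith) fun n hn =>
    ⟨(mem_pball.1 hn).1.ne_zero, (mem_pball.1 hn).2⟩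
  have key : ∀ y : ℝ, 1 ≤ y → ∀ δ ∈ pball D, ∑ k ∈ s with (nm k : ℝ) ≤ y * K',
      (√(nm δ) * ‖Ws (φ₁ δ) B V (N / (nm δ : ℝ) ^ 3) t k‖) ^ 2 ≤ X * y ^ (4 : ℝ) := by
    intro y hy δ hδ
    obtain ⟨hδ1, hδ2⟩ := mem_pball.1 hδ
    by_cases hb : B * (N / (nm δ : ℝ) ^ 3) < 1
    · simp only [Ws_eq_zero hb, norm_zero, mul_zero, ne_eq, OfNat.ofNat_ne_zero, not_false_eq_true,
        zero_pow, Finset.sum_const_zero]
      positivity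
    simp only [mul_pow, Real.sq_sqrt (Nat.cast_nonneg _), ← Finset.mul_sum]
    have h3 := h0 (N / (nm δ : ℝ) ^ 3) (y * K') t (Q * d * f) (φ₁ δ) (s.filter fun k =>
      (nm k : ℝ) ≤ y * K') (by rw [div_le_iff₀' hB]; exact not_lt.1 hb) (by nlinarith) hL
      ((dvd_mul_right _ _).mul_right _) (hφ δ hδ1) fun k hk =>
        ⟨fun h => hs (h ▸ (Finset.mem_filter.1 hk).1), (Finset.mem_filter.1 hk).2⟩
    have h4 := small_num (one_le_nm hδ1.ne_zero) hδ2 hN hy hK' hH (one_le_nm hL) hq (by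
      simp only [nm_mul, Nat.cast_mul]
      rw [mul_assoc, pow_two]
      gcongr) hη0 hη1 hη3
    refine (mul_le_mul_of_nonneg_left h3 (Nat.cast_nonneg _)).trans ?_
    refine le_trans (le_of_eq ?_) ((mul_le_mul_of_nonneg_left h4
      (show 0 ≤ C₀ * (1 + |t|) ^ A by positivity)).trans_eq ?_)
    · ring
    · rw [hX]
      ring
  have h5 := h1 (fun k => (∑ δ ∈ pball D, √(nm δ) * ‖Ws (φ₁ δ) B V (N / (nm δ : ℝ) ^ 3) t k‖) ^ 2)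
    K' ((C₂ * D) ^ 2 * X) s (fun _ _ => sq_nonneg _) (by linarith) fun y hy => by
      refine (Finset.sum_le_sum fun k _ => sq_sum_le_card_mul_sum_sq).trans ?_
      rw [← Finset.mul_sum, Finset.sum_comm]
      refine (mul_le_mul hc (Finset.sum_le_card_nsmul _ _ _ (key y hy)) (by positivity)
        (by positivity)).trans ?_
      rw [nsmul_eq_mul]
      refine (mul_le_mul_of_nonneg_left (mul_le_mul_of_nonneg_right hc (by positivity))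
        (by positivity)).trans_eq (by ring)
  refine le_trans (Finset.sum_le_sum fun k _ => mul_le_mul_of_nonneg_right ?_ (sq_nonneg _))
    (h5.trans_eq ?_)
  · refine Real.rpow_le_rpow_of_nonpos (by positivity) ?_ (by norm_num)
    gcongr
  · rw [hX]
    simp only [nm_mul, Nat.cast_mul]
    ring

theorem tail_num {B N n H : ℝ} (hB : 1 ≤ B) (hN : 1 ≤ N) (hn : 1 ≤ n) (hb : 1 ≤ B * (N / n ^ 3))
    (hH : N ^ (599 / 500 : ℝ) ≤ H) :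
    (N / n ^ 3) ^ (599 / 500 : ℝ) ≤ H * n ^ (-(1797 / 500) : ℝ) ∧
      1 ≤ B ^ 2 * (H * n ^ (-(1797 / 500) : ℝ)) ∧
      N / n ^ 3 ≤ B ^ 2 * (H * n ^ (-(1797 / 500) : ℝ)) := by
  have n0 : 0 < n := by linarith
  have h1 : (N / n ^ 3) ^ (599 / 500 : ℝ) ≤ H * n ^ (-(1797 / 500) : ℝ) := by
    rw [Real.div_rpow (by linarith) (by positivity), ← Real.rpow_natCast_mul n0.le,
      Real.rpow_neg n0.le, div_eq_mul_inv]
    norm_num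
    gcongr
  have h2 : B * (N / n ^ 3) ≤ B ^ 2 * (H * n ^ (-(1797 / 500) : ℝ)) := by
    calc B * (N / n ^ 3) ≤ (B * (N / n ^ 3)) ^ (599 / 500 : ℝ) := by
          simpa using Real.rpow_le_rpow_of_exponent_le hb (by norm_num : (1 : ℝ) ≤ 599 / 500)
      _ = B ^ (599 / 500 : ℝ) * (N / n ^ 3) ^ (599 / 500 : ℝ) :=
          Real.mul_rpow (by linarith) (by positivity)
      _ ≤ _ := mul_le_mul (rpow_le_pow_of (by linarith) le_rfl hB (by norm_num) (by norm_num)) h1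
          (by positivity) (by positivity)
  exact ⟨h1, hb.trans h2, (le_mul_of_one_le_left (by positivity) hB).trans h2⟩

theorem tail_one {Q : O} (h72 : (72 : O) ∣ Q) {θ : ℝ} (hθ : 0 ≤ θ) (hP : PM Q θ) {B : ℝ}
    {V : ℝ → ℝ} (hV : Adm B V) {ε : ℝ} (hε : 0 < ε) : ∃ C A : ℝ, 0 < C ∧ 0 ≤ A ∧
    ∀ (N K H t n : ℝ) (φ : O → ℂ) (g d e : O) (s : Finset O), Prim d → e ≠ 0 →
      PerP Q φ → IsS g → 1 ≤ N → 0 < K → 1 ≤ n →
      nm e * N ^ 2 / K ≤ H → N ^ (599 / 500 : ℝ) ≤ H → (nm d : ℝ) ≤ H →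
      ∑ k ∈ s, (1 + (nm k : ℝ) / K) ^ (-5 : ℝ) * ‖Ts φ d e g B V (N / n ^ 3) t k‖ ^ 2 ≤
        C * (1 + |t|) ^ A * H ^ ε * (K * H * N ^ θ) * n ^ (-(1797 / 500) : ℝ) := by
  obtain ⟨C, A, hC, hA, h0⟩ := ts h72 hP hV hε
  have hB : 1 ≤ B := hV.1
  refine ⟨C * (B ^ 2) ^ ε * (2 * B ^ 2), A, by positivity, hA, ?_⟩
  intro N K H t n φ g d e s hd he hφ hg hN hK hn hKH hNH hdH
  have hNH' : N ≤ H := le_trans (by
    simpa using Real.rpow_le_rpow_of_exponent_le hN (by norm_num : (1 : ℝ) ≤ 599 / 500)) hNH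
  have hH0 : 0 < H := by linarith
  have n0 : 0 < n := by linarith
  by_cases hb : B * (N / n ^ 3) < 1
  · simp only [Ts, sball_eq_empty hb, Finset.sum_empty, norm_zero, mul_zero, ne_eq,
      OfNat.ofNat_ne_zero, not_false_eq_true, zero_pow, Finset.sum_const_zero]
    positivity
  obtain ⟨a1, a2, a3⟩ := tail_num hB hN hn (not_lt.1 hb) hNH
  have b1 : 1 ≤ B ^ 2 := one_le_pow₀ hB
  have b2 : n ^ (-(1797 / 500) : ℝ) ≤ 1 := Real.rpow_le_one_of_one_le_of_nonpos hn (by norm_num)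
  have b3 : H ≤ B ^ 2 * H := le_mul_of_one_le_left hH0.le b1
  have b4 : N / n ^ 3 ≤ N := div_le_self (by linarith) (one_le_pow₀ hn)
  have b5 : H * n ^ (-(1797 / 500) : ℝ) ≤ B ^ 2 * (H * n ^ (-(1797 / 500) : ℝ)) :=
    le_mul_of_one_le_left (by positivity) b1
  have b6 : nm e * (N / n ^ 3) ^ 2 / K ≤ H * n ^ (-(1797 / 500) : ℝ) := by
    rw [show nm e * (N / n ^ 3) ^ 2 / K = nm e * N ^ 2 / K * (n ^ 6)⁻¹ by field_simp,
      Real.rpow_neg n0.le]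
    gcongr
    exact rpow_le_pow_of n0.le le_rfl hn (by norm_num) (by norm_num)
  have h1 := h0 (N / n ^ 3) K 1 (B ^ 2 * (H * n ^ (-(1797 / 500) : ℝ))) (B ^ 2 * H) t φ d e {g} s
    hφ hd he (fun g' hg' => by
      rw [Finset.mem_singleton.1 hg']
      exact ⟨hg, one_le_nm hg.1.1.ne_zero⟩) le_rfl (by positivity) hK a2 (b6.trans b5)
    (by rw [div_one]; exact a1.trans b5) (b4.trans (hNH'.trans b3))
    (by gcongr; exact mul_le_of_le_one_right hH0.le b2) (hdH.trans b3)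
  rw [Finset.sum_singleton, div_one, Real.mul_rpow (by positivity) hH0.le] at h1
  refine h1.trans ?_
  have b7 : (N / n ^ 3) ^ θ ≤ N ^ θ := Real.rpow_le_rpow (by positivity) b4 hθ
  have b8 : 1 ≤ N ^ θ := Real.one_le_rpow hN hθ
  generalize n ^ (-(1797 / 500) : ℝ) = u at *
  have u0 : 0 ≤ B ^ 2 * (H * u) := by linarith
  have b9 : N / n ^ 3 + B ^ 2 * (H * u) * (N / n ^ 3) ^ θ ≤ 2 * (B ^ 2 * (H * u) * N ^ θ) := by
    have := mul_le_mul_of_nonneg_left b7 u0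
    have := le_mul_of_one_le_right u0 b8
    linarith
  exact (mul_le_mul_of_nonneg_left b9 (by positivity)).trans_eq (by ring)

open Classical in
theorem small_tail {Q : O} (h72 : (72 : O) ∣ Q) {θ : ℝ} (hθ : 0 ≤ θ) (hP : PM Q θ) {B : ℝ}
    {V : ℝ → ℝ} (hV : Adm B V) {ε : ℝ} (hε : 0 < ε) : ∃ C A : ℝ, 0 < C ∧ 0 ≤ A ∧
    ∀ (N K D H t : ℝ) (φ₂ : O → O → ℂ) (g : O → O) (d e : O) (s : Finset O), Prim d → e ≠ 0 →
      (∀ δ, Prim δ → PerP Q (φ₂ δ) ∧ IsS (g δ)) → 1 ≤ N → 0 < K → 1 ≤ D →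
      nm e * N ^ 2 / K ≤ H → N ^ (599 / 500 : ℝ) ≤ H → (nm d : ℝ) ≤ H →
      ∑ k ∈ s, (1 + (nm k : ℝ) / K) ^ (-5 : ℝ) * (∑ δ ∈ pball (B * N) with D < nm δ,
          tau δ * √(nm δ) * ‖Ts (φ₂ δ) d e (g δ) B V (N / (nm δ : ℝ) ^ 3) t k‖) ^ 2 ≤
        C * (1 + |t|) ^ A * H ^ ε * (K * H * N ^ θ * D ^ (-1 / 4 : ℝ)) := by
  obtain ⟨C₀, A, hC₀, hA, h0⟩ := tail_one h72 hθ hP hV hε
  obtain ⟨C₁, hC₁, h1⟩ := sum_rpow_tail (σ := 5 / 4) (by norm_num)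
  obtain ⟨C₂, hC₂, h2⟩ := tau_pow_le 2 (ε := 1 / 20) (by norm_num)
  obtain ⟨C₃, hC₃, h3⟩ := sum_rpow_le_const (σ := 5 / 4) (by norm_num)
  refine ⟨C₀ * C₁ * C₂ * C₃, A, by positivity, hA, ?_⟩
  intro N K D H t φ₂ g d e s hd he hφ hN hK hD hKH hNH hdH
  have hH0 : 0 < H := lt_of_lt_of_le (by positivity) hNH
  generalize hT : (pball (B * N)).filter (fun δ => D < nm δ) = T
  have hT1 : ∀ δ ∈ T, Prim δ ∧ D < nm δ := fun δ hδ => by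
    rw [← hT, Finset.mem_filter] at hδ
    exact ⟨(mem_pball.1 hδ.1).1, hδ.2⟩
  have hn : ∀ δ ∈ T, (1 : ℝ) ≤ nm δ := fun δ hδ => one_le_nm (hT1 δ hδ).1.ne_zero
  have h4 := h1 D T (by linarith) fun δ hδ => (hT1 δ hδ).2
  obtain ⟨X, hX⟩ : ∃ X : ℝ, X = C₀ * (1 + |t|) ^ A * H ^ ε * (K * H * N ^ θ) := ⟨_, rfl⟩
  have hX0 : 0 ≤ X := by rw [hX]; positivity
  have key : ∀ δ ∈ T, ∑ k ∈ s, (1 + (nm k : ℝ) / K) ^ (-5 : ℝ) *
      ((tau δ * √(nm δ) * ‖Ts (φ₂ δ) d e (g δ) B V (N / (nm δ : ℝ) ^ 3) t k‖) ^ 2 /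
        (nm δ : ℝ) ^ (-(5 / 4) : ℝ)) ≤ C₂ * X * (nm δ : ℝ) ^ (-(5 / 4) : ℝ) := by
    intro δ hδ
    have n0 : (0 : ℝ) < nm δ := by linarith [hn δ hδ]
    have h5 := h0 N K H t (nm δ) (φ₂ δ) (g δ) d e s hd he (hφ δ (hT1 δ hδ).1).1
      (hφ δ (hT1 δ hδ).1).2 hN hK (hn δ hδ) hKH hNH hdH
    rw [← hX] at h5
    calc _ = tau δ ^ 2 * (nm δ * (nm δ : ℝ) ^ (5 / 4 : ℝ)) * ∑ k ∈ s,
          (1 + (nm k : ℝ) / K) ^ (-5 : ℝ) *
            ‖Ts (φ₂ δ) d e (g δ) B V (N / (nm δ : ℝ) ^ 3) t k‖ ^ 2 := by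
          rw [Finset.mul_sum]
          refine Finset.sum_congr rfl fun k _ => ?_
          rw [mul_pow, mul_pow, Real.sq_sqrt n0.le, Real.rpow_neg n0.le, div_inv_eq_mul]
          ring
      _ ≤ C₂ * (nm δ : ℝ) ^ (1 / 20 : ℝ) * (nm δ * (nm δ : ℝ) ^ (5 / 4 : ℝ)) *
          (X * (nm δ : ℝ) ^ (-(1797 / 500) : ℝ)) :=
          mul_le_mul (mul_le_mul_of_nonneg_right (h2 δ (hT1 δ hδ).1.ne_zero) (by positivity)) h5
            (Finset.sum_nonneg fun _ _ => by positivity) (by positivity)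
      _ = C₂ * X * (nm δ : ℝ) ^ (1 / 20 + (1 + 5 / 4) + -(1797 / 500) : ℝ) := by
          rw [Real.rpow_add n0, Real.rpow_add n0, Real.rpow_add n0, Real.rpow_one]
          ring
      _ ≤ _ := mul_le_mul_of_nonneg_left
          (Real.rpow_le_rpow_of_exponent_le (hn δ hδ) (by norm_num)) (by positivity)
  calc _ ≤ ∑ k ∈ s, (1 + (nm k : ℝ) / K) ^ (-5 : ℝ) * (C₁ * D ^ (1 - 5 / 4 : ℝ) * ∑ δ ∈ T,
        (tau δ * √(nm δ) * ‖Ts (φ₂ δ) d e (g δ) B V (N / (nm δ : ℝ) ^ 3) t k‖) ^ 2 /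
          (nm δ : ℝ) ^ (-(5 / 4) : ℝ)) := by
        refine Finset.sum_le_sum fun k _ => mul_le_mul_of_nonneg_left ?_ (by positivity)
        exact (sq_sum_le_weight T (fun δ => (nm δ : ℝ) ^ (-(5 / 4) : ℝ)) _ fun δ hδ =>
          Real.rpow_pos_of_pos (by linarith [hn δ hδ]) _).trans (mul_le_mul_of_nonneg_right h4
            (Finset.sum_nonneg fun _ _ => by positivity))
    _ = C₁ * D ^ (1 - 5 / 4 : ℝ) * ∑ δ ∈ T, ∑ k ∈ s, (1 + (nm k : ℝ) / K) ^ (-5 : ℝ) *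
        ((tau δ * √(nm δ) * ‖Ts (φ₂ δ) d e (g δ) B V (N / (nm δ : ℝ) ^ 3) t k‖) ^ 2 /
          (nm δ : ℝ) ^ (-(5 / 4) : ℝ)) := by
        rw [Finset.sum_comm, Finset.mul_sum]
        refine Finset.sum_congr rfl fun k _ => ?_
        rw [← Finset.mul_sum, mul_left_comm]
    _ ≤ C₁ * D ^ (1 - 5 / 4 : ℝ) * (C₂ * X * C₃) := by
        refine mul_le_mul_of_nonneg_left ((Finset.sum_le_sum key).trans ?_) (by positivity)
        rw [← Finset.mul_sum]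
        exact mul_le_mul_of_nonneg_left (h3 T) (by positivity)
    _ = _ := by
        rw [hX, show (1 - 5 / 4 : ℝ) = -1 / 4 by norm_num]
        ring

theorem ts_small (hvb : VBStmt) {Q : O} (hQ : Q ≠ 0) (h72 : (72 : O) ∣ Q) {θ : ℝ} (hθ : 0 ≤ θ)
    (hP : PM Q θ) {B : ℝ} {V : ℝ → ℝ} (hV : Adm B V) {ε : ℝ} (hε : 0 < ε) :
    ∃ C A : ℝ, 0 < C ∧ 0 ≤ A ∧
    ∀ (N K K' D H t : ℝ) (φ : O → ℂ) (d e f : O) (s : Finset O), PerP Q φ → Prim d → e ∣ d →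
      IsS f → (0 : O) ∉ s → 1 ≤ N → 0 < K → K ≤ K' → 1 ≤ K' → 1 ≤ D → K' ≤ H →
      nm e * N ^ 2 / K ≤ H → N ^ (599 / 500 : ℝ) ≤ H → (nm d : ℝ) ≤ H → (nm f : ℝ) ≤ H →
      ∑ k ∈ s, (1 + (nm k : ℝ) / K) ^ (-5 : ℝ) * ‖Ts φ d e f B V N t k‖ ^ 2 ≤
        C * (1 + |t|) ^ A * H ^ ε * (D ^ 8 * ((nm d : ℝ) * nm f) ^ 5 * N *
          (K' ^ (6 / 5 : ℝ) + (K' ^ 2 / N) ^ (41 / 25 : ℝ)) +
          K * H * N ^ θ * D ^ (-1 / 4 : ℝ)) := by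
  obtain ⟨C₁, A₁, hC₁, hA₁, h1⟩ := small_main hvb hQ h72 hV hε
  obtain ⟨C₂, A₂, hC₂, hA₂, h2⟩ := small_tail h72 hθ hP hV hε
  refine ⟨2 * (C₁ + C₂), A₁ + A₂, by positivity, by positivity, ?_⟩
  intro N K K' D H t φ d e f s hφ hd he hf hs hN hK hKK hK' hD hH hKH hNH hdH hfH
  obtain ⟨φ₁, φ₂, g, h3, h4⟩ := ts_split h72 hV (by linarith : 0 < N) hD hφ hd he hf
  have h5 := h1 N K K' D H t φ₁ d f s hd.ne_zero hf.1.1.ne_zero (fun δ hδ => (h3 δ hδ).1) hs hN hK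
    hKK hK' hD hH hdH hfH
  have h6 := h2 N K D H t φ₂ g d e s hd (ne_zero_of_dvd_ne_zero hd.ne_zero he)
    (fun δ hδ => (h3 δ hδ).2) hN hK hD hKH hNH hdH
  have h7 : ∀ w x a b : ℝ, 0 ≤ w → 0 ≤ x → x ≤ a + b → w * x ^ 2 ≤ 2 * (w * a ^ 2 + w * b ^ 2) :=
    fun w x a b hw h h' => (mul_le_mul_of_nonneg_left (show x ^ 2 ≤ 2 * (a ^ 2 + b ^ 2) by
      nlinarith [sq_nonneg (a - b), mul_self_le_mul_self h h']) hw).trans_eq (by ring)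
  refine (Finset.sum_le_sum fun k _ =>
    h7 _ _ _ _ (by positivity) (norm_nonneg _) (h4 t k)).trans ?_
  rw [← Finset.mul_sum, Finset.sum_add_distrib]
  refine (mul_le_mul_of_nonneg_left (add_le_add h5 h6) zero_le_two).trans ?_
  have ht : 1 ≤ 1 + |t| := by linarith [abs_nonneg t]
  have t1 : (1 + |t|) ^ A₁ ≤ (1 + |t|) ^ (A₁ + A₂) :=
    Real.rpow_le_rpow_of_exponent_le ht (by linarith)
  have t2 : (1 + |t|) ^ A₂ ≤ (1 + |t|) ^ (A₁ + A₂) :=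
    Real.rpow_le_rpow_of_exponent_le ht (by linarith)
  have hH0 : 0 < H := by linarith
  have x0 : 0 ≤ D ^ 8 * ((nm d : ℝ) * nm f) ^ 5 * N *
    (K' ^ (6 / 5 : ℝ) + (K' ^ 2 / N) ^ (41 / 25 : ℝ)) := by positivity
  have y0 : 0 ≤ K * H * N ^ θ * D ^ (-1 / 4 : ℝ) := by positivity
  generalize D ^ 8 * ((nm d : ℝ) * nm f) ^ 5 * N *
    (K' ^ (6 / 5 : ℝ) + (K' ^ 2 / N) ^ (41 / 25 : ℝ)) = X at *
  generalize K * H * N ^ θ * D ^ (-1 / 4 : ℝ) = Y at *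
  calc _ ≤ 2 * ((C₁ + C₂) * (1 + |t|) ^ (A₁ + A₂) * H ^ ε * X +
        (C₁ + C₂) * (1 + |t|) ^ (A₁ + A₂) * H ^ ε * Y) := by gcongr <;> linarith
    _ = _ := by ring

end Vale.Agent.P026
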