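import Vale.Agent.P026.RecAux

/-! REC: algebraic identification of the inner sums after a Poisson step.
Plans.
* `ts_inner`: if `f` is not coprime to `Δ` or `d`, or `Δ` not coprime to `d`, every term vanishes (take `φ' = 0`).  Otherwise `m = f m'` (`sum_sball_dvd`),
  `gt6 (Δ m) = sex Δ m * sex m Δ * gt6 Δ * gt6 m`, `sex m Δ = bq m Δ * sex Δ m`, `gt6 m * conj (gt6 m) = 1`,
  `sex Δ m ^ 2 * conj (sex e' m) = sex (Δ * (Δ/e')) m` for `m` coprime to `Δ`, and `sex h' m' = 0` when `m'` is not coprime to `Δ`.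
  `φ' m' = ind (72 ∣ f m' - al) * φ (Δ f m') * bq (f m') Δ * sex (-1) (f m')` (`bq_congr`, `sex_neg_one_congr`); the remaining factor has norm ≤ 1.
  Ranges: `Adm.sum_sball`.
* `main_inner`, `large_inner`: the same, simpler: `φ' m = ind (72 ∣ m - al) * ind (Q ∣ Δ m - α)`, resp. `φ' m' = ind (Q ∣ Δ f m' - α)`. -/

namespace Vale.Agent.P026

open scoped ComplexConjugate Real

/-- coefficients of `Ts` -/
noncomputable def tsc (φ : O → ℂ) (d e : O) (V : ℝ → ℝ) (N t : ℝ) (m : O) : ℂ :=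
  ind (IsS m) * φ m * ind (IsCoprime m d) * (mu m * gt6 m) * sex e m * V (nm m / N) * nt m t

/-- coefficients of `Asum` -/
noncomputable def asc (Q α : O) (V : ℝ → ℝ) (N t : ℝ) (n : O) : ℂ :=
  ind (IsS n) * ind (Q ∣ n - α) * mu n * V (nm n / N) * nt n t

theorem of_ind_ne {p : Prop} (h : ind p ≠ 0) : p := by
  by_contra hp
  exact h (ind_of_not hp)

theorem ind_congr {p q : Prop} (h : p ↔ q) : ind p = ind q := by rw [propext h]

theorem norm_mul_le_one {a b : ℂ} (ha : ‖a‖ ≤ 1) (hb : ‖b‖ ≤ 1) : ‖a * b‖ ≤ 1 := by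
  rw [norm_mul]
  exact mul_le_one₀ ha (norm_nonneg _) hb

theorem norm_le_of_eq_mul {x z y : ℂ} (h : x = z * y) (hz : ‖z‖ ≤ 1) : ‖x‖ ≤ ‖y‖ := by
  rw [h, norm_mul]
  exact mul_le_of_le_one_left (norm_nonneg _) hz

theorem Ts_eq (φ : O → ℂ) (d e g : O) (B : ℝ) (V : ℝ → ℝ) (N t : ℝ) (k : O) :
    Ts φ d e g B V N t k =
      ∑ m ∈ sball (B * N), ind (g ∣ m) * tsc φ d e V N t m * conj (sex k m) := by
  refine Finset.sum_congr rfl fun m hm => ?_
  rw [tsc, ind_of (mem_sball.1 hm).1]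
  ring

theorem Asum_eq (Q α : O) (B : ℝ) (V : ℝ → ℝ) (N t : ℝ) (h : O) :
    Asum Q α B V N t h = ∑ n ∈ sball (B * N), ind ((1 : O) ∣ n) * asc Q α V N t n * sex h n := by
  refine Finset.sum_congr rfl fun m hm => ?_
  rw [asc, ind_of (mem_sball.1 hm).1, ind_of (one_dvd m)]
  ring

theorem adm_supp {B : ℝ} {V : ℝ → ℝ} (hV : Adm B V) {N x : ℝ} (hN : 0 < N)
    (h : ((V (x / N) : ℝ) : ℂ) ≠ 0) : N / B ≤ x ∧ x ≤ B * N := by
  obtain ⟨h1, h2⟩ := hV.2.2 _ (by exact_mod_cast h)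
  rw [le_div_iff₀ hN] at h1
  rw [div_le_iff₀ hN] at h2
  exact ⟨by rwa [div_mul_eq_mul_div, one_mul] at h1, h2⟩

theorem tsc_supp {B : ℝ} {V : ℝ → ℝ} (hV : Adm B V) {N : ℝ} (hN : 0 < N) (φ : O → ℂ) (d e : O)
    (t : ℝ) {n : O} (h : tsc φ d e V N t n ≠ 0) :
    IsS n ∧ N / B ≤ nm n ∧ (nm n : ℝ) ≤ B * N := by
  simp only [tsc, ne_eq, mul_eq_zero, not_or] at h
  exact ⟨of_ind_ne h.1.1.1.1.1.1, adm_supp hV hN h.1.2⟩

theorem asc_supp {B : ℝ} {V : ℝ → ℝ} (hV : Adm B V) {N : ℝ} (hN : 0 < N) (Q α : O)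
    (t : ℝ) {n : O} (h : asc Q α V N t n ≠ 0) :
    IsS n ∧ N / B ≤ nm n ∧ (nm n : ℝ) ≤ B * N := by
  simp only [asc, ne_eq, mul_eq_zero, not_or] at h
  exact ⟨of_ind_ne h.1.1.1.1, adm_supp hV hN h.1.2⟩

theorem norm_tsc_le {φ : O → ℂ} (hφ : ∀ n, ‖φ n‖ ≤ 1) (d e : O) (V : ℝ → ℝ) (N t : ℝ) (n : O) :
    ‖tsc φ d e V N t n‖ ≤ |V (nm n / N)| := by
  by_cases h : IsS n
  · rw [← Real.norm_eq_abs, ← Complex.norm_real]
    refine norm_le_of_eq_mul (z := ind (IsS n) * φ n * ind (IsCoprime n d) * (mu n * gt6 n) *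
      sex e n * nt n t) (by rw [tsc]; ring) ?_
    exact norm_mul_le_one (norm_mul_le_one (norm_mul_le_one (norm_mul_le_one (norm_mul_le_one
      (norm_ind_le _) (hφ _)) (norm_ind_le _)) (norm_mul_le_one (norm_mu_le _) (norm_gt6 h).le))
      (norm_sex_le _ _)) (norm_nt _ _).le
  · simp [tsc, ind_of_not h]

theorem norm_asc_le (Q α : O) (V : ℝ → ℝ) (N t : ℝ) (n : O) :
    ‖asc Q α V N t n‖ ≤ |V (nm n / N)| := by
  rw [← Real.norm_eq_abs, ← Complex.norm_real]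
  refine norm_le_of_eq_mul (z := ind (IsS n) * ind (Q ∣ n - α) * mu n * nt n t)
    (by rw [asc]; ring) ?_
  exact norm_mul_le_one (norm_mul_le_one (norm_mul_le_one (norm_ind_le _) (norm_ind_le _))
    (norm_mu_le _)) (norm_nt _ _).le

theorem bs_factor {B : ℝ} {V : ℝ → ℝ} (hV : Adm B V) {M Z : ℝ} (hM : 0 < M) (hZ : B * M ≤ Z)
    {f : O} (hf : IsS f) (ψ : O → ℂ) (d h : O) (t : ℝ) :
    ‖∑ m ∈ sball Z, ind (f ∣ m) *
        (ψ m * ind (IsCoprime m d) * mu m * sex h m * V (nm m / M) * nt m t)‖ ≤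
      ‖Bs (fun n => ψ (f * n)) (d * f) B V (M / nm f) t h‖ := by
  have hf0 := hf.1.1.ne_zero
  have nf : (0 : ℝ) < nm f := by exact_mod_cast nm_pos hf0
  refine norm_le_of_eq_mul (z := ind (IsCoprime f d) * mu f * sex h f * nt f t) ?_
    (norm_mul_le_one (norm_mul_le_one (norm_mul_le_one (norm_ind_le _) (norm_mu_le _))
      (norm_sex_le _ _)) (norm_nt _ _).le)
  rw [sum_sball_dvd hf, Bs, hV.sum_sball (Z := Z / nm f) (by positivity)
    (by rw [← mul_div_assoc]; gcongr), Finset.mul_sum]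
  refine Finset.sum_congr rfl fun m hm => ?_
  have hm0 := (mem_sball.1 hm).1.1.1.ne_zero
  rw [ind_congr (IsCoprime.mul_right_iff (x := m) (y := d) (z := f)), ind_and,
    ind_congr (IsCoprime.mul_left_iff (x := f) (y := m) (z := d)), ind_and,
    sex_mul_right hf0 hm0, nt_mul hf0 hm0,
    show (nm (f * m) : ℝ) / M = nm m / (M / nm f) by rw [nm_mul]; push_cast; field_simp]
  by_cases hc : IsCoprime m f
  · rw [mu_mul hc.symm]
    ring
  · rw [ind_of_not hc]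
    ring

theorem asc_mul {Δ m : O} (hΔ : IsS Δ) (hm : IsS m) (Q α : O) (V : ℝ → ℝ) (N t : ℝ) :
    asc Q α V N t (Δ * m) = mu Δ * nt Δ t *
      (ind (Q ∣ Δ * m - α) * ind (IsCoprime m Δ) * mu m * V (nm m / (N / nm Δ)) * nt m t) := by
  have hΔ0 := hΔ.1.1.ne_zero
  rw [asc, nt_mul hΔ0 hm.1.1.ne_zero, show (nm (Δ * m) : ℝ) / N = nm m / (N / nm Δ) by
    rw [nm_mul, div_div_eq_mul_div]; push_cast; ring]
  by_cases hc : IsCoprime m Δ
  · rw [ind_of (hΔ.mul hm hc.symm), ind_of hc, mu_mul hc.symm]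
    ring
  · rw [ind_of_not hc, ind_of_not fun h : IsS (Δ * m) => hc h.coprime.symm]
    ring

theorem tsc_mul {Δ m e' : O} (hΔ : IsS Δ) (hm : IsS m) (he' : e' ∣ Δ) (φ : O → ℂ) (d e h : O)
    (V : ℝ → ℝ) (N t t' : ℝ) :
    tsc φ d e V N t (Δ * m) * conj (sex e' m) * (sex (-1) m * conj (gt6 m)) *
        conj (conj (sex h m)) * nt m t' =
      ind (IsCoprime Δ d) * mu Δ * gt6 Δ * sex e Δ * nt Δ t *
        (φ (Δ * m) * bq m Δ * sex (-1) m * ind (IsCoprime m d) * mu m *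
          sex (h * e * Δ * (Δ / e')) m * V (nm m / (N / nm Δ)) * nt m (t + t')) := by
  have hΔ0 := hΔ.1.1.ne_zero
  have hm0 := hm.1.1.ne_zero
  have he'0 : e' ≠ 0 := ne_zero_of_dvd_ne_zero hΔ0 he'
  rw [sex_mul_left hm.1, sex_mul_left hm.1, sex_mul_left hm.1]
  by_cases hc : IsCoprime Δ m
  · have h1 : gt6 m * conj (gt6 m) = 1 := by
      rw [Complex.mul_conj, Complex.normSq_eq_norm_sq, norm_gt6 hm]
      simp
    have h2 : sex e' m * conj (sex e' m) = 1 := by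
      rw [Complex.mul_conj, Complex.normSq_eq_norm_sq, norm_sex hm.1 (hc.of_isCoprime_of_dvd_left he')]
      simp
    have h3 : sex Δ m = sex e' m * sex (Δ / e') m := by
      rw [← sex_mul_left hm.1, EuclideanDomain.mul_div_cancel' he'0 he']
    rw [tsc, ind_of (hΔ.mul hm hc), ind_congr (IsCoprime.mul_left_iff (x := Δ) (y := m) (z := d)),
      ind_and, mu_mul hc, gt6_mul hΔ.1 hm.1 hc, sex_recip hm.1 hΔ.1, sex_mul_right hΔ0 hm0,
      nt_mul hΔ0 hm0, nt_add, Complex.conj_conj,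
      show (nm (Δ * m) : ℝ) / N = nm m / (N / nm Δ) by
        rw [nm_mul, div_div_eq_mul_div]; push_cast; ring]
    have h4 : sex Δ m * sex Δ m * conj (sex e' m) * (gt6 m * conj (gt6 m)) =
        sex Δ m * sex (Δ / e') m := by
      rw [h1]
      linear_combination (sex Δ m * conj (sex e' m)) * h3 + sex Δ m * sex (Δ / e') m * h2
    linear_combination (φ (Δ * m) * ind (IsCoprime Δ d) * ind (IsCoprime m d) * mu Δ * mu m *
      bq m Δ * gt6 Δ * sex e Δ * sex e m * (V (nm m / (N / nm Δ)) : ℂ) * nt Δ t * nt m t *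
      sex (-1) m * sex h m * nt m t') * h4
  · rw [tsc, ind_of_not fun h : IsS (Δ * m) => hc h.coprime, sex_eq_zero hm.1 hc]
    ring

theorem ts_inner {Q : O} (h72 : (72 : O) ∣ Q) {B : ℝ} {V : ℝ → ℝ} (hV : Adm B V) {N : ℝ}
    (hN : 0 < N) {φ : O → ℂ} (hφ : PerP Q φ) (d e : O) {Δ e' f : O} (hΔ : IsS Δ)
    (he' : e' ∈ pdiv Δ) (hf : IsS f) (al : O) (t t' : ℝ) : ∃ φ' : O → ℂ, PerP Q φ' ∧ ∀ h : O,
      ‖∑ m ∈ sball (B * N), ind ((72 : O) ∣ m - al) * ind (f ∣ m) * tsc φ d e V N t (Δ * m) *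
          conj (sex e' m) * (sex (-1) m * conj (gt6 m)) * conj (conj (sex h m)) * nt m t'‖ ≤
        ‖Bs φ' (d * f) B V (N / (nm Δ * nm f)) (t + t') (h * e * Δ * (Δ / e'))‖ := by
  have hΔ0 := hΔ.1.1.ne_zero
  have nΔ : (1 : ℝ) ≤ nm Δ := one_le_nm hΔ0
  have hB : 0 < B := lt_of_lt_of_le one_pos hV.1
  refine ⟨fun n => ind ((72 : O) ∣ f * n - al) * φ (Δ * (f * n)) * bq (f * n) Δ * sex (-1) (f * n),
    ⟨fun n => norm_mul_le_one (norm_mul_le_one (norm_mul_le_one (norm_ind_le _) (hφ.1 _))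
      (norm_bq_le _ _)) (norm_sex_le _ _), fun n n' hn hn' hd => ?_⟩, fun h => ?_⟩
  · have h1 : Q ∣ f * n - f * n' := by rw [← mul_sub]; exact hd.mul_left _
    have h2 := h72.trans h1
    have h3 : (72 : O) ∣ f * n - al ↔ (72 : O) ∣ f * n' - al := by
      rw [show f * n - al = f * n - f * n' + (f * n' - al) by ring]
      exact dvd_add_right h2
    simp only
    rw [ind_congr h3, hφ.2 _ _ (hΔ.1.mul (hf.1.mul hn)) (hΔ.1.mul (hf.1.mul hn'))
      (by rw [← mul_sub]; exact h1.mul_left _),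
      bq_congr (a' := f * n') (b' := Δ) ((show (4 : O) ∣ 72 from ⟨18, by norm_num⟩).trans h2)
      (by simp), sex_neg_one_congr (hf.1.mul hn) h2]
  · rw [← div_div]
    refine le_trans ?_ (bs_factor hV (M := N / nm Δ) (Z := B * N) (by positivity)
      (by gcongr; exact div_le_self hN.le nΔ) hf
      (fun n => ind ((72 : O) ∣ n - al) * φ (Δ * n) * bq n Δ * sex (-1) n) d _ (t + t'))
    refine norm_le_of_eq_mul (z := ind (IsCoprime Δ d) * mu Δ * gt6 Δ * sex e Δ * nt Δ t) ?_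
      (norm_mul_le_one (norm_mul_le_one (norm_mul_le_one (norm_mul_le_one (norm_ind_le _)
        (norm_mu_le _)) (norm_gt6 hΔ).le) (norm_sex_le _ _)) (norm_nt _ _).le)
    rw [Finset.mul_sum]
    refine Finset.sum_congr rfl fun m hm => ?_
    linear_combination (ind ((72 : O) ∣ m - al) * ind (f ∣ m)) *
      tsc_mul hΔ (mem_sball.1 hm).1 ((mem_pdiv hΔ0).1 he').2 φ d e h V N t t'

theorem perP_ind {Q R : O} (hR : R ∣ Q) (c α : O) : PerP Q fun n => ind (R ∣ c * n - α) := by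
  refine ⟨fun n => norm_ind_le _, fun n n' _ _ hd => ind_congr ?_⟩
  rw [show c * n - α = c * (n - n') + (c * n' - α) by ring]
  exact dvd_add_right ((hR.trans hd).mul_left _)

theorem main_inner {Q : O} (h72 : (72 : O) ∣ Q) {B : ℝ} {V : ℝ → ℝ} (hV : Adm B V) {N : ℝ}
    (hN : 0 < N) (α : O) {Δ : O} (hΔ : IsS Δ) (al : O) : ∃ φ' : O → ℂ, PerP Q φ' ∧
      ∀ (e f k : O) (t t' : ℝ),
      ‖∑ m ∈ sball (B * N), ind ((72 : O) ∣ m - al) * ind (f ∣ m) * asc Q α V N t (Δ * m) *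
          sex e m * gt6 m * conj (sex k m) * nt m t'‖ ≤
        ‖Ts φ' Δ e f B V (N / nm Δ) (t + t') k‖ := by
  have nΔ : (1 : ℝ) ≤ nm Δ := one_le_nm hΔ.1.1.ne_zero
  have hB : 0 < B := lt_of_lt_of_le one_pos hV.1
  refine ⟨fun n => ind ((72 : O) ∣ 1 * n - al) * ind (Q ∣ Δ * n - α),
    ⟨fun n => norm_mul_le_one (norm_ind_le _) (norm_ind_le _), fun n n' hn hn' hd => ?_⟩,
    fun e f k t t' => ?_⟩
  · exact congrArg₂ _ ((perP_ind h72 1 al).2 n n' hn hn' hd)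
      ((perP_ind dvd_rfl Δ α).2 n n' hn hn' hd)
  · refine norm_le_of_eq_mul (z := mu Δ * nt Δ t) ?_
      (norm_mul_le_one (norm_mu_le _) (norm_nt _ _).le)
    rw [Ts, hV.sum_sball (Z := B * N) (by positivity) (by gcongr; exact div_le_self hN.le nΔ),
      Finset.mul_sum]
    refine Finset.sum_congr rfl fun m hm => ?_
    rw [asc_mul hΔ (mem_sball.1 hm).1, nt_add, one_mul]
    ring

theorem large_inner (Q : O) {B : ℝ} {V : ℝ → ℝ} (hV : Adm B V) {N : ℝ}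
    (hN : 0 < N) (α : O) {Δ f : O} (hΔ : IsS Δ) (hf : IsS f) : ∃ φ' : O → ℂ, PerP Q φ' ∧
      ∀ (h : O) (t : ℝ),
      ‖∑ m ∈ sball (B * N), ind (f ∣ m) * asc Q α V N t (Δ * m) * sex h m‖ ≤
        ‖Bs φ' (Δ * f) B V (N / (nm Δ * nm f)) t h‖ := by
  have nΔ : (1 : ℝ) ≤ nm Δ := one_le_nm hΔ.1.1.ne_zero
  have hB : 0 < B := lt_of_lt_of_le one_pos hV.1
  refine ⟨fun n => ind (Q ∣ Δ * (f * n) - α), ?_, fun h t => ?_⟩
  · simpa only [mul_assoc] using perP_ind dvd_rfl (Δ * f) α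
  · rw [← div_div]
    refine le_trans ?_ (bs_factor hV (M := N / nm Δ) (Z := B * N) (by positivity)
      (by gcongr; exact div_le_self hN.le nΔ) hf (fun n => ind (Q ∣ Δ * n - α)) Δ h t)
    refine norm_le_of_eq_mul (z := mu Δ * nt Δ t) ?_
      (norm_mul_le_one (norm_mu_le _) (norm_nt _ _).le)
    rw [Finset.mul_sum]
    refine Finset.sum_congr rfl fun m hm => ?_
    rw [asc_mul hΔ (mem_sball.1 hm).1]
    ring

end Vale.Agent.P026
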