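import Vale.Agent.P026.Cubic

/-! Primitive rows, the Kubota symbol, the classes `Cls m`.
Plan: `Sy_rmul` for the generators `S`, `n(x)` by cases on `v_λ(c)` (j ≥ 3: ratio 1), then `sl2_induction` (cocycle).
`Sy_gamma`: `κ_r(δ) = Sy(rδ)/Sy(r)` depends on r mod 9, `κ_{rg}(δ) = κ_r(gδg⁻¹)`, and `κ(gδg⁻¹) = κ(δ)` for generators
(`(c/d)(c/a) = (c/ad) = 1`, `(b/a)(c/a) = 1`). -/

namespace Vale.Agent.P026

open scoped ComplexConjugate Real

abbrev SL2 := Matrix.SpecialLinearGroup (Fin 2) O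

/-- `[[0,-1],[1,0]]` -/
def mS : SL2 := ⟨!![0, -1; 1, 0], by simp [Matrix.det_fin_two]⟩
/-- `[[1,x],[0,1]]` -/
def mN (x : O) : SL2 := ⟨!![1, x; 0, 1], by simp [Matrix.det_fin_two]⟩
/-- bottom row -/
def row (g : SL2) : O × O := (g.1 1 0, g.1 1 1)
/-- principal congruence subgroup -/
def Gam (m : O) : Subgroup SL2 :=
  (Matrix.SpecialLinearGroup.map (n := Fin 2) (Ideal.Quotient.mk (Ideal.span {m}))).ker
/-- Kubota symbol -/
noncomputable def kap (δ : SL2) : ℂ := Sy (row δ)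

theorem mem_Gam {m : O} {δ : SL2} : δ ∈ Gam m ↔
    m ∣ δ.1 0 0 - 1 ∧ m ∣ δ.1 0 1 ∧ m ∣ δ.1 1 0 ∧ m ∣ δ.1 1 1 - 1 := by
  have e : ∀ x y : O, Ideal.Quotient.mk (Ideal.span {m}) x = Ideal.Quotient.mk (Ideal.span {m}) y ↔
      m ∣ x - y := fun x y => by rw [Ideal.Quotient.eq, Ideal.mem_span_singleton]
  have e1 := fun x => e x 1
  have e0 := fun x => e x 0
  simp only [map_one, map_zero, sub_zero] at e1 e0
  rw [Gam, MonoidHom.mem_ker, Matrix.SpecialLinearGroup.ext_iff]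
  simp only [Fin.forall_fin_two, Matrix.SpecialLinearGroup.map_apply_coe, RingHom.mapMatrix_apply,
    Matrix.map_apply, Matrix.SpecialLinearGroup.coe_one, Matrix.one_apply_eq, ne_eq, zero_ne_one,
    one_ne_zero, not_false_eq_true, Matrix.one_apply_ne, e1, e0, and_assoc]

instance (m : O) : (Gam m).Normal := MonoidHom.normal_ker _

theorem finiteIndex_Gam {m : O} (hm : m ≠ 0) : (Gam m).FiniteIndex := by
  have : Finite (O ⧸ Ideal.span {m}) :=
    Nat.finite_of_card_ne_zero (by rw [card_quot hm]; exact (nm_pos hm).ne')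
  have : Finite (Matrix.SpecialLinearGroup (Fin 2) (O ⧸ Ideal.span {m})) :=
    Finite.of_injective (fun g => g.1) Subtype.val_injective
  exact Subgroup.finiteIndex_ker _

theorem Gam_mono {m n : O} (h : m ∣ n) : Gam n ≤ Gam m := fun _ hδ => by
  obtain ⟨h1, h2, h3, h4⟩ := mem_Gam.1 hδ
  exact mem_Gam.2 ⟨h.trans h1, h.trans h2, h.trans h3, h.trans h4⟩

theorem sl2_det (g : SL2) : g.1 0 0 * g.1 1 1 - g.1 0 1 * g.1 1 0 = 1 := by
  rw [← Matrix.det_fin_two]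
  exact g.2

theorem sl2_mul (g h : SL2) (i j : Fin 2) :
    (g * h).1 i j = g.1 i 0 * h.1 0 j + g.1 i 1 * h.1 1 j := by
  rw [Matrix.SpecialLinearGroup.coe_mul, Matrix.mul_apply, Fin.sum_univ_two]

theorem sl2_ext {g h : SL2} (h1 : g.1 0 0 = h.1 0 0) (h2 : g.1 0 1 = h.1 0 1)
    (h3 : g.1 1 0 = h.1 1 0) (h4 : g.1 1 1 = h.1 1 1) : g = h := by
  rw [Matrix.SpecialLinearGroup.ext_iff]
  simp only [Fin.forall_fin_two]
  exact ⟨⟨h1, h2⟩, h3, h4⟩

theorem mS_00 : mS.1 0 0 = 0 := rfl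
theorem mS_01 : mS.1 0 1 = -1 := rfl
theorem mS_10 : mS.1 1 0 = 1 := rfl
theorem mS_11 : mS.1 1 1 = 0 := rfl
theorem mN_00 (x : O) : (mN x).1 0 0 = 1 := rfl
theorem mN_01 (x : O) : (mN x).1 0 1 = x := rfl
theorem mN_10 (x : O) : (mN x).1 1 0 = 0 := rfl
theorem mN_11 (x : O) : (mN x).1 1 1 = 1 := rfl
theorem one_00 : (1 : SL2).1 0 0 = 1 := rfl
theorem one_01 : (1 : SL2).1 0 1 = 0 := rfl
theorem one_10 : (1 : SL2).1 1 0 = 0 := rfl
theorem one_11 : (1 : SL2).1 1 1 = 1 := rfl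

theorem mN_add (x y : O) : mN x * mN y = mN (x + y) := by
  apply sl2_ext <;> simp only [sl2_mul, mN_00, mN_01, mN_10, mN_11] <;> ring

theorem mN_zero : mN 0 = 1 := sl2_ext rfl rfl rfl rfl

theorem mN_inv (x : O) : (mN x)⁻¹ = mN (-x) :=
  inv_eq_of_mul_eq_one_right (by rw [mN_add, add_neg_cancel, mN_zero])

theorem mS_inv : mS⁻¹ = mS * mS * mS := by
  refine inv_eq_of_mul_eq_one_right ?_
  apply sl2_ext <;>
    simp only [sl2_mul, mS_00, mS_01, mS_10, mS_11, one_00, one_01, one_10, one_11] <;> ring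

theorem sl2_induction {P : SL2 → Prop} (h1 : P 1) (hS : ∀ g, P g → P (g * mS))
    (hN : ∀ g x, P g → P (g * mN x)) (g : SL2) : P g := by
  induction hn : nm (g.1 1 0) using Nat.strong_induction_on generalizing g with
  | _ n ih =>
  have hd := sl2_det g
  by_cases hc : g.1 1 0 = 0
  · have e : g = 1 * mN (g.1 0 0) * mS * mN (g.1 1 1) * mS * mS * mS * mN (g.1 0 0) * mS *
        mN (g.1 1 1 * g.1 0 1) := by
      rw [hc] at hd
      apply sl2_ext <;> simp only [sl2_mul, mS_00, mS_01, mS_10, mS_11, mN_00, mN_01, mN_10, mN_11,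
        one_00, one_01, one_10, one_11, hc]
      · linear_combination (g.1 0 0) * hd
      · linear_combination (g.1 0 0 * g.1 1 1 * g.1 0 1 - g.1 0 1 - 1) * hd
      · linear_combination hd
      · linear_combination (g.1 1 1 * g.1 0 1) * hd
    rw [e]
    exact hN _ _ (hS _ (hN _ _ (hS _ (hS _ (hS _ (hN _ _ (hS _ (hN _ _ h1))))))))
  · obtain ⟨q, hq⟩ : ∃ q, q = equo (g.1 1 1) (g.1 1 0) := ⟨_, rfl⟩
    have a1 := nm_sub_equo (g.1 1 1) (g.1 1 0) hc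
    have a2 := nm_pos hc
    have a3 : (g * mN (-q) * mS).1 1 0 = g.1 1 1 - g.1 1 0 * q := by
      simp only [sl2_mul, mS_00, mS_10, mN_00, mN_01, mN_10, mN_11]
      ring
    have a4 := ih _ (by rw [a3, hq]; omega) (g * mN (-q) * mS) rfl
    have e : g = g * mN (-q) * mS * mS * mS * mS * mN q := by
      rw [← mN_inv, mul_assoc (g * _ * mS), mul_assoc (g * _ * mS), ← mS_inv]
      group
    rw [e]
    exact hN _ _ (hS _ (hS _ (hS _ a4)))

theorem rmul_one (r : O × O) : rmul r 1 = r := by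
  simp only [rmul, one_00, one_01, one_10, one_11]
  simp

theorem rmul_mul (r : O × O) (g h : SL2) : rmul r (g * h) = rmul (rmul r g) h := by
  simp only [rmul, sl2_mul]
  refine Prod.ext ?_ ?_ <;> ring

theorem row_mul (g h : SL2) : row (g * h) = rmul (row g) h := by
  simp only [rmul, row, sl2_mul]

theorem row_eq (g : SL2) : row g = rmul (0, 1) g := by
  simp [rmul, row]

theorem rmul_mS (c d : O) : rmul (c, d) mS = (d, -c) := by
  simp only [rmul, mS_00, mS_01, mS_10, mS_11]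
  simp

theorem rmul_mN (c d x : O) : rmul (c, d) (mN x) = (c, c * x + d) := by
  simp only [rmul, mN_00, mN_01, mN_10, mN_11]
  simp

theorem coprime_of_rmul {r : O × O} (g : SL2) (h : IsCoprime (rmul r g).1 (rmul r g).2) :
    IsCoprime r.1 r.2 := by
  obtain ⟨a, b, h⟩ := h
  refine ⟨a * g.1 0 0 + b * g.1 0 1, a * g.1 1 0 + b * g.1 1 1, ?_⟩
  simp only [rmul] at h
  linear_combination h

theorem coprime_rmul {r : O × O} (g : SL2) :
    IsCoprime (rmul r g).1 (rmul r g).2 ↔ IsCoprime r.1 r.2 :=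
  ⟨coprime_of_rmul g, fun h => coprime_of_rmul g⁻¹ (by
    rwa [← rmul_mul, mul_inv_cancel, rmul_one])⟩

theorem coprime_row (g : SL2) : IsCoprime (row g).1 (row g).2 :=
  ⟨-g.1 0 1, g.1 0 0, by simp only [row]; linear_combination sl2_det g⟩

theorem exists_row {r : O × O} (h : IsCoprime r.1 r.2) : ∃ g, row g = r := by
  obtain ⟨a, b, h⟩ := h
  exact ⟨⟨!![b, -a; r.1, r.2], by rw [Matrix.det_fin_two_of]; linear_combination h⟩, rfl⟩

theorem row_eq_row_iff {g h : SL2} : row g = row h ↔ ∃ x, g = mN x * h := by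
  constructor
  · intro e
    have e1 : g.1 1 0 = h.1 1 0 := congrArg Prod.fst e
    have e2 : g.1 1 1 = h.1 1 1 := congrArg Prod.snd e
    have d1 := sl2_det g
    have d2 := sl2_det h
    rw [e1, e2] at d1
    refine ⟨g.1 0 1 * h.1 0 0 - g.1 0 0 * h.1 0 1, ?_⟩
    apply sl2_ext <;> simp only [sl2_mul, mN_00, mN_01, mN_10, mN_11]
    · linear_combination h.1 0 0 * d1 - g.1 0 0 * d2
    · linear_combination h.1 0 1 * d1 - g.1 0 1 * d2
    · rw [e1]; ring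
    · rw [e2]; ring
  · rintro ⟨x, rfl⟩
    simp only [row, sl2_mul, mN_10, mN_11]
    simp

theorem rmul_congr {m : O} {r r' : O × O} (h1 : m ∣ r.1 - r'.1) (h2 : m ∣ r.2 - r'.2) (g : SL2) :
    m ∣ (rmul r g).1 - (rmul r' g).1 ∧ m ∣ (rmul r g).2 - (rmul r' g).2 := by
  obtain ⟨a, ha⟩ := h1
  obtain ⟨b, hb⟩ := h2
  simp only [rmul]
  exact ⟨⟨a * g.1 0 0 + b * g.1 1 0, by linear_combination g.1 0 0 * ha + g.1 1 0 * hb⟩,
    ⟨a * g.1 0 1 + b * g.1 1 1, by linear_combination g.1 0 1 * ha + g.1 1 1 * hb⟩⟩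

theorem exists_gam_of_congr {m : O} {r r' : O × O} (h : IsCoprime r.1 r.2)
    (h' : IsCoprime r'.1 r'.2) (h1 : m ∣ r.1 - r'.1) (h2 : m ∣ r.2 - r'.2) :
    ∃ δ ∈ Gam m, r' = rmul r δ := by
  obtain ⟨g, rfl⟩ := exists_row h
  obtain ⟨g', rfl⟩ := exists_row h'
  have k := rmul_congr h1 h2 g⁻¹
  rw [← row_mul, ← row_mul, mul_inv_cancel] at k
  obtain ⟨t, ht⟩ : ∃ t, t = g' * g⁻¹ := ⟨_, rfl⟩
  rw [← ht] at k
  obtain ⟨⟨a, ha⟩, ⟨b, hb⟩⟩ := k
  simp only [row, one_10, one_11] at ha hb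
  have d := sl2_det t
  have hm : mN (-t.1 0 1) * t ∈ Gam m := by
    rw [mem_Gam]
    simp only [sl2_mul, mN_00, mN_01, mN_10, mN_11]
    exact ⟨⟨t.1 0 0 * b, by linear_combination d + t.1 0 0 * hb⟩,
      ⟨t.1 0 1 * b, by linear_combination t.1 0 1 * hb⟩, ⟨-a, by linear_combination -ha⟩,
      ⟨-b, by linear_combination -hb⟩⟩
  refine ⟨g⁻¹ * (mN (-t.1 0 1) * t) * g⁻¹⁻¹, Subgroup.Normal.conj_mem inferInstance _ hm _, ?_⟩
  rw [← row_mul]
  refine (row_eq_row_iff.2 ⟨-t.1 0 1, ?_⟩).symm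
  generalize mN (-t.1 0 1) = n
  rw [ht]
  group

theorem rmul_congr_of_mem {m : O} {δ : SL2} (h : δ ∈ Gam m) (r : O × O) :
    m ∣ (rmul r δ).1 - r.1 ∧ m ∣ (rmul r δ).2 - r.2 := by
  obtain ⟨⟨a, ha⟩, ⟨b, hb⟩, ⟨c, hc⟩, ⟨d, hd⟩⟩ := mem_Gam.1 h
  simp only [rmul]
  exact ⟨⟨r.1 * a + r.2 * c, by linear_combination r.1 * ha + r.2 * hc⟩,
    ⟨r.1 * b + r.2 * d, by linear_combination r.1 * hb + r.2 * hd⟩⟩

theorem Sy_of_not_dvd {c d : O} (h : ¬lam ∣ c) : Sy (c, d) = cub d c := if_neg h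

theorem Sy_of_lam_dvd {c d : O} (h : lam ∣ c) : Sy (c, d) = cub c d := if_pos h

theorem norm_Sy {r : O × O} (h : IsCoprime r.1 r.2) : ‖Sy r‖ = 1 := by
  by_cases hc : lam ∣ r.1
  · rw [Sy_of_lam_dvd hc, norm_cub h]
  · rw [Sy_of_not_dvd hc, norm_cub h.symm]

theorem Sy_ne_zero {r : O × O} (h : IsCoprime r.1 r.2) : Sy r ≠ 0 := by
  rw [← norm_ne_zero_iff, norm_Sy h]
  exact one_ne_zero

theorem rw_cub_unit_mul {v : O} (hv : IsUnit v) (a d : O) : cub a (v * d) = cub a d :=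
  cub_associated (associated_unit_mul_left d v hv) a

theorem rw_mul_conj {z : ℂ} (h : ‖z‖ = 1) : z * conj z = 1 := by
  rw [Complex.mul_conj, Complex.normSq_eq_norm_sq, h]
  simp

theorem rw_coprime_unit {v : O} (hv : IsUnit v) (c : O) : IsCoprime v c := by
  obtain ⟨w, hw⟩ := hv.exists_left_inv
  exact ⟨w, 0, by rw [hw, zero_mul, add_zero]⟩

theorem Sy_of_dvd {u c v d : O} {j : ℕ} (hu : IsUnit u) (hj : 1 ≤ j) (hc : Prim c)
    (hv : IsUnit v) (hd : Prim d) : Sy (u * lam ^ j * c, v * d) =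
      cub (v * d) c * (cub (u * lam ^ j) d * conj (cub v c)) := by
  have _ := hu
  have h1 := rw_mul_conj (norm_cub (rw_coprime_unit hv c))
  rw [Sy_of_lam_dvd (((dvd_pow_self lam (by omega)).mul_left u).mul_right c),
    rw_cub_unit_mul hv, cub_mul_left, cub_recip hc hd, cub_mul_left v d]
  linear_combination (-(cub (u * lam ^ j) d * cub d c)) * h1

theorem rw_three_lam2 : (3 : O) ∣ lam ^ 2 := by
  rw [lam_sq]
  exact dvd_neg.2 dvd_rfl

theorem rw_lam_four : lam ^ 4 = 9 := by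
  rw [show lam ^ 4 = (lam ^ 2) ^ 2 by ring, lam_sq]
  norm_num

theorem rw_lam_nine : lam ∣ 9 := rw_lam_four ▸ dvd_pow_self lam (by norm_num)

theorem rw_lam3_nine : lam ^ 3 ∣ 9 := rw_lam_four ▸ pow_dvd_pow lam (by norm_num)

theorem rw_prim_congr {v d e m : O} (hv : IsUnit v) (hd : Prim d) (h3 : (3 : O) ∣ m)
    (h : m ∣ v * d - e) : ∃ e', Prim e' ∧ e = v * e' ∧ m ∣ d - e' := by
  obtain ⟨w, hw⟩ := hv.exists_left_inv
  have h1 : m ∣ d - w * e := by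
    have := h.mul_left w
    rwa [mul_sub, ← mul_assoc, hw, one_mul] at this
  exact ⟨w * e, hd.of_dvd_sub h3 (dvd_sub_comm.1 h1), by rw [← mul_assoc, mul_comm v, hw, one_mul],
    h1⟩

theorem rw_not_lam_dvd {c d : O} (h : IsCoprime c d) (hc : lam ∣ c) : ¬lam ∣ d :=
  fun hd => prime_lam.not_isUnit (h.isUnit_of_dvd' hc hd)

theorem cub_shift {c d : O} (h : IsCoprime c d) (hc : lam ^ 3 ∣ c) (x : O) :
    cub c (c * x + d) = cub c d := by
  rcases eq_or_ne c 0 with rfl | c0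
  · rw [zero_mul, zero_add]
  obtain ⟨v, d₀, hv, hd, rfl⟩ := exists_prim
    (rw_not_lam_dvd h ((dvd_pow_self lam (by norm_num)).trans hc))
  obtain ⟨e, he, e1, e2⟩ := rw_prim_congr (e := c * x + v * d₀) (m := c) hv hd
    ((rw_three_lam2.trans (pow_dvd_pow lam (by norm_num))).trans hc) ⟨-x, by ring⟩
  rw [e1, rw_cub_unit_mul hv, rw_cub_unit_mul hv]
  obtain ⟨c₁, rfl⟩ := hc
  by_cases h1 : lam ∣ c₁
  · obtain ⟨c₂, rfl⟩ := h1
    exact (cub_den_congr c0 hd ⟨c₂, by rw [← rw_lam_four]; ring⟩ (fun _ _ hp => hp) e2).symm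
  · obtain ⟨u, c₀, hu, hc₀, rfl⟩ := exists_prim h1
    have a : ∀ n, Prim n → cub (lam ^ 3 * (u * c₀)) n = cub u n * cub n c₀ := fun n hn => by
      rw [cub_mul_left, cub_mul_left, cub_pow_left, cub_recip hc₀ hn,
        cub_cube ((prime_lam.coprime_iff_not_dvd).2 hn.not_lam_dvd), one_mul]
    rw [a _ hd, a _ he, cub_unit_congr hu hd ((dvd_mul_right _ _).trans e2),
      cub_congr (((dvd_mul_left c₀ u).mul_left _).trans e2)]

theorem Sy_four {u c c' v v' d e d' e' : O} {j : ℕ} (hu : IsUnit u) (hj : 1 ≤ j) (hc : Prim c)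
    (hc' : Prim c') (hv : IsUnit v) (hv' : IsUnit v') (hd : Prim d) (he : Prim e) (hd' : Prim d')
    (he' : Prim e') (h1 : (9 : O) ∣ d - e) (h2 : (9 : O) ∣ d' - e') (h3 : c ∣ v' * d' - v * d)
    (h4 : c' ∣ v' * e' - v * e) (H : cub v' c * cub v c' = cub v' c' * cub v c) :
    Sy (u * lam ^ j * c, v' * d') * Sy (u * lam ^ j * c', v * e) =
      Sy (u * lam ^ j * c', v' * e') * Sy (u * lam ^ j * c, v * d) := by
  have H' := congrArg conj H
  rw [map_mul, map_mul] at H'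
  rw [Sy_of_dvd hu hj hc hv' hd', Sy_of_dvd hu hj hc' hv he, Sy_of_dvd hu hj hc' hv' he',
    Sy_of_dvd hu hj hc hv hd, cub_congr h3, cub_congr h4, cub_ulam_congr hu j hd h1,
    cub_ulam_congr hu j hd' h2]
  linear_combination (cub (v * d) c * cub (v * e) c' * cub (u * lam ^ j) e' *
    cub (u * lam ^ j) e) * H'

theorem Sy_mN {c d c' e : O} (h : IsCoprime c d) (h' : IsCoprime c' e) (h1 : (9 : O) ∣ c - c')
    (h2 : (9 : O) ∣ d - e) (x : O) :
    Sy (c, c * x + d) * Sy (c', e) = Sy (c', c' * x + e) * Sy (c, d) := by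
  have l0 := prime_lam.ne_zero
  have n3 : (3 : O) ∣ 9 := ⟨3, by norm_num⟩
  by_cases k1 : lam ∣ c
  swap
  · have k1' : ¬lam ∣ c' := fun k => k1 ((dvd_iff_dvd_of_dvd_sub (rw_lam_nine.trans h1)).2 k)
    rw [Sy_of_not_dvd k1, Sy_of_not_dvd k1', Sy_of_not_dvd k1', Sy_of_not_dvd k1,
      cub_congr (a := c * x + d) (b := d) ⟨x, by ring⟩,
      cub_congr (a := c' * x + e) (b := e) ⟨x, by ring⟩, mul_comm]
  have k1' : lam ∣ c' := (dvd_iff_dvd_of_dvd_sub (rw_lam_nine.trans h1)).1 k1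
  by_cases k3 : lam ^ 3 ∣ c
  · have k3' : lam ^ 3 ∣ c' := (dvd_iff_dvd_of_dvd_sub (rw_lam3_nine.trans h1)).1 k3
    rw [Sy_of_lam_dvd k1, Sy_of_lam_dvd k1', Sy_of_lam_dvd k1', Sy_of_lam_dvd k1,
      cub_shift h k3, cub_shift h' k3', mul_comm]
  obtain ⟨v, d₀, hv, hd, rfl⟩ := exists_prim (rw_not_lam_dvd h k1)
  obtain ⟨e₀, he, rfl, h2'⟩ := rw_prim_congr hv hd n3 h2
  have h5 : (9 : O) ∣ (c * x + v * d₀) - (c' * x + v * e₀) := by
    have := (h1.mul_right x).add h2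
    rwa [show (c - c') * x + (v * d₀ - v * e₀) = (c * x + v * d₀) - (c' * x + v * e₀) by ring]
      at this
  obtain ⟨c₁, rfl⟩ := k1
  obtain ⟨c₁', rfl⟩ := k1'
  have h6 : lam ^ 3 ∣ c₁ - c₁' := by
    rw [← rw_lam_four, ← mul_sub, pow_succ' lam 3] at h1
    exact (mul_dvd_mul_iff_left l0).1 h1
  by_cases k2 : lam ∣ c₁
  · have k2' : lam ∣ c₁' :=
      (dvd_iff_dvd_of_dvd_sub ((dvd_pow_self lam (by norm_num)).trans h6)).1 k2
    obtain ⟨c₂, rfl⟩ := k2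
    obtain ⟨c₂', rfl⟩ := k2'
    have h7 : lam ^ 2 ∣ c₂ - c₂' := by
      rw [← mul_sub, pow_succ' lam 2] at h6
      exact (mul_dvd_mul_iff_left l0).1 h6
    obtain ⟨u, c₀, hu, hc, rfl⟩ := exists_prim (n := c₂) fun ⟨t, ht⟩ => k3 ⟨t, by rw [ht]; ring⟩
    obtain ⟨c₀', hc', rfl, -⟩ := rw_prim_congr hu hc rw_three_lam2 h7
    obtain ⟨d₁, hd', e1, -⟩ := rw_prim_congr (e := lam * (lam * (u * c₀)) * x + v * d₀) hv hd
      rw_three_lam2 ⟨-(u * c₀ * x), by ring⟩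
    rw [e1] at h5
    obtain ⟨e₁, he', e2, h8⟩ := rw_prim_congr hv hd' n3 h5
    have k := Sy_four (j := 2) hu (by norm_num) hc hc' hv hv hd he hd' he' h2' h8
      ⟨lam * lam * u * x, by rw [← e1]; ring⟩ ⟨lam * lam * u * x, by rw [← e2]; ring⟩
      (mul_comm _ _)
    rw [e1, e2, show lam * (lam * (u * c₀)) = u * lam ^ 2 * c₀ by ring,
      show lam * (lam * (u * c₀')) = u * lam ^ 2 * c₀' by ring]
    exact k
  · obtain ⟨u, c₀, hu, hc, rfl⟩ := exists_prim k2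
    obtain ⟨c₀', hc', rfl, h7⟩ := rw_prim_congr hu hc
      (rw_three_lam2.trans (pow_dvd_pow lam (by norm_num))) h6
    obtain ⟨v', d₁, hv', hd', e1⟩ := exists_prim (n := lam * (u * c₀) * x + v * d₀) fun k =>
      rw_not_lam_dvd h (dvd_mul_right _ _)
        ((dvd_add_right ((dvd_mul_right _ _).mul_right x)).1 k)
    rw [e1] at h5
    obtain ⟨e₁, he', e2, h8⟩ := rw_prim_congr hv' hd' n3 h5
    have k := Sy_four (j := 1) hu le_rfl hc hc' hv hv' hd he hd' he' h2' h8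
      ⟨lam * u * x, by rw [← e1]; ring⟩ ⟨lam * u * x, by rw [← e2]; ring⟩
      (by rw [cub_unit_congr hv hc h7, cub_unit_congr hv' hc h7])
    rw [e1, e2, show lam * (u * c₀) = u * lam ^ 1 * c₀ by ring,
      show lam * (u * c₀') = u * lam ^ 1 * c₀' by ring]
    exact k

theorem Sy_mS {c d c' e : O} (h : IsCoprime c d) (h' : IsCoprime c' e) (h1 : (9 : O) ∣ c - c')
    (h2 : (9 : O) ∣ d - e) : Sy (d, -c) * Sy (c', e) = Sy (e, -c') * Sy (c, d) := by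
  have n3 : (3 : O) ∣ 9 := ⟨3, by norm_num⟩
  have i1 := dvd_iff_dvd_of_dvd_sub (rw_lam_nine.trans h1)
  have i2 := dvd_iff_dvd_of_dvd_sub (rw_lam_nine.trans h2)
  by_cases k1 : lam ∣ c
  · rw [Sy_of_lam_dvd k1, Sy_of_lam_dvd (i1.1 k1), Sy_of_not_dvd (rw_not_lam_dvd h k1),
      Sy_of_not_dvd (rw_not_lam_dvd h' (i1.1 k1)), cub_neg_left, cub_neg_left, mul_comm]
  have k1' : ¬lam ∣ c' := fun k => k1 (i1.2 k)
  by_cases k2 : lam ∣ d
  · rw [Sy_of_lam_dvd k2, Sy_of_lam_dvd (i2.1 k2), Sy_of_not_dvd k1, Sy_of_not_dvd k1',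
      cub_associated (Associated.refl c).neg_left, cub_associated (Associated.refl c').neg_left,
      mul_comm]
  have k2' : ¬lam ∣ e := fun k => k2 (i2.2 k)
  rw [Sy_of_not_dvd k1, Sy_of_not_dvd k1', Sy_of_not_dvd k2, Sy_of_not_dvd k2', cub_neg_left,
    cub_neg_left]
  obtain ⟨u, c₀, hu, hc, rfl⟩ := exists_prim k1
  obtain ⟨c₀', hc', rfl, h3⟩ := rw_prim_congr hu hc n3 h1
  obtain ⟨v, d₀, hv, hd, rfl⟩ := exists_prim k2
  obtain ⟨e₀, he, rfl, h4⟩ := rw_prim_congr hv hd n3 h2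
  rw [rw_cub_unit_mul hv, rw_cub_unit_mul hv, rw_cub_unit_mul hu, rw_cub_unit_mul hu,
    cub_mul_left, cub_mul_left, cub_mul_left, cub_mul_left, cub_recip hc hd, cub_recip hc' he,
    cub_unit_congr hu hd (rw_lam3_nine.trans h4),
    cub_unit_congr hv hc (rw_lam3_nine.trans h3)]
  ring

theorem Sy_rmul (g : SL2) {r r' : O × O} (h : IsCoprime r.1 r.2) (h' : IsCoprime r'.1 r'.2)
    (h1 : (9 : O) ∣ r.1 - r'.1) (h2 : (9 : O) ∣ r.2 - r'.2) :
    Sy (rmul r g) * Sy r' = Sy (rmul r' g) * Sy r := by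
  have step : ∀ g t : SL2, Sy (rmul r g) * Sy r' = Sy (rmul r' g) * Sy r →
      Sy (rmul (rmul r g) t) * Sy (rmul r' g) = Sy (rmul (rmul r' g) t) * Sy (rmul r g) →
      Sy (rmul r (g * t)) * Sy r' = Sy (rmul r' (g * t)) * Sy r := fun g t a b => by
    rw [rmul_mul, rmul_mul]
    refine mul_left_cancel₀ (Sy_ne_zero ((coprime_rmul g).2 h')) ?_
    linear_combination Sy r' * b + Sy (rmul (rmul r' g) t) * a
  induction g using sl2_induction with
  | h1 => rw [rmul_one, rmul_one, mul_comm]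
  | hS g ih =>
    refine step g mS ih ?_
    rw [rmul_mS (rmul r g).1 (rmul r g).2, rmul_mS (rmul r' g).1 (rmul r' g).2]
    exact Sy_mS ((coprime_rmul g).2 h) ((coprime_rmul g).2 h') (rmul_congr h1 h2 g).1
      (rmul_congr h1 h2 g).2
  | hN g x ih =>
    refine step g (mN x) ih ?_
    rw [rmul_mN (rmul r g).1 (rmul r g).2, rmul_mN (rmul r' g).1 (rmul r' g).2]
    exact Sy_mN ((coprime_rmul g).2 h) ((coprime_rmul g).2 h') (rmul_congr h1 h2 g).1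
      (rmul_congr h1 h2 g).2 x

theorem kap_conj_mS {δ : SL2} (hδ : δ ∈ Gam 9) : kap (mS * δ * mS⁻¹) = kap δ := by
  obtain ⟨h1, h2, h3, h4⟩ := mem_Gam.1 hδ
  have d := sl2_det δ
  have n3 : (3 : O) ∣ 9 := ⟨3, by norm_num⟩
  have e : row (mS * δ * mS⁻¹) = (-δ.1 0 1, δ.1 0 0) := by
    simp only [row, mS_inv, sl2_mul, mS_00, mS_01, mS_10, mS_11]
    refine Prod.ext ?_ ?_ <;> ring
  have ha : Prim (δ.1 0 0) := n3.trans h1
  have hd : Prim (δ.1 1 1) := n3.trans h4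
  have a1 : cub (δ.1 0 1) (δ.1 0 0) * cub (δ.1 1 0) (δ.1 0 0) = 1 := by
    rw [← cub_mul_left, cub_congr (b := -1) ⟨δ.1 1 1, by linear_combination -d⟩, cub_neg_left,
      cub_one_left]
  have a2 : cub (δ.1 1 0) (δ.1 0 0) * cub (δ.1 1 0) (δ.1 1 1) = 1 := by
    rw [← cub_mul_right ha.ne_zero hd.ne_zero]
    rcases eq_or_ne (δ.1 1 0) 0 with c0 | c0
    · rw [show δ.1 0 0 * δ.1 1 1 = 1 by rw [c0] at d; linear_combination d, cub_one_right]
    · rw [← cub_den_congr (n := 1) (R := δ.1 0 1 * δ.1 1 0) c0 prim_one (h2.mul_right _)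
        (fun p _ hp => hp.mul_left _) ⟨-1, by linear_combination -d⟩, cub_one_right]
  unfold kap
  rw [e, Sy_of_lam_dvd (dvd_neg.2 (rw_lam_nine.trans h2)), cub_neg_left, row,
    Sy_of_lam_dvd (rw_lam_nine.trans h3)]
  linear_combination cub (δ.1 1 0) (δ.1 1 1) * a1 - cub (δ.1 0 1) (δ.1 0 0) * a2

theorem kap_conj_mN {δ : SL2} (hδ : δ ∈ Gam 9) (x : O) : kap (mN x * δ * (mN x)⁻¹) = kap δ := by
  obtain ⟨-, -, h3, -⟩ := mem_Gam.1 hδ
  unfold kap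
  rw [row_mul, row_eq_row_iff.2 ⟨x, rfl⟩, mN_inv, row, rmul_mN,
    Sy_of_lam_dvd (rw_lam_nine.trans h3), Sy_of_lam_dvd (rw_lam_nine.trans h3)]
  exact cub_shift (coprime_row δ) (rw_lam3_nine.trans h3) _

theorem kap_conj {δ : SL2} (hδ : δ ∈ Gam 9) (g : SL2) : kap (g * δ * g⁻¹) = kap δ := by
  induction g using sl2_induction generalizing δ with
  | h1 => simp
  | hS g ih =>
    rw [← kap_conj_mS hδ, ← ih (Subgroup.Normal.conj_mem inferInstance _ hδ mS)]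
    congr 1
    group
  | hN g x ih =>
    rw [← kap_conj_mN hδ x, ← ih (Subgroup.Normal.conj_mem inferInstance _ hδ (mN x))]
    congr 1
    group

theorem Sy_zero_one : Sy (0, 1) = 1 := by rw [Sy_of_lam_dvd (dvd_zero _), cub_one_right]

theorem Sy_gamma {δ : SL2} (hδ : δ ∈ Gam 9) {r : O × O} (h : IsCoprime r.1 r.2) :
    Sy (rmul r δ) = kap δ * Sy r := by
  obtain ⟨g, rfl⟩ := exists_row h
  have hm := Subgroup.Normal.conj_mem inferInstance _ hδ g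
  obtain ⟨-, -, h3, h4⟩ := mem_Gam.1 hm
  have k := Sy_rmul g (r := row (g * δ * g⁻¹)) (r' := (0, 1)) (coprime_row _) isCoprime_one_right
    (by simpa [row] using h3) h4
  rw [Sy_zero_one, mul_one, ← row_mul, ← row_eq, inv_mul_cancel_right] at k
  rw [← row_mul, k, ← kap_conj hδ g, mul_comm]
  rfl

theorem norm_kap (δ : SL2) : ‖kap δ‖ = 1 := norm_Sy (coprime_row δ)

theorem kap_mul {δ δ' : SL2} (hδ' : δ' ∈ Gam 9) : kap (δ * δ') = kap δ * kap δ' := by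
  rw [mul_comm (kap δ), kap, row_mul, Sy_gamma hδ' (coprime_row δ)]
  rfl

theorem kap_mN (x : O) : kap (mN x) = 1 := Sy_zero_one

theorem cls_iff {m : O} (h9 : (9 : O) ∣ m) {Ψ : O × O → ℂ} : Cls m Ψ ↔
    (∀ r : O × O, ¬IsCoprime r.1 r.2 → Ψ r = 0) ∧ (∀ r, ‖Ψ r‖ ≤ 1) ∧
      ∀ δ ∈ Gam m, ∀ r, Ψ (rmul r δ) = kap δ * Ψ r := by
  refine and_congr_right fun h0 => and_congr_right fun _ => ⟨fun h δ hδ r => ?_, fun h => ?_⟩
  · by_cases hr : IsCoprime r.1 r.2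
    · have k := h _ r ((coprime_rmul δ).2 hr) hr (rmul_congr_of_mem hδ r).1
        (rmul_congr_of_mem hδ r).2
      rw [Sy_gamma (Gam_mono h9 hδ) hr] at k
      refine mul_right_cancel₀ (Sy_ne_zero hr) ?_
      linear_combination k
    · rw [h0 r hr, h0 _ fun k => hr ((coprime_rmul δ).1 k), mul_zero]
  · intro r r' hr hr' h1 h2
    obtain ⟨δ, hδ, rfl⟩ := exists_gam_of_congr hr hr' h1 h2
    rw [h δ hδ, Sy_gamma (Gam_mono h9 hδ) hr]
    ring

theorem Cls.comp_rmul {m : O} (h9 : (9 : O) ∣ m) {Ψ : O × O → ℂ} (h : Cls m Ψ) (g : SL2) :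
    Cls m fun r => Ψ (rmul r g) := by
  obtain ⟨h0, h1, h2⟩ := (cls_iff h9).1 h
  refine (cls_iff h9).2 ⟨fun r hr => h0 _ fun k => hr ((coprime_rmul g).1 k), fun r => h1 _,
    fun δ hδ r => ?_⟩
  rw [← kap_conj (Gam_mono h9 hδ) g⁻¹, ← h2 _ (Subgroup.Normal.conj_mem inferInstance _ hδ g⁻¹),
    ← rmul_mul, ← rmul_mul]
  congr 2
  group

theorem Cls.mono {m n : O} (h : m ∣ n) {Ψ : O × O → ℂ} (hΨ : Cls m Ψ) : Cls n Ψ :=
  ⟨hΨ.1, hΨ.2.1, fun r r' hr hr' h1 h2 => hΨ.2.2 r r' hr hr' (h.trans h1) (h.trans h2)⟩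

theorem Cls.smul {m : O} {Ψ : O × O → ℂ} (hΨ : Cls m Ψ) {ζ : ℂ} (hζ : ‖ζ‖ ≤ 1) :
    Cls m fun r => ζ * Ψ r := by
  refine ⟨fun r hr => ?_, fun r => ?_, fun r r' hr hr' h1 h2 => ?_⟩ <;> beta_reduce
  · rw [hΨ.1 r hr, mul_zero]
  · rw [norm_mul]
    exact mul_le_one₀ hζ (norm_nonneg _) (hΨ.2.1 r)
  · rw [mul_assoc, hΨ.2.2 r r' hr hr' h1 h2, mul_assoc]

/-- `kap g * Ψ(r g⁻¹)` depends only on `g mod 9` -/
theorem Cls.rmul_congr {Ψ : O × O → ℂ} (h : Cls 9 Ψ) {g g' : SL2} (hg : g * g'⁻¹ ∈ Gam 9)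
    (r : O × O) : kap g * Ψ (rmul r g⁻¹) = kap g' * Ψ (rmul r g'⁻¹) := by
  have k := ((cls_iff dvd_rfl).1 h).2.2 _ hg (rmul r g⁻¹)
  rw [← rmul_mul, inv_mul_cancel_left] at k
  have k2 := kap_mul (δ := g') (Subgroup.Normal.conj_mem inferInstance _ hg g'⁻¹)
  rw [kap_conj hg, show g' * (g'⁻¹ * (g * g'⁻¹) * g'⁻¹⁻¹) = g by group] at k2
  rw [k, k2, mul_assoc]

end Vale.Agent.P026
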