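import Vale.Agent.P026.Res

/-! Cubic and quadratic symbols: formal properties (no reciprocity).
Plan: for a prime `p`, `O/p` is a field with `nm p` elements (`card_quot`); for `¬ lam ∣ p`, `3 ∣ nm p - 1` and
`1, ω, ω²` are distinct mod `p`; `cubP a p ≡ a^((N-1)/3)`.  `factors_mul` is up to `Associated`. -/

namespace Vale.Agent.P026

open scoped ComplexConjugate Real

namespace SymAux

open UniqueFactorizationMonoid

/-- product of `f` over the prime factors -/
noncomputable def sy (f : O → ℂ) (n : O) : ℂ := ((factors n).map f).prod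

theorem sy_zero (f : O → ℂ) : sy f 0 = 1 := by simp [sy]

theorem sy_eq {f : O → ℂ} (hf : ∀ p q, Associated p q → f p = f q) {n : O} (hn : n ≠ 0)
    {s : Multiset O} (hs : ∀ x ∈ s, Irreducible x) (h : Associated s.prod n) :
    sy f n = (s.map f).prod := by
  have h1 := factors_unique (irreducible_of_factor (a := n)) hs ((factors_prod hn).trans h.symm)
  have h2 : Multiset.Rel (· = ·) ((factors n).map f) (s.map f) :=
    Multiset.rel_map.2 (h1.mono fun a _ b _ hab => hf a b hab)
  rw [sy, Multiset.rel_eq.1 h2]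

theorem sy_prime {f : O → ℂ} (hf : ∀ p q, Associated p q → f p = f q) {p : O} (hp : Prime p) :
    sy f p = f p := by
  rw [sy_eq hf hp.ne_zero (s := {p}) (by simpa using hp.irreducible) (by simp)]
  simp

theorem sy_unit {f : O → ℂ} (hf : ∀ p q, Associated p q → f p = f q) {u : O} (hu : IsUnit u) :
    sy f u = 1 := by
  rw [sy_eq hf hu.ne_zero (s := 0) (by simp) (by simpa using (associated_one_iff_isUnit.2 hu).symm)]
  simp

theorem sy_mul {f : O → ℂ} (hf : ∀ p q, Associated p q → f p = f q) {m n : O} (hm : m ≠ 0)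
    (hn : n ≠ 0) : sy f (m * n) = sy f m * sy f n := by
  rw [sy_eq hf (mul_ne_zero hm hn) (s := factors m + factors n)
    (fun x hx => (Multiset.mem_add.1 hx).elim (irreducible_of_factor x) (irreducible_of_factor x))
    (by rw [Multiset.prod_add]; exact (factors_prod hm).mul_mul (factors_prod hn))]
  simp [sy]

theorem sy_associated {f : O → ℂ} (hf : ∀ p q, Associated p q → f p = f q) {m n : O}
    (h : Associated m n) : sy f m = sy f n := by
  by_cases hm : m = 0
  · subst hm
    rw [(associated_zero_iff_eq_zero n).1 h.symm]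
  · obtain ⟨u, rfl⟩ := h
    rw [sy_mul hf hm u.ne_zero, sy_unit hf u.isUnit, mul_one]

theorem sy_congr {f g : O → ℂ} {n : O} (h : ∀ p, Prime p → p ∣ n → f p = g p) :
    sy f n = sy g n := by
  rw [sy, sy, Multiset.map_congr rfl fun p hp => h p (prime_of_factor p hp) (dvd_of_mem_factors hp)]

theorem sy_mul_fun (f g : O → ℂ) (n : O) : sy (fun p => f p * g p) n = sy f n * sy g n := by
  simp [sy, Multiset.prod_map_mul]

theorem sy_one (n : O) : sy (fun _ => 1) n = 1 := by simp [sy]

theorem sy_pow (f : O → ℂ) (n : O) (k : ℕ) : sy (fun p => f p ^ k) n = sy f n ^ k := by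
  simp [sy, Multiset.prod_map_pow]

theorem sy_conj (f : O → ℂ) (n : O) : conj (sy f n) = sy (fun p => conj (f p)) n := by
  simp [sy, map_multiset_prod, Multiset.map_map]

theorem norm_sy_le {f : O → ℂ} (h : ∀ p, ‖f p‖ ≤ 1) (n : O) : ‖sy f n‖ ≤ 1 := by
  unfold sy
  induction factors n using Multiset.induction_on with
  | empty => simp
  | cons a s ih =>
    rw [Multiset.map_cons, Multiset.prod_cons, norm_mul]
    exact mul_le_one₀ (h a) (norm_nonneg _) ih

theorem sy_eq_zero {f : O → ℂ} {a n : O} (hn : n ≠ 0) (h : ¬IsCoprime a n)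
    (hf : ∀ p, Prime p → p ∣ n → p ∣ a → f p = 0) : sy f n = 0 := by
  by_contra h0
  refine h ((isCoprime_of_irreducible_dvd (by simp [hn]) fun z hz hza hzn => ?_))
  obtain ⟨q, hq, hzq⟩ := exists_mem_factors_of_dvd hn hz hzn
  refine h0 (Multiset.prod_eq_zero (Multiset.mem_map.2 ⟨q, hq, ?_⟩))
  exact hf q (prime_of_factor q hq) (dvd_of_mem_factors hq) (hzq.symm.dvd.trans hza)

theorem field_facts {p : O} (hp : Prime p) :
    (∀ a, ¬p ∣ a → p ∣ a ^ (nm p - 1) - 1) ∧
    (∀ k, k ≠ 0 → k < nm p - 1 → ∃ a, ¬p ∣ a ∧ ¬p ∣ a ^ k - 1) ∧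
    (¬p ∣ 2 → ∀ a, ¬p ∣ a → (p ∣ a ^ (nm p / 2) - 1 ↔ ∃ x, p ∣ a - x ^ 2)) := by
  have hmax : (Ideal.span {p}).IsMaximal :=
    PrincipalIdealRing.isMaximal_of_irreducible hp.irreducible
  let _ : Field (O ⧸ Ideal.span {p}) := Ideal.Quotient.field _
  have hc := card_quot hp.ne_zero
  have : Finite (O ⧸ Ideal.span {p}) :=
    Nat.finite_of_card_ne_zero (by rw [hc]; exact (nm_pos hp.ne_zero).ne')
  let _ : Fintype (O ⧸ Ideal.span {p}) := Fintype.ofFinite _
  have hc' : Fintype.card (O ⧸ Ideal.span {p}) = nm p := by rw [← hc, Nat.card_eq_fintype_card]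
  have hz : ∀ x : O, p ∣ x ↔ Ideal.Quotient.mk (Ideal.span {p}) x = 0 := fun x => by
    rw [Ideal.Quotient.eq_zero_iff_mem, Ideal.mem_span_singleton]
  refine ⟨fun a ha => ?_, fun k hk hlt => ?_, fun h2 a ha => ?_⟩
  · rw [hz] at ha ⊢
    rw [map_sub, map_pow, map_one, ← hc', FiniteField.pow_card_sub_one_eq_one _ ha, sub_self]
  · obtain ⟨u, hu⟩ := exists_pow_ne_one_of_isCyclic (G := (O ⧸ Ideal.span {p})ˣ) hk
      (by rw [Nat.card_units, hc]; exact hlt)
    obtain ⟨a, ha⟩ := Ideal.Quotient.mk_surjective (u : O ⧸ Ideal.span {p})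
    refine ⟨a, ?_, ?_⟩
    · rw [hz, ha]; exact u.ne_zero
    · rw [hz, map_sub, map_pow, map_one, ha, sub_eq_zero]
      exact fun h => hu (Units.ext (by simpa using h))
  · have hF : ringChar (O ⧸ Ideal.span {p}) ≠ 2 := by
      intro h
      refine h2 ((hz 2).2 ?_)
      have := (ringChar.spec (O ⧸ Ideal.span {p}) 2).2 (by rw [h])
      rw [map_ofNat]
      exact_mod_cast this
    rw [hz] at ha
    rw [hz, map_sub, map_pow, map_one, sub_eq_zero, ← hc', ← FiniteField.isSquare_iff hF ha]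
    constructor
    · rintro ⟨y, hy⟩
      obtain ⟨x, rfl⟩ := Ideal.Quotient.mk_surjective y
      exact ⟨x, by rw [hz, map_sub, map_pow, hy, pow_two, sub_self]⟩
    · rintro ⟨x, hx⟩
      rw [hz, map_sub, map_pow, sub_eq_zero] at hx
      exact ⟨_, by rw [hx, pow_two]⟩

theorem nm_mod_three {n : O} (h : ¬lam ∣ n) : nm n % 3 = 1 := by
  obtain ⟨u, c, hu, hc, rfl⟩ := exists_prim h
  rw [nm_mul, isUnit_iff_nm.1 hu, one_mul, hc.nm_mod]

theorem nm_mod_two {n : O} (h : ¬(2 : O) ∣ n) : nm n % 2 = 1 := by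
  by_contra h1
  obtain ⟨k, hk⟩ : 2 ∣ nm n := by omega
  have h2 : (2 : O) ∣ n * star n := by
    rw [mul_star_self, hk]
    push_cast
    exact dvd_mul_right _ _
  rcases prime_two.dvd_or_dvd h2 with h3 | ⟨c, hc⟩
  · exact h h3
  · refine h ⟨star c, ?_⟩
    have := congrArg star hc
    rw [star_star, star_mul, show star (2 : O) = 2 by decide, mul_comm] at this
    exact this

theorem two_le_nm {p : O} (hp : Prime p) : 2 ≤ nm p := by
  have h1 := nm_pos hp.ne_zero
  have h2 : nm p ≠ 1 := fun h => hp.not_isUnit (isUnit_iff_nm.2 h)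
  omega

theorem not_dvd_of_prime {p q : O} (hp : Prime p) (hq : Prime q) (h : ¬q ∣ p) : ¬p ∣ q :=
  fun h' => h (hp.associated_of_dvd hq h').symm.dvd

theorem not_dvd_three {p : O} (hp : Prime p) (hl : ¬lam ∣ p) : ¬p ∣ 3 := by
  intro h
  have : p ∣ lam ^ 2 := by rw [lam_sq]; exact h.neg_right
  exact not_dvd_of_prime hp prime_lam hl (hp.dvd_of_dvd_pow this)

theorem eq_of_cases {p x y : O} (hp : Prime p) (hl : ¬lam ∣ p)
    (hx : x = 0 ∨ x = 1 ∨ x = om ∨ x = om ^ 2) (hy : y = 0 ∨ y = 1 ∨ y = om ∨ y = om ^ 2)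
    (h : p ∣ x - y) : x = y := by
  by_contra hne
  refine not_dvd_three hp hl (h.trans ⟨star (x - y) * (3 / (nm (x - y)) : ℕ), ?_⟩)
  rw [← mul_assoc, mul_star_self]
  rcases hx with rfl | rfl | rfl | rfl <;> rcases hy with rfl | rfl | rfl | rfl <;>
    first | exact absurd rfl hne | decide

theorem eq_of_cases₂ {p x y : O} (hp : Prime p) (h2 : ¬(2 : O) ∣ p)
    (hx : x = 0 ∨ x = 1 ∨ x = -1) (hy : y = 0 ∨ y = 1 ∨ y = -1) (h : p ∣ x - y) : x = y := by
  by_contra hne
  have h4 : p ∣ 2 ^ 2 := by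
    refine h.trans ⟨star (x - y) * (4 / (nm (x - y)) : ℕ), ?_⟩
    rw [← mul_assoc, mul_star_self]
    rcases hx with rfl | rfl | rfl <;> rcases hy with rfl | rfl | rfl <;>
      first | exact absurd rfl hne | decide
  exact not_dvd_of_prime hp prime_two h2 (hp.dvd_of_dvd_pow h4)

theorem cubP_assoc (a : O) (p q : O) (h : Associated p q) : toC (cubP a p) = toC (cubP a q) := by
  classical
  simp only [cubP, nm_of_associated h, h.dvd_iff_dvd_left]

theorem quadP_assoc (a : O) (p q : O) (h : Associated p q) :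
    toC (quadP a p) = toC (quadP a q) := by
  classical
  simp only [quadP, nm_of_associated h, h.dvd_iff_dvd_left]

theorem cubP_lam {p : O} (hp : Prime p) (hl : lam ∣ p) (a : O) : cubP a p = 1 := by
  have h : nm p = 3 := by
    rw [← nm_of_associated (prime_lam.associated_of_dvd hp hl), nm_lam]
  simp [cubP, h]

theorem quadP_cases (a p : O) : quadP a p = 0 ∨ quadP a p = 1 ∨ quadP a p = -1 := by
  unfold quadP
  split_ifs <;> simp

theorem pow_congr {p a b : O} (h : p ∣ a - b) (k : ℕ) : p ∣ a ^ k - b ^ k :=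
  h.trans (sub_dvd_pow_sub_pow a b k)

theorem dvd_congr {p x y c : O} (h : p ∣ x - y) : p ∣ x - c ↔ p ∣ y - c := by
  constructor
  · intro h'
    have := dvd_sub h' h
    rwa [show x - c - (x - y) = y - c by ring] at this
  · intro h'
    have := dvd_add h' h
    rwa [show y - c + (x - y) = x - c by ring] at this

theorem toC_om_norm : ‖toC om‖ = 1 := by
  rw [norm_toC, show nm om = 1 by decide]
  simp

theorem star_om : star om = om ^ 2 := by decide

end SymAux

open SymAux

theorem cubP_dvd {p : O} (hp : Prime p) (hl : ¬lam ∣ p) (a : O) :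
    p ∣ a ^ ((nm p - 1) / 3) - cubP a p := by
  have h3 := nm_mod_three hl
  have h2 := two_le_nm hp
  unfold cubP
  split_ifs with c1 c2 c3
  · exact c1
  · exact c2
  · exact c3
  · rw [sub_zero]
    by_contra c0
    have ha : ¬p ∣ a := fun h => c0 (dvd_pow h (by omega))
    have h := (field_facts hp).1 a ha
    have e : nm p - 1 = (nm p - 1) / 3 * 3 := by omega
    rw [e, pow_mul] at h
    generalize a ^ ((nm p - 1) / 3) = y at *
    have e2 : y ^ 3 - 1 = (y - 1) * ((y - om) * (y - om ^ 2)) := by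
      linear_combination (y ^ 2 - y) * om_sq_add + (1 - y) * om_cube
    rw [e2] at h
    rcases hp.dvd_or_dvd h with h | h
    · exact c1 h
    · exact (hp.dvd_or_dvd h).elim c2 c3
theorem cubP_cases (a p : O) : cubP a p = 0 ∨ cubP a p = 1 ∨ cubP a p = om ∨ cubP a p = om ^ 2 := by
  unfold cubP
  split_ifs <;> simp
/-- values in `{0,1,ω,ω²}` congruent mod `p` are equal -/
theorem cubP_eq_of_dvd {p a x : O} (hp : Prime p) (hl : ¬lam ∣ p)
    (hx : x = 0 ∨ x = 1 ∨ x = om ∨ x = om ^ 2) (h : p ∣ a ^ ((nm p - 1) / 3) - x) :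
    cubP a p = x := by
  refine eq_of_cases hp hl (cubP_cases a p) hx ?_
  have := dvd_sub h (cubP_dvd hp hl a)
  rwa [sub_sub_sub_cancel_left] at this
theorem cub_prime {p : O} (hp : Prime p) (a : O) : cub a p = toC (cubP a p) :=
  sy_prime (cubP_assoc a) hp
theorem cub_unit_right {u : O} (hu : IsUnit u) (a : O) : cub a u = 1 := sy_unit (cubP_assoc a) hu
@[simp] theorem cub_one_right (a : O) : cub a 1 = 1 := cub_unit_right isUnit_one a
theorem cub_mul_right {m n : O} (hm : m ≠ 0) (hn : n ≠ 0) (a : O) :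
    cub a (m * n) = cub a m * cub a n := sy_mul (cubP_assoc a) hm hn
theorem cub_pow_right {n : O} (hn : n ≠ 0) (a : O) (k : ℕ) : cub a (n ^ k) = cub a n ^ k := by
  induction k with
  | zero => simp
  | succ k ih => rw [pow_succ, cub_mul_right (pow_ne_zero _ hn) hn, ih, pow_succ]
theorem cub_associated {m n : O} (h : Associated m n) (a : O) : cub a m = cub a n :=
  sy_associated (cubP_assoc a) h
theorem cub_lam_right (a : O) : cub a lam = 1 := by
  rw [cub_prime prime_lam, cubP_lam prime_lam dvd_rfl, map_one]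
theorem cub_decomp_right {u c : O} (hu : IsUnit u) (j : ℕ) (hc : c ≠ 0) (a : O) :
    cub a (u * lam ^ j * c) = cub a c := by
  have hl := prime_lam.ne_zero
  rw [cub_mul_right (mul_ne_zero hu.ne_zero (pow_ne_zero _ hl)) hc,
    cub_mul_right hu.ne_zero (pow_ne_zero _ hl), cub_unit_right hu, cub_pow_right hl,
    cub_lam_right]
  simp
theorem SymAux.cubP_mul {p : O} (hp : Prime p) (a b : O) :
    cubP (a * b) p = cubP a p * cubP b p := by
  by_cases hl : lam ∣ p
  · simp [cubP_lam hp hl]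
  · refine cubP_eq_of_dvd hp hl ?_ ?_
    · rcases cubP_cases a p with h | h | h | h <;> rcases cubP_cases b p with h' | h' | h' | h' <;>
        rw [h, h'] <;> decide
    · have := dvd_add ((cubP_dvd hp hl a).mul_right (b ^ ((nm p - 1) / 3)))
        ((cubP_dvd hp hl b).mul_left (cubP a p))
      rw [mul_pow]
      convert this using 1
      ring
theorem cub_mul_left (a b n : O) : cub (a * b) n = cub a n * cub b n := by
  refine Eq.trans ?_ (sy_mul_fun (fun p => toC (cubP a p)) (fun p => toC (cubP b p)) n)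
  exact sy_congr fun p hp _ => by rw [cubP_mul hp, map_mul]
@[simp] theorem cub_one_left (n : O) : cub 1 n = 1 := by
  refine Eq.trans ?_ (sy_one n)
  exact sy_congr fun p _ _ => by simp [cubP]
theorem cub_pow_left (a n : O) (k : ℕ) : cub (a ^ k) n = cub a n ^ k := by
  induction k with
  | zero => simp
  | succ k ih => rw [pow_succ, cub_mul_left, ih, pow_succ]
theorem cub_congr {a b n : O} (h : n ∣ a - b) : cub a n = cub b n := by
  refine sy_congr fun p _ hpn => ?_
  classical
  simp only [cubP, dvd_congr (pow_congr (hpn.trans h) ((nm p - 1) / 3))]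
theorem SymAux.cubP_ne_zero {p a : O} (hp : Prime p) (h : ¬p ∣ a) : cubP a p ≠ 0 := by
  by_cases hl : lam ∣ p
  · simp [cubP_lam hp hl]
  · intro h0
    have := cubP_dvd hp hl a
    rw [h0, sub_zero] at this
    exact h (hp.dvd_of_dvd_pow this)
theorem cub_cube {a n : O} (h : IsCoprime a n) : cub a n ^ 3 = 1 := by
  refine (sy_pow (fun p => toC (cubP a p)) n 3).symm.trans (Eq.trans ?_ (sy_one n))
  refine sy_congr fun p hp hpn => ?_
  have h0 := cubP_ne_zero hp fun hpa => hp.not_isUnit (h.isUnit_of_dvd' hpa hpn)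
  rw [← map_pow, ← map_one toC]
  rcases cubP_cases a p with h | h | h | h
  · exact absurd h h0
  all_goals rw [h]; congr 1
theorem cub_neg_left (a n : O) : cub (-a) n = cub a n := by
  have h1 : cub (-1) n = 1 := by
    rw [show (-1 : O) = (-1) ^ 3 by norm_num, cub_pow_left]
    exact cub_cube isCoprime_one_left.neg_left
  rw [← neg_one_mul, cub_mul_left, h1, one_mul]
theorem norm_cub {a n : O} (h : IsCoprime a n) : ‖cub a n‖ = 1 := by
  have := congrArg norm (cub_cube h)
  rw [norm_pow, norm_one] at this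
  exact (pow_eq_one_iff_of_nonneg (norm_nonneg _) (by norm_num)).1 this
theorem norm_cub_le (a n : O) : ‖cub a n‖ ≤ 1 := by
  refine norm_sy_le (fun p => ?_) n
  rcases cubP_cases a p with h | h | h | h <;> simp [h, toC_om_norm]
theorem conj_cub (a n : O) : conj (cub a n) = cub a n ^ 2 := by
  refine (sy_conj _ n).trans (Eq.trans ?_ (sy_pow (fun p => toC (cubP a p)) n 2))
  refine sy_congr fun p _ _ => ?_
  rw [← toC_star, ← map_pow]
  rcases cubP_cases a p with h | h | h | h <;> rw [h] <;> congr 1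
theorem cub_eq_zero {a n : O} (hn : ¬lam ∣ n) (h : ¬IsCoprime a n) : cub a n = 0 := by
  refine sy_eq_zero (fun h0 => hn (h0 ▸ dvd_zero _)) h fun p hp hpn hpa => ?_
  have hl : ¬lam ∣ p := fun h' => hn (h'.trans hpn)
  have h3 := nm_mod_three hl
  have h2 := two_le_nm hp
  rw [cubP_eq_of_dvd hp hl (Or.inl rfl) (by rw [sub_zero]; exact dvd_pow hpa (by omega)), map_zero]
theorem SymAux.star_dvd_star {x y : O} : star x ∣ star y ↔ x ∣ y := by
  refine ⟨fun ⟨c, hc⟩ => ⟨star c, ?_⟩, fun ⟨c, hc⟩ => ⟨star c, by rw [hc, star_mul, mul_comm]⟩⟩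
  have := congrArg star hc
  rwa [star_star, star_mul, star_star, mul_comm] at this
theorem SymAux.prime_star {p : O} (hp : Prime p) : Prime (star p) :=
  (MulEquiv.prime_iff (starRingAut (R := O))).2 hp
theorem cub_star (a n : O) : cub (star a) (star n) = conj (cub a n) := by
  induction n using UniqueFactorizationMonoid.induction_on_prime with
  | h₁ => simp [cub]
  | h₂ u hu => rw [cub_unit_right hu, cub_unit_right hu.star, map_one]
  | h₃ n p hn hp ih =>
    have hp' := prime_star hp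
    rw [star_mul, mul_comm, cub_mul_right hp'.ne_zero (star_ne_zero.2 hn),
      cub_mul_right hp.ne_zero hn, map_mul, ih, cub_prime hp, cub_prime hp', ← toC_star]
    congr 2
    by_cases hl : lam ∣ p
    · have hl' : lam ∣ star p := by
        have := star_dvd_star.2 hl
        rw [show star lam = -lam by decide, neg_dvd] at this
        exact this
      rw [cubP_lam hp hl, cubP_lam hp' hl', star_one]
    · have hl' : ¬lam ∣ star p := by
        intro h
        have := star_dvd_star.2 h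
        rw [show star lam = -lam by decide, neg_dvd, star_star] at this
        exact hl this
      refine cubP_eq_of_dvd hp' hl' ?_ ?_
      · rcases cubP_cases a p with h | h | h | h <;> rw [h] <;> decide
      · have := star_dvd_star.2 (cubP_dvd hp hl a)
        rwa [star_sub, star_pow, ← nm_star p] at this
theorem exists_cub_ne_one {p : O} (hp : Prime p) (hl : ¬lam ∣ p) :
    ∃ a, IsCoprime a p ∧ cub a p ≠ 1 := by
  have h3 := nm_mod_three hl
  have h2 := two_le_nm hp
  obtain ⟨a, ha, h⟩ := (field_facts hp).2.1 ((nm p - 1) / 3) (by omega) (by omega)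
  refine ⟨a, (hp.irreducible.coprime_iff_not_dvd.2 ha).symm, fun h1 => h ?_⟩
  rw [cub_prime hp, ← map_one toC] at h1
  have := cubP_dvd hp hl a
  rwa [toC_injective h1] at this
theorem cub_om {n : O} (hn : Prim n) : cub om n = toC om ^ ((nm n - 1) / 3) := by
  refine Prim.induction (P := fun n => cub om n = toC om ^ ((nm n - 1) / 3)) (by simp) ?_ hn
  intro p n hp hpp hn ih
  have hcases : ∀ k : ℕ, om ^ k = 0 ∨ om ^ k = 1 ∨ om ^ k = om ∨ om ^ k = om ^ 2 := by
    intro k
    rw [pow_eq_pow_mod k om_cube]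
    have : k % 3 < 3 := Nat.mod_lt _ (by norm_num)
    interval_cases k % 3 <;> simp
  rw [cub_mul_right hp.ne_zero hn.ne_zero, ih, cub_prime hp,
    cubP_eq_of_dvd hp hpp.not_lam_dvd (hcases ((nm p - 1) / 3)) (by simp), map_pow, ← pow_add]
  have h3 : toC om ^ 3 = 1 := by rw [← map_pow, om_cube, map_one]
  rw [pow_eq_pow_mod _ h3, pow_eq_pow_mod ((nm (p * n) - 1) / 3) h3]
  congr 1
  obtain ⟨s, hs⟩ : ∃ s, nm p = 3 * s + 1 := ⟨nm p / 3, by have := hpp.nm_mod; omega⟩
  obtain ⟨t, ht⟩ : ∃ t, nm n = 3 * t + 1 := ⟨nm n / 3, by have := hn.nm_mod; omega⟩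
  rw [nm_mul, hs, ht, show (3 * s + 1) * (3 * t + 1) = 9 * (s * t) + 3 * s + 3 * t + 1 by ring]
  omega

theorem quadP_dvd {p : O} (hp : Prime p) (h2 : ¬(2 : O) ∣ p) (a : O) :
    p ∣ a ^ ((nm p - 1) / 2) - quadP a p := by
  have h3 := nm_mod_two h2
  have h2 := two_le_nm hp
  unfold quadP
  split_ifs with c1 c2
  · exact c1
  · rwa [sub_neg_eq_add]
  · rw [sub_zero]
    by_contra c0
    have ha : ¬p ∣ a := fun h => c0 (dvd_pow h (by omega))
    have h := (field_facts hp).1 a ha
    have e : nm p - 1 = (nm p - 1) / 2 * 2 := by omega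
    rw [e, pow_mul] at h
    generalize a ^ ((nm p - 1) / 2) = y at *
    rw [show y ^ 2 - 1 = (y - 1) * (y + 1) by ring] at h
    exact (hp.dvd_or_dvd h).elim c1 c2
theorem SymAux.quadP_eq_of_dvd {p a x : O} (hp : Prime p) (h2 : ¬(2 : O) ∣ p)
    (hx : x = 0 ∨ x = 1 ∨ x = -1) (h : p ∣ a ^ ((nm p - 1) / 2) - x) : quadP a p = x := by
  refine eq_of_cases₂ hp h2 (quadP_cases a p) hx ?_
  have := dvd_sub h (quadP_dvd hp h2 a)
  rwa [sub_sub_sub_cancel_left] at this
theorem quad_prime {p : O} (hp : Prime p) (a : O) : quad a p = toC (quadP a p) :=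
  sy_prime (quadP_assoc a) hp
theorem quad_prime_eq_one_iff {p a : O} (hp : Prime p) (h2 : ¬(2 : O) ∣ p) (h : ¬p ∣ a) :
    quad a p = 1 ↔ ∃ x, p ∣ a - x ^ 2 := by
  have h3 := nm_mod_two h2
  rw [← (field_facts hp).2.2 (not_dvd_of_prime hp prime_two h2) a h,
    show nm p / 2 = (nm p - 1) / 2 by omega, quad_prime hp, ← map_one toC, toC_injective.eq_iff]
  refine ⟨fun h1 => ?_, fun h1 => quadP_eq_of_dvd hp h2 (Or.inr (Or.inl rfl)) h1⟩
  have := quadP_dvd hp h2 a
  rwa [h1] at this
theorem quad_unit_right {u : O} (hu : IsUnit u) (a : O) : quad a u = 1 :=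
  sy_unit (quadP_assoc a) hu
@[simp] theorem quad_one_right (a : O) : quad a 1 = 1 := quad_unit_right isUnit_one a
theorem quad_mul_right {m n : O} (hm : m ≠ 0) (hn : n ≠ 0) (a : O) :
    quad a (m * n) = quad a m * quad a n := sy_mul (quadP_assoc a) hm hn
theorem quad_associated {m n : O} (h : Associated m n) (a : O) : quad a m = quad a n :=
  sy_associated (quadP_assoc a) h
theorem quad_mul_left {n : O} (h2 : ¬(2 : O) ∣ n) (a b : O) :
    quad (a * b) n = quad a n * quad b n := by
  refine Eq.trans ?_ (sy_mul_fun (fun p => toC (quadP a p)) (fun p => toC (quadP b p)) n)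
  refine sy_congr fun p hp hpn => ?_
  have h2' : ¬(2 : O) ∣ p := fun h => h2 (h.trans hpn)
  rw [← map_mul]
  congr 1
  refine quadP_eq_of_dvd hp h2' ?_ ?_
  · rcases quadP_cases a p with h | h | h <;> rcases quadP_cases b p with h' | h' | h' <;>
      rw [h, h'] <;> simp
  · have := dvd_add ((quadP_dvd hp h2' a).mul_right (b ^ ((nm p - 1) / 2)))
      ((quadP_dvd hp h2' b).mul_left (quadP a p))
    rw [mul_pow]
    convert this using 1
    ring
@[simp] theorem quad_one_left (n : O) : quad 1 n = 1 := by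
  refine Eq.trans ?_ (sy_one n)
  exact sy_congr fun p _ _ => by simp [quadP]
theorem quad_congr {a b n : O} (h : n ∣ a - b) : quad a n = quad b n := by
  refine sy_congr fun p _ hpn => ?_
  classical
  simp only [quadP, ← sub_neg_eq_add, dvd_congr (pow_congr (hpn.trans h) ((nm p - 1) / 2))]
theorem quad_sq {a n : O} (h2 : ¬(2 : O) ∣ n) (h : IsCoprime a n) : quad a n ^ 2 = 1 := by
  refine (sy_pow (fun p => toC (quadP a p)) n 2).symm.trans (Eq.trans ?_ (sy_one n))
  refine sy_congr fun p hp hpn => ?_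
  have h2' : ¬(2 : O) ∣ p := fun h => h2 (h.trans hpn)
  rcases quadP_cases a p with h0 | h0 | h0
  · have := quadP_dvd hp h2' a
    rw [h0, sub_zero] at this
    exact absurd (h.isUnit_of_dvd' (hp.dvd_of_dvd_pow this) hpn) hp.not_isUnit
  all_goals simp [h0]
theorem norm_quad {a n : O} (h2 : ¬(2 : O) ∣ n) (h : IsCoprime a n) : ‖quad a n‖ = 1 := by
  have := congrArg norm (quad_sq h2 h)
  rw [norm_pow, norm_one] at this
  exact (pow_eq_one_iff_of_nonneg (norm_nonneg _) (by norm_num)).1 this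
theorem norm_quad_le (a n : O) : ‖quad a n‖ ≤ 1 := by
  refine norm_sy_le (fun p => ?_) n
  rcases quadP_cases a p with h | h | h <;> simp [h]
theorem conj_quad (a n : O) : conj (quad a n) = quad a n := by
  refine (sy_conj _ n).trans (sy_congr fun p _ _ => ?_)
  rcases quadP_cases a p with h | h | h <;> simp [h]
theorem quad_eq_zero {a n : O} (h2 : ¬(2 : O) ∣ n) (h : ¬IsCoprime a n) : quad a n = 0 := by
  refine sy_eq_zero (fun h0 => h2 (h0 ▸ dvd_zero _)) h fun p hp hpn hpa => ?_
  have h2' : ¬(2 : O) ∣ p := fun h' => h2 (h'.trans hpn)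
  have h3 := nm_mod_two h2'
  have h4 := two_le_nm hp
  rw [quadP_eq_of_dvd hp h2' (Or.inl rfl) (by rw [sub_zero]; exact dvd_pow hpa (by omega)),
    map_zero]
theorem quad_sq_left {n : O} (h2 : ¬(2 : O) ∣ n) (a : O) :
    quad (a ^ 2) n = ind (IsCoprime a n) := by
  rw [pow_two, quad_mul_left h2, ← pow_two]
  by_cases h : IsCoprime a n
  · rw [quad_sq h2 h, ind_of h]
  · rw [quad_eq_zero h2 h, ind_of_not h]; simp
theorem exists_quad_ne_one {p : O} (hp : Prime p) (h2 : ¬(2 : O) ∣ p) :
    ∃ a, IsCoprime a p ∧ quad a p = -1 := by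
  have h3 := nm_mod_two h2
  have h4 := two_le_nm hp
  obtain ⟨a, ha, h⟩ := (field_facts hp).2.1 ((nm p - 1) / 2) (by omega) (by omega)
  refine ⟨a, (hp.irreducible.coprime_iff_not_dvd.2 ha).symm, ?_⟩
  have h5 := quadP_dvd hp h2 a
  rw [quad_prime hp]
  rcases quadP_cases a p with h0 | h0 | h0
  · rw [h0, sub_zero] at h5
    exact absurd (hp.dvd_of_dvd_pow h5) ha
  · rw [h0] at h5; exact absurd h5 h
  · simp [h0]
theorem SymAux.quadP_int {p : O} (hp : Prime p) (h2 : ¬(2 : O) ∣ p) (a : ℤ) :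
    quadP a p = (jacobiSym a (nm p) : ℤ) := by
  have h3 := nm_mod_two h2
  obtain ⟨l, hl, hpl, hN⟩ := nm_prime hp
  have := Fact.mk hl
  have key : p ∣ (a : O) ^ (l / 2) - (jacobiSym a l : ℤ) := by
    have h1 := legendreSym.eq_pow l a
    rw [jacobiSym.legendreSym.to_jacobiSym] at h1
    have h4 : (l : ℤ) ∣ a ^ (l / 2) - jacobiSym a l :=
      (ZMod.intCast_eq_intCast_iff_dvd_sub _ _ _).1 (by push_cast; exact h1)
    obtain ⟨c, hc⟩ := h4
    refine hpl.trans ⟨(c : O), ?_⟩
    exact_mod_cast congrArg (Int.cast : ℤ → O) hc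
  refine quadP_eq_of_dvd hp h2 ?_ ?_
  · rcases jacobiSym.trichotomy a (nm p) with h | h | h <;> simp [h]
  · rcases hN with hN | ⟨hN, -⟩
    · rw [hN] at h3 ⊢
      rwa [show (l - 1) / 2 = l / 2 by omega]
    · have hodd : l % 2 = 1 := by
        rw [hN, Nat.pow_mod] at h3
        rcases Nat.mod_two_eq_zero_or_one l with h | h
        · simp [h] at h3
        · exact h
      obtain ⟨s, hs⟩ : ∃ s, l = 2 * s + 1 := ⟨l / 2, by omega⟩
      have e1 : (l ^ 2 - 1) / 2 = l / 2 * (2 * (s + 1)) := by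
        rw [hs, show (2 * s + 1) ^ 2 = 2 * (s * (2 * (s + 1))) + 1 by ring,
          show (2 * s + 1) / 2 = s by omega]
        omega
      have h5 := pow_congr key (2 * (s + 1))
      rw [hN, e1, pow_mul, jacobiSym.pow_right]
      convert h5 using 2
      rcases jacobiSym.trichotomy a l with h | h | h <;> simp [h, pow_mul]
theorem quad_int {n : O} (h2 : ¬(2 : O) ∣ n) (a : ℤ) : quad a n = jacobiSym a (nm n) := by
  induction n using UniqueFactorizationMonoid.induction_on_prime with
  | h₁ => exact absurd (dvd_zero _) h2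
  | h₂ u hu => rw [quad_unit_right hu, isUnit_iff_nm.1 hu]; simp
  | h₃ n p hn hp ih =>
    rw [quad_mul_right hp.ne_zero hn, ih fun h => h2 (h.mul_left p), quad_prime hp,
      quadP_int hp fun h => h2 (h.mul_right n), nm_mul,
      jacobiSym.mul_right' _ (nm_pos hp.ne_zero).ne' (nm_pos hn).ne']
    simp

theorem sex_mul_right {m n : O} (hm : m ≠ 0) (hn : n ≠ 0) (a : O) :
    sex a (m * n) = sex a m * sex a n := by
  simp only [sex, quad_mul_right hm hn, cub_mul_right hm hn, map_mul]
  ring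
theorem sex_mul_left {n : O} (hn : IsP n) (a b : O) : sex (a * b) n = sex a n * sex b n := by
  simp only [sex, quad_mul_left hn.2, cub_mul_left, map_mul]
  ring
@[simp] theorem sex_one_right (a : O) : sex a 1 = 1 := by simp [sex]
@[simp] theorem sex_one_left (n : O) : sex 1 n = 1 := by simp [sex]
theorem sex_congr {a b n : O} (h : n ∣ a - b) : sex a n = sex b n := by
  rw [sex, sex, quad_congr h, cub_congr h]
theorem norm_sex {a n : O} (hn : IsP n) (h : IsCoprime a n) : ‖sex a n‖ = 1 := by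
  rw [sex, norm_mul, Complex.norm_conj, norm_quad hn.2 h, norm_cub h, one_mul]
theorem norm_sex_le (a n : O) : ‖sex a n‖ ≤ 1 := by
  rw [sex, norm_mul, Complex.norm_conj]
  exact mul_le_one₀ (norm_quad_le a n) (norm_nonneg _) (norm_cub_le a n)
theorem sex_eq_zero {a n : O} (hn : IsP n) (h : ¬IsCoprime a n) : sex a n = 0 := by
  rw [sex, quad_eq_zero hn.2 h, zero_mul]
theorem sex_pow_six {n : O} (hn : IsP n) (a : O) : sex (a ^ 6) n = ind (IsCoprime a n) := by
  by_cases h : IsCoprime a n
  · rw [ind_of h, sex, cub_pow_left, show 6 = 3 * 2 by rfl, pow_mul, pow_mul, cub_cube h,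
      quad_sq_left hn.2, ind_of h.pow_left]
    simp
  · rw [ind_of_not h, sex_eq_zero hn]
    rwa [IsCoprime.pow_left_iff (by norm_num)]
theorem conj_sex (a n : O) : conj (sex a n) = quad a n * cub a n := by
  rw [sex, map_mul, conj_quad, Complex.conj_conj]

end Vale.Agent.P026
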