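import Vale.Agent.P026.ThCTile

/-! # TH-C: Parseval on `par 9`.
Plan.  Parseval: the linear equivalence `L : (Fin 2 → ℝ) ≃L[ℝ] ℂ`, `x ↦ 9 (x 0 + x 1 ω)` maps volume to a positive multiple of volume
(`MeasureTheory.Measure.isAddLeftInvariant_eq_smul` / `Measure.map_linearMap_addHaar_eq_smul_addHaar` with `Complex.measurableEquivPi`), so
`∫_{par 9} g = vol9 * ∫_{box} g ∘ L` (`integral_par9`; test with `g = 1` to identify the constant).  `ec (ν L x / 9) = e(ν.im x₀ + (ν.re - ν.im) x₁)`.
Lift `f ∘ L` to the torus by `t ↦ f (L fun i => AddCircle.equivIoc 1 0 (t i))` (or `UnitAddTorus.measurableEquivPiIoc`), `MemLp.toLp`,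
`UnitAddTorus.hasSum_sq_mFourierCoeff`, `mFourierCoeff_eq_integral`, `UnitAddTorus.integral_preimage`; reindex `O ≃ (Fin 2 → ℤ)`.
`orth9` from `UnitAddTorus.orthonormal_mFourier` or by translation invariance.  `bessel9`: expand `‖a - b‖²`. -/

namespace Vale.Agent.P026

open scoped ComplexConjugate Real Topology
open MeasureTheory Filter Set

/-- coordinates on `par 9` -/
noncomputable def prL : (Fin 2 → ℝ) ≃L[ℝ] ℂ := LinearEquiv.toContinuousLinearEquiv
  { toFun x := 9 * (x 0 + x 1 * toC om)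
    invFun z := ![tlA (z / 9), tlB (z / 9)]
    map_add' x y := by simp; ring
    map_smul' c x := by simp; ring
    left_inv x := by
      ext i
      fin_cases i <;> simp [tlA_mk, tlB_mk]
    right_inv z := by
      simp only [Matrix.cons_val_zero, Matrix.cons_val_one, tl_eq]
      ring }

theorem prL_apply (x : Fin 2 → ℝ) : prL x = 9 * (x 0 + x 1 * toC om) := rfl

/-- the unit box -/
def prBox : Set (Fin 2 → ℝ) := {x | ∀ i, x i ∈ Ioc ((0 : Fin 2 → ℝ) i) ((0 : Fin 2 → ℝ) i + 1)}

theorem prBox_eq : prBox = univ.pi fun _ => Ioc 0 1 := by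
  ext x
  simp [prBox]

theorem pr_nine : (9 : O) ≠ 0 := by decide

theorem prL_preimage : prL ⁻¹' par 9 = prBox := by
  ext x
  rw [mem_preimage, mem_par pr_nine, prL_apply, map_ofNat, mul_div_cancel_left₀ _ (by norm_num),
    tlA_mk, tlB_mk]
  simp [prBox]

theorem prL_emb : MeasurableEmbedding prL := prL.toHomeomorph.measurableEmbedding

theorem pr_restrict : ∃ c : NNReal, 0 < c ∧ volume (par 9) = c ∧
    volume.restrict (par 9) = c • (volume.restrict prBox).map prL := by
  have h := Measure.isAddLeftInvariant_eq_smul (volume : Measure ℂ) (volume.map prL)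
  have k : volume.restrict (par 9) = Measure.addHaarScalarFactor (volume : Measure ℂ)
      (volume.map prL) • (volume.restrict prBox).map prL := by
    rw [← prL_preimage, ← prL_emb.restrict_map, ← Measure.restrict_smul, ← h]
  refine ⟨_, Measure.addHaarScalarFactor_pos_of_isAddHaarMeasure _ _, ?_, k⟩
  rw [← Measure.restrict_apply_univ, k, Measure.smul_apply,
    Measure.map_apply prL.continuous.measurable MeasurableSet.univ, preimage_univ,
    Measure.restrict_apply_univ, prBox_eq, Real.volume_pi_Ioc]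
  simp

theorem volume_par9_ne_top : volume (par 9) ≠ ⊤ := by
  obtain ⟨c, -, h, -⟩ := pr_restrict
  rw [h]
  exact ENNReal.coe_ne_top
theorem vol9_pos : 0 < vol9 := by
  obtain ⟨c, h0, h, -⟩ := pr_restrict
  rw [vol9, h]
  exact h0

theorem integral_par9 {E : Type*} [NormedAddCommGroup E] [NormedSpace ℝ E] (g : ℂ → E) :
    ∫ z in par 9, g z = vol9 • ∫ x in prBox, g (prL x) := by
  obtain ⟨c, -, h, k⟩ := pr_restrict
  rw [vol9, h, k, integral_smul_nnreal_measure, prL_emb.integral_map]
  rfl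

/-- frequencies -/
def prE : O ≃ (Fin 2 → ℤ) where
  toFun ν := ![-ν.im, ν.im - ν.re]
  invFun n := ⟨-n 0 - n 1, -n 0⟩
  left_inv ν := by ext <;> simp
  right_inv n := by
    ext i
    fin_cases i <;> simp

theorem pr_char (ν : O) (x : Fin 2 → ℝ) :
    ec (toC ν * prL x / 9) = UnitAddTorus.mFourier (-prE ν) fun i => x i := by
  have e : 2 * (toC ν * prL x / 9).im / √3 = ν.im * x 0 + (ν.re - ν.im) * x 1 := by
    rw [prL_apply, mul_left_comm, mul_div_cancel_left₀ _ (by norm_num)]
    simp [tl_re, tl_im, om]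
    field_simp
    ring
  rw [ec, e, UnitAddTorus.mFourier, ContinuousMap.coe_mk, Fin.prod_univ_two, fourier_coe_apply,
    fourier_coe_apply, ← Complex.exp_add]
  congr 1
  simp [prE]
  ring

theorem orth9 (ν : O) :
    ∫ z in par 9, ec (toC ν * z / 9) = ind (ν = 0) * vol9 := by
  let _ : MeasureSpace UnitAddCircle := ⟨AddCircle.haarAddCircle⟩
  have k := orthonormal_iff_ite.1 UnitAddTorus.orthonormal_mFourier 0 (-prE ν)
  simp only [ContinuousMap.inner_toLp, UnitAddTorus.mFourier_zero, ContinuousMap.one_apply,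
    map_one, mul_one] at k
  rw [UnitAddTorus.integral_preimage _ 0] at k
  simp only [integral_par9, pr_char]
  rw [prBox, k, Complex.real_smul, mul_comm]
  congr 1
  by_cases h : ν = 0
  · rw [ind_of h, if_pos]
    ext i
    fin_cases i <;> simp [h, prE]
  · rw [ind_of_not h, if_neg fun k => h ?_]
    have h0 := congrFun k 0
    have h1 := congrFun k 1
    simp [prE] at h0 h1
    ext <;> simp <;> omega
theorem parseval9 {f : ℂ → ℂ} (hf : Measurable f) {M : ℝ} (hM : ∀ z, ‖f z‖ ≤ M) :
    HasSum (fun ν : O => ‖∫ z in par 9, f z * ec (toC ν * z / 9)‖ ^ 2)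
      (vol9 * ∫ z in par 9, ‖f z‖ ^ 2) := by
  let _ : MeasureSpace UnitAddCircle := ⟨AddCircle.haarAddCircle⟩
  have _ : IsProbabilityMeasure (volume : Measure UnitAddCircle) :=
    inferInstanceAs (IsProbabilityMeasure AddCircle.haarAddCircle)
  let F : UnitAddTorus (Fin 2) → ℂ := fun t => f (prL (UnitAddTorus.measurableEquivPiIoc 0 t).1)
  have hF : MemLp F 2 volume := MemLp.of_bound (hf.comp (prL.continuous.measurable.comp
    (measurable_subtype_coe.comp (MeasurableEquiv.measurable _)))).aestronglyMeasurable M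
    (Eventually.of_forall fun t => hM _)
  have e : ∀ x ∈ prBox, F (fun i => x i) = f (prL x) := fun x hx =>
    congrArg (fun y => f (prL y.1)) ((UnitAddTorus.measurableEquivPiIoc 0).apply_symm_apply ⟨x, hx⟩)
  have hb : MeasurableSet prBox := prBox_eq ▸ MeasurableSet.univ_pi fun _ => measurableSet_Ioc
  have k := (prE.hasSum_iff.2 (UnitAddTorus.hasSum_sq_mFourierCoeff hF.toLp)).mul_left (vol9 ^ 2)
  have e2 : ∫ t, ‖hF.toLp F t‖ ^ 2 = ∫ x in prBox, ‖f (prL x)‖ ^ 2 :=
    (integral_congr_ae (hF.coeFn_toLp.mono fun t ht => congrArg (‖·‖ ^ 2) ht)).trans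
      ((UnitAddTorus.integral_preimage _ 0).trans
        (setIntegral_congr_fun hb fun x hx => congrArg (‖·‖ ^ 2) (e x hx)))
  rw [integral_par9, smul_eq_mul, ← mul_assoc, ← sq, ← e2]
  refine k.congr_fun fun ν => ?_
  have e1 : UnitAddTorus.mFourierCoeff (hF.toLp F) (prE ν) = UnitAddTorus.mFourierCoeff F (prE ν) :=
    integral_congr_ae (hF.coeFn_toLp.mono fun t ht => by simp only [ht])
  rw [Function.comp, e1, UnitAddTorus.mFourierCoeff_eq_integral _ _ 0, integral_par9, norm_smul,
    mul_pow, Real.norm_of_nonneg vol9_pos.le]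
  congr 3
  refine setIntegral_congr_fun hb fun x hx => ?_
  simp only [e x hx, pr_char, smul_eq_mul, mul_comm]

theorem pr_int {E : Type*} [NormedAddCommGroup E] [MeasurableSpace E] [BorelSpace E]
    [SecondCountableTopology E] {f : ℂ → E} (hf : Measurable f) {M : ℝ} (hM : ∀ z, ‖f z‖ ≤ M) :
    IntegrableOn f (par 9) :=
  Measure.integrableOn_of_bounded volume_par9_ne_top hf.aestronglyMeasurable
    (Eventually.of_forall hM)

theorem pr_meas (ν : O) : Measurable fun z => ec (toC ν * z / 9) :=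
  continuous_ec.measurable.comp (by fun_prop)

theorem pr_int' {f : ℂ → ℂ} (hf : Measurable f) {M : ℝ} (hM : ∀ z, ‖f z‖ ≤ M) (ν : O) :
    IntegrableOn (fun z => f z * ec (toC ν * z / 9)) (par 9) :=
  pr_int (hf.mul (pr_meas ν)) (M := M) fun z => by rw [norm_mul, norm_ec, mul_one]; exact hM z

theorem pr_step {f : ℂ → ℂ} (hf : Measurable f) {M : ℝ} (hM : ∀ z, ‖f z‖ ≤ M) (ν : O) (a : ℂ) :
    ∫ z in par 9, ‖f z - a * ec (-(toC ν * z / 9))‖ ^ 2 = (∫ z in par 9, ‖f z‖ ^ 2) +
      vol9 * ‖a‖ ^ 2 - 2 * (conj a * ∫ z in par 9, f z * ec (toC ν * z / 9)).re := by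
  have i1 : IntegrableOn (fun z => ‖f z‖ ^ 2) (par 9) :=
    pr_int (hf.norm.pow_const 2) (M := M ^ 2) fun z => by
      rw [norm_pow, norm_norm]
      exact pow_le_pow_left₀ (norm_nonneg _) (hM z) 2
  have i2 : IntegrableOn (fun _ : ℂ => ‖a‖ ^ 2) (par 9) := integrableOn_const volume_par9_ne_top
  have i3 := (pr_int' hf hM ν).const_mul (conj a)
  have i4 : IntegrableOn (fun z => ‖f z‖ ^ 2 + ‖a‖ ^ 2) (par 9) := i1.add i2
  have e : vol9 * ‖a‖ ^ 2 = ∫ _ in par 9, ‖a‖ ^ 2 := by
    rw [setIntegral_const]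
    rfl
  rw [← integral_const_mul, ← RCLike.re_to_complex, ← integral_re i3, ← integral_const_mul, e,
    ← integral_add i1 i2, ← integral_sub i4 (i3.re.const_mul 2)]
  refine integral_congr_ae (Eventually.of_forall fun z => ?_)
  simp only [Complex.sq_norm, Complex.normSq_sub, map_mul, conj_ec, neg_neg, RCLike.re_to_complex]
  rw [← Complex.sq_norm (ec _), norm_ec, mul_left_comm (f z)]
  ring

theorem bessel9 {f : ℂ → ℂ} (hf : Measurable f) {M : ℝ} (hM : ∀ z, ‖f z‖ ≤ M) (t : Finset O) :
    ∫ z in par 9, ‖f z - ∑ ν ∈ t, (∫ z' in par 9, f z' * ec (toC ν * z' / 9)) / vol9 *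
        ec (-(toC ν * z / 9))‖ ^ 2 =
      (∫ z in par 9, ‖f z‖ ^ 2) -
        (∑ ν ∈ t, ‖∫ z in par 9, f z * ec (toC ν * z / 9)‖ ^ 2) / vol9 := by
  classical
  induction t using Finset.induction_on generalizing f M with
  | empty => simp
  | insert μ t hμ ih =>
    set a := (∫ z' in par 9, f z' * ec (toC μ * z' / 9)) / vol9 with ha
    have hv := vol9_pos
    have k := ih (f := fun z => f z - a * ec (-(toC μ * z / 9))) (M := M + ‖a‖)
      (hf.sub ((continuous_ec.measurable.comp (by fun_prop)).const_mul a)) fun z =>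
        (norm_sub_le _ _).trans (by rw [norm_mul, norm_ec, mul_one]; linarith [hM z])
    have e : ∀ ν ∈ t, ∫ z in par 9, (f z - a * ec (-(toC μ * z / 9))) * ec (toC ν * z / 9) =
        ∫ z in par 9, f z * ec (toC ν * z / 9) := fun ν hν => by
      have k0 := orth9 (ν - μ)
      rw [ind_of_not (sub_ne_zero.2 (ne_of_mem_of_not_mem hν hμ)), zero_mul] at k0
      rw [← sub_zero (∫ z in par 9, f z * _), ← mul_zero a, ← k0, ← integral_const_mul,
        ← integral_sub (pr_int' hf hM ν) ((pr_int (pr_meas _) fun z => (norm_ec _).le).const_mul a)]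
      refine integral_congr_ae (Eventually.of_forall fun z => ?_)
      beta_reduce
      rw [sub_mul, mul_assoc a, ← ec_add, map_sub]
      congr 3
      ring
    rw [Finset.sum_congr rfl fun ν hν => by rw [e ν hν], pr_step hf hM] at k
    simp only [Finset.sum_insert hμ, ← ha, ← sub_sub]
    refine (integral_congr_ae (Eventually.of_forall fun z => ?_)).trans (k.trans ?_)
    · rw [Finset.sum_congr rfl fun ν hν => by rw [← e ν hν]]
    · rw [ha, map_div₀, Complex.conj_ofReal, div_mul_eq_mul_div, Complex.conj_mul',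
        ← Complex.ofReal_pow, ← Complex.ofReal_div, Complex.ofReal_re, norm_div, Complex.norm_real,
        Real.norm_of_nonneg hv.le]
      field_simp
      ring

end Vale.Agent.P026
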