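import Vale.Agent.P026.WhTh
import Vale.Agent.P026.ThCPars

/-! # TH-C: an `L²`-bounded periodic functional is determined by its Fourier coefficients. -/

namespace Vale.Agent.P026

open scoped ComplexConjugate Real Topology
open MeasureTheory Filter Set

theorem Test.add {F G : ℂ × ℝ → ℂ} (hF : Test F) (hG : Test G) : Test fun w => F w + G w := by
  obtain ⟨hF, M, hM, h⟩ := hF
  obtain ⟨hG, M', hM', h'⟩ := hG
  refine ⟨hF.add hG, M + M', by positivity, fun w =>
    ⟨(norm_add_le _ _).trans (add_le_add (h w).1 (h' w).1), fun h0 => ?_⟩⟩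
  by_cases h1 : F w = 0
  · obtain ⟨a, b, c⟩ := (h' w).2 fun h2 => h0 (by simp [h1, h2])
    exact ⟨by linarith, (one_div_le_one_div_of_le hM' (by linarith)).trans b, by linarith⟩
  · obtain ⟨a, b, c⟩ := (h w).2 h1
    exact ⟨by linarith, (one_div_le_one_div_of_le hM (by linarith)).trans b, by linarith⟩
theorem Test.neg {F : ℂ × ℝ → ℂ} (hF : Test F) : Test fun w => -F w := by
  obtain ⟨hF, M, hM, h⟩ := hF
  exact ⟨hF.neg, M, hM, fun w => ⟨by simpa using (h w).1, fun h0 => (h w).2 (by simpa using h0)⟩⟩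
theorem test_zero : Test fun _ => 0 :=
  ⟨measurable_const, 1, one_pos, fun _ => ⟨by simp, fun h => (h rfl).elim⟩⟩
theorem Test.sum {ι : Type*} (t : Finset ι) {F : ι → ℂ × ℝ → ℂ} (h : ∀ i ∈ t, Test (F i)) :
    Test fun w => ∑ i ∈ t, F i w := by
  classical
  induction t using Finset.induction_on with
  | empty => simpa using test_zero
  | insert a t ha ih =>
    simp only [Finset.sum_insert ha]
    exact (h a (Finset.mem_insert_self _ _)).add
      (ih fun i hi => h i (Finset.mem_insert_of_mem hi))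

private theorem Test.mul_left {F G : ℂ × ℝ → ℂ} (hF : Test F) (hG : Measurable G)
    (h1 : ∀ w, ‖G w‖ ≤ 1) : Test fun w => G w * F w := by
  obtain ⟨hF, M, hM, h⟩ := hF
  refine ⟨hG.mul hF, M, hM, fun w => ⟨?_, fun h0 => (h w).2 (right_ne_zero_of_mul h0)⟩⟩
  rw [norm_mul]
  exact (mul_le_of_le_one_left (norm_nonneg _) (h1 w)).trans (h w).1

private theorem norm_indicator_one (P : Set ℂ) (z : ℂ) :
    ‖P.indicator (fun _ => (1 : ℂ)) z‖ ≤ 1 := by
  by_cases h : z ∈ P <;> simp [h]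

private theorem integrable_term {F G : ℂ × ℝ → ℂ} (hF : Test F) (hG : Measurable G) {M K : ℝ}
    (hM : ∀ w, F w ≠ 0 → 1 / M ≤ w.2 ∧ w.2 ≤ M)
    (hK : ∀ w : ℂ × ℝ, 1 / M ≤ w.2 → w.2 ≤ M → ‖G w‖ ≤ K) :
    Integrable (fun w => G w * F w) hmu ∧ ∀ w, ‖G w * F w‖ ≤ K * ‖F w‖ := by
  have h : ∀ w, ‖G w * F w‖ ≤ K * ‖F w‖ := fun w => by
    by_cases h0 : F w = 0
    · simp [h0]
    · rw [norm_mul]
      exact mul_le_mul_of_nonneg_right (hK w (hM w h0).1 (hM w h0).2) (norm_nonneg _)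
  exact ⟨(hF.integrable.norm.const_mul K).mono' (hG.mul hF.1).aestronglyMeasurable
    (Eventually.of_forall h), h⟩

private theorem measurable_ec (ν : O) : Measurable fun w : ℂ × ℝ => ec (toC ν * w.1 / 9) :=
  (continuous_ec.comp (by fun_prop)).measurable

theorem Poly.integrable_th {τ : O → ℂ} (hτ : Poly τ) {F : ℂ × ℝ → ℂ} (hF : Test F) :
    Integrable (fun w => th τ w * F w) hmu := by
  obtain ⟨M, hM, h⟩ := hF.2
  obtain ⟨u, hu, hb⟩ := hτ.majorant (one_div_pos.2 hM) M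
  refine (integrable_term hF (measurable_th τ) (K := ∑' ν, u ν) (fun w hw => ((h w).2 hw).2)
    fun w h1 h2 => tsum_of_norm_bounded hu.hasSum fun ν => ?_).1
  rw [norm_mul, norm_ec, mul_one]
  exact hb ν _ h1 h2

private theorem hasSum_th {τ : O → ℂ} (hτ : Poly τ) {F : ℂ × ℝ → ℂ} (hF : Test F) :
    HasSum (fun ν => ∫ v in Ioi (0 : ℝ), τ ν * Wh (4 / 3) ν v *
      (∫ z, F (z, v) * ec (toC ν * z / 9)) * ((1 / v ^ 3 : ℝ) : ℂ))
      (∫ w, th τ w * F w ∂hmu) := by
  obtain ⟨M, hM, h⟩ := hF.2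
  obtain ⟨u, hu, hb⟩ := hτ.majorant (one_div_pos.2 hM) M
  have h1 := fun ν => integrable_term hF
    (G := fun w => τ ν * Wh (4 / 3) ν w.2 * ec (toC ν * w.1 / 9))
    ((((measurable_Wh _ ν).comp measurable_snd).const_mul _).mul (measurable_ec ν)) (K := u ν)
    (fun w hw => ((h w).2 hw).2) fun w h1 h2 => by
      rw [norm_mul, norm_ec, mul_one]
      exact hb ν _ h1 h2
  have h2 := hasSum_integral_of_summable_integral_norm (fun ν => (h1 ν).1)
    ((hu.mul_right (∫ w, ‖F w‖ ∂hmu)).of_nonneg_of_le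
      (fun ν => integral_nonneg fun w => norm_nonneg _) fun ν => by
        rw [← integral_const_mul]
        exact integral_mono (h1 ν).1.norm (hF.integrable.norm.const_mul _) (h1 ν).2)
  simp only [tsum_mul_right] at h2
  refine HasSum.congr_fun h2 fun ν => ?_
  rw [integral_hmu (h1 ν).1]
  refine integral_congr_ae (Eventually.of_forall fun v => ?_)
  simp only
  rw [← integral_const_mul]
  congr 2
  ext z
  ring

private theorem integral_hmu_real {f : ℂ × ℝ → ℝ} (hf : Integrable f hmu) :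
    ∫ w, f w ∂hmu = ∫ v in Ioi (0 : ℝ), (∫ z, f (z, v)) * (1 / v ^ 3) := by
  have h := integral_hmu (f := fun w => (f w : ℂ)) hf.ofReal
  simp only [integral_complex_ofReal, ← Complex.ofReal_mul] at h
  exact_mod_cast h

/-- the hypotheses on the functional -/
structure RepHyp (Λ : (ℂ × ℝ → ℂ) → ℂ) (τ : O → ℂ) : Prop where
  poly : Poly τ
  add : ∀ F G, Test F → Test G → Λ (fun w => F w + G w) = Λ F + Λ G
  bound : ∀ R X : ℝ, 0 ≤ R → 0 < X → ∃ C : ℝ, ∀ F, Test F →
    (∀ w, F w ≠ 0 → ‖w.1‖ ≤ R ∧ 1 / X ≤ w.2) → ‖Λ F‖ ^ 2 ≤ C * ∫ w, ‖F w‖ ^ 2 ∂hmu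
  tr : ∀ F, Test F → ∀ y : O, Λ (fun w => F (w.1 + toC (9 * y), w.2)) = Λ F
  coef : ∀ ν ψ, Test1 ψ → Λ (Ftst (par 9) ν ψ) = τ ν * wI ν ψ (4 / 3)

private theorem RepHyp.sum {Λ : (ℂ × ℝ → ℂ) → ℂ} {τ : O → ℂ} (h : RepHyp Λ τ) {ι : Type*}
    (t : Finset ι) {F : ι → ℂ × ℝ → ℂ} (hF : ∀ i, Test (F i)) :
    Λ (fun w => ∑ i ∈ t, F i w) = ∑ i ∈ t, Λ (F i) := by
  classical
  induction t using Finset.induction_on with
  | empty => simpa using h.add _ _ test_zero test_zero
  | insert a t ha ih =>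
    simp only [Finset.sum_insert ha]
    rw [h.add _ _ (hF a) (Test.sum t fun i _ => hF i), ih]

/-- Fourier coefficient in the variable `z` -/
private noncomputable def cf (F : ℂ × ℝ → ℂ) (ν : O) (v : ℝ) : ℂ :=
  (∫ z in par 9, F (z, v) * ec (toC ν * z / 9)) / vol9

private theorem cf_ne {F : ℂ × ℝ → ℂ} {ν : O} {v : ℝ} (h : cf F ν v ≠ 0) :
    ∃ z, F (z, v) ≠ 0 := by
  by_contra h1
  push Not at h1
  simp [cf, h1] at h

private theorem test1_cf {F : ℂ × ℝ → ℂ} (hF : Test F) (ν : O) : Test1 (cf F ν) := by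
  obtain ⟨hF, M, hM, h⟩ := hF
  refine ⟨((hF.mul (measurable_ec ν)).stronglyMeasurable.integral_prod_left'
    (μ := volume.restrict (par 9))).measurable.div_const _, M, hM, fun v => ⟨?_, fun h0 => ?_⟩⟩
  · rw [cf, norm_div, Complex.norm_real, Real.norm_of_nonneg vol9_pos.le, div_le_iff₀ vol9_pos]
    refine norm_setIntegral_le_of_norm_le_const volume_par9_ne_top.lt_top fun z _ => ?_
    rw [norm_mul, norm_ec, mul_one]
    exact (h _).1
  · obtain ⟨z, hz⟩ := cf_ne h0
    exact ((h _).2 hz).2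

private theorem test_Ftst9 (ν : O) {ψ : ℝ → ℂ} (hψ : Test1 ψ) : Test (Ftst (par 9) ν ψ) := by
  obtain ⟨hP, ⟨R, hR⟩, -⟩ := tile_par (m := 9) (by decide)
  obtain ⟨hψ, M, hM, h⟩ := hψ
  refine ⟨(((measurable_const.indicator hP).comp measurable_fst).mul (hψ.comp measurable_snd)).mul
    (continuous_ec.comp (by fun_prop)).measurable, M + |R|, by positivity, fun w => ⟨?_, fun h0 => ?_⟩⟩
  · rw [Ftst, norm_mul, norm_ec, mul_one, norm_mul]
    linarith [mul_le_of_le_one_left (norm_nonneg (ψ w.2)) (norm_indicator_one (par 9) w.1),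
      (h w.2).1, abs_nonneg R]
  · have h1 := left_ne_zero_of_mul h0
    obtain ⟨a, b⟩ := (h w.2).2 (right_ne_zero_of_mul h1)
    have := hR _ (mem_of_indicator_ne_zero (left_ne_zero_of_mul h1))
    exact ⟨by linarith [le_abs_self R],
      (one_div_le_one_div_of_le hM (by linarith [abs_nonneg R])).trans a, by linarith [abs_nonneg R]⟩

private theorem tendsto_err {F : ℂ × ℝ → ℂ} (hF : Test F) (hP : ∀ w, F w ≠ 0 → w.1 ∈ par 9) :
    Tendsto (fun t : Finset O => ∫ w, ‖F w + -∑ ν ∈ t, Ftst (par 9) ν (cf F ν) w‖ ^ 2 ∂hmu) atTop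
      (𝓝 0) := by
  have hD : ∀ t : Finset O, Test fun w => F w + -∑ ν ∈ t, Ftst (par 9) ν (cf F ν) w := fun t =>
    hF.add (Test.sum t fun ν _ => test_Ftst9 ν (test1_cf hF ν)).neg
  simp only [fun t => integral_hmu_real (hD t).integrable_sq]
  obtain ⟨hFm, M, hM, h⟩ := hF
  have hmP := (tile_par (m := 9) (by decide)).1
  have hv : ∀ v, Measurable fun z => F (z, v) := fun v => hFm.comp (measurable_prodMk_right)
  have e : ∀ (t : Finset O) (v : ℝ),
      ∫ z, ‖F (z, v) + -∑ ν ∈ t, Ftst (par 9) ν (cf F ν) (z, v)‖ ^ 2 =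
      (∫ z in par 9, ‖F (z, v)‖ ^ 2) -
        (∑ ν ∈ t, ‖∫ z in par 9, F (z, v) * ec (toC ν * z / 9)‖ ^ 2) / vol9 := by
    intro t v
    rw [← bessel9 (hv v) (fun z => (h _).1) t,
      ← setIntegral_eq_integral_of_forall_compl_eq_zero (s := par 9) fun z hz => ?_]
    · refine setIntegral_congr_fun hmP fun z hz => ?_
      simp only [Ftst, indicator_of_mem hz, one_mul, cf, sub_eq_add_neg]
    · have : F (z, v) = 0 := by
        by_contra h0
        exact hz (hP _ h0)
      simp [Ftst, this, indicator_of_notMem hz]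
  have hN : ∀ v, 0 < v → (∫ z in par 9, ‖F (z, v)‖ ^ 2) * (1 / v ^ 3) ≤
      (Icc (1 / M) M).indicator (fun _ => M ^ 2 * vol9 * M ^ 3) v := by
    intro v hv0
    by_cases h1 : v ∈ Icc (1 / M) M
    · rw [indicator_of_mem h1]
      have h2 : ‖∫ z in par 9, ‖F (z, v)‖ ^ 2‖ ≤ M ^ 2 * vol9 :=
        norm_setIntegral_le_of_norm_le_const volume_par9_ne_top.lt_top fun z _ => by
          rw [norm_pow, norm_norm]
          exact pow_le_pow_left₀ (norm_nonneg _) (h _).1 2
      have h3 : 1 / v ≤ M := (one_div_le hv0 hM).2 h1.1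
      have h4 : 1 / v ^ 3 ≤ M ^ 3 := by
        rw [← one_pow 3, ← div_pow]
        gcongr
      exact mul_le_mul ((le_abs_self _).trans h2) h4 (by positivity)
        (mul_nonneg (by positivity) vol9_pos.le)
    · have : ∀ z, F (z, v) = 0 := fun z => by
        by_contra h0
        exact h1 ((h _).2 h0).2
      rw [indicator_of_notMem h1]
      simp [this]
  have := tendsto_integral_filter_of_dominated_convergence (μ := volume.restrict (Ioi (0 : ℝ)))
    (l := atTop) (f := fun _ => (0 : ℝ)) (F := fun (t : Finset O) v =>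
      (∫ z, ‖F (z, v) + -∑ ν ∈ t, Ftst (par 9) ν (cf F ν) (z, v)‖ ^ 2) * (1 / v ^ 3))
    ((Icc (1 / M) M).indicator fun _ => M ^ 2 * vol9 * M ^ 3)
    (Eventually.of_forall fun t => ?_) (Eventually.of_forall fun t => ?_) ?_ ?_
  · simpa using this
  · exact (((hD t).1.norm.pow_const 2).stronglyMeasurable.integral_prod_left'.measurable.mul
      (by fun_prop)).aestronglyMeasurable
  · filter_upwards [ae_restrict_mem measurableSet_Ioi] with v hv0
    have hv0 : 0 < v := hv0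
    rw [Real.norm_of_nonneg (mul_nonneg (integral_nonneg fun z => by positivity) (by positivity)),
      e]
    refine le_trans (mul_le_mul_of_nonneg_right (sub_le_self _ ?_) (by positivity)) (hN v hv0)
    exact div_nonneg (Finset.sum_nonneg fun _ _ => by positivity) vol9_pos.le
  · exact ((integrable_indicator_iff measurableSet_Icc).2
      (integrableOn_const measure_Icc_lt_top.ne)).restrict
  · refine Eventually.of_forall fun v => ?_
    simp only [e]
    have h1 := ((Tendsto.div_const (parseval9 (hv v) fun z => (h _).1) vol9).const_sub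
      (∫ z in par 9, ‖F (z, v)‖ ^ 2)).mul_const (1 / v ^ 3)
    rwa [mul_div_cancel_left₀ _ vol9_pos.ne', sub_self, zero_mul] at h1

theorem RepHyp.rep_par {Λ : (ℂ × ℝ → ℂ) → ℂ} {τ : O → ℂ} (h : RepHyp Λ τ) {F : ℂ × ℝ → ℂ}
    (hF : Test F) (hP : ∀ w, F w ≠ 0 → w.1 ∈ par 9) :
    Λ F * vol9 = ∫ w, th τ w * F w ∂hmu := by
  have hv0 : (vol9 : ℂ) ≠ 0 := by exact_mod_cast vol9_pos.ne'
  have h1 : HasSum (fun ν => τ ν * wI ν (cf F ν) (4 / 3) * vol9) (∫ w, th τ w * F w ∂hmu) := by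
    refine HasSum.congr_fun (hasSum_th h.poly hF) fun ν => ?_
    rw [wI, ← integral_const_mul, ← integral_mul_const]
    refine integral_congr_ae (Eventually.of_forall fun v => ?_)
    simp only [cf]
    rw [setIntegral_eq_integral_of_forall_compl_eq_zero fun z hz => ?_]
    · field_simp
    · have : F (z, v) = 0 := by
        by_contra h0
        exact hz (hP _ h0)
      rw [this, zero_mul]
  refine HasSum.unique (HasSum.mul_right _ ?_) h1
  obtain ⟨-, ⟨R, hR⟩, -⟩ := tile_par (m := 9) (by decide)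
  obtain ⟨M, hM, hFM⟩ := hF.2
  obtain ⟨C, hC⟩ := h.bound |R| M (abs_nonneg R) hM
  have hS : ∀ t : Finset O, Test fun w => ∑ ν ∈ t, Ftst (par 9) ν (cf F ν) w := fun t =>
    Test.sum t fun ν _ => test_Ftst9 ν (test1_cf hF ν)
  have h2 : ∀ t : Finset O, ‖∑ ν ∈ t, τ ν * wI ν (cf F ν) (4 / 3) - Λ F‖ ^ 2 ≤
      C * ∫ w, ‖F w + -∑ ν ∈ t, Ftst (par 9) ν (cf F ν) w‖ ^ 2 ∂hmu := by
    intro t
    have h3 := h.add _ _ (hF.add (hS t).neg) (hS t)
    simp only [neg_add_cancel_right] at h3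
    rw [h.sum t fun ν => test_Ftst9 ν (test1_cf hF ν)] at h3
    simp only [fun ν => h.coef ν _ (test1_cf hF ν)] at h3
    rw [norm_sub_rev, show Λ F = _ from h3, add_sub_cancel_right]
    refine hC _ (hF.add (hS t).neg) fun w hw => ?_
    by_cases h0 : F w = 0
    · rw [h0, zero_add, neg_ne_zero] at hw
      obtain ⟨ν, -, hν⟩ := Finset.exists_ne_zero_of_sum_ne_zero hw
      have h4 := left_ne_zero_of_mul hν
      obtain ⟨z, hz⟩ := cf_ne (right_ne_zero_of_mul h4)
      exact ⟨(hR _ (mem_of_indicator_ne_zero (left_ne_zero_of_mul h4))).trans (le_abs_self R),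
        ((hFM _).2 hz).2.1⟩
    · exact ⟨(hR _ (hP w h0)).trans (le_abs_self R), ((hFM w).2 h0).2.1⟩
  have h3 := (tendsto_err hF hP).const_mul C
  rw [mul_zero] at h3
  have h4 := (squeeze_zero (fun t => by positivity) h2 h3).sqrt
  simp only [Real.sqrt_sq (norm_nonneg _), Real.sqrt_zero] at h4
  exact tendsto_iff_norm_sub_tendsto_zero.2 h4

theorem RepHyp.rep {Λ : (ℂ × ℝ → ℂ) → ℂ} {τ : O → ℂ} (h : RepHyp Λ τ) {F : ℂ × ℝ → ℂ}
    (hF : Test F) : Λ F * vol9 = ∫ w, th τ w * F w ∂hmu := by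
  obtain ⟨hmP, ⟨R, hR⟩, hT⟩ := tile_par (m := 9) (by decide)
  obtain ⟨M, hM, hFM⟩ := hF.2
  let G : O → ℂ × ℝ → ℂ := fun y w =>
    (par 9).indicator (fun _ => (1 : ℂ)) w.1 * F (act (mN (-(9 * y))) w)
  have hG : ∀ y, Test (G y) := fun y => (hF.comp_act _).mul_left
    ((measurable_const.indicator hmP).comp measurable_fst) fun w => norm_indicator_one _ _
  have hG' : ∀ y, Test fun w => G y (w.1 + toC (9 * y), w.2) := fun y => by
    simpa only [act_mN] using (hG y).comp_act (mN (9 * y))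
  have e : F = fun w => ∑ y ∈ ball ((M + R) ^ 2), G y (w.1 + toC (9 * y), w.2) := by
    ext w
    simp only [G, act_mN, map_neg, add_neg_cancel_right]
    by_cases h0 : F w = 0
    · simp [h0]
    · obtain ⟨y, hy, hu⟩ := hT w.1
      rw [Finset.sum_eq_single_of_mem y ?_ fun y' _ h1 => ?_]
      · rw [indicator_of_mem hy, one_mul]
      · rw [mem_ball, ← norm_toC_sq]
        refine pow_le_pow_left₀ (norm_nonneg _) ?_ 2
        have h1 := norm_sub_le (w.1 + toC (9 * y)) w.1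
        rw [add_sub_cancel_left] at h1
        have h2 : ‖toC (9 * y)‖ = 9 * ‖toC y‖ := by
          rw [map_mul, norm_mul, map_ofNat]
          simp
        linarith [hR _ hy, ((hFM w).2 h0).1, norm_nonneg (toC y)]
      · rw [indicator_of_notMem fun h2 => h1 (hu y' h2), zero_mul]
  rw [e, h.sum _ hG', Finset.sum_mul]
  simp only [Finset.mul_sum]
  rw [integral_finsetSum _ fun y _ => h.poly.integrable_th (hG' y)]
  refine Finset.sum_congr rfl fun y _ => ?_
  rw [h.tr _ (hG y), h.rep_par (hG y) fun w hw => mem_of_indicator_ne_zero (left_ne_zero_of_mul hw),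
    ← integral_act (mN (9 * y)) ((measurable_th τ).fun_mul (hG y).1)]
  simp only [act_mN, th_add]

end Vale.Agent.P026
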