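import Vale.Agent.P026.ThCCoef
import Vale.Agent.P026.ThCRep

/-! # TH-C: automorphy of `th (rho Ψ)`.
Plan.  `eq_zero_of_test`: `F = 1_K conj D`, `K` a compact box around `w₀` (measurable: `ContinuousOn.measurable_piecewise`, or replace `D` by a
measurable version), `∫_K ‖D‖² = 0`; or: if `D w₀ ≠ 0` then `re (conj (D w₀) D) > 0` on a small box `K` of positive `hmu` measure and `F = 1_K`.
`autStmt`: `RepHyp (Θ Ψ) (rho Ψ)`: `add` from `HasRes.unique`, `HasRes.add`, `integrable_Eis`; `tr` from equivariance with `g = mN (9 y)`,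
`act_mN`, `Cls.add_period`; `coef` from `rs_coef`, `resStmt`, `RS.hol_mul`, `RS.unique`; `poly` from `bndStmt`.
With `h = g⁻¹`: `∫ th(ρΨ)(act g w) F w = ∫ th(ρΨ)(w) F (act h w) = vol9 Θ Ψ (F ∘ act h) = vol9 Θ (Ψ(· h)) F = ∫ th(ρ Ψ(· h)) F`
(`integral_act`, `act_inv_act` a.e. by `ae_pos`). -/

namespace Vale.Agent.P026

open scoped ComplexConjugate Real Topology
open MeasureTheory Filter Set

theorem eq_of_test {D D' : ℂ × ℝ → ℂ} (hD : ContinuousOn D {w | 0 < w.2})
    (hD' : ContinuousOn D' {w | 0 < w.2})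
    (h : ∀ F, Test F → ∫ w, D w * F w ∂hmu = ∫ w, D' w * F w ∂hmu) {w : ℂ × ℝ} (hw : 0 < w.2) :
    D w = D' w := by
  by_contra hne
  have hU : IsOpen {w : ℂ × ℝ | 0 < w.2} := isOpen_lt continuous_const continuous_snd
  set c := conj (D w - D' w) with hc
  have hg : ContinuousOn (fun x => (c * (D x - D' x)).re) {w | 0 < w.2} :=
    Complex.continuous_re.comp_continuousOn (continuousOn_const.mul (hD.sub hD'))
  have ha : 0 < (c * (D w - D' w)).re := by
    rw [hc, Complex.conj_mul', ← Complex.ofReal_pow, Complex.ofReal_re]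
    exact pow_pos (norm_pos_iff.2 (sub_ne_zero.2 hne)) 2
  have h1 : ∀ᶠ x in 𝓝 w, (c * (D w - D' w)).re / 2 < (c * (D x - D' x)).re :=
    (hg.continuousAt (hU.mem_nhds hw)).eventually (lt_mem_nhds (half_lt_self ha))
  have h2 : ∀ᶠ x in 𝓝 w, w.2 / 2 < x.2 :=
    continuous_snd.continuousAt.eventually (lt_mem_nhds (half_lt_self hw))
  obtain ⟨ε, hε, hK⟩ := Metric.nhds_basis_closedBall.eventually_iff.1 (h1.and h2)
  set K := Metric.closedBall w ε
  have hKc : IsCompact K := isCompact_closedBall w ε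
  have hKm : MeasurableSet K := measurableSet_closedBall
  have hKU : K ⊆ {w | 0 < w.2} := fun x hx => lt_trans (half_pos hw) (hK hx).2
  obtain ⟨R, hR⟩ := hKc.isBounded.exists_norm_le
  have hfin : hmu K ≠ ⊤ := by
    refine (lt_of_le_of_lt (measure_mono fun x hx => ?_) (hmu_siegel R (half_pos hw))).ne
    exact ⟨(norm_fst_le x).trans (hR x hx), (hK hx).2.le⟩
  have hpos : hmu K ≠ 0 := by
    intro h0
    have := withDensity_absolutelyContinuous'
      (μ := (volume : Measure (ℂ × ℝ)).restrict {w | 0 < w.2})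
      (f := fun w => ENNReal.ofReal (1 / w.2 ^ 3)) (by fun_prop) (by
        filter_upwards [ae_restrict_mem hU.measurableSet] with x (hx : 0 < x.2)
        exact (ENNReal.ofReal_pos.2 (by positivity)).ne') h0
    rw [Measure.restrict_eq_self _ hKU] at this
    exact (Metric.measure_closedBall_pos volume w hε).ne' this
  have : IsFiniteMeasure (hmu.restrict K) := isFiniteMeasure_restrict.2 hfin
  have hi : ∀ G : ℂ × ℝ → ℂ, ContinuousOn G {w | 0 < w.2} → IntegrableOn G K hmu := by
    intro G hG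
    obtain ⟨B, hB⟩ := hKc.exists_bound_of_continuousOn (hG.mono hKU)
    exact Integrable.of_bound ((hG.mono hKU).aestronglyMeasurable hKm) B
      ((ae_restrict_mem hKm).mono hB)
  have hF : Test (K.indicator fun _ => (1 : ℂ)) := by
    refine ⟨measurable_const.indicator hKm, max 1 (max R (2 / w.2)), lt_max_of_lt_left one_pos,
      fun x => ⟨(norm_indicator_le_norm_self _ _).trans (by simp), fun hx => ?_⟩⟩
    have hx := mem_of_indicator_ne_zero hx
    have h3 : R ≤ max 1 (max R (2 / w.2)) := le_max_of_le_right (le_max_left _ _)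
    refine ⟨((norm_fst_le x).trans (hR x hx)).trans h3, le_trans ?_ (hK hx).2.le,
      (((le_abs_self _).trans (norm_snd_le x)).trans (hR x hx)).trans h3⟩
    rw [one_div_le (lt_max_of_lt_left one_pos) (half_pos hw), one_div_div]
    exact le_max_of_le_right (le_max_right _ _)
  have e := h _ hF
  simp only [← indicator_mul_right, mul_one, integral_indicator hKm] at e
  have hI := ((hi D hD).sub (hi D' hD')).const_mul c
  have h3 := setIntegral_ge_of_const_le hKm hfin (fun x hx => (hK hx).1.le) hI.re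
  have h4 : ∫ x in K, (c * (D x - D' x)).re ∂hmu = 0 := by
    have := integral_re hI
    simp only [Pi.sub_apply, RCLike.re_to_complex] at this
    rw [this, integral_const_mul, integral_sub (hi D hD) (hi D' hD'), e, sub_self, mul_zero,
      Complex.zero_re]
  rw [h4, smul_eq_mul] at h3
  exact absurd h3 (not_le.2 (mul_pos (ENNReal.toReal_pos hpos hfin) (half_pos ha)))

theorem ThCAut_poly (hB : ThBStmt) {Ψ : O × O → ℂ} (hΨ : Cls 9 Ψ) : Poly (rho Ψ) := by
  obtain ⟨C, hC, h⟩ := bndStmt hB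
  refine ⟨C, 1, fun ν hν => (h Ψ hΨ ν hν).trans ?_⟩
  rw [← Real.rpow_natCast]
  gcongr
  · exact one_le_nm hν
  · norm_num

theorem autStmt (hB : ThBStmt) : AutStmt := by
  obtain ⟨Θ, h1, ⟨C, hC, h2⟩, h3, -⟩ := hB 9 dvd_rfl (by decide)
  have hP := tile_par (m := 9) (by decide)
  have rep : ∀ Ψ, Cls 9 Ψ → RepHyp (Θ Ψ) (rho Ψ) := fun Ψ hΨ =>
    { poly := ThCAut_poly hB hΨ
      add := fun F G hF hG => (h1 Ψ hΨ _ (hF.add hG)).unique
        (((h1 Ψ hΨ F hF).add (h1 Ψ hΨ G hG)).congr fun s _ hs => by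
          rw [← integral_add (integrable_Eis hΨ hF hs) (integrable_Eis hΨ hG hs)]
          simp only [mul_add])
      bound := fun R X hR hX => ⟨_, fun F hF hs => h2 Ψ hΨ F hF R X hR hX hs⟩
      tr := fun F hF y => by
        have := h3 Ψ hΨ F hF (mN (9 * y))
        simp only [act_mN] at this
        rw [this]
        congr 1
        ext r
        rw [← hΨ.add_period dvd_rfl r.1 r.2 y]
        congr 1
        simp [rmul, mN]
        ring
      coef := fun ν ψ hψ => by
        rw [mul_comm]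
        exact (rs_coef dvd_rfl (by decide) hΨ hP ν hψ (h1 Ψ hΨ _ (test_Ftst hP ν hψ))).unique
          ((resStmt hB Ψ hΨ ν).hol_mul (hol_wI ν hψ)) }
  intro Ψ hΨ g w hw
  have hg := hΨ.comp_rmul dvd_rfl g⁻¹
  refine eq_of_test (D := fun w => th (rho Ψ) (act g w))
    ((ThCAut_poly hB hΨ).continuousOn_th.comp (continuousOn_act g) fun x hx => act_pos g hx)
    (ThCAut_poly hB hg).continuousOn_th (fun F hF => ?_) hw
  rw [← (rep _ hg).rep hF, ← h3 Ψ hΨ F hF g⁻¹, (rep Ψ hΨ).rep (hF.comp_act g⁻¹),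
    ← integral_act g (f := fun w => th (rho Ψ) w * F (act g⁻¹ w))
      ((measurable_th _).mul (hF.comp_act g⁻¹).1)]
  apply integral_congr_ae
  filter_upwards [ae_pos] with x hx
  rw [act_inv_act g hx]

end Vale.Agent.P026
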