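import Vale.Agent.P026.ThCUnf
import Vale.Agent.P026.ThCPars

/-! # TH-C: existence of residues, cusp lemma in Dirichlet series form, `L²` bound.
Plan.  `rs_coef`: `unfold_Eis`, `HasRes.rs`, `RS.sub`, `Hol.rs`, `RS.congr`.  `wI_lower`: `ψ = 1_{[1/X, 2/X]}`, `Wr_lower`,
`v^(2/3) / v³ ≥ (2/X)^(-7/3)` on the interval of length `1/X`; `∫ ‖Ftst‖² dhmu = vol9 ∫ dv/v³ ≤ vol9 X²` (`lintegral_hmu` or `integral_hmu`).
`resStmt`: `RS.of_mul` with `hol_wI`.  `cuspStmt`: for every `g, ψ`: `Θ (Φ g) (Ftst P 0 ψ) = wI 0 ψ (4/3) * 0` by `RS.unique`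
(`Ftst P 0 ψ` is the test function of `ThBStmt` after `simp`), so `Θ Φ = 0`, then `RS.of_mul`.
`bndStmt`: `X = √(nm ν) ≥ 1`, `‖ρ‖² c² X^(8/3) ≤ C (1+R²)(1+X²) vol9 X²`. -/

namespace Vale.Agent.P026

open scoped ComplexConjugate Real Topology
open MeasureTheory Filter Set

theorem rs_coef {m : O} (h9 : (9 : O) ∣ m) (hm : m ≠ 0) {Ψ : O × O → ℂ} (hΨ : Cls m Ψ)
    {P : Set ℂ} (hP : Tile m P) (ν : O) {ψ : ℝ → ℂ} (hψ : Test1 ψ) {x : ℂ}
    (hx : HasRes (fun s => ∫ w, Eis Ψ w s * Ftst P ν ψ w ∂hmu) x) :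
    RS (fun s => wI ν ψ s * aD m Ψ ν 1 s) x := by
  obtain ⟨h, hh, e⟩ := unfold_Eis h9 hm hΨ hP ν hψ
  have := hx.rs.sub hh.rs
  rw [sub_zero] at this
  exact this.congr fun s hs => by rw [e s hs, add_sub_cancel_right]
theorem test1_indicator {a b : ℝ} (ha : 0 < a) :
    Test1 ((Icc a b).indicator fun _ => (1 : ℂ)) := by
  refine ⟨measurable_const.indicator measurableSet_Icc, max 1 (max (1 / a) b),
    lt_max_of_lt_left one_pos, fun v => ⟨?_, fun h => ?_⟩⟩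
  · exact (norm_indicator_le_norm_self _ _).trans (by simp)
  · have hv := mem_of_indicator_ne_zero h
    refine ⟨le_trans ?_ hv.1, hv.2.trans (le_max_of_le_right (le_max_right _ _))⟩
    exact (one_div_le (lt_max_of_lt_left one_pos) ha).2 (le_max_of_le_right (le_max_left _ _))
theorem wI_lower : ∃ c : ℝ, 0 < c ∧ ∀ (ν : O) (X : ℝ), 0 < X → nm ν ≤ X ^ 2 →
    c * X ^ (4 / 3 : ℝ) ≤ ‖wI ν ((Icc (1 / X) (2 / X)).indicator fun _ => (1 : ℂ)) (4 / 3)‖ := by
  obtain ⟨c, hc, h⟩ := Wr_lower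
  refine ⟨c / 8, by positivity, fun ν X hX hν => ?_⟩
  have hs : Icc (1 / X) (2 / X) ⊆ Ioi 0 := fun v hv => lt_of_lt_of_le (by positivity) hv.1
  have e : wI ν ((Icc (1 / X) (2 / X)).indicator fun _ => (1 : ℂ)) (4 / 3) =
      ((∫ v in Icc (1 / X) (2 / X), Wr ν v * (1 / v ^ 3) : ℝ) : ℂ) := by
    rw [← integral_complex_ofReal, ← inter_eq_self_of_subset_right hs,
      ← setIntegral_indicator measurableSet_Icc, inter_eq_self_of_subset_right hs, wI]
    refine setIntegral_congr_fun measurableSet_Ioi fun v hv => ?_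
    by_cases h1 : v ∈ Icc (1 / X) (2 / X)
    · simp only [indicator_of_mem h1, Wh_four_thirds ν hv]
      push_cast
      ring
    · simp only [indicator_of_notMem h1, mul_zero, zero_mul]
  have hi : IntegrableOn (fun v => Wr ν v * (1 / v ^ 3)) (Icc (1 / X) (2 / X)) := by
    refine ContinuousOn.integrableOn_Icc (((continuousOn_Wr ν).mono hs).mul ?_)
    exact continuousOn_const.div (by fun_prop) fun v hv => pow_ne_zero _ (ne_of_gt (hs hv))
  have := setIntegral_ge_of_const_le (c := c / 8 * X ^ (7 / 3 : ℝ)) measurableSet_Icc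
    measure_Icc_lt_top.ne (fun v hv => by
      have h0 : 0 < v := hs hv
      have h1 : v * X ≤ 2 := (le_div_iff₀ hX).1 hv.2
      have h2 : 1 / X ≤ v := hv.1
      have h3 := h ν v h0 (by
        calc (nm ν : ℝ) * v ^ 2 ≤ X ^ 2 * v ^ 2 := by gcongr
          _ = (v * X) ^ 2 := by ring
          _ ≤ 2 ^ 2 := by gcongr
          _ = 4 := by norm_num)
      have h4 : (1 / X) ^ (2 / 3 : ℝ) ≤ v ^ (2 / 3 : ℝ) := by gcongr
      have h5 : X ^ 3 / 8 ≤ 1 / v ^ 3 := by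
        rw [div_le_div_iff₀ (by norm_num) (by positivity), ← mul_pow]
        calc (X * v) ^ 3 ≤ 2 ^ 3 := by gcongr; linarith
          _ = _ := by norm_num
      have h6 : X ^ (7 / 3 : ℝ) = (1 / X) ^ (2 / 3 : ℝ) * X ^ 3 := by
        rw [one_div, Real.inv_rpow hX.le, ← Real.rpow_neg hX.le, ← Real.rpow_natCast,
          ← Real.rpow_add hX]
        norm_num
      calc c / 8 * X ^ (7 / 3 : ℝ) = c * (1 / X) ^ (2 / 3 : ℝ) * (X ^ 3 / 8) := by rw [h6]; ring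
        _ ≤ c * v ^ (2 / 3 : ℝ) * (1 / v ^ 3) := by gcongr
        _ ≤ Wr ν v * (1 / v ^ 3) := by gcongr) hi
  rw [e, Complex.norm_real]
  refine le_trans (le_of_eq ?_) (this.trans (le_abs_self _))
  rw [Real.volume_real_Icc_of_le (by gcongr; norm_num), smul_eq_mul,
    show (7 / 3 : ℝ) = 4 / 3 + 1 by norm_num, Real.rpow_add_one hX.ne']
  field_simp
  norm_num
theorem integral_sq_Ftst_le (ν : O) {X : ℝ} (hX : 0 < X) :
    ∫ w, ‖Ftst (par 9) ν ((Icc (1 / X) (2 / X)).indicator fun _ => (1 : ℂ)) w‖ ^ 2 ∂hmu ≤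
      vol9 * X ^ 2 := by
  have hS : MeasurableSet (par 9 ×ˢ Icc (1 / X) (2 / X)) :=
    (tile_par (by decide)).1.prod measurableSet_Icc
  have e : (fun w => ‖Ftst (par 9) ν ((Icc (1 / X) (2 / X)).indicator fun _ => (1 : ℂ)) w‖ ^ 2) =
      (par 9 ×ˢ Icc (1 / X) (2 / X)).indicator fun _ => (1 : ℝ) := by
    ext w
    by_cases h1 : w.1 ∈ par 9 <;> by_cases h2 : w.2 ∈ Icc (1 / X) (2 / X) <;>
      simp [-one_div, -mem_Icc, Ftst, indicator, h1, h2, norm_ec]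
  rw [e, integral_indicator hS, setIntegral_const, smul_eq_mul, mul_one]
  have : hmu (par 9 ×ˢ Icc (1 / X) (2 / X)) ≤ ENNReal.ofReal (vol9 * X ^ 2) := by
    rw [hmu, withDensity_apply _ hS]
    calc _ ≤ ∫⁻ _ in par 9 ×ˢ Icc (1 / X) (2 / X), ENNReal.ofReal (X ^ 3)
          ∂(volume : Measure (ℂ × ℝ)).restrict {w | 0 < w.2} := by
          refine setLIntegral_mono measurable_const fun w hw => ENNReal.ofReal_le_ofReal ?_
          have h1 : 1 / X ≤ w.2 := hw.2.1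
          have h2 : 0 < w.2 := lt_of_lt_of_le (by positivity) h1
          rw [← one_div_pow]
          gcongr
          exact (one_div_le h2 hX).2 h1
      _ ≤ ENNReal.ofReal (X ^ 3) * volume (par 9 ×ˢ Icc (1 / X) (2 / X)) := by
          rw [setLIntegral_const]
          gcongr
          exact Measure.restrict_le_self
      _ = _ := by
          rw [Measure.volume_eq_prod, Measure.prod_prod, Real.volume_Icc,
            ← ENNReal.ofReal_toReal volume_par9_ne_top, ← ENNReal.ofReal_mul ENNReal.toReal_nonneg,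
            ← ENNReal.ofReal_mul (by positivity), vol9]
          congr 1
          field_simp
          ring
  exact ENNReal.toReal_le_of_le_ofReal (mul_nonneg vol9_pos.le (sq_nonneg X)) this
theorem ThCCoef_exists (ν : O) : ∃ ψ, Test1 ψ ∧ wI ν ψ (4 / 3) ≠ 0 := by
  obtain ⟨c, hc, h⟩ := wI_lower
  have hX : (0 : ℝ) < nm ν + 1 := by positivity
  refine ⟨_, test1_indicator (b := 2 / (nm ν + 1)) (one_div_pos.2 hX), norm_pos_iff.1 ?_⟩
  exact lt_of_lt_of_le (by positivity) (h ν _ hX (by nlinarith [Nat.cast_nonneg (α := ℝ) (nm ν)]))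
theorem resStmt (hB : ThBStmt) : ResStmt := by
  intro Ψ hΨ ν
  obtain ⟨Θ, h1, -⟩ := hB 9 dvd_rfl (by decide)
  obtain ⟨ψ, hψ, h0⟩ := ThCCoef_exists ν
  have hP := tile_par (m := 9) (by decide)
  exact Classical.epsilon_spec ⟨_, (rs_coef dvd_rfl (by decide) hΨ hP ν hψ
    (h1 Ψ hΨ _ (test_Ftst hP ν hψ))).of_mul (hol_wI ν hψ) h0⟩
theorem cuspStmt (hB : ThBStmt) : CuspStmt := by
  intro m h9 hm Φ hΦ h ν
  obtain ⟨Θ, h1, -, -, h4⟩ := hB m h9 hm
  have hP := tile_par hm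
  have h0 := h4 Φ hΦ _ hP fun g ψ hψ => by
    have hg := hΦ.comp_rmul h9 g
    have := (rs_coef h9 hm hg hP 0 hψ (h1 _ hg _ (test_Ftst hP 0 hψ))).unique
      ((h g).hol_mul (hol_wI 0 hψ))
    rw [mul_zero] at this
    rw [← this]
    congr 1
    ext w
    simp [Ftst]
  obtain ⟨ψ, hψ, hw⟩ := ThCCoef_exists ν
  have := (rs_coef h9 hm hΦ hP ν hψ (h1 Φ hΦ _ (test_Ftst hP ν hψ))).of_mul (hol_wI ν hψ) hw
  rwa [h0 _ (test_Ftst hP ν hψ), zero_div] at this
theorem bndStmt (hB : ThBStmt) : BndStmt := by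
  obtain ⟨Θ, h1, ⟨C, hC, h2⟩, -⟩ := hB 9 dvd_rfl (by decide)
  obtain ⟨c, hc, hw⟩ := wI_lower
  have hP := tile_par (m := 9) (by decide)
  obtain ⟨R, hR⟩ := hP.2.1
  have hv := vol9_pos
  refine ⟨√(2 * C * (1 + |R| ^ 2) * vol9) / c, by positivity, fun Ψ hΨ ν hν => ?_⟩
  have hn := one_le_nm hν
  set X := √(nm ν : ℝ) with hXd
  have hX2 : X ^ 2 = nm ν := Real.sq_sqrt (by positivity)
  have hX1 : 1 ≤ X := Real.one_le_sqrt.2 hn
  have hX : 0 < X := by positivity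
  have hψ := test1_indicator (b := 2 / X) (one_div_pos.2 hX)
  have hF := test_Ftst hP ν hψ
  have e := (rs_coef dvd_rfl (by decide) hΨ hP ν hψ (h1 Ψ hΨ _ hF)).unique
    ((resStmt hB Ψ hΨ ν).hol_mul (hol_wI ν hψ))
  have h3 := h2 Ψ hΨ _ hF |R| X (abs_nonneg R) hX fun w h =>
    ⟨(hR _ (mem_of_indicator_ne_zero (left_ne_zero_of_mul (left_ne_zero_of_mul h)))).trans
      (le_abs_self R), (mem_of_indicator_ne_zero (right_ne_zero_of_mul (left_ne_zero_of_mul h))).1⟩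
  have h4 := hw ν X hX hX2.ge
  have h5 := integral_sq_Ftst_le ν hX
  rw [e, norm_mul] at h3
  have h6 : (c * X ^ (4 / 3 : ℝ) * ‖rho Ψ ν‖) ^ 2 ≤
      (√(2 * C * (1 + |R| ^ 2) * vol9) * X ^ 2) ^ 2 := by
    rw [mul_pow (√_), Real.sq_sqrt (by positivity)]
    calc _ ≤ _ := by gcongr
      _ ≤ _ := h3
      _ ≤ C * (1 + |R| ^ 2) * (2 * X ^ 2) * (vol9 * X ^ 2) := by gcongr; nlinarith
      _ = _ := by ring
  have h7 := le_of_sq_le_sq h6 (by positivity)
  have h8 : X ^ 2 = X ^ (4 / 3 : ℝ) * (nm ν : ℝ) ^ (1 / 3 : ℝ) := by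
    rw [← hX2, ← Real.rpow_natCast, ← Real.rpow_mul hX.le, ← Real.rpow_add hX]
    norm_num
  have h9 : 0 < X ^ (4 / 3 : ℝ) := by positivity
  rw [div_mul_eq_mul_div, le_div_iff₀ hc]
  refine le_of_mul_le_mul_right ?_ h9
  rw [h8] at h7
  linarith

end Vale.Agent.P026
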