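import Vale.Agent.P026.ThCRes
import Vale.Agent.P026.Count

/-! # TH-C: convergence of the Dirichlet series, and the row functions `Psb`.
Plan.  `summable_dir`: `summable_rpow` with exponent `re s - 1`, `Complex.norm_natCast_cpow_of_pos`; the term `c = 0` vanishes.
`cls_Psb`: if `9 ∣ c - β` then `c` is primary, `Sy_of_not_dvd`, `cub 9 c = cub (1 * λ⁴) c` depends on `c mod 9` (`cub_ulam_congr`), `eq_congr`.
`aD_Psb`: termwise; `sum_res_crt` with moduli `9`, `c`: `d = c x + 9 y`, `eq_crt`, `cub d c = cub 9 c * cub y c`, `c β² ≡ β³ ≡ 1 mod 9` (`Prim.cube`),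
`card_res`. -/

namespace Vale.Agent.P026

open scoped ComplexConjugate Real Topology
open MeasureTheory Filter Set

theorem norm_Acf_le {m c : O} (hm : m ≠ 0) (hc : c ≠ 0) {Ψ : O × O → ℂ} (h : ∀ r, ‖Ψ r‖ ≤ 1)
    (ν : O) : ‖Acf m Ψ ν c‖ ≤ nm m * nm c := by
  refine (norm_sum_le _ _).trans ((Finset.sum_le_card_nsmul _ _ 1 fun d _ => ?_).trans ?_)
  · rw [norm_mul, norm_eq, mul_one]
    exact h _
  · rw [card_res (mul_ne_zero hm hc), nm_mul]
    simp
/-- Dirichlet series with coefficients `O(N c)` converge absolutely for `Re s > 2` -/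
theorem summable_dir {a : O → ℂ} {K : ℝ} (h : ∀ c, c ≠ 0 → ‖a c‖ ≤ K * nm c) {s : ℂ}
    (hs : 2 < s.re) : Summable fun c : O => a c * (nm c : ℂ) ^ (-s) := by
  refine Summable.of_norm_bounded_eventually
    ((summable_rpow (σ := s.re - 1) (by linarith)).mul_left K) ?_
  filter_upwards [Set.Finite.compl_mem_cofinite (Set.finite_singleton (0 : O))] with n hn
  have h1 : (0 : ℝ) < nm n := by linarith [one_le_nm (show n ≠ 0 from hn)]
  rw [norm_mul, Complex.norm_natCast_cpow_of_pos (nm_pos hn), neg_sub, sub_eq_add_neg,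
    Real.rpow_add h1, Real.rpow_one, ← mul_assoc, Complex.neg_re]
  gcongr
  exact h n hn
theorem summable_aD {m : O} (hm : m ≠ 0) {Ψ : O × O → ℂ} (h : ∀ r, ‖Ψ r‖ ≤ 1) (ν : O)
    (Q : O → Prop) {s : ℂ} (hs : 2 < s.re) :
    Summable fun c : O => ind (Q c) * Acf m Ψ ν c * (nm c : ℂ) ^ (-s) :=
  summable_dir (K := nm m) (fun c hc => (norm_mul _ _).trans_le
    ((mul_le_of_le_one_left (norm_nonneg _) (norm_ind_le _)).trans (norm_Acf_le hm hc h ν))) hs
theorem summable_psi (ν : O) (Q : O → Prop) {s : ℂ} (hs : 2 < s.re) :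
    Summable fun c : O => ind (Q c) * g3 ν c * (nm c : ℂ) ^ (-s) :=
  summable_dir (K := 1) (fun c hc => (norm_mul _ _).trans_le
    ((mul_le_of_le_one_left (norm_nonneg _) (norm_ind_le _)).trans
      ((norm_g3_le hc ν).trans_eq (one_mul _).symm))) hs

theorem cls_Psb {β : O} (hβ : Prim β) (ν : O) : Cls 9 (Psb β ν) := by
  have h3 : (3 : O) ∣ 9 := ⟨3, by norm_num⟩
  refine ⟨fun r hr => ?_, fun r => ?_, fun r r' _ _ h1 h2 => ?_⟩
  · by_cases h : (9 : O) ∣ r.1 - β
    · simp [Psb, cub_eq_zero (hβ.of_dvd_sub h3 h).not_lam_dvd fun h => hr h.symm]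
    · simp [Psb, ind_of_not h]
  · simp only [Psb, norm_mul, norm_eq, mul_one, Complex.norm_conj]
    exact mul_le_one₀ (mul_le_one₀ (norm_ind_le _) (norm_nonneg _) (norm_cub_le _ _))
      (norm_nonneg _) (norm_cub_le _ _)
  · by_cases h : (9 : O) ∣ r.1 - β
    · have h' : (9 : O) ∣ r'.1 - β := by simpa using dvd_sub h h1
      have e : (9 : O) = 1 * lam ^ 4 := by decide
      have e1 : cub 9 r.1 = cub 9 r'.1 := by
        have := cub_ulam_congr isUnit_one 4 (hβ.of_dvd_sub h3 h) h1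
        rwa [← e] at this
      have e2 : eq (-(ν * r.2 * β ^ 2)) 9 = eq (-(ν * r'.2 * β ^ 2)) 9 :=
        eq_congr (by
          obtain ⟨k, hk⟩ := h2
          exact ⟨-(ν * k * β ^ 2), by linear_combination (-(ν * β ^ 2)) * hk⟩)
      rw [Psb, Psb, Sy_of_not_dvd (hβ.of_dvd_sub h3 h).not_lam_dvd,
        Sy_of_not_dvd (hβ.of_dvd_sub h3 h').not_lam_dvd, ind_of h, ind_of h', e1, e2]
      ring
    · have h' : ¬(9 : O) ∣ r'.1 - β := fun h' => h (by simpa using dvd_add h1 h')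
      simp [Psb, ind_of_not h, ind_of_not h']
theorem aD_Psb {β ν ν' : O} (hβ : Prim β) (h : (9 : O) ∣ ν - ν') (q : O) (s : ℂ) :
    aD 9 (Psb β ν') ν q s = 81 * psi β ν q s := by
  rw [aD, psi, ← tsum_mul_left]
  refine tsum_congr fun c => ?_
  by_cases hc : (9 : O) ∣ c - β
  swap
  · simp [Acf, Psb, ind_and, ind_of_not hc]
  have hp : Prim c := hβ.of_dvd_sub ⟨3, by norm_num⟩ hc
  have h9 : (9 : O) ≠ 0 := by decide
  suffices Acf 9 (Psb β ν') ν c = 81 * g3 ν c by
    rw [this, ind_and, ind_of hc]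
    ring
  rw [Acf, sum_res_crt h9 hp.ne_zero hp.coprime_nine.symm]
  · rw [Finset.sum_congr rfl (g := fun _ => g3 ν c), Finset.sum_const, card_res h9,
      show nm 9 = 81 by decide]
    · simp
    refine fun x _ => Finset.sum_congr rfl fun y _ => ?_
    have e1 : eq (-(ν' * (c * x + 9 * y) * β ^ 2)) 9 * eq (ν * x) 9 = 1 := by
      rw [← eq_add]
      obtain ⟨k, hk⟩ := hc
      obtain ⟨l, hl⟩ := hβ.cube
      obtain ⟨j, hj⟩ := h
      exact eq_of_dvd ⟨j * x - ν' * (x * l + x * k * β ^ 2 + y * β ^ 2), by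
        linear_combination x * hj - ν' * x * hl - ν' * x * β ^ 2 * hk⟩
    have e2 := conj_mul_of_norm (norm_cub hp.coprime_nine.symm)
    rw [Psb, ind_of hc, show ν * (c * x + 9 * y) = c * (ν * x) + 9 * (ν * y) by ring,
      eq_crt h9 hp.ne_zero, cub_congr (a := c * x + 9 * y) (b := 9 * y) ⟨x, by ring⟩, cub_mul_left]
    linear_combination cub y c * eq (ν * y) c * (conj (cub 9 c) * cub 9 c * e1 + e2)
  · refine Per.mul_eq (fun x y hxy => ?_) ν
    obtain ⟨k, hk⟩ := hxy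
    rw [Psb, Psb, cub_congr (a := x) (b := y) ⟨9 * k, by linear_combination hk⟩,
      eq_congr (x := -(ν' * x * β ^ 2)) (y := -(ν' * y * β ^ 2))
        ⟨-(ν' * c * k * β ^ 2), by linear_combination (-(ν' * β ^ 2)) * hk⟩]
theorem aD_smul (m : O) (Ψ : O × O → ℂ) (ζ : ℂ) (ν q : O) (s : ℂ) :
    aD m (fun r => ζ * Ψ r) ν q s = ζ * aD m Ψ ν q s := by
  rw [aD, aD, ← tsum_mul_left]
  refine tsum_congr fun c => ?_
  simp only [Acf, mul_assoc, ← Finset.mul_sum]
  ring

end Vale.Agent.P026
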