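import Vale.Agent.P026.ThDefs

/-! # P026, part TH-C: definitions (owner helper12).  Overview in `notes/P026-THC.md`. -/

namespace Vale.Agent.P026

open scoped ComplexConjugate Real Topology
open MeasureTheory Filter

/-- holomorphic on `Re s > 1` -/
def Hol (w : ℂ → ℂ) : Prop := DifferentiableOn ℂ w {s | 1 < s.re}

/-- `HasRes` up to a holomorphic multiplier that equals `1` at `4/3` -/
def RS (f : ℂ → ℂ) (x : ℂ) : Prop :=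
  ∃ w : ℂ → ℂ, Hol w ∧ w (4 / 3) = 1 ∧ HasRes (fun s => w s * f s) x

/-- `∑_{d mod m c} Ψ(c,d) e(ν d / (9 c))` -/
noncomputable def Acf (m : O) (Ψ : O × O → ℂ) (ν c : O) : ℂ :=
  ∑ d ∈ res (m * c), Ψ (c, d) * eq (ν * d) (9 * c)

/-- the Dirichlet series of `Acf`, over `c` coprime to `q` -/
noncomputable def aD (m : O) (Ψ : O × O → ℂ) (ν q : O) (s : ℂ) : ℂ :=
  ∑' c : O, ind (IsCoprime c q) * Acf m Ψ ν c * (nm c : ℂ) ^ (-s)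

/-- the Dirichlet series of cubic Gauss sums, over `c ≡ β mod 9` coprime to `q` -/
noncomputable def psi (β ν q : O) (s : ℂ) : ℂ :=
  ∑' c : O, ind ((9 : O) ∣ c - β ∧ IsCoprime c q) * g3 ν c * (nm c : ℂ) ^ (-s)

/-- residue of `aD 9 Ψ ν 1` -/
noncomputable def rho (Ψ : O × O → ℂ) (ν : O) : ℂ := Classical.epsilon (RS (aD 9 Ψ ν 1))

/-- residue of `psi β ν 1` -/
noncomputable def rb (β ν : O) : ℂ := Classical.epsilon (RS (psi β ν 1))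

/-- `∫ Wh(s,ν,v) ψ(v) dv / v³` -/
noncomputable def wI (ν : O) (ψ : ℝ → ℂ) (s : ℂ) : ℂ :=
  ∫ v in Set.Ioi (0 : ℝ), Wh s ν v * ψ v * ((1 / v ^ 3 : ℝ) : ℂ)

/-- the test function `1_P(z) ψ(v) ec(-ν z / 9)` -/
noncomputable def Ftst (P : Set ℂ) (ν : O) (ψ : ℝ → ℂ) (w : ℂ × ℝ) : ℂ :=
  P.indicator (fun _ => (1 : ℂ)) w.1 * ψ w.2 * ec (-(toC ν * w.1 / 9))

/-- the fundamental parallelogram of `m O` -/
def par (m : O) : Set ℂ :=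
  {z | ∃ a b : ℝ, a ∈ Set.Ioc (0 : ℝ) 1 ∧ b ∈ Set.Ioc (0 : ℝ) 1 ∧ z = toC m * (a + b * toC om)}

/-- the area of `par 9` -/
noncomputable def vol9 : ℝ := (volume (par 9)).toReal

/-- polynomial growth -/
def Poly (τ : O → ℂ) : Prop := ∃ (C : ℝ) (k : ℕ), ∀ ν : O, ν ≠ 0 → ‖τ ν‖ ≤ C * (nm ν : ℝ) ^ k

/-- the row function whose `ν`-th coefficient series is `81 * psi β ν` -/
noncomputable def Psb (β ν : O) (r : O × O) : ℂ :=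
  ind ((9 : O) ∣ r.1 - β) * cub r.2 r.1 * conj (cub 9 r.1) * eq (-(ν * r.2 * β ^ 2)) 9

/-- `Ψ^∞ + t Ψ^0` -/
noncomputable def Phi (p : O) (t : ℂ) (Ψ : O × O → ℂ) (r : O × O) : ℂ :=
  open Classical in
  if p ∣ r.1 then ind (IsCoprime r.1 r.2) * Ψ (r.1 / p, r.2) else t * Ψ (r.1, p * r.2)

/-- residues exist at level 9 -/
def ResStmt : Prop := ∀ Ψ, Cls 9 Ψ → ∀ ν, RS (aD 9 Ψ ν 1) (rho Ψ ν)

/-- vanishing of all constant terms forces vanishing of all coefficients -/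
def CuspStmt : Prop :=
  ∀ m : O, (9 : O) ∣ m → m ≠ 0 → ∀ Φ, Cls m Φ →
    (∀ g : SL2, RS (aD m (fun r => Φ (rmul r g)) 0 1) 0) → ∀ ν, RS (aD m Φ ν 1) 0

/-- the `L²` bound on coefficients -/
def BndStmt : Prop :=
  ∃ C : ℝ, 0 ≤ C ∧ ∀ Ψ, Cls 9 Ψ → ∀ ν, ν ≠ 0 → ‖rho Ψ ν‖ ≤ C * (nm ν : ℝ) ^ (1 / 3 : ℝ)

/-- automorphy -/
def AutStmt : Prop :=
  ∀ Ψ, Cls 9 Ψ → ∀ (g : SL2) (w : ℂ × ℝ), 0 < w.2 →
    th (rho Ψ) (act g w) = th (rho fun r => Ψ (rmul r g⁻¹)) w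

/-- the Hecke relation -/
def HeckeStmt : Prop :=
  ∀ p β ν : O, Prime p → Prim p → Prim β →
    RS (psi β ν 1) (rb β ν) ∧ RS (psi β ν p) (rb β ν / (1 + 1 / (nm p : ℂ)))

end Vale.Agent.P026
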