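import Vale.Agent.P026.ThCDecA

/-! # TH-C: Euler factors of `psi` at a prime `p`.
Plan.  `tsum_peel`: split by `IsCoprime c p` (`¬ p ∣ c`), `Function.Injective.tsum_eq` for `c ↦ p c`.  All `c` in the sums are primary
(`Prim.of_dvd_sub`); `9 ∣ p c - β ↔ 9 ∣ c - β p²` and `9 ∣ p³ c - β ↔ 9 ∣ c - β` (`Prim.cube`).  For primary `c = p^k c'`, `p ∤ c'`
(`WfDvdMonoid.max_power_factor`): `g3 ν (p^k c') = g3 ν (p^k) g3 (ν p^k) c'` (`g3_mul`), then `g3_prime_pow_eq_zero`, `g3_prime_pow_of_le`,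
`g3_sq_cube`; `g3 (ν p³) c = g3 ν c` for `p ∤ c` by `g3_twist`, `cub_cube`.  `ν = 0 = 0 * p^i` for every `i`. -/

namespace Vale.Agent.P026

open scoped ComplexConjugate Real Topology
open MeasureTheory Filter Set

theorem tsum_peel {p : O} (hp : Prime p) {f : O → ℂ} (hf : Summable f) :
    ∑' c, f c = ∑' c, ind (IsCoprime c p) * f c + ∑' c, f (p * c) := by
  have hb : ∀ Q : O → Prop, Summable fun c => ind (Q c) * f c := fun Q =>
    Summable.of_norm_bounded hf.norm fun c => by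
      rw [norm_mul]
      exact mul_le_of_le_one_left (norm_nonneg _) (norm_ind_le _)
  have hinj : Function.Injective fun c : O => p * c := mul_right_injective₀ hp.ne_zero
  have h2 : ∑' c, ind (p ∣ c) * f c = ∑' c, f (p * c) := by
    rw [← hinj.tsum_eq (f := fun c => ind (p ∣ c) * f c)]
    · exact tsum_congr fun c => by rw [ind_of (dvd_mul_right p c), one_mul]
    · intro c hc
      by_cases h : p ∣ c
      · obtain ⟨d, rfl⟩ := h
        exact ⟨d, rfl⟩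
      · exact absurd (by simp [ind_of_not h]) hc
  rw [← h2, ← (hb _).tsum_add (hb _)]
  refine tsum_congr fun c => ?_
  by_cases h : p ∣ c
  · rw [ind_of h, ind_of_not (not_coprime_of_dvd hp h)]; ring
  · rw [ind_of_not h, ind_of (coprime_of_not_dvd hp h)]; ring

theorem nm_mul_cpow {a : O} (ha : a ≠ 0) (c : O) (s : ℂ) :
    (nm (a * c) : ℂ) ^ s = (nm a : ℂ) ^ s * (nm c : ℂ) ^ s := by
  rw [nm_mul, Nat.cast_mul, Complex.natCast_mul_natCast_cpow]

theorem psi_congr {β β' : O} (h : (9 : O) ∣ β - β') (ν q : O) : psi β ν q = psi β' ν q := by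
  funext s
  refine tsum_congr fun c => ?_
  have e : (9 : O) ∣ c - β ↔ (9 : O) ∣ c - β' := by
    rw [show c - β' = c - β + (β - β') by ring, dvd_add_left h]
  rw [e]

theorem ThCEuler_three_dvd_nine : (3 : O) ∣ 9 := ⟨3, by norm_num⟩

theorem ThCEuler_g3_cube {p c : O} (hc : c ≠ 0) (h : IsCoprime c p) (ν : O) :
    g3 (ν * p ^ 3) c = g3 ν c := by
  rw [g3_twist hc h.symm.pow_left, cub_pow_left, cub_cube h.symm, map_one, one_mul]

theorem psi_cube {p β : O} (hp : Prime p) (hp' : Prim p) (hβ : Prim β) (ν : O) :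
    psi β (ν * p ^ 3) p = psi β ν p := by
  funext s
  refine tsum_congr fun c => ?_
  by_cases h : (9 : O) ∣ c - β ∧ IsCoprime c p
  · rw [ThCEuler_g3_cube (hβ.of_dvd_sub ThCEuler_three_dvd_nine h.1).ne_zero h.2]
  · rw [ind_of_not h, zero_mul, zero_mul, zero_mul, zero_mul]

/-- the general term -/
noncomputable def ThCEuler_T (β ν : O) (s : ℂ) (c : O) : ℂ :=
  ind ((9 : O) ∣ c - β) * g3 ν c * (nm c : ℂ) ^ (-s)

theorem ThCEuler_sum (β ν : O) {s : ℂ} (hs : 2 < s.re) {a : O} (ha : a ≠ 0) :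
    Summable fun c => ThCEuler_T β ν s (a * c) :=
  (summable_psi ν (fun c => (9 : O) ∣ c - β) hs).comp_injective (mul_right_injective₀ ha)

theorem ThCEuler_psi_one (β ν : O) (s : ℂ) (p : O) :
    psi β ν 1 s = ∑' c, ThCEuler_T β ν s (p ^ 0 * c) := by
  refine tsum_congr fun c => ?_
  rw [pow_zero, one_mul, ThCEuler_T, ind_and, ind_of (isCoprime_one_right), mul_one]

theorem ThCEuler_cpow (p : O) (hp : p ≠ 0) (k : ℕ) (s : ℂ) :
    (nm (p ^ k) : ℂ) ^ s = ((nm p : ℂ) ^ s) ^ k := by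
  induction k with
  | zero => simp
  | succ k ih => rw [pow_succ', nm_mul_cpow hp, ih, pow_succ']

/-- one peeling step -/
theorem ThCEuler_peel {p β β' : O} (hp : Prime p) (hp' : Prim p) (hβ' : Prim β') (ν : O) {s : ℂ}
    (hs : 2 < s.re) (k : ℕ) (h : (9 : O) ∣ p ^ k * β' - β) :
    ∑' c, ThCEuler_T β ν s (p ^ k * c) =
      g3 ν (p ^ k) * ((nm p : ℂ) ^ (-s)) ^ k * psi β' (ν * p ^ k) p s +
        ∑' c, ThCEuler_T β ν s (p ^ (k + 1) * c) := by
  rw [tsum_peel hp (ThCEuler_sum β ν hs (pow_ne_zero k hp.ne_zero)), psi, ← tsum_mul_left]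
  congr 1
  · refine tsum_congr fun c => ?_
    have e : (9 : O) ∣ p ^ k * c - β ↔ (9 : O) ∣ c - β' := by
      rw [show p ^ k * c - β = p ^ k * (c - β') + (p ^ k * β' - β) by ring, dvd_add_left h]
      exact ⟨fun h' => (hp'.pow k).coprime_nine.symm.dvd_of_dvd_mul_left h', fun h' =>
        h'.mul_left _⟩
    rw [ThCEuler_T, e, ind_and]
    by_cases h1 : (9 : O) ∣ c - β'
    · by_cases h2 : IsCoprime c p
      · rw [g3_mul (hp'.pow k) (hβ'.of_dvd_sub ThCEuler_three_dvd_nine h1) h2.symm.pow_left,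
          nm_mul_cpow (pow_ne_zero k hp.ne_zero), ThCEuler_cpow p hp.ne_zero]
        ring
      · rw [ind_of_not h2]; ring
    · rw [ind_of_not h1]; ring
  · exact tsum_congr fun c => by rw [pow_succ, mul_assoc]

theorem ThCEuler_fac {p c : O} (hp : Prime p) (hp' : Prim p) (hc : Prim c) :
    ∃ (k : ℕ) (d : O), Prim d ∧ IsCoprime d p ∧ c = p ^ k * d := by
  obtain ⟨k, d, h1, h2⟩ := WfDvdMonoid.max_power_factor hc.ne_zero hp.irreducible
  exact ⟨k, d, (hp'.pow k).of_mul (h2 ▸ hc), coprime_of_not_dvd hp h1, h2⟩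

theorem ThCEuler_tail {p β ν : O} (hp : Prime p) (hp' : Prim p) (hβ : Prim β) (hν : ¬p ∣ ν)
    (s : ℂ) (i : ℕ) : ∑' c, ThCEuler_T β (ν * p ^ i) s (p ^ (i + 2) * c) = 0 := by
  rw [← tsum_zero (α := ℂ) (β := O)]
  refine tsum_congr fun c => ?_
  by_cases h : (9 : O) ∣ p ^ (i + 2) * c - β
  · obtain ⟨k, d, hd, hdp, rfl⟩ := ThCEuler_fac hp hp'
      ((hp'.pow _).of_mul (hβ.of_dvd_sub ThCEuler_three_dvd_nine h))
    rw [ThCEuler_T, ← mul_assoc (p ^ (i + 2)), ← pow_add,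
      g3_mul (hp'.pow _) hd hdp.symm.pow_left, g3_prime_pow_eq_zero hp hp' hν (by omega)]
    ring
  · rw [ThCEuler_T, ind_of_not h]; ring

theorem ThCEuler_d0 (p β : O) : (9 : O) ∣ p ^ 0 * β - β := by simp
theorem ThCEuler_d1 {p : O} (hp' : Prim p) (β : O) : (9 : O) ∣ p ^ 1 * (β * p ^ 2) - β := by
  rw [show p ^ 1 * (β * p ^ 2) - β = (p ^ 3 - 1) * β by ring]
  exact hp'.cube.mul_right _
theorem ThCEuler_d2 {p : O} (hp' : Prim p) (β : O) : (9 : O) ∣ p ^ 2 * (β * p) - β := by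
  rw [show p ^ 2 * (β * p) - β = (p ^ 3 - 1) * β by ring]
  exact hp'.cube.mul_right _
theorem ThCEuler_d3 {p : O} (hp' : Prim p) (β : O) : (9 : O) ∣ p ^ 3 * β - β := by
  rw [show p ^ 3 * β - β = (p ^ 3 - 1) * β by ring]
  exact hp'.cube.mul_right _

theorem psi_one {p β ν : O} (hp : Prime p) (hp' : Prim p) (hβ : Prim β) (hν : ¬p ∣ ν) {s : ℂ}
    (hs : 2 < s.re) : psi β ν 1 s =
      psi β ν p s + g3 ν p * (nm p : ℂ) ^ (-s) * psi (β * p ^ 2) (ν * p) p s := by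
  have h := ThCEuler_tail hp hp' hβ hν s 0
  rw [pow_zero, mul_one] at h
  rw [ThCEuler_psi_one β ν s p, ThCEuler_peel hp hp' hβ ν hs 0 (ThCEuler_d0 p β),
    ThCEuler_peel hp hp' (hβ.mul (hp'.pow 2)) ν hs 1 (ThCEuler_d1 hp' β), h]
  simp [g3_one]

theorem ThCEuler_cpow3 {p : O} (hp : p ≠ 0) (k : ℕ) (s : ℂ) :
    (nm p : ℂ) ^ ((k : ℂ) + -3 * s) = (nm p : ℂ) ^ k * ((nm p : ℂ) ^ (-s)) ^ 3 := by
  have h0 : (nm p : ℂ) ≠ 0 := by exact_mod_cast (nm_pos hp).ne'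
  rw [Complex.cpow_add _ _ h0, Complex.cpow_natCast, ← Complex.cpow_nat_mul]
  congr 2
  push_cast
  ring

theorem psi_two {p β ν : O} (hp : Prime p) (hp' : Prim p) (hβ : Prim β) (hν : ¬p ∣ ν) {s : ℂ}
    (hs : 2 < s.re) : psi β (ν * p ^ 2) 1 s =
      (1 - (nm p : ℂ) ^ (2 + -3 * s)) * psi β (ν * p ^ 2) p s := by
  have h := ThCEuler_tail hp hp' hβ hν s 2
  have e := ThCEuler_cpow3 hp.ne_zero 2 s
  rw [Nat.cast_ofNat] at e
  rw [ThCEuler_psi_one β _ s p, ThCEuler_peel hp hp' hβ _ hs 0 (ThCEuler_d0 p β),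
    ThCEuler_peel hp hp' (hβ.mul (hp'.pow 2)) _ hs 1 (ThCEuler_d1 hp' β),
    ThCEuler_peel hp hp' (hβ.mul hp') _ hs 2 (ThCEuler_d2 hp' β),
    ThCEuler_peel hp hp' hβ _ hs 3 (ThCEuler_d3 hp' β), h,
    g3_prime_pow_of_le hp hp' ν (l := 1) (by norm_num) le_rfl,
    g3_prime_pow_of_le hp hp' ν (l := 2) le_rfl (by norm_num), g3_sq_cube hp hp' hν,
    psi_cube hp hp' hβ, e]
  simp [g3_one]
  ring

theorem ThCEuler_g3_zero {p : O} (hp : Prime p) (hp' : Prim p) {l : ℕ} (h1 : 1 ≤ l) :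
    g3 0 (p ^ l) = if 3 ∣ l then (nm p : ℂ) ^ l - (nm p : ℂ) ^ (l - 1) else 0 := by
  rw [← g3_prime_pow_of_le hp hp' 0 le_rfl h1, zero_mul]

theorem ThCEuler_g3_zero_cube {p c : O} (hp : Prime p) (hp' : Prim p) (hc : Prim c) :
    g3 0 (p ^ 3 * c) = ((nm p : ℂ) ^ 3 - ind (IsCoprime c p) * (nm p : ℂ) ^ 2) * g3 0 c := by
  obtain ⟨k, d, hd, hdp, rfl⟩ := ThCEuler_fac hp hp' hc
  rw [← mul_assoc, ← pow_add, g3_mul (hp'.pow _) hd hdp.symm.pow_left,
    g3_mul (hp'.pow _) hd hdp.symm.pow_left, zero_mul, zero_mul,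
    ThCEuler_g3_zero hp hp' (by omega)]
  rcases k with _ | k
  · rw [pow_zero, one_mul, ind_of hdp, g3_one]
    simp
  · rw [ind_of_not (not_coprime_of_dvd hp ⟨p ^ k * d, by ring⟩),
      ThCEuler_g3_zero hp hp' (by omega)]
    by_cases h : 3 ∣ k + 1
    · rw [if_pos h, if_pos (by omega), show 3 + (k + 1) - 1 = 3 + k by omega,
        show k + 1 - 1 = k by omega]
      ring
    · rw [if_neg h, if_neg (by omega)]
      ring

theorem psi_zero {p β : O} (hp : Prime p) (hp' : Prim p) (hβ : Prim β) {s : ℂ} (hs : 2 < s.re) :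
    (1 - (nm p : ℂ) ^ (3 + -3 * s)) * psi β 0 1 s =
      (1 - (nm p : ℂ) ^ (2 + -3 * s)) * psi β 0 p s := by
  have e2 := ThCEuler_cpow3 hp.ne_zero 2 s
  have e3 := ThCEuler_cpow3 hp.ne_zero 3 s
  rw [Nat.cast_ofNat] at e2 e3
  have h : ∑' c, ThCEuler_T β 0 s (p ^ 3 * c) =
      (nm p : ℂ) ^ 3 * ((nm p : ℂ) ^ (-s)) ^ 3 * psi β 0 1 s -
        (nm p : ℂ) ^ 2 * ((nm p : ℂ) ^ (-s)) ^ 3 * psi β 0 p s := by
    rw [psi, psi, ← tsum_mul_left, ← tsum_mul_left, ← Summable.tsum_sub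
      ((summable_psi 0 _ hs).mul_left _) ((summable_psi 0 _ hs).mul_left _)]
    refine tsum_congr fun c => ?_
    have e : (9 : O) ∣ p ^ 3 * c - β ↔ (9 : O) ∣ c - β := by
      rw [show p ^ 3 * c - β = (p ^ 3 - 1) * c + (c - β) by ring,
        dvd_add_right (hp'.cube.mul_right _)]
    rw [ThCEuler_T, e, ind_and, ind_and, ind_of isCoprime_one_right]
    by_cases h1 : (9 : O) ∣ c - β
    · rw [ThCEuler_g3_zero_cube hp hp' (hβ.of_dvd_sub ThCEuler_three_dvd_nine h1),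
        nm_mul_cpow (pow_ne_zero 3 hp.ne_zero), ThCEuler_cpow p hp.ne_zero]
      ring
    · rw [ind_of_not h1]; ring
  have h' := ThCEuler_psi_one β 0 s p
  rw [ThCEuler_peel hp hp' hβ _ hs 0 (ThCEuler_d0 p β),
    ThCEuler_peel hp hp' (hβ.mul (hp'.pow 2)) _ hs 1 (ThCEuler_d1 hp' β),
    ThCEuler_peel hp hp' (hβ.mul hp') _ hs 2 (ThCEuler_d2 hp' β), h,
    ThCEuler_g3_zero hp hp' (l := 1) le_rfl, ThCEuler_g3_zero hp hp' (l := 2) (by norm_num),
    if_neg (by norm_num), if_neg (by norm_num), pow_zero, g3_one, zero_mul] at h'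
  rw [e2, e3]
  linear_combination h'

end Vale.Agent.P026
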