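import Vale.Agent.P026.ThCRes

/-! # TH-C: the Hecke row function `Phi`, group theory.
Plan.  For `g = [[a,b],[p c₁,d]]` put `g' = [[a, p b],[c₁, d]]`.  `Phi_rmul`: `r = (x,y)`, `r g = (x a + y p c₁, x b + y d)`, `p ∣ (r g).1 ↔ p ∣ x`
(`IsCoprime a p` from the determinant); if `x = p x₁`: `(x₁, y) g' = ((r g).1 / p, (r g).2)`; else `(x, p y) g' = ((r g).1, p (r g).2)`; `coprime_rmul`.
`cls_Phi`: `cls_iff`; `δ ∈ Gam (9p)` gives `δ' ∈ Gam 9` (`mem_Gam`) and `kap δ = kap δ'`: `λ ∣ c₁`, `cub (p c₁) d = cub p d * cub c₁ d`,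
`cub p d = cub d p = cub 1 p = 1` (`cub_recip`, `d` primary, `d ≡ 1 mod p`).  If `¬ p ∣ x` and `(x,y)` is not coprime then `(x, p y)` is not coprime.
`sl2_decomp`: if `p ∤ c` choose `x` with `p ∣ a - x c` and `γ = mS⁻¹ * mN (-x) * g`.
`Acf_mN`: `rmul (c,d) (mN x) = (c, c x + d)`, `sum_res_affine`. -/

namespace Vale.Agent.P026

open scoped ComplexConjugate Real Topology
open MeasureTheory Filter Set

theorem Cls.per_snd {m : O} (h9 : (9 : O) ∣ m) {Ψ : O × O → ℂ} (hΨ : Cls m Ψ) (c : O) :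
    Per (m * c) fun d => Ψ (c, d) := by
  rintro x y ⟨k, hk⟩
  have := ((cls_iff h9).1 hΨ).2.2 (mN (m * k))
    (mem_Gam.2 (by simp [mN_00, mN_01, mN_10, mN_11])) (c, y)
  rw [kap_mN, one_mul, rmul_mN] at this
  simp only []
  rw [← this, show c * (m * k) + y = x by linear_combination -hk]
theorem Phi_rmul {p : O} (hp : Prime p) {g : SL2} (hg : p ∣ g.1 1 0) :
    ∃ g' : SL2, g'.1 0 0 = g.1 0 0 ∧ g'.1 0 1 = p * g.1 0 1 ∧ p * g'.1 1 0 = g.1 1 0 ∧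
      g'.1 1 1 = g.1 1 1 ∧ ∀ (t : ℂ) (Ψ : O × O → ℂ) (r : O × O),
        Phi p t Ψ (rmul r g) = Phi p t (fun r => Ψ (rmul r g')) r := by
  obtain ⟨c, hc⟩ := hg
  have hd := sl2_det g
  refine ⟨⟨!![g.1 0 0, p * g.1 0 1; c, g.1 1 1], by
    rw [Matrix.det_fin_two_of]; linear_combination hd + g.1 0 1 * hc⟩, rfl, rfl, hc.symm, rfl,
    fun t Ψ r => ?_⟩
  obtain ⟨x, y⟩ := r
  by_cases hx : p ∣ x
  · obtain ⟨x, rfl⟩ := hx
    have e : (rmul (p * x, y) g).1 = p * (x * g.1 0 0 + y * c) := by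
      simp only [rmul, hc]; ring
    simp only [Phi, coprime_rmul]
    rw [if_pos (e ▸ dvd_mul_right _ _), if_pos (dvd_mul_right _ _), e,
      mul_div_cancel_left₀ _ hp.ne_zero, mul_div_cancel_left₀ _ hp.ne_zero]
    congr 2
    simp only [rmul, Matrix.of_apply, Matrix.cons_val', Matrix.cons_val_zero, Matrix.cons_val_one,
      Matrix.cons_val_fin_one, Prod.mk.injEq, true_and]
    ring
  · have h1 : ¬p ∣ (rmul (x, y) g).1 := by
      intro h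
      simp only [rmul, hc] at h
      rcases hp.dvd_or_dvd ((dvd_add_left ⟨y * c, by ring⟩).1 h) with h | ⟨e, he⟩
      · exact hx h
      · exact hp.not_dvd_one ⟨e * g.1 1 1 - g.1 0 1 * c, by
          linear_combination -hd + g.1 1 1 * he - g.1 0 1 * hc⟩
    simp only [Phi]
    rw [if_neg h1, if_neg hx]
    congr 2
    simp only [rmul, Matrix.of_apply, Matrix.cons_val', Matrix.cons_val_zero, Matrix.cons_val_one,
      Matrix.cons_val_fin_one, Prod.mk.injEq, hc]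
    constructor <;> ring
theorem cls_Phi {p : O} (hp : Prime p) (hp' : Prim p) {t : ℂ} (ht : ‖t‖ ≤ 1) {Ψ : O × O → ℂ}
    (hΨ : Cls 9 Ψ) : Cls (9 * p) (Phi p t Ψ) := by
  refine (cls_iff (dvd_mul_right _ _)).2 ⟨fun r hr => ?_, fun r => ?_, fun δ hδ r => ?_⟩
  · unfold Phi
    split_ifs
    · rw [ind_of_not hr, zero_mul]
    · rw [hΨ.1 (r.1, p * r.2) fun h => hr h.of_mul_right_right, mul_zero]
  · unfold Phi
    split_ifs <;> rw [norm_mul]
    · exact mul_le_one₀ (norm_ind_le _) (norm_nonneg _) (hΨ.2.1 _)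
    · exact mul_le_one₀ ht (norm_nonneg _) (hΨ.2.1 _)
  · obtain ⟨h1, h2, h3, h4⟩ := mem_Gam.1 hδ
    obtain ⟨g, e1, e2, e3, e4, h⟩ := Phi_rmul hp ((dvd_mul_left _ _).trans h3)
    have h9 : (9 : O) ∣ 9 * p := dvd_mul_right _ _
    have h5 : (9 : O) ∣ g.1 1 0 := by
      rw [← e3, mul_comm p] at h3
      exact (mul_dvd_mul_iff_right hp.ne_zero).1 h3
    have hg : g ∈ Gam 9 := mem_Gam.2 ⟨e1 ▸ h9.trans h1, e2 ▸ (h9.trans h2).mul_left p, h5,
      e4 ▸ h9.trans h4⟩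
    have hk : kap δ = kap g := by
      have hd : Prim (δ.1 1 1) := ((show (3 : O) ∣ 9 from ⟨3, by norm_num⟩).trans h9).trans h4
      rw [kap, kap, row, row, Sy_of_lam_dvd (rw_lam_nine.trans (h9.trans h3)),
        Sy_of_lam_dvd (rw_lam_nine.trans h5), ← e3, cub_mul_left, cub_recip hp' hd,
        cub_congr ((dvd_mul_left _ _).trans h4), cub_one_left, one_mul, e4]
    rw [h, hk]
    simp only [((cls_iff dvd_rfl).1 hΨ).2.2 g hg, Phi]
    split_ifs <;> ring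
theorem sl2_decomp {p : O} (hp : Prime p) (g : SL2) :
    p ∣ g.1 1 0 ∨ ∃ (x : O) (γ : SL2), p ∣ γ.1 1 0 ∧ g = mN x * mS * γ := by
  refine or_iff_not_imp_left.2 fun h => ?_
  obtain ⟨u, v, huv⟩ := hp.irreducible.coprime_iff_not_dvd.2 h
  have hd := sl2_det g
  obtain ⟨γ, e1, e2, e3, e4⟩ : ∃ γ : SL2, γ.1 0 0 = g.1 1 0 ∧ γ.1 0 1 = g.1 1 1 ∧
      γ.1 1 0 = g.1 0 0 * v * g.1 1 0 - g.1 0 0 ∧ γ.1 1 1 = g.1 0 0 * v * g.1 1 1 - g.1 0 1 :=
    ⟨⟨!![g.1 1 0, g.1 1 1; g.1 0 0 * v * g.1 1 0 - g.1 0 0, g.1 0 0 * v * g.1 1 1 - g.1 0 1], by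
      rw [Matrix.det_fin_two_of]; linear_combination hd⟩, rfl, rfl, rfl, rfl⟩
  refine ⟨g.1 0 0 * v, γ, ⟨-(g.1 0 0 * u), by linear_combination e3 + g.1 0 0 * huv⟩, ?_⟩
  apply sl2_ext <;> rw [sl2_mul, sl2_mul, sl2_mul] <;>
    simp only [mN_00, mN_01, mN_10, mN_11, mS_00, mS_01, mS_10, mS_11, e1, e2, e3, e4] <;> ring
theorem aD_mN {m : O} (h9 : (9 : O) ∣ m) (hm : m ≠ 0) {Ψ : O × O → ℂ} (hΨ : Cls m Ψ) (x q : O) :
    aD m (fun r => Ψ (rmul r (mN x))) 0 q = aD m Ψ 0 q := by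
  funext s
  refine tsum_congr fun c => ?_
  congr 2
  simp only [Acf, rmul_mN, zero_mul, eq_zero, mul_one]
  rcases eq_or_ne c 0 with rfl | hc
  · simp only [zero_mul, zero_add]
  · rw [← sum_res_affine (mul_ne_zero hm hc) (hΨ.per_snd h9 c) isCoprime_one_left (c * x)]
    simp only [one_mul, add_comm]

end Vale.Agent.P026
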