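import Vale.Agent.P026.ThCHeckeA
import Vale.Agent.P026.ThCEuler

/-! # TH-C: Fourier coefficients of `Phi`.
Plan (`P = nm p`, `A c = Acf 9 Ψ ν c`, `f d = Ψ (c,d) eq (ν d) (9c)` has period `9c`).  Tools: `sum_res_mul` (a function of period `n` summed mod `k n`
gives `nm k` times the sum mod `n`), `sum_res_dvd`, `sum_res_affine` (`d ↦ p d` permutes classes mod `9c` if `p ∤ c`), `eq_mul_cancel`.
`Acf_Phi_mul`: `∑_{d mod 9 p² c} 1[(pc,d)=1] f d = ∑ f d - ∑_{p ∣ d} f d = P² A - ∑_{d' mod 9 p c} f (p d')`; the last sum is `0` if `p ∣ c`, else `P A`.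
`Acf_Phi_S`: `rmul (c,d) mS = (d,-c)`; with `Ψ' (c,d) = Ψ (d,-c)` the function is `if p ∣ d then 1[(d,-c)=1] Ψ'(c, d/p) else t Ψ'(p c, d)`.
`aD_*`: `tsum_peel`, `nm_mul_cpow`, `summable_aD`. -/

namespace Vale.Agent.P026

open scoped ComplexConjugate Real Topology
open MeasureTheory Filter Set

theorem sum_res_dvd {p n : O} (hp : p ≠ 0) (hn : n ≠ 0) {f : O → ℂ} (hf : Per (p * n) f) :
    ∑ d ∈ res (p * n), ind (p ∣ d) * f d = ∑ d ∈ res n, f (p * d) := by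
  rw [mul_comm] at hf ⊢
  rw [sum_res_mul hn hp (f := fun d => ind (p ∣ d) * f d) fun x y h => by
    simp only [hf x y h, dvd_iff_dvd_of_dvd_sub ((dvd_mul_left _ _).trans h)]]
  obtain ⟨x, ⟨hx, k, hk⟩, hu⟩ := res_spec hp 0
  rw [← sum_res_affine hn (f := fun d => f (p * d)) (fun x y h => hf _ _ (by
    rw [← mul_sub, mul_comm]; exact mul_dvd_mul_left p h)) isCoprime_one_left (-k)]
  refine Finset.sum_congr rfl fun y _ => ?_
  rw [Finset.sum_eq_single_of_mem x hx fun z hz hne => by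
    rw [ind_of_not fun h => hne (hu z ⟨hz, by
      simpa using (dvd_add_left (dvd_mul_right p y)).1 h⟩), zero_mul],
    show x + p * y = p * (1 * y + -k) by linear_combination -hk, ind_of (dvd_mul_right _ _), one_mul]

theorem ThCHeckeB_per {k n : O} (hk : k ≠ 0) (hn : n ≠ 0) {f : O → ℂ} (hf : Per n f) :
    ∑ d ∈ res (k * n), f d = nm k * ∑ d ∈ res n, f d := by
  rw [sum_res_mul hk hn (hf.mul_left k), ← card_res hk, ← nsmul_eq_mul, ← Finset.sum_const]
  exact Finset.sum_congr rfl fun y _ => Finset.sum_congr rfl fun x _ => hf _ _ (by simp)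

variable {p : O} {Ψ : O × O → ℂ}

theorem ThCHeckeB_perf (hΨ : Cls 9 Ψ) (ν c a : O) :
    Per (9 * c) fun d => Ψ (c, a * d) * eq (ν * (a * d)) (9 * c) := fun x y h => by
  have h1 : 9 * c ∣ a * x - a * y := by rw [← mul_sub]; exact h.mul_left a
  have h2 := hΨ.per_snd dvd_rfl c _ _ h1
  simp only [] at h2 ⊢
  rw [h2, eq_congr (y := ν * (a * y)) (by
    rw [← mul_sub]; exact h1.mul_left ν)]

theorem ThCHeckeB_mul (hp' : Prim p) (hΨ : Cls 9 Ψ) (ν : O) {c : O} (hc : c ≠ 0) :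
    ∑ d ∈ res (9 * c), Ψ (c, p * d) * eq (ν * (p * d)) (9 * c) =
      ind (IsCoprime c p) * Acf 9 Ψ ν c := by
  by_cases h : IsCoprime c p
  · have := sum_res_affine (mul_ne_zero (by decide) hc) (ThCHeckeB_perf hΨ ν c 1)
      (hp'.coprime_nine.mul_right h.symm) 0
    simp only [add_zero, one_mul] at this
    rw [this, ind_of h, one_mul, Acf]
  · rw [ind_of_not h, zero_mul]
    exact Finset.sum_eq_zero fun d _ => by
      rw [hΨ.1 (c, p * d) fun h' => h h'.of_mul_right_left, zero_mul]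

theorem Acf_Phi_mul (hp : Prime p) (hp' : Prim p) (hΨ : Cls 9 Ψ) (t : ℂ) (ν : O) {c : O}
    (hc : c ≠ 0) : Acf (9 * p) (Phi p t Ψ) (p * ν) (p * c) =
      ((nm p : ℂ) ^ 2 - ind (IsCoprime c p) * nm p) * Acf 9 Ψ ν c := by
  have h0 := hp.ne_zero
  have h9 : (9 : O) * c ≠ 0 := mul_ne_zero (by decide) hc
  have hf := ThCHeckeB_perf hΨ ν c 1
  simp only [one_mul] at hf
  have e : ∀ d, Phi p t Ψ (p * c, d) * eq (p * ν * d) (9 * (p * c)) =
      Ψ (c, d) * eq (ν * d) (9 * c) - ind (p ∣ d) * (Ψ (c, d) * eq (ν * d) (9 * c)) := by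
    intro d
    simp only [Phi]
    rw [if_pos (dvd_mul_right _ _), mul_div_cancel_left₀ _ h0, mul_assoc p, mul_left_comm 9,
      eq_mul_cancel h0]
    by_cases h : p ∣ d
    · rw [ind_of h, ind_of_not fun h' => hp.not_isUnit (h'.isUnit_of_dvd' (dvd_mul_right _ _) h)]
      ring
    rw [ind_of_not h]
    by_cases h' : IsCoprime c d
    · rw [ind_of ((hp.irreducible.coprime_iff_not_dvd.2 h).mul_left h')]
      ring
    · rw [hΨ.1 (c, d) h']
      ring
  rw [Acf, show 9 * p * (p * c) = p * (p * (9 * c)) by ring]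
  simp only [e, Finset.sum_sub_distrib]
  rw [sum_res_dvd h0 (mul_ne_zero h0 h9) ((hf.mul_left p).mul_left p),
    ThCHeckeB_per h0 (mul_ne_zero h0 h9) (hf.mul_left p), ThCHeckeB_per h0 h9 hf,
    ThCHeckeB_per h0 h9 (ThCHeckeB_perf hΨ ν c p), ThCHeckeB_mul hp' hΨ ν hc, Acf]
  ring
theorem Acf_Phi_of_not (hp : Prime p) (hp' : Prim p) (hΨ : Cls 9 Ψ) (t : ℂ) (ν : O) {c : O}
    (hc : ¬p ∣ c) : Acf (9 * p) (Phi p t Ψ) (p * ν) c = t * nm p * Acf 9 Ψ ν c := by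
  have h0 : c ≠ 0 := fun h => hc (h ▸ dvd_zero p)
  have e : ∀ d, Phi p t Ψ (c, d) * eq (p * ν * d) (9 * c) =
      t * (Ψ (c, p * d) * eq (ν * (p * d)) (9 * c)) := by
    intro d
    simp only [Phi]
    rw [if_neg hc, mul_assoc, mul_left_comm ν, mul_assoc]
  rw [Acf, show 9 * p * c = p * (9 * c) by ring]
  simp only [e, ← Finset.mul_sum]
  rw [ThCHeckeB_per hp.ne_zero (mul_ne_zero (by decide) h0) (ThCHeckeB_perf hΨ ν c p),
    ThCHeckeB_mul hp' hΨ ν h0, ind_of (hp.irreducible.coprime_iff_not_dvd.2 hc).symm]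
  ring
theorem Acf_Phi_S (hp : Prime p) (hp' : Prim p) (hΨ : Cls 9 Ψ) {t : ℂ} (ht : ‖t‖ ≤ 1) {c : O}
    (hc : c ≠ 0) :
    Acf (9 * p) (fun r => Phi p t Ψ (rmul r mS)) 0 c =
      ind (IsCoprime c p) * Acf 9 (fun r => Ψ (rmul r mS)) 0 c +
        t * Acf 9 (fun r => Ψ (rmul r mS)) 0 (p * c) := by
  have h0 := hp.ne_zero
  have hf := ((cls_Phi hp hp' ht hΨ).comp_rmul (dvd_mul_right _ _) mS).per_snd
    (dvd_mul_right _ _) c
  have e0 : 9 * p * c = p * (9 * c) := by ring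
  simp only [rmul_mS, e0] at hf
  have e : ∀ d, Phi p t Ψ (d, -c) = ind (p ∣ d) * Phi p t Ψ (d, -c) + t * Ψ (d, -(p * c)) := by
    intro d
    by_cases h : p ∣ d
    · rw [ind_of h, hΨ.1 (d, -(p * c)) fun h' => hp.not_isUnit
        (h'.isUnit_of_dvd' h (dvd_neg.2 (dvd_mul_right _ _)))]
      ring
    · rw [ind_of_not h, zero_mul, zero_add, Phi, if_neg h, mul_neg]
  simp only [Acf, rmul_mS, zero_mul, eq_zero, mul_one]
  rw [e0, Finset.sum_congr rfl fun d _ => e d, Finset.sum_add_distrib,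
    sum_res_dvd h0 (mul_ne_zero (by decide) hc) hf, ← Finset.mul_sum, mul_left_comm 9,
    Finset.mul_sum (a := ind _)]
  congr 1
  refine Finset.sum_congr rfl fun d _ => ?_
  simp only [Phi]
  rw [if_pos (dvd_mul_right _ _), mul_div_cancel_left₀ _ h0]
  by_cases h : IsCoprime d (-c)
  · rw [IsCoprime.mul_left_iff, and_iff_left h, IsCoprime.neg_right_iff, isCoprime_comm]
  · rw [hΨ.1 (d, -c) h, mul_zero, mul_zero]
theorem aD_Phi (hp : Prime p) (hp' : Prim p) (hΨ : Cls 9 Ψ) (t : ℂ) (ν : O) {s : ℂ}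
    (hs : 2 < s.re) : aD (9 * p) (Phi p t Ψ) (p * ν) 1 s =
      (nm p : ℂ) ^ (2 + -1 * s) * aD 9 Ψ ν 1 s -
        ((nm p : ℂ) ^ (1 + -1 * s) - t * nm p) * aD 9 Ψ ν p s := by
  have h0 := hp.ne_zero
  have hP : (nm p : ℂ) ≠ 0 := by exact_mod_cast (nm_pos h0).ne'
  have hs0 : -s ≠ 0 := fun h => by rw [neg_eq_zero.1 h] at hs; norm_num at hs
  have hb : ∀ r, ‖Phi p t Ψ r‖ ≤ 1 + ‖t‖ := fun r => by
    unfold Phi
    split_ifs <;> rw [norm_mul]
    · exact (mul_le_one₀ (norm_ind_le _) (norm_nonneg _) (hΨ.2.1 _)).trans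
        (le_add_of_nonneg_right (norm_nonneg _))
    · exact (mul_le_of_le_one_right (norm_nonneg _) (hΨ.2.1 _)).trans (by simp)
  have hsum : Summable fun c : O => ind (IsCoprime c 1) * Acf (9 * p) (Phi p t Ψ) (p * ν) c *
      (nm c : ℂ) ^ (-s) := by
    refine summable_dir (K := (1 + ‖t‖) * nm (9 * p)) (fun c hc => ?_) hs
    rw [ind_of isCoprime_one_right, one_mul, Acf, mul_assoc (1 + _), ← Nat.cast_mul, ← nm_mul,
      ← card_res (mul_ne_zero (mul_ne_zero (by decide) h0) hc), mul_comm (1 + _), ← nsmul_eq_mul]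
    refine (norm_sum_le _ _).trans (Finset.sum_le_card_nsmul _ _ _ fun d _ => ?_)
    rw [norm_mul, norm_eq, mul_one]
    exact hb _
  have s1 := summable_aD (m := 9) (by decide) hΨ.2.1 ν (fun c => IsCoprime c 1) hs
  have s2 := summable_aD (m := 9) (by decide) hΨ.2.1 ν (fun c => IsCoprime c p) hs
  have e1 : ∀ c, ind (IsCoprime c p) * (ind (IsCoprime c 1) * Acf (9 * p) (Phi p t Ψ) (p * ν) c *
      (nm c : ℂ) ^ (-s)) = t * nm p * (ind (IsCoprime c p) * Acf 9 Ψ ν c * (nm c : ℂ) ^ (-s)) := by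
    intro c
    by_cases h : IsCoprime c p
    · rw [Acf_Phi_of_not hp hp' hΨ t ν (hp.irreducible.coprime_iff_not_dvd.1 h.symm),
        ind_of isCoprime_one_right]
      ring
    · rw [ind_of_not h]
      ring
  have e2 : ∀ c, ind (IsCoprime (p * c) 1) * Acf (9 * p) (Phi p t Ψ) (p * ν) (p * c) *
      (nm (p * c) : ℂ) ^ (-s) = (nm p : ℂ) ^ (2 + -1 * s) *
        (ind (IsCoprime c 1) * Acf 9 Ψ ν c * (nm c : ℂ) ^ (-s)) - (nm p : ℂ) ^ (1 + -1 * s) *
        (ind (IsCoprime c p) * Acf 9 Ψ ν c * (nm c : ℂ) ^ (-s)) := by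
    intro c
    rw [nm_mul_cpow h0]
    rcases eq_or_ne c 0 with rfl | hc
    · simp only [nm_zero, Nat.cast_zero, Complex.zero_cpow hs0, mul_zero, sub_zero]
    · rw [Acf_Phi_mul hp hp' hΨ t ν hc, ind_of isCoprime_one_right, ind_of isCoprime_one_right,
        Complex.cpow_add _ _ hP, Complex.cpow_add _ _ hP, Complex.cpow_one, Complex.cpow_two,
        neg_one_mul]
      ring
  rw [aD, tsum_peel hp hsum]
  simp only [e1, e2]
  rw [(s1.mul_left _).tsum_sub (s2.mul_left _), tsum_mul_left, tsum_mul_left, tsum_mul_left, aD, aD]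
  ring
theorem aD_Phi_S (hp : Prime p) (hp' : Prim p) (hΨ : Cls 9 Ψ) {t : ℂ} (ht : ‖t‖ ≤ 1) {s : ℂ}
    (hs : 2 < s.re) :
    aD (9 * p) (fun r => Phi p t Ψ (rmul r mS)) 0 1 s =
      aD 9 (fun r => Ψ (rmul r mS)) 0 p s + t * (nm p : ℂ) ^ (0 + 1 * s) *
        (aD 9 (fun r => Ψ (rmul r mS)) 0 1 s - aD 9 (fun r => Ψ (rmul r mS)) 0 p s) := by
  have h0 := hp.ne_zero
  have hP : (nm p : ℂ) ≠ 0 := by exact_mod_cast (nm_pos h0).ne'
  have hs0 : -s ≠ 0 := fun h => by rw [neg_eq_zero.1 h] at hs; norm_num at hs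
  set Ψ' : O × O → ℂ := fun r => Ψ (rmul r mS)
  have s1 := summable_aD (m := 9) (Ψ := Ψ') (by decide) (fun _ => hΨ.2.1 _) 0
    (fun c => IsCoprime c 1) hs
  have s2 := summable_aD (m := 9) (Ψ := Ψ') (by decide) (fun _ => hΨ.2.1 _) 0
    (fun c => IsCoprime c p) hs
  have s3 := s1.comp_injective (mul_right_injective₀ h0)
  simp only [Function.comp_def] at s3
  have e : ∀ c, ind (IsCoprime c 1) * Acf (9 * p) (fun r => Phi p t Ψ (rmul r mS)) 0 c *
      (nm c : ℂ) ^ (-s) = ind (IsCoprime c p) * Acf 9 Ψ' 0 c * (nm c : ℂ) ^ (-s) +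
        t * (nm p : ℂ) ^ (0 + 1 * s) *
          (ind (IsCoprime (p * c) 1) * Acf 9 Ψ' 0 (p * c) * (nm (p * c) : ℂ) ^ (-s)) := by
    intro c
    rw [nm_mul_cpow h0]
    rcases eq_or_ne c 0 with rfl | hc
    · simp only [nm_zero, Nat.cast_zero, Complex.zero_cpow hs0, mul_zero, add_zero]
    · rw [Acf_Phi_S hp hp' hΨ ht hc, ind_of isCoprime_one_right, ind_of isCoprime_one_right,
        zero_add, one_mul, one_mul, one_mul, Complex.cpow_neg (nm p)]
      have : (nm p : ℂ) ^ s ≠ 0 := fun h => hP (Complex.cpow_eq_zero_iff _ _ |>.1 h).1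
      field_simp
      ring
  have e2 := tsum_peel hp s1
  simp only [ind_of isCoprime_one_right, one_mul, ← mul_assoc] at e2
  rw [aD]
  simp only [e]
  rw [s2.tsum_add (s3.mul_left _), tsum_mul_left, aD, aD]
  simp only [ind_of isCoprime_one_right, one_mul]
  rw [e2]
  ring

end Vale.Agent.P026
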