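import Vale.Agent.P026.ThGeo

/-! TH-B: the invariant measure.
Plan.  `measurePreserving_act`: `sl2_induction` with `act_mul` (valid a.e., `ae_pos`; `MeasurePreserving.congr` or `Measure.map_congr`).
Translations: product structure (`lintegral_hmu`, `lintegral_add_right_eq_self`).  Inversion `f = act mS` on `U = {v > 0}` (an involution of `U`:
`mS * mS = -1` acts trivially, or direct computation): `lintegral_image_eq_lintegral_abs_det_fderiv_mul`.  With `ρ = ‖z‖² + v²` the derivative is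
`ρ⁻¹ • (R ∘ A)`, `A h = h - (2 ⟨h,w⟩ / ρ) • w`, `⟨h,w⟩ = re(h.1 conj z) + h.2 v`, `R (z,v) = (-conj z, v)`; `A ∘ A = id`, `R ∘ R = id`
so `|det A| = |det R| = 1` (`LinearMap.det_comp`), `LinearMap.det_smul` with `finrank = 3`: `|det| = ρ⁻³`, and `(v/ρ)⁻³ ρ⁻³ = v⁻³`. -/

namespace Vale.Agent.P026

open scoped ComplexConjugate Real Topology ENNReal NNReal InnerProductSpace
open MeasureTheory Filter Set

instance : SFinite hmu := by unfold hmu; infer_instance

theorem measurableSet_upper : MeasurableSet {w : ℂ × ℝ | 0 < w.2} :=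
  measurableSet_lt measurable_const measurable_snd

theorem measurable_hden : Measurable fun w : ℂ × ℝ => ENNReal.ofReal (1 / w.2 ^ 3) := by
  fun_prop

theorem restrict_upper : (volume : Measure (ℂ × ℝ)).restrict {w | 0 < w.2} =
    (volume : Measure ℂ).prod ((volume : Measure ℝ).restrict (Ioi 0)) := by
  rw [← Measure.restrict_univ (μ := (volume : Measure ℂ)), Measure.prod_restrict,
    Measure.volume_eq_prod]
  congr 1
  ext w
  simp

theorem lintegral_hmu' {f : ℂ × ℝ → ℝ≥0∞} (hf : Measurable f) :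
    ∫⁻ w, f w ∂hmu = ∫⁻ w in {w : ℂ × ℝ | 0 < w.2}, ENNReal.ofReal (1 / w.2 ^ 3) * f w := by
  rw [hmu, lintegral_withDensity_eq_lintegral_mul _ measurable_hden hf]
  rfl

theorem lintegral_hmu {f : ℂ × ℝ → ℝ≥0∞} (hf : Measurable f) :
    ∫⁻ w, f w ∂hmu = ∫⁻ v in Ioi (0 : ℝ), (∫⁻ z, f (z, v)) * ENNReal.ofReal (1 / v ^ 3) := by
  rw [lintegral_hmu' hf, restrict_upper,
    lintegral_prod_symm _ (measurable_hden.fun_mul hf).aemeasurable]
  refine lintegral_congr fun v => ?_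
  rw [mul_comm, ← lintegral_const_mul' _ _ ENNReal.ofReal_ne_top]

theorem integral_hmu {f : ℂ × ℝ → ℂ} (hf : Integrable f hmu) :
    ∫ w, f w ∂hmu = ∫ v in Ioi (0 : ℝ), (∫ z, f (z, v)) * ((1 / v ^ 3 : ℝ) : ℂ) := by
  have hm : Measurable fun w : ℂ × ℝ => Real.toNNReal (1 / w.2 ^ 3) := by fun_prop
  have h1 : hmu = ((volume : Measure (ℂ × ℝ)).restrict {w | 0 < w.2}).withDensity
      fun w => (Real.toNNReal (1 / w.2 ^ 3) : ℝ≥0∞) := rfl
  rw [h1, integrable_withDensity_iff_integrable_smul hm, restrict_upper] at hf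
  rw [h1, integral_withDensity_eq_integral_smul hm, restrict_upper, integral_prod_symm _ hf]
  refine setIntegral_congr_fun measurableSet_Ioi fun v hv => ?_
  have h2 : (0 : ℝ) ≤ 1 / v ^ 3 := by have := mem_Ioi.1 hv; positivity
  simp only [NNReal.smul_def, Real.coe_toNNReal _ h2, Complex.real_smul]
  rw [integral_const_mul, mul_comm]

theorem ae_pos : ∀ᵐ w ∂hmu, 0 < w.2 :=
  (withDensity_absolutelyContinuous _ _).ae_le (ae_restrict_mem measurableSet_upper)

theorem measurePreserving_mN (x : O) : MeasurePreserving (act (mN x)) hmu hmu := by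
  refine ⟨measurable_act _, Measure.ext_of_lintegral _ fun g hg => ?_⟩
  rw [lintegral_map hg (measurable_act _), lintegral_hmu (hg.fun_comp (measurable_act _)),
    lintegral_hmu hg]
  refine lintegral_congr fun v => ?_
  simp only [act_mN]
  rw [lintegral_add_right_eq_self (fun z => g (z, v))]

theorem abs_det_of_invol (A : (ℂ × ℝ) →ₗ[ℝ] (ℂ × ℝ)) (h : ∀ x, A (A x) = x) :
    |LinearMap.det A| = 1 := by
  have h1 : A ∘ₗ A = LinearMap.id := LinearMap.ext h
  have h2 := congrArg LinearMap.det h1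
  rw [LinearMap.det_comp, LinearMap.det_id] at h2
  rcases mul_self_eq_one_iff.1 h2 with h3 | h3 <;> simp [h3]

theorem exists_fderiv_mS {w : ℂ × ℝ} (hw : 0 < w.2) : ∃ L : (ℂ × ℝ) →L[ℝ] (ℂ × ℝ),
    HasFDerivAt (act mS) L w ∧ |L.det| = 1 / (‖w.1‖ ^ 2 + w.2 ^ 2) ^ 3 := by
  let R : (ℂ × ℝ) →L[ℝ] (ℂ × ℝ) :=
    ((-(Complex.conjCLE : ℂ →L[ℝ] ℂ)).comp (ContinuousLinearMap.fst ℝ ℂ ℝ)).prod
      (ContinuousLinearMap.snd ℝ ℂ ℝ)
  have hR : ∀ x, R x = (-conj x.1, x.2) := fun x => rfl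
  let a : (ℂ × ℝ) →L[ℝ] ℝ := Complex.reCLM.comp (ContinuousLinearMap.fst ℝ ℂ ℝ)
  let b : (ℂ × ℝ) →L[ℝ] ℝ := Complex.imCLM.comp (ContinuousLinearMap.fst ℝ ℂ ℝ)
  let c : (ℂ × ℝ) →L[ℝ] ℝ := ContinuousLinearMap.snd ℝ ℂ ℝ
  have hρ : ∀ x : ℂ × ℝ, ‖x.1‖ ^ 2 + x.2 ^ 2 = a x * a x + b x * b x + c x * c x := fun x => by
    rw [Complex.sq_norm, Complex.normSq_apply, sq]
    rfl
  have hpos : 0 < ‖w.1‖ ^ 2 + w.2 ^ 2 := by positivity
  have h1 := (((a.hasFDerivAt (x := w)).mul a.hasFDerivAt).add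
    ((b.hasFDerivAt (x := w)).mul b.hasFDerivAt)).add ((c.hasFDerivAt (x := w)).mul c.hasFDerivAt)
  have hpos' : 0 < a w * a w + b w * b w + c w * c w := hρ w ▸ hpos
  have h2 := ((hasFDerivAt_inv hpos'.ne').comp w h1).smul (R.hasFDerivAt (x := w))
  refine ⟨_, h2.congr_of_eventuallyEq (Eventually.of_forall fun x => ?_), ?_⟩
  · rw [act_mS, hρ]
    simp only [Pi.smul_apply', Function.comp, Pi.add_apply, Pi.mul_apply, hR, Prod.smul_mk,
      smul_eq_mul, Complex.real_smul, Complex.ofReal_inv, div_eq_inv_mul]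
  · set ρ := a w * a w + b w * b w + c w * c w with hρw
    have hρ0 : ρ ≠ 0 := hpos'.ne'
    let l : (ℂ × ℝ) →ₗ[ℝ] ℝ := (2 / ρ) • (a w • (a : (ℂ × ℝ) →ₗ[ℝ] ℝ) + b w • (b : (ℂ × ℝ) →ₗ[ℝ] ℝ) +
      c w • (c : (ℂ × ℝ) →ₗ[ℝ] ℝ))
    have hl : ∀ x, l x = 2 / ρ * (a w * a x + b w * b x + c w * c x) := fun x => rfl
    let A : (ℂ × ℝ) →ₗ[ℝ] (ℂ × ℝ) := LinearMap.id - l.smulRight w
    have hA : ∀ x, A x = x - l x • w := fun x => rfl
    have h3 := abs_det_of_invol A fun x => by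
      have h4 : l w = 2 := by rw [hl, ← hρw]; field_simp
      rw [hA, hA, map_sub, map_smul, h4, smul_eq_mul]
      module
    have h4 := abs_det_of_invol (R : (ℂ × ℝ) →ₗ[ℝ] (ℂ × ℝ)) fun x => by
      simp [hR]
    have h5 : |LinearMap.det (ρ⁻¹ • ((R : (ℂ × ℝ) →ₗ[ℝ] (ℂ × ℝ)) ∘ₗ A))| =
        1 / (‖w.1‖ ^ 2 + w.2 ^ 2) ^ 3 := by
      rw [LinearMap.det_smul, LinearMap.det_comp, abs_mul, abs_mul, h3, h4, hρ, ← hρw,
        abs_of_nonneg (pow_nonneg (inv_nonneg.2 hpos'.le) _)]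
      simp
    rw [← h5, ContinuousLinearMap.det]
    congr 2
    refine LinearMap.ext fun x => ?_
    simp only [ContinuousLinearMap.coe_coe, LinearMap.smul_apply, LinearMap.comp_apply, hA, hl,
      map_sub, map_smul, add_apply, smul_apply,
      ContinuousLinearMap.smulRight_apply, ContinuousLinearMap.comp_apply, Function.comp,
      Pi.add_apply, Pi.mul_apply, ← hρw, smul_eq_mul, ContinuousLinearMap.toSpanSingleton_apply]
    match_scalars
    · ring
    · field_simp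
      ring

theorem measurePreserving_mS : MeasurePreserving (act mS) hmu hmu := by
  refine ⟨measurable_act _, Measure.ext_of_lintegral _ fun g hg => ?_⟩
  choose! L hL hd using fun w : ℂ × ℝ => exists_fderiv_mS (w := w)
  have him : act mS '' {w : ℂ × ℝ | 0 < w.2} = {w | 0 < w.2} :=
    Subset.antisymm (by rintro _ ⟨w, hw, rfl⟩; exact act_pos _ hw)
      fun w hw => ⟨_, act_pos _ hw, act_act_inv _ hw⟩
  have : (volume : Measure (ℂ × ℝ)).IsAddHaarMeasure := Measure.prod.instIsAddHaarMeasure _ _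
  have h := lintegral_image_eq_lintegral_abs_det_fderiv_mul volume measurableSet_upper
    (fun w hw => (hL w hw).hasFDerivWithinAt)
    (fun w hw w' hw' h => by rw [← act_inv_act mS hw, h, act_inv_act mS hw'])
    fun w => ENNReal.ofReal (1 / w.2 ^ 3) * g w
  rw [lintegral_map hg (measurable_act _), lintegral_hmu' (hg.fun_comp (measurable_act _)),
    lintegral_hmu' hg, ← him, h, him]
  refine setLIntegral_congr_fun measurableSet_upper fun w hw => ?_
  have hw' : 0 < w.2 := hw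
  rw [hd w hw, ← mul_assoc, ← ENNReal.ofReal_mul (by positivity)]
  congr 2
  rw [act_mS]
  field_simp

theorem measurePreserving_act (g : SL2) : MeasurePreserving (act g) hmu hmu := by
  have key : ∀ g h, MeasurePreserving (act g) hmu hmu → MeasurePreserving (act h) hmu hmu →
      MeasurePreserving (act (g * h)) hmu hmu := fun g h hg hh =>
    ⟨measurable_act _, (Measure.map_congr (ae_pos.mono fun w hw => act_mul g h hw)).trans
      (hg.comp hh).map_eq⟩
  refine sl2_induction (P := fun g => MeasurePreserving (act g) hmu hmu) ?_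
    (fun g h => key _ _ h measurePreserving_mS) (fun g x h => key _ _ h (measurePreserving_mN x)) g
  rw [show act 1 = id from funext act_one]
  exact MeasurePreserving.id _

theorem lintegral_act (g : SL2) {f : ℂ × ℝ → ℝ≥0∞} (hf : Measurable f) :
    ∫⁻ w, f (act g w) ∂hmu = ∫⁻ w, f w ∂hmu := (measurePreserving_act g).lintegral_comp hf

theorem integral_act (g : SL2) {f : ℂ × ℝ → ℂ} (hf : Measurable f) :
    ∫ w, f (act g w) ∂hmu = ∫ w, f w ∂hmu := by
  rw [← integral_map (measurable_act g).aemeasurable hf.aestronglyMeasurable,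
    (measurePreserving_act g).map_eq]

theorem measurableSet_siegel (R a : ℝ) : MeasurableSet {w : ℂ × ℝ | ‖w.1‖ ≤ R ∧ a ≤ w.2} :=
  (measurableSet_le measurable_fst.norm measurable_const).inter
    (measurableSet_le measurable_const measurable_snd)

theorem hmu_siegel (R : ℝ) {a : ℝ} (ha : 0 < a) : hmu {w | ‖w.1‖ ≤ R ∧ a ≤ w.2} < ⊤ := by
  have h1 : {w : ℂ × ℝ | ‖w.1‖ ≤ R ∧ a ≤ w.2} = Metric.closedBall 0 R ×ˢ Ici a := by
    ext w
    simp
  rw [hmu, withDensity_apply _ (measurableSet_siegel R a), h1]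
  refine lt_of_le_of_lt (lintegral_mono' (Measure.restrict_mono_measure Measure.restrict_le_self _)
    le_rfl) ?_
  rw [Measure.volume_eq_prod, ← Measure.prod_restrict,
    lintegral_prod _ measurable_hden.aemeasurable]
  simp only [lintegral_const, Measure.restrict_apply_univ]
  refine ENNReal.mul_lt_top ?_ measure_closedBall_lt_top
  have h2 := (integrableOn_Ioi_rpow_of_lt (a := -3) (by norm_num) ha)
  rw [← integrableOn_Ici_iff_integrableOn_Ioi] at h2
  refine Integrable.lintegral_lt_top (h2.congr_fun (fun v hv => ?_) measurableSet_Ici)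
  have h3 : 0 < v := ha.trans_le hv
  simp only
  rw [Real.rpow_neg h3.le, one_div]
  norm_cast

/-- a bounded measurable function supported in a Siegel set is integrable -/
theorem integrable_of_siegel {E : Type*} [NormedAddCommGroup E] {F : ℂ × ℝ → E}
    (hF : AEStronglyMeasurable F hmu) {R a M : ℝ} (ha : 0 < a)
    (h : ∀ w : ℂ × ℝ, 0 < w.2 → ‖F w‖ ≤ M ∧ (F w ≠ 0 → ‖w.1‖ ≤ R ∧ a ≤ w.2)) :
    Integrable F hmu := by
  have h1 : Integrable ({w : ℂ × ℝ | ‖w.1‖ ≤ R ∧ a ≤ w.2}.indicator fun _ => M) hmu :=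
    (integrable_indicator_iff (measurableSet_siegel R a)).2
      (integrableOn_const (hmu_siegel R ha).ne)
  refine h1.mono' hF (ae_pos.mono fun w hw => ?_)
  by_cases h2 : w ∈ {w : ℂ × ℝ | ‖w.1‖ ≤ R ∧ a ≤ w.2}
  · rw [indicator_of_mem h2]
    exact (h w hw).1
  · rw [indicator_of_notMem h2, norm_le_zero_iff]
    by_contra h3
    exact h2 ((h w hw).2 h3)

theorem Test.integrable {F : ℂ × ℝ → ℂ} (hF : Test F) : Integrable F hmu := by
  obtain ⟨hm, M, hM, h⟩ := hF
  exact integrable_of_siegel hm.aestronglyMeasurable (one_div_pos.2 hM)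
    fun w _ => ⟨(h w).1, fun h0 => ⟨((h w).2 h0).1, ((h w).2 h0).2.1⟩⟩

theorem Test.integrable_sq {F : ℂ × ℝ → ℂ} (hF : Test F) :
    Integrable (fun w => ‖F w‖ ^ 2) hmu := by
  obtain ⟨hm, M, hM, h⟩ := hF
  refine integrable_of_siegel (M := M ^ 2) (R := M) (hm.norm.pow_const 2).aestronglyMeasurable
    (one_div_pos.2 hM) fun w _ => ⟨?_, fun h0 => ?_⟩
  · rw [norm_pow, norm_norm]
    gcongr
    exact (h w).1
  · have h1 : F w ≠ 0 := fun h1 => h0 (by simp [h1])
    exact ⟨((h w).2 h1).1, ((h w).2 h1).2.1⟩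

end Vale.Agent.P026
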