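import Vale.Agent.P026.ThCDefs
import Vale.Agent.P026.ThMeas

/-! # TH-C: tiles.
Plan.  Coordinates: `z = toC m * (a + b ω)`, `a + bω = (a - b/2) + i b√3/2`; `toC (m y) = toC m * (y.re + y.im ω)`.
`tile_par`: `toIocMod`/`Int.ceil`: unique integer `k` with `a + k ∈ Ioc 0 1` (`existsUnique_add_zsmul_mem_Ioc`).
Measurability: `par m` is the preimage of `Ioc ×ˢ Ioc` under the continuous coordinate map.
`hasSum_tile`: translate (`hmu` is invariant under `(z,v) ↦ (z+a,v)` for every complex `a`: `lintegral_hmu` + `lintegral_add_right_eq_self`),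
the sets `{w | w.1 - a - m y ∈ P}` are disjoint and cover: `hasSum_integral_iUnion`. -/

namespace Vale.Agent.P026

open scoped ComplexConjugate Real Topology
open MeasureTheory Filter Set

/-- first coordinate in the basis `1, ω` -/
noncomputable def tlA (z : ℂ) : ℝ := z.re + z.im / √3
/-- second coordinate in the basis `1, ω` -/
noncomputable def tlB (z : ℂ) : ℝ := 2 * z.im / √3

theorem tl_re (x : O) : (toC x).re = x.re - x.im / 2 := rfl
theorem tl_im (x : O) : (toC x).im = x.im * (√3 / 2) := rfl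

theorem tlA_add (z : ℂ) (y : O) : tlA (z + toC y) = tlA z + y.re := by
  rw [tlA, tlA, Complex.add_re, Complex.add_im, tl_re, tl_im]
  field_simp
  ring

theorem tlB_add (z : ℂ) (y : O) : tlB (z + toC y) = tlB z + y.im := by
  rw [tlB, tlB, Complex.add_im, tl_im]
  field_simp

theorem tlA_mk (a b : ℝ) : tlA (a + b * toC om) = a := by
  simp [tlA, tl_re, tl_im, om]
  field_simp
  ring

theorem tlB_mk (a b : ℝ) : tlB (a + b * toC om) = b := by
  simp [tlB, tl_im, om]
  field_simp

theorem tl_eq (z : ℂ) : tlA z + tlB z * toC om = z := by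
  apply Complex.ext
  · simp [tlA, tlB, tl_re, om, -Complex.ofReal_add, -Complex.ofReal_div]
    ring
  · simp [tlA, tlB, tl_im, om, -Complex.ofReal_add, -Complex.ofReal_div]
    field_simp

theorem mem_par {m : O} (hm : m ≠ 0) {z : ℂ} :
    z ∈ par m ↔ tlA (z / toC m) ∈ Ioc (0 : ℝ) 1 ∧ tlB (z / toC m) ∈ Ioc (0 : ℝ) 1 := by
  have h := mt toC_eq_zero.1 hm
  refine ⟨?_, fun k => ⟨_, _, k.1, k.2, by rw [tl_eq, mul_div_cancel₀ _ h]⟩⟩
  rintro ⟨a, b, ha, hb, rfl⟩
  rw [mul_div_cancel_left₀ _ h, tlA_mk, tlB_mk]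
  exact ⟨ha, hb⟩

theorem tile_par {m : O} (hm : m ≠ 0) : Tile m (par m) := by
  have h := mt toC_eq_zero.1 hm
  refine ⟨?_, ⟨‖toC m‖ * (1 + ‖toC om‖), ?_⟩, fun z => ?_⟩
  · rw [show par m = (fun z => tlA (z / toC m)) ⁻¹' Ioc 0 1 ∩ (fun z => tlB (z / toC m)) ⁻¹' Ioc 0 1
      from Set.ext fun z => mem_par hm]
    unfold tlA tlB
    exact (measurableSet_Ioc.preimage (by fun_prop)).inter
      (measurableSet_Ioc.preimage (by fun_prop))
  · rintro _ ⟨a, b, ha, hb, rfl⟩
    rw [norm_mul]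
    refine mul_le_mul_of_nonneg_left ((norm_add_le _ _).trans ?_) (norm_nonneg _)
    rw [norm_mul, Complex.norm_real, Complex.norm_real, Real.norm_of_nonneg ha.1.le,
      Real.norm_of_nonneg hb.1.le]
    exact add_le_add ha.2 (mul_le_of_le_one_left (norm_nonneg _) hb.2)
  · have e : ∀ y : O, (z + toC (m * y)) / toC m = z / toC m + toC y := fun y => by
      rw [map_mul, add_div, mul_div_cancel_left₀ _ h]
    simp only [mem_par hm, e, tlA_add, tlB_add]
    obtain ⟨a, ha, ha'⟩ := existsUnique_add_zsmul_mem_Ioc one_pos (tlA (z / toC m)) 0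
    obtain ⟨b, hb, hb'⟩ := existsUnique_add_zsmul_mem_Ioc one_pos (tlB (z / toC m)) 0
    simp only [zsmul_eq_mul, mul_one, zero_add] at ha ha' hb hb'
    exact ⟨⟨a, b⟩, ⟨ha, hb⟩, fun y hy => QuadraticAlgebra.ext (ha' _ hy.1) (hb' _ hy.2)⟩
theorem measurePreserving_shift (a : ℂ) :
    MeasurePreserving (fun w : ℂ × ℝ => (w.1 + a, w.2)) hmu hmu := by
  have hm : Measurable fun w : ℂ × ℝ => (w.1 + a, w.2) := by fun_prop
  refine ⟨hm, Measure.ext_of_lintegral _ fun g hg => ?_⟩
  rw [lintegral_map hg hm, lintegral_hmu (hg.fun_comp hm), lintegral_hmu hg]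
  refine lintegral_congr fun v => ?_
  simp only
  rw [lintegral_add_right_eq_self (fun z => g (z, v))]
theorem hasSum_tile {m : O} {P : Set ℂ} (hP : Tile m P) {G : ℂ × ℝ → ℂ} (hG : Integrable G hmu)
    (a : ℂ) : HasSum (fun y : O => ∫ w, P.indicator (fun _ => (1 : ℂ)) w.1 *
      G (w.1 + a + toC (m * y), w.2) ∂hmu) (∫ w, G w ∂hmu) := by
  obtain ⟨h1, -, h2⟩ := hP
  let S : O → Set (ℂ × ℝ) := fun y => {w | w.1 - a + toC (m * -y) ∈ P}
  have hS : ∀ y, MeasurableSet (S y) := fun y => h1.preimage (by fun_prop)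
  have hu : ⋃ y, S y = univ := eq_univ_of_forall fun w => by
    obtain ⟨y, hy, -⟩ := h2 (w.1 - a)
    exact mem_iUnion.2 ⟨-y, by simpa only [S, neg_neg, mem_ofPred_eq] using hy⟩
  have k := hasSum_integral_iUnion (μ := hmu) (f := G) hS
    (fun x y hxy => disjoint_left.2 fun w hx hy =>
      hxy (neg_injective ((h2 (w.1 - a)).unique hx hy))) hG.integrableOn
  rw [hu, setIntegral_univ] at k
  refine k.congr_fun fun y => ?_
  rw [← integral_indicator (hS y), ← (measurePreserving_shift (a + toC (m * y))).integral_comp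
    ((Homeomorph.addRight _).prodCongr (Homeomorph.refl ℝ)).measurableEmbedding ((S y).indicator G)]
  refine integral_congr_ae (Eventually.of_forall fun w => ?_)
  have e : (w.1 + (a + toC (m * y)), w.2) ∈ S y ↔ w.1 ∈ P := by
    simp only [S, mem_ofPred_eq, mul_neg, map_neg]
    rw [show w.1 + (a + toC (m * y)) - a + -toC (m * y) = w.1 by ring]
  simp only [add_assoc]
  by_cases hw : w.1 ∈ P
  · rw [indicator_of_mem hw, indicator_of_mem (e.2 hw), one_mul]
  · rw [indicator_of_notMem hw, indicator_of_notMem (mt e.1 hw), zero_mul]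

end Vale.Agent.P026
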