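import Vale.Agent.P026.WhTh
import Vale.Agent.P026.ThCTile
import Vale.Agent.P026.ThCount

/-! # TH-C: unfolding.
Plan.  `hasSum_Eis_integral`: `tsum_eis` bounds `∑' r ‖Ψ r vr^s‖ ≤ C max(v,1/v)^σ ≤ C M^σ` on the support of `F`;
`hasSum_integral_of_summable_norm` needs `∑ ∫ ‖·‖ < ∞`: finite partial sums are `≤ C M^σ ∫ ‖F‖` (`summable_of_sum_le`),
or `hasSum_integral_of_summable_integral_norm` / `integral_tsum`.
`unfold`: `HasSum.prod_fiberwise` over `c`.  For `c = 0` only units `d` contribute and `vr (0,d) w = v`; the term is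
`(∑' d, Ψ (0,d)) * ∫ v^s F` or `∑'_d Ψ(0,d) ∫ vr (0,d)^s F` = finite sum over `ball 1`, holomorphic by `differentiableOn_integral_of_bound`.
For `c ≠ 0`: `tsum_res` with `q = m c`, `Ψ (c, d + m c y) = Ψ (c, d)` (`Cls.add_period`), `vr (c,d) (z,v) = N(c)⁻¹ v/(‖z + d/c‖²+v²)`,
`ec (-(ν z/9)) = eq (ν d) (9c) * ec (-(ν (z + d/c + m y)/9))` (as `9 ∣ m`, `ec_toC`), `hasSum_tile` with
`G (z,v) = (v/(‖z‖²+v²))^s ec(-ν z/9) ψ v` (integrable for `hmu`: `lintegral_hmu`, `integral_rpow_Wh`) and `integral_hmu` gives `wI`. -/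

namespace Vale.Agent.P026

open scoped ComplexConjugate Real Topology
open MeasureTheory Filter Set

theorem Cls.add_period {m : O} (h9 : (9 : O) ∣ m) {Ψ : O × O → ℂ} (hΨ : Cls m Ψ) (c d y : O) :
    Ψ (c, d + m * c * y) = Ψ (c, d) := by
  have k := ((cls_iff h9).1 hΨ).2.2 (mN (m * y)) (mem_Gam.2 (by
    simp only [mN_00, mN_01, mN_10, mN_11, sub_self, dvd_zero, dvd_mul_right, and_self])) (c, d)
  rw [kap_mN, one_mul, rmul_mN] at k
  rw [← k]
  congr 2
  ring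
theorem test_Ftst {m : O} {P : Set ℂ} (hP : Tile m P) (ν : O) {ψ : ℝ → ℂ} (hψ : Test1 ψ) :
    Test (Ftst P ν ψ) := by
  obtain ⟨h1, ⟨R, hR⟩, -⟩ := hP
  obtain ⟨h2, M, hM, h⟩ := hψ
  refine ⟨(((measurable_const.indicator h1).comp measurable_fst).mul (h2.comp measurable_snd)).mul
    (continuous_ec.measurable.comp (by fun_prop)), max M R, lt_max_of_lt_left hM, fun w => ?_⟩
  unfold Ftst
  by_cases k : w.1 ∈ P
  · rw [indicator_of_mem k, one_mul, norm_mul, norm_ec, mul_one]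
    refine ⟨(h _).1.trans (le_max_left _ _), fun k2 => ?_⟩
    have k3 := (h _).2 (left_ne_zero_of_mul k2)
    exact ⟨(hR _ k).trans (le_max_right _ _),
      (one_div_le_one_div_of_le hM (le_max_left _ _)).trans k3.1, k3.2.trans (le_max_left _ _)⟩
  · rw [indicator_of_notMem k, zero_mul, zero_mul, norm_zero]
    exact ⟨hM.le.trans (le_max_left _ _), fun k => absurd rfl k⟩

theorem ThCUnf_meas (a : ℂ) (r : O × O) (s : ℂ) :
    Measurable fun w => a * ((vr r w : ℝ) : ℂ) ^ s :=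
  ((Complex.measurable_ofReal.comp (measurable_vr r)).pow_const s).const_mul a

theorem ThCUnf_key {m : O} {Ψ : O × O → ℂ} (hΨ : Cls m Ψ) {F : ℂ × ℝ → ℂ} (hF : Test F)
    {s : ℂ} (hs : 2 < s.re) : ∃ K : ℝ, ∀ w : ℂ × ℝ, 0 < w.2 →
      Summable (fun r => ‖Ψ r * ((vr r w : ℝ) : ℂ) ^ s * F w‖) ∧
      ∑' r, ‖Ψ r * ((vr r w : ℝ) : ℂ) ^ s * F w‖ ≤ K * ‖F w‖ := by
  obtain ⟨C, hC, h⟩ := tsum_eis hs
  obtain ⟨-, M, hM, hF⟩ := hF
  refine ⟨C * M ^ s.re, fun w hw => ?_⟩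
  obtain ⟨h1, h2⟩ := h m Ψ hΨ s rfl w hw
  simp only [norm_mul _ (F w), tsum_mul_right]
  refine ⟨h1.mul_right _, ?_⟩
  by_cases k : F w = 0
  · rw [k, norm_zero, mul_zero, mul_zero]
  · have k2 := (hF w).2 k
    refine mul_le_mul_of_nonneg_right (h2.trans (mul_le_mul_of_nonneg_left (Real.rpow_le_rpow
      (le_max_of_le_left hw.le) (max_le k2.2.2 ?_) (by linarith)) hC.le)) (norm_nonneg _)
    exact (one_div_le hw hM).2 k2.2.1

theorem integrable_Eis {m : O} {Ψ : O × O → ℂ} (hΨ : Cls m Ψ) {F : ℂ × ℝ → ℂ} (hF : Test F)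
    {s : ℂ} (hs : 2 < s.re) : Integrable (fun w => Eis Ψ w s * F w) hmu := by
  obtain ⟨K, h⟩ := ThCUnf_key hΨ hF hs
  refine (hF.integrable.norm.const_mul K).mono' ((Measurable.tsum fun r =>
    ThCUnf_meas (Ψ r) r s).mul hF.1).aestronglyMeasurable (ae_pos.mono fun w hw => ?_)
  rw [Eis, ← tsum_mul_right]
  exact (norm_tsum_le_tsum_norm (h w hw).1).trans (h w hw).2
theorem hasSum_Eis_integral {m : O} {Ψ : O × O → ℂ} (hΨ : Cls m Ψ) {F : ℂ × ℝ → ℂ} (hF : Test F)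
    {s : ℂ} (hs : 2 < s.re) :
    HasSum (fun r : O × O => ∫ w, Ψ r * ((vr r w : ℝ) : ℂ) ^ s * F w ∂hmu)
      (∫ w, Eis Ψ w s * F w ∂hmu) := by
  obtain ⟨K, h⟩ := ThCUnf_key hΨ hF hs
  have iK := hF.integrable.norm.const_mul K
  have i : ∀ r : O × O, Integrable (fun w => Ψ r * ((vr r w : ℝ) : ℂ) ^ s * F w) hmu := fun r =>
    iK.mono' ((ThCUnf_meas (Ψ r) r s).mul hF.1).aestronglyMeasurable (ae_pos.mono fun w hw =>
      ((h w hw).1.le_tsum r fun _ _ => norm_nonneg _).trans (h w hw).2)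
  simp only [Eis, ← tsum_mul_right]
  refine hasSum_integral_of_summable_integral_norm i (summable_of_sum_le
    (c := ∫ w, K * ‖F w‖ ∂hmu) (fun r => integral_nonneg fun _ => norm_nonneg _) fun u => ?_)
  rw [← integral_finsetSum _ fun r _ => (i r).norm]
  exact integral_mono_ae (integrable_finsetSum _ fun r _ => (i r).norm) iK
    (ae_pos.mono fun w hw => ((h w hw).1.sum_le_tsum u fun _ _ => norm_nonneg _).trans (h w hw).2)

theorem ThCUnf_int (ν : O) {ψ : ℝ → ℂ} (hψ : Test1 ψ) {s : ℂ} (hs : 1 < s.re) :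
    Integrable (fun w : ℂ × ℝ => ((w.2 / (‖w.1‖ ^ 2 + w.2 ^ 2) : ℝ) : ℂ) ^ s *
      ec (-(toC ν * w.1 / 9)) * ψ w.2) hmu := by
  have hm := ((WhTh_meas s ν).fun_comp measurable_swap).fun_mul (hψ.1.fun_comp measurable_snd)
  simp only [Prod.fst_swap, Prod.snd_swap] at hm
  refine ⟨hm.aestronglyMeasurable, ?_⟩
  rw [HasFiniteIntegral, lintegral_hmu hm.enorm]
  refine lt_of_eq_of_lt (setLIntegral_congr_fun measurableSet_Ioi fun v hv => ?_)
    (hψ.integrableOn_wI 0 (s := s.re) hs).2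
  have hv := mem_Ioi.1 hv
  have p : ∀ z : ℂ, 0 < v / (‖z‖ ^ 2 + v ^ 2) := fun z => by positivity
  have e : Wh s.re 0 v = (∫ z : ℂ, (v / (‖z‖ ^ 2 + v ^ 2)) ^ s.re : ℝ) := by
    rw [Wh, ← integral_complex_ofReal]
    refine integral_congr_ae (Eventually.of_forall fun z => ?_)
    simp only [map_zero, zero_mul, zero_div, neg_zero, ec_zero, mul_one]
    rw [Complex.ofReal_cpow (p z).le]
  dsimp only
  rw [← ofReal_integral_norm_eq_lintegral_enorm ((integrable_Wh hs ν hv).mul_const _), e,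
    ← ofReal_norm, ← ENNReal.ofReal_mul (integral_nonneg fun _ => norm_nonneg _), norm_mul,
    norm_mul, Complex.norm_real, Complex.norm_real, Real.norm_of_nonneg (by positivity),
    Real.norm_of_nonneg (by positivity)]
  simp only [norm_mul, norm_ec, mul_one, Complex.norm_cpow_eq_rpow_re_of_pos (p _),
    integral_mul_const]

theorem unfold_row {m : O} (h9 : (9 : O) ∣ m) {P : Set ℂ} (hP : Tile m P) (ν : O) {ψ : ℝ → ℂ}
    (hψ : Test1 ψ) {s : ℂ} (hs : 1 < s.re) {c : O} (hc : c ≠ 0) (d : O) :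
    HasSum (fun y : O => ∫ w, ((vr (c, d + m * c * y) w : ℝ) : ℂ) ^ s * Ftst P ν ψ w ∂hmu)
      (eq (ν * d) (9 * c) * (nm c : ℂ) ^ (-s) * wI ν ψ s) := by
  have k := (hasSum_tile hP (ThCUnf_int ν hψ hs) (toC d / toC c)).mul_left
    (eq (ν * d) (9 * c) * (nm c : ℂ) ^ (-s))
  rw [integral_hmu (ThCUnf_int ν hψ hs)] at k
  simp only [integral_mul_const] at k
  refine k.congr_fun fun y => ?_
  rw [← integral_const_mul]
  refine integral_congr_ae (ae_pos.mono fun w hw => ?_)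
  have c0 := mt toC_eq_zero.1 hc
  have n0 : (0 : ℝ) < nm c := by linarith [one_le_nm hc]
  obtain ⟨m', rfl⟩ := h9
  set z := w.1 + toC d / toC c + toC (9 * m' * y) with hz
  have e1 : vr (c, d + 9 * m' * c * y) w = (nm c : ℝ)⁻¹ * (w.2 / (‖z‖ ^ 2 + w.2 ^ 2)) := by
    have : toC c * w.1 + toC (d + 9 * m' * c * y) = toC c * z := by
      simp only [hz, map_add, map_mul]
      field_simp
      ring
    rw [vr, den, this, norm_mul, mul_pow, norm_toC_sq]
    field_simp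
  have e2 : ec (-(toC ν * w.1 / 9)) = eq (ν * d) (9 * c) * ec (-(toC ν * z / 9)) := by
    rw [eq, ← ec_add, ← mul_one (ec (-(toC ν * w.1 / 9))), ← ec_toC (-(ν * m' * y)), ← ec_add]
    congr 1
    simp only [hz, map_neg, map_mul, map_ofNat]
    field_simp
    ring
  simp only [Ftst]
  rw [e1, e2, Complex.ofReal_mul, Complex.mul_cpow_ofReal_nonneg (by positivity) (by positivity),
    Complex.ofReal_inv, Complex.ofReal_natCast, Complex.inv_cpow _ _ (by
      rw [Complex.natCast_arg]; exact Real.pi_pos.ne), ← Complex.cpow_neg]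
  ring

theorem ThCUnf_hol {F : ℂ × ℝ → ℂ} (hF : Test F) :
    Hol fun s => ∫ w, (w.2 : ℂ) ^ s * F w ∂hmu := by
  have i := hF.integrable.norm
  obtain ⟨hm, M, hM, h⟩ := hF
  refine differentiableOn_integral_of_bound WhTh_open (fun s _ => ((Measurable.pow_const
    (by fun_prop) s).mul hm).aestronglyMeasurable) (ae_pos.mono fun w hw =>
      ((differentiable_id.const_cpow (Or.inl (Complex.ofReal_ne_zero.2 hw.ne'))).mul_const
        _).differentiableOn) fun s₀ hs₀ => ?_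
  have hs₀ : 1 < s₀.re := hs₀
  refine ⟨(s₀.re - 1) / 2, _, by linarith, i.const_mul (max M 1 ^ (2 * s₀.re)),
    ae_pos.mono fun w hw s hs => ?_⟩
  rw [norm_mul, Complex.norm_cpow_eq_rpow_re_of_pos hw]
  by_cases k : F w = 0
  · rw [k, norm_zero, mul_zero, mul_zero]
  · exact mul_le_mul_of_nonneg_right ((Real.rpow_le_rpow hw.le (((h w).2 k).2.2.trans
      (le_max_left M 1)) (by linarith [(WhTh_ball hs).1])).trans
      (Real.rpow_le_rpow_of_exponent_le (le_max_right _ _) (WhTh_ball hs).2)) (norm_nonneg _)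

theorem unfold_Eis {m : O} (h9 : (9 : O) ∣ m) (hm : m ≠ 0) {Ψ : O × O → ℂ} (hΨ : Cls m Ψ)
    {P : Set ℂ} (hP : Tile m P) (ν : O) {ψ : ℝ → ℂ} (hψ : Test1 ψ) :
    ∃ h : ℂ → ℂ, Hol h ∧ ∀ s : ℂ, 2 < s.re →
      ∫ w, Eis Ψ w s * Ftst P ν ψ w ∂hmu = wI ν ψ s * aD m Ψ ν 1 s + h s := by
  classical
  have hF := test_Ftst hP ν hψ
  refine ⟨_, (Hol.const (∑' d, Ψ (0, d))).mul (ThCUnf_hol hF), fun s hs => ?_⟩
  have k := hasSum_Eis_integral hΨ hF hs
  simp only [mul_assoc, integral_const_mul] at k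
  have k2 := k.prod_fiberwise fun c => (k.summable.prod_factor c).hasSum
  rw [← k2.tsum_eq, k2.summable.tsum_eq_add_tsum_ite 0, add_comm, aD, ← tsum_mul_left,
    ← tsum_mul_right]
  congr 1
  · refine tsum_congr fun c => ?_
    split_ifs with hc
    · rw [hc, nm_zero, Nat.cast_zero, Complex.zero_cpow, mul_zero, mul_zero]
      rintro h0
      rw [neg_eq_zero.1 h0, Complex.zero_re] at hs
      linarith
    · rw [tsum_res (mul_ne_zero hm hc) (k.summable.prod_factor c), ind_of isCoprime_one_right,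
        one_mul, Acf, Finset.sum_mul, Finset.mul_sum]
      refine Finset.sum_congr rfl fun d _ => ?_
      simp only [hΨ.add_period h9, tsum_mul_left,
        (unfold_row h9 hP ν hψ (by linarith : 1 < s.re) hc d).tsum_eq]
      ring
  · refine tsum_congr fun d => ?_
    by_cases hd : IsCoprime 0 d
    · have e : ∀ w, vr (0, d) w = w.2 := fun w => by
        simp [vr, den, norm_toC_sq, isUnit_iff_nm.1 (isCoprime_zero_left.1 hd)]
      simp only [e]
    · simp only [hΨ.1 (0, d) hd, zero_mul]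

end Vale.Agent.P026
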