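import Vale.Agent.P026.ThOp
import Vale.Agent.P026.Res

/-! TH-B: incomplete Eisenstein series are finite combinations of Poincaré series of cuspidal strips.
Plan.  Put `G w = 1_P(w.1) * ψ w.2` (a `Test` function) and `a γ = conj (Ψ (row γ)) * G (act γ w)`, finitely supported on `SL2` (`finite_act`).
Sum over cosets: `γ = q.out * δ`, `row (g δ) = rmul (row g) δ`, `cls_iff`, `act_mul`.  Sum over rows: `γ = mN y * g_r` (`exists_row`, `row_eq_row_iff`;
an equivalence `SL2 ≃ {primitive rows} × O`, or `HasSum.sigma` along the fibres of `row`), `act_mN`, and `tile_tsum` (`tsum_res`, `card_res`). -/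

namespace Vale.Agent.P026

open scoped ComplexConjugate Real Topology ENNReal NNReal InnerProductSpace
open MeasureTheory Filter Set

variable {m : O} {Ψ : O × O → ℂ} {ψ : ℝ → ℂ} {P : Set ℂ}

theorem Tile.test (hP : Tile m P) (hψ : Test1 ψ) :
    Test fun w : ℂ × ℝ => P.indicator (fun _ => (1 : ℂ)) w.1 * ψ w.2 := by
  obtain ⟨h1, ⟨A, hA⟩, -⟩ := hP
  obtain ⟨h2, M, hM, h⟩ := hψ
  refine ⟨((measurable_const.indicator h1).comp measurable_fst).mul (h2.comp measurable_snd),
    max A M, lt_max_of_lt_right hM, fun w => ?_⟩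
  by_cases k : w.1 ∈ P
  · simp only [indicator_of_mem k, one_mul]
    exact ⟨(h _).1.trans (le_max_right _ _), fun k' => ⟨(hA _ k).trans (le_max_left _ _),
      (one_div_le_one_div_of_le hM (le_max_right _ _)).trans ((h _).2 k').1,
      ((h _).2 k').2.trans (le_max_right _ _)⟩⟩
  · simp only [indicator_of_notMem k, zero_mul, norm_zero]
    exact ⟨le_max_of_le_right hM.le, fun k' => absurd rfl k'⟩

theorem tile_tsum (hm : m ≠ 0) (hP : Tile m P) (z : ℂ) :
    ∑' y : O, P.indicator (fun _ => (1 : ℂ)) (z + toC y) = nm m := by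
  obtain ⟨-, ⟨A, hA⟩, h⟩ := hP
  have hs : Summable fun y : O => P.indicator (fun _ => (1 : ℂ)) (z + toC y) := by
    refine summable_of_ne_finset_zero (s := ball ((A + ‖z‖) ^ 2)) fun y hy =>
      indicator_of_notMem (fun k => hy (mem_ball.2 ?_)) _
    have a1 := norm_sub_le (z + toC y) z
    rw [add_sub_cancel_left] at a1
    rw [← norm_toC_sq]
    exact pow_le_pow_left₀ (norm_nonneg _) (by linarith [hA _ k]) 2
  rw [tsum_res hm hs, ← card_res hm, Finset.card_eq_sum_ones, Nat.cast_sum]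
  refine Finset.sum_congr rfl fun x _ => ?_
  obtain ⟨y, h1, h2⟩ := h (z + toC x)
  simp only [map_add toC, ← add_assoc]
  rw [tsum_eq_single y fun y' hy => indicator_of_notMem (fun k => hy (h2 y' k)) _,
    indicator_of_mem h1, Nat.cast_one]

theorem exists_rowEquiv : ∃ (e : {r : O × O // IsCoprime r.1 r.2} × O ≃ SL2)
    (g : {r : O × O // IsCoprime r.1 r.2} → SL2),
      (∀ r, row (g r) = r) ∧ ∀ r y, e (r, y) = mN y * g r := by
  choose g hg using fun r : {r : O × O // IsCoprime r.1 r.2} => exists_row r.2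
  refine ⟨Equiv.ofBijective (fun p => mN p.2 * g p.1) ⟨fun p p' h => ?_, fun γ => ?_⟩, g, hg,
    fun _ _ => rfl⟩
  · have e : ∀ p : {r : O × O // IsCoprime r.1 r.2} × O, row (mN p.2 * g p.1) = p.1 := fun p =>
      (row_eq_row_iff.2 ⟨_, rfl⟩).trans (hg _)
    have h1 : p.1 = p'.1 := Subtype.ext (by rw [← e p, ← e p']; exact congrArg row h)
    beta_reduce at h
    rw [h1] at h
    exact Prod.ext h1 (congrArg (fun t : SL2 => t.1 0 1) (mul_right_cancel h))
  · obtain ⟨x, hx⟩ := row_eq_row_iff.1 (hg ⟨row γ, coprime_row γ⟩).symm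
    exact ⟨(⟨row γ, coprime_row γ⟩, x), hx.symm⟩

theorem conj_JJ (h9 : (9 : O) ∣ m) (hm : m ≠ 0) (hΨ : Cls m Ψ) (hP : Tile m P) (hψ : Test1 ψ) :
    ∃ t : Finset SL2, ∀ w : ℂ × ℝ, 0 < w.2 → (nm m : ℂ) * conj (JJ Ψ ψ w) =
      ∑ g ∈ t, conj (Ψ (row g)) * Pc m
        (fun w => P.indicator (fun _ => (1 : ℂ)) (act g w).1 * conj (ψ (act g w).2)) w := by
  classical
  have := finiteIndex_Gam hm
  have := Subgroup.fintypeQuotientOfFiniteIndex (H := Gam m)
  refine ⟨Finset.univ.image fun q : SL2 ⧸ Gam m => q.out, fun w hw => ?_⟩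
  obtain ⟨-, M, hM, hG⟩ := hP.test hψ.conj
  obtain ⟨a, ha⟩ : ∃ a : SL2 → ℂ, a = fun γ => conj (Ψ (row γ)) *
    (P.indicator (fun _ => (1 : ℂ)) (act γ w).1 * conj (ψ (act γ w).2)) := ⟨_, rfl⟩
  have hs : Summable a := by
    refine summable_of_hasFiniteSupport ((finite_act hw M (one_div_pos.2 hM)).subset
      fun γ hγ => ?_)
    rw [ha] at hγ
    have k := (hG (act γ w)).2 (right_ne_zero_of_mul hγ)
    exact ⟨k.1, k.2.1⟩
  obtain ⟨e, g, hg, he⟩ := exists_rowEquiv
  have e1 : ∑' γ, a γ = (nm m : ℂ) * conj (JJ Ψ ψ w) := by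
    have s1 : Summable fun p => a (e p) := e.summable_iff.2 hs
    rw [← e.tsum_eq, s1.tsum_prod, JJ, Complex.conj_tsum, ← tsum_mul_left,
      ← tsum_subtype_eq_of_support_subset (s := {r : O × O | IsCoprime r.1 r.2}) fun r hr =>
        by_contra fun k => hr (by simp [hΨ.1 r k])]
    refine tsum_congr fun r => ?_
    rw [← tile_tsum hm hP (act (g r) w).1, ← tsum_mul_right]
    refine tsum_congr fun y => ?_
    rw [he, ha]
    beta_reduce
    rw [row_eq_row_iff.2 ⟨y, rfl⟩, act_mul _ _ hw, act_mN, act_snd, hg, map_mul]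
    ring
  have s2 : Summable fun p => a (cosetEquiv (Gam m) p) := (cosetEquiv (Gam m)).summable_iff.2 hs
  rw [← e1, Finset.sum_image (g := fun q : SL2 ⧸ Gam m => q.out)
    fun _ _ _ _ k => Quotient.out_injective k, ← (cosetEquiv (Gam m)).tsum_eq, s2.tsum_prod,
    tsum_fintype]
  refine Finset.sum_congr rfl fun q _ => ?_
  rw [Pc, ← tsum_mul_left]
  refine tsum_congr fun δ => ?_
  rw [cosetEquiv_apply, ha]
  beta_reduce
  rw [row_mul, ((cls_iff h9).1 hΨ).2.2 δ δ.2, act_mul _ _ hw, map_mul]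
  ring

end Vale.Agent.P026
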