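import Vale.Agent.P026.Rows
import Vale.Agent.P026.Count

/-! # P026: interface between TH-B (spectral construction) and TH-C (theta function) -/

namespace Vale.Agent.P026

open scoped ComplexConjugate Real Topology
open MeasureTheory Filter

/-- the region of continuation -/
def Dom : Set ℂ := {s | 4 / 3 < s.re ∧ s.re < 3 ∧ 0 < s.im ∧ s.im < 1}

/-- the path to `4/3` -/
noncomputable def sE (ε : ℝ) : ℂ := 4 / 3 + ε * (1 + Complex.I)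

/-- `f`, given on `Re s > 2`, continues to `Dom` and has residue `x` at `4/3` along `sE` -/
def HasRes (f : ℂ → ℂ) (x : ℂ) : Prop :=
  ∃ F : ℂ → ℂ, DifferentiableOn ℂ F Dom ∧ (∀ s ∈ Dom, 2 < s.re → F s = f s) ∧
    Tendsto (fun ε : ℝ => (sE ε - 4 / 3) * F (sE ε)) (𝓝[>] 0) (𝓝 x)

/-- the invariant measure `dz dv / v³` on `{v > 0}` -/
noncomputable def hmu : Measure (ℂ × ℝ) :=
  ((volume : Measure (ℂ × ℝ)).restrict {w | 0 < w.2}).withDensity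
    fun w => ENNReal.ofReal (1 / w.2 ^ 3)

/-- the Eisenstein series -/
noncomputable def Eis (Ψ : O × O → ℂ) (w : ℂ × ℝ) (s : ℂ) : ℂ :=
  ∑' r : O × O, Ψ r * ((vr r w : ℝ) : ℂ) ^ s

/-- bounded measurable functions with compact support in hyperbolic space -/
def Test (F : ℂ × ℝ → ℂ) : Prop :=
  Measurable F ∧ ∃ M : ℝ, 0 < M ∧ ∀ w, ‖F w‖ ≤ M ∧ (F w ≠ 0 → ‖w.1‖ ≤ M ∧ 1 / M ≤ w.2 ∧ w.2 ≤ M)

/-- bounded measurable functions with compact support in `(0, ∞)` -/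
def Test1 (ψ : ℝ → ℂ) : Prop :=
  Measurable ψ ∧ ∃ M : ℝ, 0 < M ∧ ∀ v, ‖ψ v‖ ≤ M ∧ (ψ v ≠ 0 → 1 / M ≤ v ∧ v ≤ M)

/-- `P` is a bounded measurable fundamental set for the lattice `m O` -/
def Tile (m : O) (P : Set ℂ) : Prop :=
  MeasurableSet P ∧ (∃ M : ℝ, ∀ z ∈ P, ‖z‖ ≤ M) ∧ ∀ z : ℂ, ∃! y : O, z + toC (m * y) ∈ P

/-- the export of TH-B: residue functional, `L²` bound, equivariance, cusp lemma -/
def ThBStmt : Prop :=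
  ∀ m : O, (9 : O) ∣ m → m ≠ 0 → ∃ Θ : (O × O → ℂ) → (ℂ × ℝ → ℂ) → ℂ,
    (∀ Ψ, Cls m Ψ → ∀ F, Test F →
      HasRes (fun s => ∫ w, Eis Ψ w s * F w ∂hmu) (Θ Ψ F)) ∧
    (∃ C : ℝ, 0 ≤ C ∧ ∀ Ψ, Cls m Ψ → ∀ F, Test F → ∀ R X : ℝ, 0 ≤ R → 0 < X →
      (∀ w, F w ≠ 0 → ‖w.1‖ ≤ R ∧ 1 / X ≤ w.2) →
      ‖Θ Ψ F‖ ^ 2 ≤ C * (1 + R ^ 2) * (1 + X ^ 2) * ∫ w, ‖F w‖ ^ 2 ∂hmu) ∧
    (∀ Ψ, Cls m Ψ → ∀ F, Test F → ∀ g : SL2,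
      Θ Ψ (fun w => F (act g w)) = Θ (fun r => Ψ (rmul r g)) F) ∧
    (∀ Ψ, Cls m Ψ → ∀ P, Tile m P →
      (∀ (g : SL2) (ψ : ℝ → ℂ), Test1 ψ →
        Θ (fun r => Ψ (rmul r g)) (fun w => P.indicator (fun _ => (1 : ℂ)) w.1 * ψ w.2) = 0) →
      ∀ F, Test F → Θ Ψ F = 0)

end Vale.Agent.P026
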