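import Vale.Agent.P026.ThDefs

/-! TH-B: the action of `SL₂(O)` on hyperbolic space.
Plan.  `den_act`: with `a,b,c,d` the images of the entries (`ad - bc = 1`), `r = (p,q)`, `A = pa+qc`, `B = pb+qd`,
`D = den (row g) w`: `D (p z' + q) = (Az+B) conj(cz+d) + A conj c v²` and the Lagrange identity
`|(Az+B) conj(cz+d) + A conj c v²|² + |p|² v² = (|Az+B|² + |A|² v²) D` (as `(Az+B)c - A(cz+d) = -p`).
`ext_vr`: use the rows `(0,1), (1,0), (1,1), (1,ω)`.  `act_mul` from `vr_act`, `rmul_mul`, `ext_vr`.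
`tt_act` by `sl2_induction`.  `Test.comp_act`: `w = act g⁻¹ (act g w)`, and `act g⁻¹` is continuous on the compact set
`closedBall 0 M ×ˢ Icc (1/M) M`; if `w.2 ≤ 0` then `(act g w).2 ≤ 0`. -/

namespace Vale.Agent.P026

open scoped ComplexConjugate Real Topology ENNReal NNReal InnerProductSpace
open MeasureTheory Filter Set

/-- `cosh` of the hyperbolic distance -/
noncomputable def tt (w w' : ℂ × ℝ) : ℝ := (‖w.1 - w'.1‖ ^ 2 + w.2 ^ 2 + w'.2 ^ 2) / (2 * w.2 * w'.2)

/-- the ball `cosh d ≤ 2` -/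
def Bt (w : ℂ × ℝ) : Set (ℂ × ℝ) := {w' | 0 < w'.2 ∧ tt w w' ≤ 2}

instance : Countable O :=
  Function.Injective.countable (f := fun x : O => (x.re, x.im)) fun _ _ h =>
    QuadraticAlgebra.ext (Prod.ext_iff.1 h).1 (Prod.ext_iff.1 h).2
instance : Countable SL2 :=
  Function.Injective.countable (f := fun g : SL2 => fun i j => g.1 i j) fun _ _ h => Subtype.ext h

variable {w w' : ℂ × ℝ} {r : O × O}

theorem den_nonneg (r : O × O) (w : ℂ × ℝ) : 0 ≤ den r w := by
  unfold den; positivity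
theorem den_pos (hr : r ≠ 0) (hw : 0 < w.2) : 0 < den r w := by
  unfold den
  by_cases h : r.1 = 0
  · have h2 : toC r.2 ≠ 0 := fun h2 => hr (Prod.ext h (toC_eq_zero.1 h2))
    simp only [h, map_zero, zero_mul, zero_add]
    positivity
  · have h2 : toC r.1 ≠ 0 := mt toC_eq_zero.1 h
    positivity
theorem ne_zero_of_coprime (hr : IsCoprime r.1 r.2) : r ≠ 0 := by
  rintro rfl
  exact not_isCoprime_zero_zero hr
theorem row_ne_zero (g : SL2) : row g ≠ 0 := ne_zero_of_coprime (coprime_row g)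
theorem act_snd (g : SL2) (w : ℂ × ℝ) : (act g w).2 = vr (row g) w := rfl
theorem vr_pos (hr : r ≠ 0) (hw : 0 < w.2) : 0 < vr r w := div_pos hw (den_pos hr hw)
theorem vr_nonneg (r : O × O) (hw : 0 ≤ w.2) : 0 ≤ vr r w := div_nonneg hw (den_nonneg r w)
theorem vr_nonpos (r : O × O) (hw : w.2 ≤ 0) : vr r w ≤ 0 :=
  div_nonpos_of_nonpos_of_nonneg hw (den_nonneg r w)
theorem vr_zero_one (w : ℂ × ℝ) : vr (0, 1) w = w.2 := by simp [vr, den]
theorem act_pos (g : SL2) (hw : 0 < w.2) : 0 < (act g w).2 := vr_pos (row_ne_zero g) hw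
theorem act_pos_iff (g : SL2) : 0 < (act g w).2 ↔ 0 < w.2 :=
  ⟨fun h => by_contra fun h' => (vr_nonpos (row g) (not_lt.1 h')).not_gt h, act_pos g⟩
theorem act_one (w : ℂ × ℝ) : act 1 w = w := by
  simp [act, vr, den]

theorem geo_lagrange (U u A c : ℂ) (v : ℝ) :
    ‖U * conj u + A * conj c * (v : ℂ) ^ 2‖ ^ 2 + ‖A * u - U * c‖ ^ 2 * v ^ 2 =
      (‖U‖ ^ 2 + ‖A‖ ^ 2 * v ^ 2) * (‖u‖ ^ 2 + ‖c‖ ^ 2 * v ^ 2) := by
  simp only [Complex.sq_norm, Complex.normSq_apply, ← Complex.ofReal_pow, Complex.add_re,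
    Complex.add_im, Complex.mul_re, Complex.mul_im, Complex.sub_re, Complex.sub_im,
    Complex.conj_re, Complex.conj_im, Complex.ofReal_re, Complex.ofReal_im]
  ring

theorem den_act (r : O × O) (g : SL2) (hw : 0 < w.2) :
    den r (act g w) * den (row g) w = den (rmul r g) w := by
  have hD := den_pos (row_ne_zero g) hw
  have hdet : toC (g.1 0 0) * toC (g.1 1 1) - toC (g.1 0 1) * toC (g.1 1 0) = 1 := by
    rw [← map_mul, ← map_mul, ← map_sub, ← Matrix.det_fin_two, g.2, map_one]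
  have h1 := geo_lagrange (toC (rmul r g).1 * w.1 + toC (rmul r g).2)
    (toC (g.1 1 0) * w.1 + toC (g.1 1 1)) (toC (rmul r g).1) (toC (g.1 1 0)) w.2
  have h2 : toC (rmul r g).1 * (toC (g.1 1 0) * w.1 + toC (g.1 1 1)) -
      (toC (rmul r g).1 * w.1 + toC (rmul r g).2) * toC (g.1 1 0) = toC r.1 := by
    simp only [rmul, map_add, map_mul]
    linear_combination toC r.1 * hdet
  have h3 : ((den (row g) w : ℝ) : ℂ) = (toC (g.1 1 0) * w.1 + toC (g.1 1 1)) *
      conj (toC (g.1 1 0) * w.1 + toC (g.1 1 1)) +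
        toC (g.1 1 0) * conj (toC (g.1 1 0)) * (w.2 : ℂ) ^ 2 := by
    rw [Complex.mul_conj', Complex.mul_conj', den, row]
    push_cast
    ring
  have h4 : toC r.1 * (act g w).1 + toC r.2 = ((toC (rmul r g).1 * w.1 + toC (rmul r g).2) *
      conj (toC (g.1 1 0) * w.1 + toC (g.1 1 1)) +
        toC (rmul r g).1 * conj (toC (g.1 1 0)) * (w.2 : ℂ) ^ 2) / (den (row g) w : ℝ) := by
    have h5 : ((den (row g) w : ℝ) : ℂ) ≠ 0 := Complex.ofReal_ne_zero.2 hD.ne'
    rw [eq_div_iff h5, add_mul, act, mul_assoc]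
    simp only
    rw [show (g.1 1 0, g.1 1 1) = row g from rfl, div_mul_cancel₀ _ h5, h3]
    simp only [rmul, map_add, map_mul]
    ring
  rw [h2] at h1
  change _ = den (rmul r g) w * den (row g) w at h1
  rw [den, h4, act_snd, vr, norm_div, Complex.norm_real, Real.norm_eq_abs, abs_of_pos hD]
  generalize ‖(_ : ℂ) * conj (_ : ℂ) + _‖ = N at h1 ⊢
  field_simp
  linear_combination h1
theorem vr_act (r : O × O) (g : SL2) (hw : 0 < w.2) : vr r (act g w) = vr (rmul r g) w := by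
  rw [vr, act_snd, vr, vr, ← den_act r g hw, div_div, mul_comm]
theorem ext_vr (hw : 0 < w.2) (hw' : 0 < w'.2) (h : ∀ r, vr r w = vr r w') : w = w' := by
  have h0 : w.2 = w'.2 := by simpa only [vr_zero_one] using h (0, 1)
  have h1 : ∀ x : O, ‖w.1 + toC x‖ ^ 2 = ‖w'.1 + toC x‖ ^ 2 := by
    intro x
    have h2 : ((1, x) : O × O) ≠ 0 := fun h2 => one_ne_zero (Prod.ext_iff.1 h2).1
    have h3 := h (1, x)
    rw [vr, vr, div_eq_div_iff (den_pos h2 hw).ne' (den_pos h2 hw').ne', h0] at h3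
    have h4 := mul_left_cancel₀ hw'.ne' h3
    simp only [den, map_one, one_mul, h0] at h4
    linarith
  have h2 := h1 0
  have h3 := h1 1
  have h4 := h1 lam
  simp only [toC_lam, map_zero, map_one, Complex.sq_norm, Complex.normSq_apply, add_zero,
    Complex.add_re, Complex.add_im, Complex.mul_re, Complex.mul_im, Complex.one_re,
    Complex.one_im, Complex.I_re, Complex.I_im, Complex.ofReal_re, Complex.ofReal_im] at h2 h3 h4
  refine Prod.ext (Complex.ext (by linarith) ?_) h0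
  refine mul_left_cancel₀ (show √3 ≠ 0 by positivity) ?_
  linarith
theorem act_mul (g h : SL2) (hw : 0 < w.2) : act (g * h) w = act g (act h w) :=
  ext_vr (act_pos _ hw) (act_pos _ (act_pos _ hw)) fun r => by
    rw [vr_act _ _ hw, vr_act _ _ (act_pos _ hw), vr_act _ _ hw, rmul_mul]
theorem act_inv_act (g : SL2) (hw : 0 < w.2) : act g⁻¹ (act g w) = w := by
  rw [← act_mul _ _ hw, inv_mul_cancel, act_one]
theorem act_act_inv (g : SL2) (hw : 0 < w.2) : act g (act g⁻¹ w) = w := by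
  rw [← act_mul _ _ hw, mul_inv_cancel, act_one]
theorem act_mN (x : O) (w : ℂ × ℝ) : act (mN x) w = (w.1 + toC x, w.2) := by
  simp [act, mN, vr, den]
theorem act_mS (w : ℂ × ℝ) : act mS w =
    (-conj w.1 / ((‖w.1‖ ^ 2 + w.2 ^ 2 : ℝ) : ℂ), w.2 / (‖w.1‖ ^ 2 + w.2 ^ 2)) := by
  simp [act, mS, vr, den]
theorem tt_comm (w w' : ℂ × ℝ) : tt w w' = tt w' w := by
  rw [tt, tt, norm_sub_rev]
  ring
theorem tt_act (g : SL2) (hw : 0 < w.2) (hw' : 0 < w'.2) : tt (act g w) (act g w') = tt w w' := by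
  induction g using sl2_induction generalizing w w' with
  | h1 => rw [act_one, act_one]
  | hS g ih =>
    rw [act_mul _ _ hw, act_mul _ _ hw', ih (act_pos _ hw) (act_pos _ hw'), act_mS, act_mS]
    have h1 : 0 < ‖w.1‖ ^ 2 + w.2 ^ 2 := by positivity
    have h2 : 0 < ‖w'.1‖ ^ 2 + w'.2 ^ 2 := by positivity
    simp only [tt, Complex.sq_norm, Complex.normSq_apply, Complex.sub_re, Complex.sub_im,
      Complex.div_ofReal_re, Complex.div_ofReal_im, Complex.neg_re, Complex.neg_im,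
      Complex.conj_re, Complex.conj_im] at h1 h2 ⊢
    generalize hρ : w.1.re * w.1.re + w.1.im * w.1.im + w.2 ^ 2 = ρ at h1
    generalize hρ' : w'.1.re * w'.1.re + w'.1.im * w'.1.im + w'.2 ^ 2 = ρ' at h2
    field_simp
    rw [← hρ, ← hρ']
    ring
  | hN g x ih =>
    rw [act_mul _ _ hw, act_mul _ _ hw', ih (act_pos _ hw) (act_pos _ hw'), act_mN, act_mN]
    simp [tt]
theorem mem_Bt_act (g : SL2) (hw : 0 < w.2) : act g w' ∈ Bt (act g w) ↔ w' ∈ Bt w := by
  simp only [Bt, mem_ofPred_eq, act_pos_iff]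
  exact and_congr_right fun h => by rw [tt_act g hw h]
theorem mem_Bt_iff (hw : 0 < w.2) :
    w' ∈ Bt w ↔ 0 < w'.2 ∧ ‖w'.1 - w.1‖ ^ 2 ≤ 4 * w.2 * w'.2 - w.2 ^ 2 - w'.2 ^ 2 := by
  refine and_congr_right fun h => ?_
  rw [tt, div_le_iff₀ (by positivity), norm_sub_rev]
  constructor <;> intro h <;> linarith
theorem Bt_bounds (hw : 0 < w.2) (h : w' ∈ Bt w) :
    ‖w'.1 - w.1‖ ≤ 2 * w.2 ∧ w.2 / 4 ≤ w'.2 ∧ w'.2 ≤ 4 * w.2 := by
  obtain ⟨h1, h2⟩ := (mem_Bt_iff hw).1 h
  have h3 := sq_nonneg ‖w'.1 - w.1‖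
  refine ⟨abs_le_of_sq_le_sq' ?_ (by positivity) |>.2, ?_, ?_⟩
  · nlinarith [sq_nonneg (w'.2 - 2 * w.2)]
  · nlinarith
  · nlinarith
theorem measurableSet_Bt₂ : MeasurableSet {p : (ℂ × ℝ) × (ℂ × ℝ) | p.2 ∈ Bt p.1} := by
  have h : Measurable fun p : (ℂ × ℝ) × (ℂ × ℝ) => tt p.1 p.2 := by
    unfold tt
    fun_prop
  exact (measurableSet_lt measurable_const measurable_snd.snd).inter
    (measurableSet_le h measurable_const)
theorem measurableSet_Bt (w : ℂ × ℝ) : MeasurableSet (Bt w) :=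
  measurable_prodMk_left (x := w) measurableSet_Bt₂
theorem vr_le (hr : IsCoprime r.1 r.2) (hw : 0 < w.2) : vr r w ≤ max w.2 (1 / w.2) := by
  have h0 := ne_zero_of_coprime hr
  by_cases h : r.1 = 0
  · have h1 := one_le_nm (x := r.2) fun h2 => h0 (Prod.ext h h2)
    refine le_trans (div_le_self hw.le ?_) (le_max_left _ _)
    simpa [den, h, norm_toC_sq] using h1
  · have h1 := one_le_nm h
    refine le_trans ?_ (le_max_right _ _)
    rw [vr, div_le_div_iff₀ (den_pos h0 hw) hw, den, norm_toC_sq r.1]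
    nlinarith [sq_nonneg ‖toC r.1 * w.1 + toC r.2‖, sq_nonneg w.2]
/-- rows form a `SL₂(O)`-set -/
def rmulEquiv (g : SL2) : O × O ≃ O × O where
  toFun r := rmul r g
  invFun r := rmul r g⁻¹
  left_inv r := by simp [← rmul_mul, rmul_one]
  right_inv r := by simp [← rmul_mul, rmul_one]
theorem continuous_den (r : O × O) : Continuous (den r) := by
  unfold den
  fun_prop
theorem measurable_vr (r : O × O) : Measurable (vr r) :=
  measurable_snd.div (continuous_den r).measurable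
theorem measurable_act (g : SL2) : Measurable (act g) :=
  (Measurable.div (Continuous.measurable (by fun_prop))
    (Complex.continuous_ofReal.comp (continuous_den _)).measurable).prodMk (measurable_vr _)
theorem continuousOn_vr (hr : r ≠ 0) : ContinuousOn (vr r) {w | 0 < w.2} :=
  continuousOn_snd.div (continuous_den r).continuousOn fun _ hw => (den_pos hr hw).ne'
theorem continuousOn_act (g : SL2) : ContinuousOn (act g) {w | 0 < w.2} :=
  (ContinuousOn.div (Continuous.continuousOn (by fun_prop))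
    (Complex.continuous_ofReal.comp (continuous_den _)).continuousOn fun _ hw =>
      Complex.ofReal_ne_zero.2 (den_pos (row_ne_zero g) hw).ne').prodMk
    (continuousOn_vr (row_ne_zero g))
theorem Test.comp_act {F : ℂ × ℝ → ℂ} (hF : Test F) (g : SL2) : Test fun w => F (act g w) := by
  obtain ⟨hm, M, hM, h⟩ := hF
  have hK : IsCompact (Metric.closedBall (0 : ℂ) M ×ˢ Icc (1 / M) M) :=
    (isCompact_closedBall _ _).prod isCompact_Icc
  have hs : Metric.closedBall (0 : ℂ) M ×ˢ Icc (1 / M) M ⊆ {w | 0 < w.2} :=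
    fun w hw => (one_div_pos.2 hM).trans_le hw.2.1
  have hc := (continuousOn_act g⁻¹).mono hs
  obtain ⟨C, hC⟩ := hK.exists_bound_of_continuousOn hc
  obtain ⟨C', hC'⟩ := hK.exists_bound_of_continuousOn
    (hc.snd.inv₀ fun w hw => (act_pos _ (hs hw)).ne')
  refine ⟨hm.comp (measurable_act g), max M (max C C'), lt_max_of_lt_left hM, fun w =>
    ⟨(h _).1.trans (le_max_left _ _), fun h0 => ?_⟩⟩
  have h1 : act g w ∈ Metric.closedBall (0 : ℂ) M ×ˢ Icc (1 / M) M :=
    ⟨mem_closedBall_zero_iff.2 ((h _).2 h0).1, ((h _).2 h0).2⟩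
  have h2 := (act_pos_iff g).1 (hs h1)
  have h3 := hC _ h1
  have h4 := hC' _ h1
  simp only [Pi.inv_apply, act_inv_act g h2] at h3 h4
  have h5 : C ≤ max M (max C C') := le_max_of_le_right (le_max_left _ _)
  refine ⟨(norm_fst_le w).trans (h3.trans h5), ?_,
    (le_abs_self _).trans ((norm_snd_le w).trans (h3.trans h5))⟩
  rw [one_div]
  exact inv_le_of_inv_le₀ h2
    ((le_abs_self _).trans (h4.trans (le_max_of_le_right (le_max_right _ _))))
theorem Eis_act (Ψ : O × O → ℂ) (g : SL2) (hw : 0 < w.2) (s : ℂ) :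
    Eis Ψ (act g w) s = Eis (fun r => Ψ (rmul r g⁻¹)) w s := by
  rw [Eis, Eis, ← (rmulEquiv g⁻¹).tsum_eq]
  refine tsum_congr fun r => ?_
  change Ψ (rmul r g⁻¹) * ((vr (rmul r g⁻¹) (act g w) : ℝ) : ℂ) ^ s = _
  rw [vr_act _ _ hw, ← rmul_mul, inv_mul_cancel, rmul_one]

end Vale.Agent.P026
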