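import Vale.Agent.P026.ThMeas

/-! TH-B: the spherical transform of the ball `Bt`.
Plan.  `slice`: `integral_hmu` for the indicator (integrable by `Bt_bounds`, `integrable_of_siegel`), `mem_Bt_iff`, area of a disc
(`Complex.volume_closedBall`), substitution `v = v₀ x` (`integral_comp_mul_left_Ioi`).
`hhat s = ∫ x : ℝ, k x * exp ((s-1) x)`, `k x = π max (4 - 2 cosh x) 0` even, continuous, supported in `|x| ≤ 3/2` (`cosh (3/2) > 2`)
(substitute `x = exp y`, `integral_comp_exp`-type lemma or `integral_image_eq_integral_abs_deriv_smul`).  Differentiate under the integral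
(`hasDerivAt_integral_of_dominated_loc_of_deriv_le`).  By `x ↦ -x`: `2 Im hhat (σ+it) = ∫ k x * 2 sinh((σ-1)x) sin(t x) > 0` and
`2 hhat' (4/3) = ∫ k x * 2 x sinh(x/3) > 0` (`integral_pos_of_integrable_nonneg_nonzero` or `Continuous.integral_pos_of_hasCompactSupport_nonneg_nonzero`). -/

namespace Vale.Agent.P026

open scoped ComplexConjugate Real Topology ENNReal NNReal InnerProductSpace
open MeasureTheory Filter Set

/-- density of the height on the ball around `(0,1)` -/
noncomputable def omg (x : ℝ) : ℝ := π * max (4 * x - x ^ 2 - 1) 0 / x ^ 3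

/-- the ball average acting on functions of the height -/
noncomputable def conv (ψ : ℝ → ℂ) (v : ℝ) : ℂ := ∫ x in Ioi (0 : ℝ), (omg x : ℂ) * ψ (v * x)

/-- the eigenvalue -/
noncomputable def hhat (s : ℂ) : ℂ := ∫ x in Ioi (0 : ℝ), (omg x : ℂ) * (x : ℂ) ^ s

theorem omg_support {x : ℝ} (h : omg x ≠ 0) : 1 / 4 ≤ x ∧ x ≤ 4 := by
  have h1 : 0 < 4 * x - x ^ 2 - 1 := by
    by_contra k
    exact h (by rw [omg, max_eq_right (not_lt.1 k), mul_zero, zero_div])
  constructor <;> nlinarith [sq_nonneg x]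

theorem omg_nonneg (x : ℝ) : 0 ≤ omg x := by
  by_cases h : omg x = 0
  · exact h.ge
  · have : 0 < x := by linarith [(omg_support h).1]
    unfold omg
    positivity

theorem omg_le (x : ℝ) : omg x ≤ 192 * π := by
  have p := Real.pi_pos
  by_cases h : omg x = 0
  · rw [h]
    positivity
  · have h1 := (omg_support h).1
    have h2 : max (4 * x - x ^ 2 - 1) 0 ≤ 3 :=
      max_le (by nlinarith [sq_nonneg (x - 2)]) (by norm_num)
    have h3 : (1 / 4 : ℝ) ^ 3 ≤ x ^ 3 := pow_le_pow_left₀ (by norm_num) h1 3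
    rw [omg, div_le_iff₀ (by linarith)]
    nlinarith

theorem measurable_omg : Measurable omg := by
  unfold omg
  fun_prop

/-- `omg` times a measurable function bounded on `[1/4, 4]` -/
theorem integrable_omg_mul {f : ℝ → ℂ} (hf : Measurable f) {M : ℝ}
    (h : ∀ x, 1 / 4 ≤ x → x ≤ 4 → ‖f x‖ ≤ M) :
    IntegrableOn (fun x => (omg x : ℂ) * f x) (Ioi 0) ∧
      ‖∫ x in Ioi (0 : ℝ), (omg x : ℂ) * f x‖ ≤ 768 * π * M := by
  have p := Real.pi_pos
  have hM : 0 ≤ M := (norm_nonneg _).trans (h 1 (by norm_num) (by norm_num))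
  have hg : Integrable ((Icc (1 / 4 : ℝ) 4).indicator fun _ => 192 * π * M) :=
    (integrable_indicator_iff measurableSet_Icc).2 (integrableOn_const (by simp))
  have g0 : ∀ x, 0 ≤ (Icc (1 / 4 : ℝ) 4).indicator (fun _ => 192 * π * M) x :=
    indicator_nonneg fun _ _ => by positivity
  have hb : ∀ x, ‖(omg x : ℂ) * f x‖ ≤ (Icc (1 / 4 : ℝ) 4).indicator (fun _ => 192 * π * M) x := by
    intro x
    by_cases k : omg x = 0
    · rw [k, Complex.ofReal_zero, zero_mul, norm_zero]
      exact g0 x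
    · have k' := omg_support k
      rw [indicator_of_mem (show x ∈ Icc (1 / 4 : ℝ) 4 from k'), norm_mul, Complex.norm_real,
        Real.norm_of_nonneg (omg_nonneg x)]
      exact mul_le_mul (omg_le x) (h x k'.1 k'.2) (norm_nonneg _) (by positivity)
  refine ⟨hg.integrableOn.mono' ((Complex.measurable_ofReal.comp measurable_omg).mul
    hf).aestronglyMeasurable (Eventually.of_forall hb),
    (norm_integral_le_of_norm_le hg.integrableOn (Eventually.of_forall hb)).trans
      ((setIntegral_le_integral hg (Eventually.of_forall g0)).trans ?_)⟩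
  rw [integral_indicator_const _ measurableSet_Icc, Real.volume_real_Icc_of_le (by norm_num),
    smul_eq_mul]
  nlinarith [mul_nonneg p.le hM]

theorem measurable_omg_int {F : ℝ × ℝ → ℂ} (hF : Measurable F) :
    Measurable fun v => ∫ x in Ioi (0 : ℝ), (omg x : ℂ) * F (v, x) :=
  (StronglyMeasurable.integral_prod_right' (f := fun p : ℝ × ℝ => (omg p.2 : ℂ) * F p)
    (((Complex.measurable_ofReal.comp measurable_omg).comp measurable_snd).mul
      hF).stronglyMeasurable).measurable

theorem measurable_conv {ψ : ℝ → ℂ} (hψ : Measurable ψ) : Measurable (conv ψ) :=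
  measurable_omg_int (F := fun p => ψ (p.1 * p.2)) (hψ.comp (measurable_fst.mul measurable_snd))

theorem hat_area (a : ℂ) (Q : ℝ) : volume.real {z : ℂ | ‖z - a‖ ^ 2 ≤ Q} = π * max Q 0 := by
  rcases lt_or_ge Q 0 with h | h
  · rw [show {z : ℂ | ‖z - a‖ ^ 2 ≤ Q} = ∅ from eq_empty_of_forall_notMem fun z hz =>
      absurd (lt_of_le_of_lt hz h) (not_lt.2 (sq_nonneg _)), max_eq_right h.le]
    simp
  · have e : {z : ℂ | ‖z - a‖ ^ 2 ≤ Q} = Metric.closedBall a √Q := by
      ext z
      rw [mem_closedBall_iff_norm, Real.le_sqrt (norm_nonneg _) h]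
      rfl
    rw [e, Measure.real, Complex.volume_closedBall, max_eq_left h, ENNReal.toReal_mul,
      ENNReal.toReal_pow, ENNReal.toReal_ofReal (Real.sqrt_nonneg _), Real.sq_sqrt h, mul_comm]
    rfl

theorem Bt_siegel {w w' : ℂ × ℝ} (hw : 0 < w.2) (h : w' ∈ Bt w) :
    ‖w'.1‖ ≤ ‖w.1‖ + 2 * w.2 ∧ w.2 / 4 ≤ w'.2 := by
  have b := Bt_bounds hw h
  have c := norm_sub_norm_le w'.1 w.1
  exact ⟨by linarith [b.1], b.2.1⟩

theorem slice {ψ : ℝ → ℂ} (hψ : Measurable ψ) {w : ℂ × ℝ} (hw : 0 < w.2) {M : ℝ}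
    (h : ∀ v, 0 < v → ‖ψ v‖ ≤ M) : ∫ w' in Bt w, ψ w'.2 ∂hmu = conv ψ w.2 := by
  have hi : Integrable ((Bt w).indicator fun w' : ℂ × ℝ => ψ w'.2) hmu :=
    integrable_of_siegel ((hψ.fun_comp measurable_snd).indicator
      (measurableSet_Bt w)).aestronglyMeasurable (a := w.2 / 4) (M := M) (by positivity)
      fun w' hw' => ⟨(norm_indicator_le_norm_self _ _).trans (h _ hw'),
        fun k => Bt_siegel hw (mem_of_indicator_ne_zero k)⟩
  have e := integral_comp_mul_left_Ioi' (fun v => (∫ z, (Bt w).indicator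
    (fun w' : ℂ × ℝ => ψ w'.2) (z, v)) * ((1 / v ^ 3 : ℝ) : ℂ)) 0 hw
  rw [mul_zero] at e
  rw [← integral_indicator (measurableSet_Bt w), integral_hmu hi, ← e, ← integral_smul, conv]
  refine setIntegral_congr_fun measurableSet_Ioi fun x hx => ?_
  have hx : 0 < x := hx
  have e1 : (fun z : ℂ => (Bt w).indicator (fun w' : ℂ × ℝ => ψ w'.2) (z, w.2 * x)) =
      {z : ℂ | ‖z - w.1‖ ^ 2 ≤ w.2 ^ 2 * (4 * x - x ^ 2 - 1)}.indicator fun _ => ψ (w.2 * x) := by
    funext z
    have i : (z, w.2 * x) ∈ Bt w ↔ z ∈ {z : ℂ | ‖z - w.1‖ ^ 2 ≤ w.2 ^ 2 * (4 * x - x ^ 2 - 1)} := by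
      rw [mem_Bt_iff hw, and_iff_right (mul_pos hw hx), mem_ofPred_eq]
      exact iff_of_eq (congrArg _ (by ring))
    by_cases k : (z, w.2 * x) ∈ Bt w
    · rw [indicator_of_mem k, indicator_of_mem (i.1 k)]
    · rw [indicator_of_notMem k, indicator_of_notMem fun k' => k (i.2 k')]
  have e2 : max (w.2 ^ 2 * (4 * x - x ^ 2 - 1)) 0 = w.2 ^ 2 * max (4 * x - x ^ 2 - 1) 0 := by
    rw [mul_max_of_nonneg _ _ (sq_nonneg _), mul_zero]
  have e3 : w.2 * (π * (w.2 ^ 2 * max (4 * x - x ^ 2 - 1) 0) * (1 / (w.2 * x) ^ 3)) = omg x := by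
    unfold omg
    field_simp
  rw [e1, integral_indicator_const _ (measurableSet_le (by fun_prop) measurable_const), hat_area,
    e2, ← e3, Complex.real_smul, Complex.real_smul]
  push_cast
  ring

theorem hmu_Bt : ∃ M : ℝ≥0, ∀ w : ℂ × ℝ, 0 < w.2 → hmu (Bt w) ≤ M := by
  refine ⟨(768 * π * 1).toNNReal, fun w hw => ?_⟩
  have h1 : hmu (Bt w) ≠ ⊤ := ((measure_mono fun _ h => Bt_siegel hw h).trans_lt
    (hmu_siegel _ (show 0 < w.2 / 4 by positivity))).ne
  have h2 := slice (ψ := fun _ => 1) measurable_const hw (M := 1) fun _ _ => norm_one.le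
  have h3 := (integrable_omg_mul (f := fun _ => 1) measurable_const (M := 1)
    fun _ _ _ => norm_one.le).2
  rw [conv] at h2
  rw [← h2, setIntegral_const, norm_smul, norm_one, mul_one,
    Real.norm_of_nonneg measureReal_nonneg] at h3
  rw [← ENNReal.ofReal_toReal h1]
  exact ENNReal.ofReal_le_ofReal h3

/-- the density in logarithmic coordinates -/
noncomputable def hatK (y : ℝ) : ℝ := π * max (4 - Real.exp y - Real.exp (-y)) 0

theorem hatK_nonneg (y : ℝ) : 0 ≤ hatK y := by
  unfold hatK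
  positivity

theorem hatK_neg (y : ℝ) : hatK (-y) = hatK y := by
  unfold hatK
  rw [neg_neg, sub_right_comm]

theorem continuous_hatK : Continuous hatK := by
  unfold hatK
  fun_prop

theorem hatK_support {y : ℝ} (h : hatK y ≠ 0) : -3 < y ∧ y < 3 := by
  have h1 : 0 < 4 - Real.exp y - Real.exp (-y) := by
    by_contra k
    exact h (by rw [hatK, max_eq_right (not_lt.1 k), mul_zero])
  constructor <;>
    linarith [Real.add_one_le_exp y, Real.add_one_le_exp (-y), Real.exp_pos y, Real.exp_pos (-y)]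

theorem hatK_one : 0 < hatK 1 := by
  have h1 := Real.exp_one_lt_d9
  have h2 : Real.exp (-1) < 1 := Real.exp_lt_one_iff.2 (by norm_num)
  exact mul_pos Real.pi_pos (lt_max_of_lt_left (by linarith))

theorem hatK_compact : HasCompactSupport hatK :=
  HasCompactSupport.intro (isCompact_Icc (a := -3) (b := 3)) fun _ hy => by_contra fun k =>
    hy ⟨(hatK_support k).1.le, (hatK_support k).2.le⟩

theorem hatK_int {g : ℝ → ℝ} (hg : Continuous g) : Integrable fun y => hatK y * g y :=
  (continuous_hatK.mul hg).integrable_of_hasCompactSupport hatK_compact.mul_right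

theorem hatK_intC {g : ℝ → ℂ} (hg : Continuous g) : Integrable fun y => (hatK y : ℂ) * g y :=
  ((Complex.continuous_ofReal.comp continuous_hatK).mul hg).integrable_of_hasCompactSupport
    (hatK_compact.comp_left (g := fun x : ℝ => (x : ℂ)) Complex.ofReal_zero).mul_right

theorem hatK_pos {g : ℝ → ℝ} (hg : Continuous g)
    (h : ∀ y, 0 ≤ y → y < 3 → 0 ≤ g y + g (-y)) (h1 : 0 < g 1 + g (-1)) :
    0 < ∫ y, hatK y * g y := by
  have hg' : Continuous fun y => g (-y) := hg.comp continuous_neg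
  have e : ∫ y, hatK y * g (-y) = ∫ y, hatK y * g y := by
    rw [← integral_neg_eq_self fun y => hatK y * g y]
    simp only [hatK_neg]
  have k : 0 < ∫ y, hatK y * (g y + g (-y)) := by
    refine integral_pos_of_integrable_nonneg_nonzero (x := 1) (continuous_hatK.mul (hg.add hg'))
      (hatK_int (hg.add hg')) (fun y => ?_) (mul_pos hatK_one h1).ne'
    by_cases k : hatK y = 0
    · simp [k]
    refine mul_nonneg (hatK_nonneg y) ?_
    rcases le_total 0 y with c | c
    · exact h y c (hatK_support k).2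
    · have := h (-y) (by linarith) (by linarith [(hatK_support k).1])
      rwa [neg_neg, add_comm] at this
  simp only [mul_add] at k
  rw [integral_add (hatK_int hg) (hatK_int hg'), e] at k
  linarith

theorem hhat_eq (s : ℂ) : hhat s = ∫ y : ℝ, (hatK y : ℂ) * Complex.exp ((s - 1) * y) := by
  rw [hhat, ← Real.range_exp, ← image_univ, integral_image_eq_integral_abs_deriv_smul
    MeasurableSet.univ (fun y _ => (Real.hasDerivAt_exp y).hasDerivWithinAt)
    Real.exp_injective.injOn, setIntegral_univ]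
  refine integral_congr_ae (Eventually.of_forall fun y => ?_)
  have p := Real.exp_pos y
  have e1 : Real.exp y * omg (Real.exp y) = hatK y * Real.exp (-y) := by
    have : 4 * Real.exp y - Real.exp y ^ 2 - 1 =
        Real.exp y * (4 - Real.exp y - Real.exp (-y)) := by
      rw [Real.exp_neg]
      field_simp
    have e : max (4 * Real.exp y - Real.exp y ^ 2 - 1) 0 =
        Real.exp y * max (4 - Real.exp y - Real.exp (-y)) 0 := by
      rw [mul_max_of_nonneg _ _ p.le, mul_zero, this]
    unfold omg hatK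
    rw [e]
    generalize max (4 - Real.exp y - Real.exp (-y)) 0 = t
    rw [Real.exp_neg]
    field_simp
  have e2 : ((Real.exp y : ℝ) : ℂ) ^ s = Complex.exp (y * s) := by
    rw [Complex.cpow_def_of_ne_zero (Complex.ofReal_ne_zero.2 p.ne'), ← Complex.ofReal_log p.le,
      Real.log_exp]
  beta_reduce
  rw [abs_of_pos p, Complex.real_smul, ← mul_assoc, ← Complex.ofReal_mul, e1, e2,
    Complex.ofReal_mul, Complex.ofReal_exp, mul_assoc, ← Complex.exp_add]
  push_cast
  congr 2
  ring

theorem hasDerivAt_hhat (s : ℂ) :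
    HasDerivAt hhat (∫ y : ℝ, (hatK y : ℂ) * (Complex.exp ((s - 1) * y) * y)) s := by
  rw [funext hhat_eq]
  refine (hasDerivAt_integral_of_dominated_loc_of_deriv_le (Metric.ball_mem_nhds s one_pos)
    (F := fun (x : ℂ) (y : ℝ) => (hatK y : ℂ) * Complex.exp ((x - 1) * y))
    (F' := fun (x : ℂ) (y : ℝ) => (hatK y : ℂ) * (Complex.exp ((x - 1) * y) * y))
    (bound := fun y => hatK y * (Real.exp ((‖s - 1‖ + 1) * |y|) * |y|))
    (Eventually.of_forall fun x => (hatK_intC (by fun_prop)).aestronglyMeasurable)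
    (hatK_intC (by fun_prop)) (hatK_intC (by fun_prop)).aestronglyMeasurable
    (Eventually.of_forall fun y x hx => ?_) (hatK_int (by fun_prop))
    (Eventually.of_forall fun y x _ => ?_)).2
  · rw [norm_mul, norm_mul, Complex.norm_real, Complex.norm_real,
      Real.norm_of_nonneg (hatK_nonneg y), Real.norm_eq_abs]
    refine mul_le_mul_of_nonneg_left (mul_le_mul_of_nonneg_right
      ((Complex.norm_exp_le_exp_norm _).trans (Real.exp_le_exp.2 ?_)) (abs_nonneg _))
      (hatK_nonneg y)
    rw [norm_mul, Complex.norm_real, Real.norm_eq_abs]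
    refine mul_le_mul_of_nonneg_right ?_ (abs_nonneg _)
    have := norm_add_le (s - 1) (x - s)
    rw [show s - 1 + (x - s) = x - 1 by ring] at this
    linarith [mem_ball_iff_norm.1 hx]
  · have := ((((hasDerivAt_id x).sub_const 1).mul_const (y : ℂ)).cexp).const_mul (hatK y : ℂ)
    rwa [one_mul] at this

theorem differentiable_hhat : Differentiable ℂ hhat :=
  fun s => (hasDerivAt_hhat s).differentiableAt

theorem hhat_im_ne {s : ℂ} (hs : s ∈ Dom) : (hhat s).im ≠ 0 := by
  obtain ⟨h1, -, h2, h3⟩ := hs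
  have e : (hhat s).im = ∫ y, hatK y * (Real.exp ((s.re - 1) * y) * Real.sin (s.im * y)) := by
    rw [hhat_eq]
    refine (integral_im (hatK_intC (by fun_prop))).symm.trans
      (integral_congr_ae (Eventually.of_forall fun y => ?_))
    simp [Complex.exp_im]
  have key : ∀ y, Real.exp ((s.re - 1) * y) * Real.sin (s.im * y) +
      Real.exp ((s.re - 1) * -y) * Real.sin (s.im * -y) =
      (Real.exp ((s.re - 1) * y) - Real.exp ((s.re - 1) * -y)) * Real.sin (s.im * y) := fun y => by
    rw [mul_neg s.im, Real.sin_neg]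
    ring
  have p := Real.pi_gt_three
  rw [e]
  refine (hatK_pos (by fun_prop) (fun y y0 y3 => ?_) ?_).ne' <;> rw [key]
  · refine mul_nonneg (sub_nonneg.2 (Real.exp_le_exp.2 (by nlinarith)))
      (Real.sin_nonneg_of_nonneg_of_le_pi (by positivity) (by nlinarith))
  · refine mul_pos (sub_pos.2 (Real.exp_lt_exp.2 (by linarith)))
      (Real.sin_pos_of_pos_of_lt_pi (by linarith) (by linarith))

theorem hat_exp (y : ℝ) : Complex.exp ((4 / 3 - 1) * y) = (Real.exp (y / 3) : ℝ) := by
  push_cast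
  congr 1
  ring

theorem hhat_im_zero : (hhat (4 / 3)).im = 0 := by
  simp only [hhat_eq, hat_exp, ← Complex.ofReal_mul]
  rw [integral_complex_ofReal, Complex.ofReal_im]

theorem hhat_deriv : ∃ a : ℝ, a ≠ 0 ∧ HasDerivAt hhat a (4 / 3) := by
  have h := hasDerivAt_hhat (4 / 3)
  simp only [hat_exp, ← Complex.ofReal_mul] at h
  rw [integral_complex_ofReal] at h
  refine ⟨_, (hatK_pos (by fun_prop) (fun y y0 _ => ?_) ?_).ne', h⟩
  · have : Real.exp (-y / 3) ≤ Real.exp (y / 3) := Real.exp_le_exp.2 (by linarith)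
    nlinarith
  · have : Real.exp (-1 / 3) < Real.exp (1 / 3) := Real.exp_lt_exp.2 (by norm_num)
    linarith

end Vale.Agent.P026
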