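import Vale.Agent.P026.ThMeas
import Vale.Agent.P026.ThCount

/-! TH-B: a finite measure that plays the role of a fundamental domain.
Plan for `exists_weight`.  `S₀ = {‖z‖ ≤ 1, 1/4 ≤ v}`, `Φ w = ∑' g : SL2, 1_{S₀}(act g w) ∈ ℝ≥0∞`, measurable, `1 ≤ Φ w < ⊤` for `v > 0`
(`exists_act_siegel`, `finite_act`), invariant (`act_mul`, `Equiv.mulRight`).  `φ₀ = 1_{S₀} / Φ`, so `∑' g, φ₀ (act g w) = 1`.
`φ w = ∑ q : SL2 ⧸ Γ, φ₀ (act q.out w)`; `∑' δ : Γ, φ (act δ w) = 1` by `Subgroup.groupEquivQuotientProdSubgroup` (or the bijection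
`(q, δ) ↦ q.out * δ`).  `ν = hmu.withDensity φ`, finite by `lintegral_act`, `hmu_siegel`.  For a measurable set `A`:
`∑' δ, ν (act δ ⁻¹' A) = ∑' δ, ∫⁻ 1_A(act δ w) φ w = ∑' δ, ∫⁻ 1_A w φ (act δ⁻¹ w) = hmu A`.
`IsWt.integral`: `integral_sum_measure`, `integral_map`, `integral_tsum` (finiteness from `IsWt.lintegral` for `‖f‖ₑ`). -/

namespace Vale.Agent.P026

open scoped ComplexConjugate Real Topology ENNReal NNReal InnerProductSpace
open MeasureTheory Filter Set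

/-- `ν` is a finite measure whose translates add up to `hmu` -/
def IsWt (Γ : Subgroup SL2) (ν : Measure (ℂ × ℝ)) : Prop :=
  IsFiniteMeasure ν ∧ hmu = Measure.sum fun δ : Γ => ν.map (act δ)

/-- coset decomposition -/
noncomputable def cosetEquiv (Γ : Subgroup SL2) : (SL2 ⧸ Γ) × Γ ≃ SL2 :=
  Equiv.ofBijective (fun p => p.1.out * p.2) ⟨fun p p' h => by
    have e : ∀ p : (SL2 ⧸ Γ) × Γ, ((p.1.out * p.2 : SL2) : SL2 ⧸ Γ) = p.1 := fun p => by
      rw [QuotientGroup.mk_mul_of_mem _ p.2.2, QuotientGroup.out_eq']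
    have h1 : p.1 = p'.1 := by rw [← e p, ← e p']; exact congrArg _ h
    refine Prod.ext h1 (Subtype.ext ?_)
    beta_reduce at h
    rw [h1] at h
    exact mul_left_cancel h,
  fun g => ⟨((g : SL2 ⧸ Γ), ⟨(g : SL2 ⧸ Γ).out⁻¹ * g,
    QuotientGroup.eq.1 (QuotientGroup.out_eq' _)⟩), mul_inv_cancel_left _ _⟩⟩

theorem cosetEquiv_apply (Γ : Subgroup SL2) (p : (SL2 ⧸ Γ) × Γ) :
    cosetEquiv Γ p = p.1.out * p.2 := rfl

/-- a Siegel set -/
def wtS : Set (ℂ × ℝ) := {w | ‖w.1‖ ≤ 1 ∧ 1 / 4 ≤ w.2}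

theorem measurableSet_wtS : MeasurableSet wtS :=
  (measurableSet_le measurable_fst.norm measurable_const).inter
    (measurableSet_le measurable_const measurable_snd)

theorem exists_wt0 : ∃ φ : ℂ × ℝ → ℝ≥0∞, Measurable φ ∧ ∫⁻ w, φ w ∂hmu ≠ ⊤ ∧
    ∀ w : ℂ × ℝ, 0 < w.2 → ∑' g : SL2, φ (act g w) = 1 := by
  obtain ⟨I, hI⟩ : ∃ I, I = wtS.indicator fun _ => (1 : ℝ≥0∞) := ⟨_, rfl⟩
  have mI : Measurable I := hI ▸ measurable_const.indicator measurableSet_wtS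
  obtain ⟨Φ, hΦ⟩ : ∃ Φ : ℂ × ℝ → ℝ≥0∞, Φ = fun w => ∑' g : SL2, I (act g w) := ⟨_, rfl⟩
  have mΦ : Measurable Φ := hΦ ▸ Measurable.tsum fun g => mI.fun_comp (measurable_act g)
  have h1 : ∀ w : ℂ × ℝ, 0 < w.2 → 1 ≤ Φ w := fun w hw => by
    obtain ⟨g, hg⟩ := exists_act_siegel hw
    rw [hΦ]
    refine le_trans (le_of_eq ?_) (ENNReal.le_tsum g)
    rw [hI, indicator_of_mem (show act g w ∈ wtS from hg)]
  have h2 : ∀ w : ℂ × ℝ, 0 < w.2 → Φ w ≠ ⊤ := fun w hw => by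
    have hf := finite_act hw 1 (show (0 : ℝ) < 1 / 4 by norm_num)
    rw [hΦ]
    beta_reduce
    rw [tsum_eq_sum (s := hf.toFinset) fun g hg => by
      rw [hI, indicator_of_notMem (show act g w ∉ wtS from fun k => hg (hf.mem_toFinset.2 k))]]
    refine ENNReal.sum_ne_top.2 fun g _ => ?_
    rw [hI]
    exact ne_top_of_le_ne_top ENNReal.one_ne_top (indicator_le_self _ _ _)
  have h3 : ∀ w : ℂ × ℝ, 0 < w.2 → ∀ h, Φ (act h w) = Φ w := fun w hw h => by
    rw [hΦ]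
    beta_reduce
    rw [← (Equiv.mulRight h).tsum_eq fun g => I (act g w)]
    exact tsum_congr fun g => by rw [Equiv.coe_mulRight, act_mul g h hw]
  refine ⟨fun w => I w * (Φ w)⁻¹, mI.mul mΦ.inv, ?_, fun w hw => ?_⟩
  · refine ne_top_of_le_ne_top (hmu_siegel 1 (show (0 : ℝ) < 1 / 4 by norm_num)).ne ?_
    calc ∫⁻ w, I w * (Φ w)⁻¹ ∂hmu ≤ ∫⁻ w, I w ∂hmu :=
          lintegral_mono_ae (ae_pos.mono fun w hw =>
            mul_le_of_le_one_right' (ENNReal.inv_le_one.2 (h1 w hw)))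
      _ = hmu wtS := by rw [hI, lintegral_indicator_const measurableSet_wtS, one_mul]
  · simp only [h3 w hw]
    rw [ENNReal.tsum_mul_right]
    have e : ∑' g : SL2, I (act g w) = Φ w := by rw [hΦ]
    rw [e]
    exact ENNReal.mul_inv_cancel (lt_of_lt_of_le one_pos (h1 w hw)).ne' (h2 w hw)

theorem exists_weight (Γ : Subgroup SL2) [Γ.FiniteIndex] : ∃ ν, IsWt Γ ν := by
  obtain ⟨φ₀, m0, f0, s0⟩ := exists_wt0
  have := Subgroup.fintypeQuotientOfFiniteIndex (H := Γ)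
  obtain ⟨φ, hφ⟩ : ∃ φ : ℂ × ℝ → ℝ≥0∞, φ = fun w => ∑' q : SL2 ⧸ Γ, φ₀ (act q.out w) := ⟨_, rfl⟩
  have m1 : Measurable φ := hφ ▸ Measurable.tsum fun q => m0.fun_comp (measurable_act _)
  have s1 : ∀ w : ℂ × ℝ, 0 < w.2 → ∑' δ : Γ, φ (act (δ : SL2)⁻¹ w) = 1 := fun w hw => by
    rw [← s0 w hw, ← (cosetEquiv Γ).tsum_eq, ENNReal.tsum_prod', ENNReal.tsum_comm,
      ← (Equiv.inv Γ).tsum_eq, hφ]
    refine tsum_congr fun δ => tsum_congr fun q => ?_
    rw [cosetEquiv_apply, act_mul _ _ hw, Equiv.inv_apply, Subgroup.coe_inv, inv_inv]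
  refine ⟨hmu.withDensity φ, isFiniteMeasure_withDensity ?_, ?_⟩
  · rw [hφ]
    beta_reduce
    rw [lintegral_tsum fun q : SL2 ⧸ Γ => (m0.fun_comp (measurable_act q.out)).aemeasurable,
      tsum_fintype]
    refine ENNReal.sum_ne_top.2 fun q _ => ?_
    rw [lintegral_act _ m0]
    exact f0
  · ext A hA
    have e : ∀ δ : Γ, (hmu.withDensity φ).map (act δ) A =
        ∫⁻ w in A, φ (act (δ : SL2)⁻¹ w) ∂hmu := fun δ => by
      have hA' := measurable_act δ hA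
      rw [Measure.map_apply (measurable_act δ) hA, withDensity_apply _ hA',
        ← lintegral_indicator hA', ← lintegral_indicator hA,
        ← lintegral_act δ ((m1.fun_comp (measurable_act _)).indicator hA)]
      refine lintegral_congr_ae (ae_pos.mono fun w hw => ?_)
      beta_reduce
      by_cases k : act δ w ∈ A
      · rw [indicator_of_mem k, indicator_of_mem (show w ∈ act δ ⁻¹' A from k),
          act_inv_act _ hw]
      · rw [indicator_of_notMem k, indicator_of_notMem (show w ∉ act δ ⁻¹' A from k)]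
    rw [Measure.sum_apply _ hA, tsum_congr e,
      ← lintegral_tsum fun δ : Γ => (m1.fun_comp (measurable_act (δ : SL2)⁻¹)).aemeasurable,
      ← setLIntegral_one]
    exact lintegral_congr_ae (ae_restrict_of_ae (ae_pos.mono fun w hw => (s1 w hw).symm))

variable {Γ : Subgroup SL2} {ν : Measure (ℂ × ℝ)}

theorem IsWt.ae_pos (h : IsWt Γ ν) : ∀ᵐ w ∂ν, 0 < w.2 := by
  have k := P026.ae_pos
  rw [h.2, Measure.ae_sum_iff] at k
  exact (ae_of_ae_map (measurable_act _).aemeasurable (k 1)).mono fun w hw =>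
    (act_pos_iff _).1 hw

theorem IsWt.lintegral (h : IsWt Γ ν) {f : ℂ × ℝ → ℝ≥0∞} (hf : Measurable f) :
    ∫⁻ w, f w ∂hmu = ∫⁻ w, ∑' δ : Γ, f (act δ w) ∂ν := by
  rw [h.2, lintegral_sum_measure,
    lintegral_tsum fun δ : Γ => (hf.fun_comp (measurable_act δ)).aemeasurable]
  exact tsum_congr fun δ => lintegral_map hf (measurable_act δ)

theorem IsWt.integral (h : IsWt Γ ν) {f : ℂ × ℝ → ℂ} (hf : Measurable f) (hi : Integrable f hmu) :
    ∫ w, f w ∂hmu = ∫ w, ∑' δ : Γ, f (act δ w) ∂ν := by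
  have k := h.lintegral hf.enorm
  rw [lintegral_tsum fun δ : Γ => (hf.enorm.fun_comp (measurable_act δ)).aemeasurable] at k
  rw [integral_tsum (fun δ : Γ => (hf.fun_comp (measurable_act δ)).aestronglyMeasurable)
    (k ▸ hi.2.ne)]
  rw [h.2] at hi ⊢
  rw [integral_sum_measure hi]
  exact tsum_congr fun δ => integral_map (measurable_act δ).aemeasurable hf.aestronglyMeasurable

end Vale.Agent.P026
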