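import Vale.Agent.P026.ThProf
import Vale.Agent.P026.ThWeight

/-! TH-B: incomplete Eisenstein series.
Plan.  Everything rests on `tsum_rows`.  `Prof.aut`: `Measurable.tsum`, `vr_act`, reindex by `rmulEquiv`, `cls_iff`
(`Ψ r = kap δ * Ψ (r δ⁻¹)`, `norm_kap`).  `ball_JJ`: `integral_tsum` (`hmu_Bt`), then for a primitive row `r = row g`:
`∫ w' in Bt w, ψ (vr r w') = ∫ w' in Bt (act g w), ψ w'.2` (`integral_act` for the indicator, `mem_Bt_act`) `= conv ψ (vr r w)` (`slice`).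
`UD.differentiable`: `HasDerivAt` with derivative `cl ν (JJ Ψ p')`, the remainder is `cl ν (JJ Ψ (remainder))` of norm `≤ C' ‖s-s₀‖²`
(`norm_cl_le`, `JJ_bound`). -/

namespace Vale.Agent.P026

open scoped ComplexConjugate Real Topology ENNReal NNReal InnerProductSpace
open MeasureTheory Filter Set

/-- incomplete Eisenstein series -/
noncomputable def JJ (Ψ : O × O → ℂ) (ψ : ℝ → ℂ) (w : ℂ × ℝ) : ℂ := ∑' r : O × O, Ψ r * ψ (vr r w)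

/-- bounded measurable automorphic functions -/
def AutF (m : O) (f : ℂ × ℝ → ℂ) : Prop :=
  Measurable f ∧ (∃ M : ℝ, ∀ w : ℂ × ℝ, 0 < w.2 → ‖f w‖ ≤ M) ∧
    ∀ δ ∈ Gam m, ∀ w : ℂ × ℝ, 0 < w.2 → f (act δ w) = conj (kap δ) * f w

open Classical in
/-- the class in `L²` -/
noncomputable def cl (ν : Measure (ℂ × ℝ)) (f : ℂ × ℝ → ℂ) : Lp ℂ 2 ν :=
  if h : MemLp f 2 ν then h.toLp f else 0

variable {m : O} {Ψ : O × O → ℂ} {ψ χ : ℝ → ℂ} {ν : Measure (ℂ × ℝ)} {Γ : Subgroup SL2}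
  {f g : ℂ × ℝ → ℂ} {w : ℂ × ℝ}

theorem memLp_of_bdd (hν : IsWt Γ ν) (hf : Measurable f) {M : ℝ}
    (h : ∀ w : ℂ × ℝ, 0 < w.2 → ‖f w‖ ≤ M) : MemLp f 2 ν :=
  have := hν.1
  MemLp.of_bound hf.aestronglyMeasurable M (hν.ae_pos.mono h)

theorem AutF.memLp (hν : IsWt Γ ν) (hf : AutF m f) : MemLp f 2 ν :=
  let ⟨_, h⟩ := hf.2.1
  memLp_of_bdd hν hf.1 h

theorem cl_ae (hf : MemLp f 2 ν) : (cl ν f : ℂ × ℝ → ℂ) =ᵐ[ν] f := by
  rw [cl, dif_pos hf]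
  exact hf.coeFn_toLp

theorem eq_cl {x : Lp ℂ 2 ν} (h : (x : ℂ × ℝ → ℂ) =ᵐ[ν] f) : x = cl ν f :=
  Lp.ext (h.trans (cl_ae ((memLp_congr_ae h).1 (Lp.memLp x))).symm)

theorem cl_congr (h : f =ᵐ[ν] g) : cl ν f = cl ν g := by
  by_cases hf : MemLp f 2 ν
  · exact eq_cl ((cl_ae hf).trans h)
  · rw [cl, cl, dif_neg hf, dif_neg fun k => hf ((memLp_congr_ae h).2 k)]

theorem cl_sub_smul (hf : MemLp f 2 ν) (hg : MemLp g 2 ν) (c : ℂ) :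
    cl ν (fun w => f w - c * g w) = cl ν f - c • cl ν g := by
  refine (eq_cl ?_).symm
  filter_upwards [Lp.coeFn_sub (cl ν f) (c • cl ν g), Lp.coeFn_smul c (cl ν g), cl_ae hf,
    cl_ae hg] with w h1 h2 h3 h4
  rw [h1, Pi.sub_apply, h2, Pi.smul_apply, h3, h4, smul_eq_mul]

theorem cl_sum {ι : Type*} (t : Finset ι) (c : ι → ℂ) {f : ι → ℂ × ℝ → ℂ}
    (hf : ∀ i ∈ t, MemLp (f i) 2 ν) :
    cl ν (fun w => ∑ i ∈ t, c i * f i w) = ∑ i ∈ t, c i • cl ν (f i) := by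
  classical
  refine (eq_cl ?_).symm
  induction t using Finset.induction_on with
  | empty => exact Lp.coeFn_zero ℂ 2 ν
  | insert i t hi ih =>
    simp only [Finset.sum_insert hi]
    filter_upwards [Lp.coeFn_add (c i • cl ν (f i)) (∑ i ∈ t, c i • cl ν (f i)),
      Lp.coeFn_smul (c i) (cl ν (f i)), cl_ae (hf i (Finset.mem_insert_self _ _)),
      ih fun j hj => hf j (Finset.mem_insert_of_mem hj)] with w h1 h2 h3 h4
    rw [h1, Pi.add_apply, h2, Pi.smul_apply, h3, h4, smul_eq_mul]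

theorem inner_cl (hf : MemLp (fun w => conj (f w)) 2 ν) (hg : MemLp g 2 ν) :
    ⟪cl ν fun w => conj (f w), cl ν g⟫_ℂ = ∫ w, g w * f w ∂ν := by
  rw [L2.inner_def]
  refine integral_congr_ae ?_
  filter_upwards [cl_ae hf, cl_ae hg] with w h1 h2
  rw [h1, h2, RCLike.inner_apply, Complex.conj_conj]

theorem norm_cl_sq (hf : MemLp f 2 ν) : ‖cl ν f‖ ^ 2 = ∫ w, ‖f w‖ ^ 2 ∂ν := by
  apply Complex.ofReal_injective
  have e := inner_self_eq_norm_sq_to_K (𝕜 := ℂ) (cl ν f)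
  rw [L2.inner_def] at e
  rw [← integral_complex_ofReal, Complex.ofReal_pow]
  refine e.symm.trans (integral_congr_ae ?_)
  filter_upwards [cl_ae hf] with w h1
  rw [h1, inner_self_eq_norm_sq_to_K, Complex.ofReal_pow]
  rfl

theorem norm_cl_le (hν : IsWt Γ ν) : ∃ C : ℝ, 0 ≤ C ∧ ∀ (f : ℂ × ℝ → ℂ) (M : ℝ), 0 ≤ M →
    (∀ w : ℂ × ℝ, 0 < w.2 → ‖f w‖ ≤ M) → ‖cl ν f‖ ≤ C * M := by
  have := hν.1
  refine ⟨(measureUnivNNReal ν : ℝ) ^ (2 : ℝ≥0∞).toReal⁻¹, by positivity, fun f M hM h => ?_⟩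
  by_cases hf : MemLp f 2 ν
  · refine Lp.norm_le_of_ae_bound hM ?_
    filter_upwards [cl_ae hf, hν.ae_pos] with w h1 h2
    rw [h1]
    exact h w h2
  · rw [cl, dif_neg hf, norm_zero]
    positivity

theorem JJ_bound {σ : ℝ} (hσ : 2 < σ) : ∃ C : ℝ, 0 < C ∧ ∀ (m : O) (Ψ : O × O → ℂ), Cls m Ψ →
    ∀ (ψ : ℝ → ℂ) (M : ℝ), 0 ≤ M → (∀ v, 0 < v → ‖ψ v‖ ≤ M * min 1 (v ^ σ)) →
      ∀ w : ℂ × ℝ, 0 < w.2 → Summable (fun r => ‖Ψ r * ψ (vr r w)‖) ∧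
        ∑' r, ‖Ψ r * ψ (vr r w)‖ ≤ C * M ∧ ‖JJ Ψ ψ w‖ ≤ C * M := by
  obtain ⟨C, hC, h⟩ := tsum_rows hσ
  refine ⟨C, hC, fun m Ψ hΨ ψ M hM hψ w hw => ?_⟩
  obtain ⟨h1, h2⟩ := h w hw (fun r => Ψ r * ψ (vr r w)) M hM
    (fun r hr => by rw [hΨ.1 r hr, zero_mul]) fun r hr => by
      rw [norm_mul]
      exact (mul_le_of_le_one_left (norm_nonneg _) (hΨ.2.1 r)).trans
        (hψ _ (vr_pos (ne_zero_of_coprime hr) hw))
  exact ⟨h1, h2, (norm_tsum_le_tsum_norm h1).trans h2⟩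

theorem Prof.summable (hΨ : Cls m Ψ) (hψ : Prof ψ) (hw : 0 < w.2) :
    Summable fun r => Ψ r * ψ (vr r w) := by
  obtain ⟨-, M, σ, hM, hσ, h⟩ := hψ
  obtain ⟨C, -, hC⟩ := JJ_bound hσ
  exact (hC m Ψ hΨ ψ M hM h w hw).1.of_norm

theorem measurable_JJ (Ψ : O × O → ℂ) (hψ : Measurable ψ) : Measurable (JJ Ψ ψ) :=
  Measurable.tsum fun r => (hψ.comp (measurable_vr r)).const_mul _

theorem Prof.JJ_bdd (hΨ : Cls m Ψ) (hψ : Prof ψ) :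
    ∃ M : ℝ, ∀ w : ℂ × ℝ, 0 < w.2 → ‖JJ Ψ ψ w‖ ≤ M := by
  obtain ⟨-, M, σ, hM, hσ, h⟩ := hψ
  obtain ⟨C, -, hC⟩ := JJ_bound hσ
  exact ⟨C * M, fun w hw => (hC m Ψ hΨ ψ M hM h w hw).2.2⟩

theorem Prof.memLp_JJ (hν : IsWt Γ ν) (hΨ : Cls m Ψ) (hψ : Prof ψ) : MemLp (JJ Ψ ψ) 2 ν :=
  let ⟨_, h⟩ := hψ.JJ_bdd hΨ
  memLp_of_bdd hν (measurable_JJ Ψ hψ.1) h

theorem Prof.aut (h9 : (9 : O) ∣ m) (hΨ : Cls m Ψ) (hψ : Prof ψ) : AutF m (JJ Ψ ψ) := by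
  refine ⟨measurable_JJ Ψ hψ.1, hψ.JJ_bdd hΨ, fun δ hδ w hw => ?_⟩
  unfold JJ
  rw [← (rmulEquiv δ).tsum_eq fun r => Ψ r * ψ (vr r w), ← tsum_mul_left]
  refine tsum_congr fun r => ?_
  have h1 := ((cls_iff h9).1 hΨ).2.2 δ hδ r
  have h2 := rw_mul_conj (norm_kap δ)
  show _ = conj (kap δ) * (Ψ (rmul r δ) * ψ (vr (rmul r δ) w))
  rw [vr_act r δ hw, h1]
  linear_combination (-(Ψ r * ψ (vr (rmul r δ) w))) * h2

theorem JJ_sub_smul (hΨ : Cls m Ψ) (hψ : Prof ψ) (hχ : Prof χ) (c : ℂ) (hw : 0 < w.2) :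
    JJ Ψ (fun v => ψ v - c * χ v) w = JJ Ψ ψ w - c * JJ Ψ χ w := by
  refine Eq.trans (tsum_congr fun r => ?_)
    ((hψ.summable hΨ hw).hasSum.sub ((hχ.summable hΨ hw).hasSum.mul_left c)).tsum_eq
  ring

theorem ball_JJ (hΨ : Cls m Ψ) (hψ : Prof ψ) (hw : 0 < w.2) :
    ∫ w' in Bt w, JJ Ψ ψ w' ∂hmu = JJ Ψ (conv ψ) w := by
  obtain ⟨M', hM'⟩ := hψ.bdd
  obtain ⟨h0, M, σ, hM, hσ, h⟩ := hψ
  obtain ⟨C, -, hC⟩ := JJ_bound hσ
  obtain ⟨B, hB⟩ := hmu_Bt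
  have mm : ∀ r, Measurable fun w' => Ψ r * ψ (vr r w') := fun r =>
    (h0.comp (measurable_vr r)).const_mul _
  unfold JJ
  rw [integral_tsum fun r => (mm r).aestronglyMeasurable]
  · refine tsum_congr fun r => ?_
    rw [integral_const_mul]
    by_cases hr : IsCoprime r.1 r.2
    · obtain ⟨g, rfl⟩ := exists_row hr
      congr 1
      rw [← act_snd, ← slice h0 (act_pos g hw) hM', ← integral_indicator (measurableSet_Bt _),
        ← integral_indicator (measurableSet_Bt _),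
        ← integral_act g ((h0.fun_comp measurable_snd).indicator (measurableSet_Bt (act g w)))]
      refine integral_congr_ae (Eventually.of_forall fun w' => ?_)
      beta_reduce
      by_cases k : w' ∈ Bt w
      · rw [indicator_of_mem k, indicator_of_mem ((mem_Bt_act g hw).2 k)]
        rfl
      · rw [indicator_of_notMem k, indicator_of_notMem fun k' => k ((mem_Bt_act g hw).1 k')]
    · rw [hΨ.1 r hr, zero_mul, zero_mul]
  · rw [← lintegral_tsum fun r => (mm r).enorm.aemeasurable]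
    refine ne_top_of_le_ne_top (b := ∫⁻ _ in Bt w, ENNReal.ofReal (C * M) ∂hmu) ?_
      (setLIntegral_mono' (measurableSet_Bt w) fun w' hw' => ?_)
    · rw [setLIntegral_const]
      exact ENNReal.mul_ne_top ENNReal.ofReal_ne_top
        (ne_top_of_le_ne_top ENNReal.coe_ne_top (hB w hw))
    · obtain ⟨h1, h2, -⟩ := hC m Ψ hΨ ψ M hM h w' hw'.1
      simp only [← ofReal_norm]
      rw [← ENNReal.ofReal_tsum_of_nonneg (fun _ => norm_nonneg _) h1]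
      exact ENNReal.ofReal_le_ofReal h2

theorem Eis_split (hΨ : Cls m Ψ) {s : ℂ} (hs : 2 < s.re) (hw : 0 < w.2) {b : ℝ}
    (hb : max w.2 (1 / w.2) ≤ b) : Eis Ψ w s = JJ Ψ (lowP s) w + JJ Ψ (hiP b s) w := by
  refine Eq.trans (tsum_congr fun r => ?_) (((prof_lowP hs).summable hΨ hw).hasSum.add
    (((ud_hiP b).prof s).summable hΨ hw).hasSum).tsum_eq
  by_cases hr : IsCoprime r.1 r.2
  · rw [← mul_add, lowP_add_hiP (vr_pos (ne_zero_of_coprime hr) hw) ((vr_le hr hw).trans hb)]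
  · simp [hΨ.1 r hr]

theorem UD.differentiable (hν : IsWt Γ ν) (hΨ : Cls m Ψ) {p : ℂ → ℝ → ℂ} (hp : UD p) :
    Differentiable ℂ fun s => cl ν (JJ Ψ (p s)) := by
  intro s₀
  obtain ⟨p', C, δ, hC, hδ, mp, h⟩ := hp.2 s₀
  have pp : Prof p' := ⟨mp, C, 3, hC, by norm_num, fun v hv => (h v hv).2.1⟩
  obtain ⟨C₁, -, h1⟩ := JJ_bound (σ := 3) (by norm_num)
  obtain ⟨C₂, -, h2⟩ := norm_cl_le hν
  refine HasDerivAt.differentiableAt (f' := cl ν (JJ Ψ p')) (hasDerivAt_iff_isLittleO.2 ?_)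
  refine Asymptotics.IsBigO.trans_isLittleO (Asymptotics.IsBigO.of_bound (C₂ * (C₁ * C)) ?_)
    (Asymptotics.isLittleO_pow_sub_sub s₀ one_lt_two)
  filter_upwards [Metric.closedBall_mem_nhds s₀ hδ] with s hs
  rw [mem_closedBall_iff_norm] at hs
  have k := h1 m Ψ hΨ (fun v => p s v - p s₀ v - (s - s₀) * p' v) (C * ‖s - s₀‖ ^ 2)
    (by positivity) fun v hv => (h v hv).2.2 s hs
  have e : cl ν (JJ Ψ (p s)) - cl ν (JJ Ψ (p s₀)) - (s - s₀) • cl ν (JJ Ψ p') =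
      cl ν (JJ Ψ fun v => p s v - p s₀ v - (s - s₀) * p' v) := by
    refine eq_cl ?_
    filter_upwards [Lp.coeFn_sub (cl ν (JJ Ψ (p s)) - cl ν (JJ Ψ (p s₀)))
      ((s - s₀) • cl ν (JJ Ψ p')), Lp.coeFn_sub (cl ν (JJ Ψ (p s))) (cl ν (JJ Ψ (p s₀))),
      Lp.coeFn_smul (s - s₀) (cl ν (JJ Ψ p')), cl_ae ((hp.prof s).memLp_JJ hν hΨ),
      cl_ae ((hp.prof s₀).memLp_JJ hν hΨ), cl_ae (pp.memLp_JJ hν hΨ), hν.ae_pos]
      with w a1 a2 a3 a4 a5 a6 hw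
    rw [a1, Pi.sub_apply, a2, Pi.sub_apply, a3, Pi.smul_apply, a4, a5, a6, smul_eq_mul]
    refine Eq.trans ((((hp.prof s).summable hΨ hw).hasSum.sub
      ((hp.prof s₀).summable hΨ hw).hasSum).sub
      ((pp.summable hΨ hw).hasSum.mul_left (s - s₀))).tsum_eq.symm (tsum_congr fun r => ?_)
    ring
  have w0 : (0 : ℝ) < ((0 : ℂ), (1 : ℝ)).2 := one_pos
  rw [e, norm_pow, norm_norm]
  exact (h2 _ _ ((norm_nonneg _).trans (k _ w0).2.2) fun w hw => (k w hw).2.2).trans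
    (le_of_eq (by ring))

end Vale.Agent.P026
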