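import Mathlib

/-! TH-B: Schur test.
Plan.  For `f ∈ L²`: `(∫⁻ ‖K x y‖ ‖f y‖)² ≤ M ∫⁻ ‖K x y‖ ‖f y‖²` (Cauchy-Schwarz, `ENNReal.lintegral_mul_le_Lp_mul_Lq`), and by Tonelli and the symmetry
`∫⁻ x ∫⁻ y ‖K x y‖ ‖f y‖² ≤ M ‖f‖²`.  So `y ↦ K x y * f y` is integrable for a.e. `x`, `x ↦ ∫ K x y f y` is in `L²` with norm `≤ M ‖f‖`
(use a strongly measurable representative, `StronglyMeasurable.integral_prod_right`); `LinearMap.mkContinuous`.
Symmetry: Fubini (`integral_integral_swap`; `K x y f y conj (g x)` is integrable on the product as `|f||g| ≤ (|f|²+|g|²)/2`),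
`L2.inner_def`, `ContinuousLinearMap.isSelfAdjoint_iff_isSymmetric`. -/

namespace Vale.Agent.P026

open scoped ComplexConjugate Real Topology ENNReal NNReal InnerProductSpace
open MeasureTheory Filter Set

section
variable {X : Type*} [MeasurableSpace X] {ν : Measure X}

theorem lint_cs {f g : X → ℝ≥0∞} (hf : Measurable f) (hg : Measurable g) :
    (∫⁻ x, f x * g x ∂ν) ^ 2 ≤ (∫⁻ x, f x ^ 2 ∂ν) * ∫⁻ x, g x ^ 2 ∂ν := by
  have := ENNReal.lintegral_mul_le_Lp_mul_Lq ν Real.HolderConjugate.two_two hf.aemeasurable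
    hg.aemeasurable
  have h2 := pow_le_pow_left' this 2
  rw [mul_pow, ← ENNReal.rpow_natCast (_ ^ _) 2, ← ENNReal.rpow_natCast (_ ^ _) 2,
    ← ENNReal.rpow_mul, ← ENNReal.rpow_mul] at h2
  simpa using h2

theorem schur_lint [SFinite ν] {k : X → X → ℝ≥0∞} (hk : Measurable (Function.uncurry k))
    (sym : ∀ x y, k y x = k x y) {M : ℝ≥0∞} (hM : ∀ x, ∫⁻ y, k x y ∂ν ≤ M) {φ : X → ℝ≥0∞}
    (hφ : Measurable φ) :
    ∫⁻ x, (∫⁻ y, k x y * φ y ∂ν) ^ 2 ∂ν ≤ M ^ 2 * ∫⁻ y, φ y ^ 2 ∂ν := by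
  have hkx : ∀ x, Measurable (k x) := fun x => hk.of_uncurry_left
  have hm : Measurable (Function.uncurry fun x y => k x y * φ y ^ 2) :=
    hk.mul ((hφ.comp measurable_snd).pow_const 2)
  have sq : ∀ a : ℝ≥0∞, (a ^ (1 / 2 : ℝ)) ^ 2 = a := fun a => by
    rw [← ENNReal.rpow_natCast, ← ENNReal.rpow_mul]; simp
  calc ∫⁻ x, (∫⁻ y, k x y * φ y ∂ν) ^ 2 ∂ν ≤ ∫⁻ x, M * ∫⁻ y, k x y * φ y ^ 2 ∂ν ∂ν := by
        refine lintegral_mono fun x => ?_
        have := lint_cs (ν := ν) ((hkx x).pow_const (1 / 2 : ℝ))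
          (((hkx x).pow_const (1 / 2 : ℝ)).mul hφ)
        simp only [Pi.mul_apply, ← mul_assoc, ← pow_two, mul_pow, sq] at this
        exact this.trans (by gcongr; exact hM x)
    _ = M * ∫⁻ y, ∫⁻ x, k x y * φ y ^ 2 ∂ν ∂ν := by
        rw [lintegral_const_mul _ hm.lintegral_prod_right, lintegral_lintegral_swap hm.aemeasurable]
    _ ≤ M * ∫⁻ y, M * φ y ^ 2 ∂ν := by
        gcongr with y
        simp only [fun x => sym y x]
        rw [lintegral_mul_const _ (hkx y)]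
        gcongr
        exact hM y
    _ = _ := by rw [lintegral_const_mul _ (hφ.pow_const 2), ← mul_assoc, ← pow_two]

theorem eLpNorm_two_sq (f : X → ℂ) : eLpNorm f 2 ν ^ 2 = ∫⁻ x, ‖f x‖ₑ ^ 2 ∂ν := by
  rw [eLpNorm_eq_lintegral_rpow_enorm_toReal two_ne_zero ENNReal.ofNat_ne_top,
    ← ENNReal.rpow_natCast, ← ENNReal.rpow_mul]
  simp

end

theorem exists_schur {X : Type*} [MeasurableSpace X] (ν : Measure X) [SFinite ν]
    (K : X → X → ℂ) (hK : Measurable (Function.uncurry K)) (herm : ∀ x y, K y x = conj (K x y))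
    (M : ℝ≥0) (hM : ∀ x, ∫⁻ y, ‖K x y‖ₑ ∂ν ≤ M) :
    ∃ L : Lp ℂ 2 ν →L[ℂ] Lp ℂ 2 ν, IsSelfAdjoint L ∧
      ∀ f : Lp ℂ 2 ν, (L f : X → ℂ) =ᵐ[ν] fun x => ∫ y, K x y * f y ∂ν := by
  have mf : ∀ f : Lp ℂ 2 ν, Measurable f := fun f => (Lp.stronglyMeasurable f).measurable
  have fin : ∀ f : Lp ℂ 2 ν, ∫⁻ x, ‖f x‖ₑ ^ 2 ∂ν < ⊤ := fun f => by
    rw [← eLpNorm_two_sq]; exact ENNReal.pow_lt_top (Lp.eLpNorm_lt_top f)
  have mK : ∀ f : Lp ℂ 2 ν, Measurable (Function.uncurry fun x y => K x y * f y) :=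
    fun f => hK.mul ((mf f).comp measurable_snd)
  have mΦ : ∀ f : Lp ℂ 2 ν, Measurable fun x => ∫⁻ y, ‖K x y * f y‖ₑ ∂ν :=
    fun f => (mK f).enorm.lintegral_prod_right'
  have S : ∀ f : Lp ℂ 2 ν, ∫⁻ x, (∫⁻ y, ‖K x y * f y‖ₑ ∂ν) ^ 2 ∂ν ≤
      (M : ℝ≥0∞) ^ 2 * ∫⁻ y, ‖f y‖ₑ ^ 2 ∂ν := fun f => by
    simp only [enorm_mul]
    refine schur_lint (k := fun x y => ‖K x y‖ₑ) hK.enorm (fun x y => ?_) hM (mf f).enorm
    simp only [herm x y, ← ofReal_norm, RCLike.norm_conj]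
  have S' : ∀ f : Lp ℂ 2 ν, ∫⁻ x, (∫⁻ y, ‖K x y * f y‖ₑ ∂ν) ^ 2 ∂ν < ⊤ := fun f =>
    (S f).trans_lt (ENNReal.mul_lt_top (ENNReal.pow_lt_top ENNReal.coe_lt_top) (fin f))
  have I : ∀ f : Lp ℂ 2 ν, ∀ᵐ x ∂ν, Integrable (fun y => K x y * f y) ν := fun f => by
    filter_upwards [ae_lt_top ((mΦ f).pow_const 2) (S' f).ne] with x hx
    exact ⟨(mK f).of_uncurry_left.aestronglyMeasurable,
      (ENNReal.pow_lt_top_iff.1 hx).resolve_right two_ne_zero⟩
  have N : ∀ f : Lp ℂ 2 ν, eLpNorm (fun x => ∫ y, K x y * f y ∂ν) 2 ν ≤ M * eLpNorm f 2 ν := by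
    intro f
    rw [← ENNReal.pow_le_pow_left_iff two_ne_zero, mul_pow, eLpNorm_two_sq, eLpNorm_two_sq]
    refine le_trans (lintegral_mono fun x => ?_) (S f)
    exact pow_le_pow_left' (enorm_integral_le_lintegral_enorm _) 2
  have mem : ∀ f : Lp ℂ 2 ν, MemLp (fun x => ∫ y, K x y * f y ∂ν) 2 ν := fun f =>
    ⟨(mK f).stronglyMeasurable.integral_prod_right.aestronglyMeasurable,
      (N f).trans_lt (ENNReal.mul_lt_top ENNReal.coe_lt_top (Lp.eLpNorm_lt_top f))⟩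
  let A : Lp ℂ 2 ν →ₗ[ℂ] Lp ℂ 2 ν :=
    { toFun := fun f => (mem f).toLp _
      map_add' := fun f g => by
        rw [← MemLp.toLp_add]
        apply MemLp.toLp_congr
        filter_upwards [I f, I g] with x h1 h2
        rw [Pi.add_apply, ← integral_add h1 h2]
        apply integral_congr_ae
        filter_upwards [Lp.coeFn_add f g] with y hy
        rw [hy, Pi.add_apply, mul_add]
      map_smul' := fun c f => by
        rw [RingHom.id_apply, ← MemLp.toLp_const_smul]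
        apply MemLp.toLp_congr
        refine Eventually.of_forall fun x => ?_
        rw [Pi.smul_apply, ← integral_smul]
        apply integral_congr_ae
        filter_upwards [Lp.coeFn_smul c f] with y hy
        rw [hy, Pi.smul_apply, smul_eq_mul, smul_eq_mul, mul_left_comm] }
  have hA : ∀ f, (A f : X → ℂ) =ᵐ[ν] fun x => ∫ y, K x y * f y ∂ν := fun f => (mem f).coeFn_toLp
  refine ⟨A.mkContinuous M fun f => ?_, ?_, hA⟩
  · rw [Lp.norm_def, Lp.norm_def, eLpNorm_congr_ae (hA f), ← ENNReal.coe_toReal,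
      ← ENNReal.toReal_mul]
    exact ENNReal.toReal_mono (ENNReal.mul_ne_top ENNReal.coe_ne_top (Lp.eLpNorm_ne_top f)) (N f)
  · rw [ContinuousLinearMap.isSelfAdjoint_iff_isSymmetric]
    intro f g
    change ⟪A f, g⟫_ℂ = ⟪f, A g⟫_ℂ
    have hm : Measurable (Function.uncurry fun x y => K x y * g y * conj (f x)) :=
      (mK g).mul (Complex.continuous_conj.measurable.comp ((mf f).comp measurable_fst))
    have hi : Integrable (Function.uncurry fun x y => K x y * g y * conj (f x)) (ν.prod ν) := by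
      refine ⟨hm.aestronglyMeasurable, ?_⟩
      rw [hasFiniteIntegral_iff_enorm, lintegral_prod _ hm.enorm.aemeasurable]
      have e : ∀ x, ∫⁻ y, ‖K x y * g y * conj (f x)‖ₑ ∂ν =
          (∫⁻ y, ‖K x y * g y‖ₑ ∂ν) * ‖f x‖ₑ := fun x => by
        rw [← lintegral_mul_const _ (mK g).of_uncurry_left.enorm]
        simp only [enorm_mul, ← ofReal_norm (conj _), RCLike.norm_conj,
          ofReal_norm]
      simp only [Function.uncurry_apply_pair, e]
      have := (lint_cs (ν := ν) (mΦ g) (mf f).enorm).trans_lt (ENNReal.mul_lt_top (S' g) (fin f))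
      exact (ENNReal.pow_lt_top_iff.1 this).resolve_right two_ne_zero
    rw [L2.inner_def, L2.inner_def]
    calc ∫ y, ⟪A f y, g y⟫_ℂ ∂ν = ∫ y, ∫ x, K x y * g y * conj (f x) ∂ν ∂ν := by
          apply integral_congr_ae
          filter_upwards [hA f] with y hy
          rw [hy, RCLike.inner_apply, ← integral_conj, ← integral_const_mul]
          congr 1
          ext x
          rw [map_mul, ← herm]
          ring
      _ = ∫ x, ∫ y, K x y * g y * conj (f x) ∂ν ∂ν := (integral_integral_swap hi).symm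
      _ = _ := by
          apply integral_congr_ae
          filter_upwards [hA g] with x hx
          rw [hx, RCLike.inner_apply, integral_mul_const]

end Vale.Agent.P026
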