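import Vale.Agent.P026.ThJ
import Vale.Agent.P026.ThSchur

/-! TH-B: Poincaré series and the ball operator on `L²(ν)`.
Plan.  For `v > 0` the series `Pc` is a finite sum with at most `C (1+R²)(1+X²)` nonzero terms (`card_act`, `finite_act`).
`unfold`: `IsWt.integral` for `f * F` (`integrable_of_siegel`), `tsum_mul_left`.
`Pc_sq`: `‖Pc F w‖² ≤ N ∑ ‖F (act δ w)‖²` (Cauchy-Schwarz, `sq_sum_le_card_mul_sum_sq`), then `IsWt.lintegral` (or `IsWt.integral` for `‖F‖²`).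
`exists_op`: `exists_schur` with `K w w' = if 0 < w.2 ∧ 0 < w'.2 then ∑' δ : Gam m, conj (kap δ) * 1[act δ w' ∈ Bt w] else 0`.
Hermitian: `δ ↦ δ⁻¹` (`Equiv.inv`), `tt_act`, `tt_comm`, `kap δ⁻¹ = conj (kap δ)` (`kap_mul`, `norm_kap`, `kap 1 = 1` from `kap_mN 0`).
Schur bound: `‖K w w'‖ₑ ≤ ∑' δ, 1_{Bt w}(act δ w')` (`enorm_tsum_le_tsum_enorm`), `IsWt.lintegral`, `hmu_Bt`.
For `f` automorphic `K w w' * f w' = ∑' δ, (1_{Bt w} f)(act δ w')`, then `IsWt.integral`. -/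

namespace Vale.Agent.P026

open scoped ComplexConjugate Real Topology ENNReal NNReal InnerProductSpace
open MeasureTheory Filter Set

/-- Poincaré series -/
noncomputable def Pc (m : O) (F : ℂ × ℝ → ℂ) (w : ℂ × ℝ) : ℂ :=
  ∑' δ : Gam m, conj (kap δ) * F (act δ w)

variable {m : O} {ν : Measure (ℂ × ℝ)} {f F : ℂ × ℝ → ℂ}

theorem kap_inv {δ : SL2} (hδ : δ ∈ Gam 9) : kap δ⁻¹ = conj (kap δ) := by
  have h1 := kap_mul (δ := δ⁻¹) hδ
  rw [inv_mul_cancel, ← mN_zero, kap_mN] at h1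
  have h2 := rw_mul_conj (norm_kap δ)
  linear_combination (-kap δ⁻¹) * h2 - conj (kap δ) * h1

theorem op_fin : ∃ C : ℝ, 0 < C ∧ ∀ (m : O) (w : ℂ × ℝ), 0 < w.2 → ∀ R X : ℝ, 0 ≤ R → 0 < X →
    ∃ s : Finset (Gam m), (∀ δ : Gam m, ‖(act δ w).1‖ ≤ R ∧ 1 / X ≤ (act δ w).2 → δ ∈ s) ∧
      (s.card : ℝ) ≤ C * (1 + R ^ 2) * (1 + X ^ 2) := by
  obtain ⟨C, hC, h⟩ := card_act
  refine ⟨C, hC, fun m w hw R X hR hX => ?_⟩
  have hf := (finite_act hw R (one_div_pos.2 hX)).preimage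
    (f := (Subtype.val : Gam m → SL2)) Subtype.val_injective.injOn
  refine ⟨hf.toFinset, fun δ hδ => hf.mem_toFinset.2 hδ, ?_⟩
  rw [← Finset.card_map (Function.Embedding.subtype _)]
  refine h w hw R X hR hX _ fun g hg => ?_
  obtain ⟨δ, hδ, rfl⟩ := Finset.mem_map.1 hg
  exact hf.mem_toFinset.1 hδ

theorem op_norm_term (F : ℂ × ℝ → ℂ) (δ : SL2) (w : ℂ × ℝ) :
    ‖conj (kap δ) * F (act δ w)‖ = ‖F (act δ w)‖ := by
  rw [norm_mul, Complex.norm_conj, norm_kap, one_mul]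

theorem op_Pc_le {s : Finset (Gam m)} {w : ℂ × ℝ} (h : ∀ δ ∉ s, F (act δ w) = 0) :
    ‖Pc m F w‖ ≤ ∑ δ ∈ s, ‖F (act δ w)‖ := by
  rw [Pc, tsum_eq_sum (s := s) fun δ hδ => by rw [h δ hδ, mul_zero]]
  exact (norm_sum_le _ _).trans (le_of_eq (Finset.sum_congr rfl fun δ _ => op_norm_term F δ w))

theorem Test.measurable_Pc (hF : Test F) (m : O) : Measurable (Pc m F) :=
  Measurable.tsum fun δ => (hF.1.comp (measurable_act δ)).const_mul _

theorem Test.Pc_bdd (hF : Test F) (m : O) :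
    ∃ M : ℝ, ∀ w : ℂ × ℝ, 0 < w.2 → ‖Pc m F w‖ ≤ M := by
  obtain ⟨C, -, hC⟩ := op_fin
  obtain ⟨-, M, hM, h⟩ := hF
  refine ⟨C * (1 + M ^ 2) * (1 + M ^ 2) * M, fun w hw => ?_⟩
  obtain ⟨s, h1, h2⟩ := hC m w hw M M hM.le hM
  refine (op_Pc_le (s := s) fun δ hδ => by_contra fun k =>
    hδ (h1 δ ⟨((h _).2 k).1, ((h _).2 k).2.1⟩)).trans ?_
  refine (Finset.sum_le_card_nsmul _ _ M fun δ _ => (h _).1).trans ?_
  rw [nsmul_eq_mul]
  exact mul_le_mul_of_nonneg_right h2 hM.le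

theorem Test.memLp_Pc (hF : Test F) (hν : IsWt (Gam m) ν) :
    MemLp (fun w => conj (Pc m F w)) 2 ν := by
  obtain ⟨M, hM⟩ := hF.Pc_bdd m
  exact memLp_of_bdd hν (Complex.continuous_conj.measurable.comp (hF.measurable_Pc m))
    fun w hw => (Complex.norm_conj _).trans_le (hM w hw)

theorem unfold_Pc (hν : IsWt (Gam m) ν) (hf : AutF m f) (hF : Test F) :
    ∫ w, f w * F w ∂hmu = ∫ w, f w * Pc m F w ∂ν := by
  obtain ⟨h1, ⟨M', h2⟩, h3⟩ := hf
  obtain ⟨h4, M, hM, h⟩ := hF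
  have hm : Measurable fun w => f w * F w := h1.mul h4
  have hi : Integrable (fun w => f w * F w) hmu :=
    integrable_of_siegel hm.aestronglyMeasurable (R := M) (M := M' * M) (one_div_pos.2 hM)
      fun w hw => ⟨by
        rw [norm_mul]
        exact mul_le_mul (h2 w hw) (h w).1 (norm_nonneg _) ((norm_nonneg _).trans (h2 w hw)),
      fun k => ⟨((h w).2 (right_ne_zero_of_mul k)).1, ((h w).2 (right_ne_zero_of_mul k)).2.1⟩⟩
  rw [hν.integral hm hi]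
  refine integral_congr_ae (hν.ae_pos.mono fun w hw => ?_)
  beta_reduce
  rw [Pc, ← tsum_mul_left]
  refine tsum_congr fun δ => ?_
  rw [h3 δ δ.2 w hw]
  ring

theorem Pc_sq : ∃ C : ℝ, 0 ≤ C ∧ ∀ (m : O) (ν : Measure (ℂ × ℝ)), IsWt (Gam m) ν → ∀ F, Test F →
    ∀ R X : ℝ, 0 ≤ R → 0 < X → (∀ w, F w ≠ 0 → ‖w.1‖ ≤ R ∧ 1 / X ≤ w.2) →
      ∫ w, ‖Pc m F w‖ ^ 2 ∂ν ≤ C * (1 + R ^ 2) * (1 + X ^ 2) * ∫ w, ‖F w‖ ^ 2 ∂hmu := by
  obtain ⟨C, hC, hs⟩ := op_fin
  refine ⟨C, hC.le, fun m ν hν F hF R X hR hX hsup => ?_⟩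
  have := hν.1
  have hm : Measurable fun w => ‖F w‖ ^ 2 := hF.1.norm.pow_const 2
  have e : ∫ w, ‖F w‖ ^ 2 ∂hmu = ∫ w, ∑' δ : Gam m, ‖F (act δ w)‖ ^ 2 ∂ν := by
    have k := hν.integral (f := fun w => ((‖F w‖ ^ 2 : ℝ) : ℂ))
      (Complex.measurable_ofReal.comp hm) hF.integrable_sq.ofReal
    simp only [← Complex.ofReal_tsum] at k
    rw [integral_complex_ofReal, integral_complex_ofReal] at k
    exact Complex.ofReal_injective k
  obtain ⟨-, M, hM, h⟩ := hF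
  obtain ⟨N, hN⟩ : ∃ N, N = C * (1 + R ^ 2) * (1 + X ^ 2) := ⟨_, rfl⟩
  have N0 : 0 ≤ N := by rw [hN]; positivity
  have key : ∀ w : ℂ × ℝ, 0 < w.2 → ‖∑' δ : Gam m, ‖F (act δ w)‖ ^ 2‖ ≤ N * M ^ 2 ∧
      ‖Pc m F w‖ ^ 2 ≤ N * ∑' δ : Gam m, ‖F (act δ w)‖ ^ 2 := fun w hw => by
    obtain ⟨s, h1, h2⟩ := hs m w hw R X hR hX
    rw [← hN] at h2
    have h0 : ∀ δ ∉ s, F (act δ w) = 0 := fun δ hδ => by_contra fun k => hδ (h1 δ (hsup _ k))
    have p0 : 0 ≤ ∑ δ ∈ s, ‖F (act δ w)‖ ^ 2 := Finset.sum_nonneg fun _ _ => sq_nonneg _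
    rw [tsum_eq_sum (s := s) fun δ hδ => by rw [h0 δ hδ, norm_zero, zero_pow two_ne_zero]]
    constructor
    · rw [Real.norm_of_nonneg p0]
      refine (Finset.sum_le_card_nsmul _ _ (M ^ 2) fun δ _ =>
        pow_le_pow_left₀ (norm_nonneg _) (h _).1 2).trans ?_
      rw [nsmul_eq_mul]
      exact mul_le_mul_of_nonneg_right h2 (sq_nonneg _)
    · exact (pow_le_pow_left₀ (norm_nonneg _) (op_Pc_le h0) 2).trans
        (sq_sum_le_card_mul_sum_sq.trans (mul_le_mul_of_nonneg_right h2 p0))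
  have hi : Integrable (fun w => ∑' δ : Gam m, ‖F (act δ w)‖ ^ 2) ν :=
    Integrable.of_bound (Measurable.tsum fun δ : Gam m =>
      hm.comp (measurable_act δ)).aestronglyMeasurable _ (hν.ae_pos.mono fun w hw => (key w hw).1)
  rw [e, ← hN, ← integral_const_mul]
  exact integral_mono_of_nonneg (Eventually.of_forall fun w => sq_nonneg _) (hi.const_mul N)
    (hν.ae_pos.mono fun w hw => (key w hw).2)

open Classical in
/-- the kernel of the ball operator -/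
noncomputable def opK (m : O) (w w' : ℂ × ℝ) : ℂ :=
  if 0 < w.2 ∧ 0 < w'.2 then ∑' δ : Gam m, if act δ w' ∈ Bt w then conj (kap δ) else 0 else 0

theorem measurable_opK (m : O) : Measurable (Function.uncurry (opK m)) := by
  refine Measurable.ite ?_ (Measurable.tsum fun δ : Gam m => Measurable.ite ?_ measurable_const
    measurable_const) measurable_const
  · exact (measurableSet_lt measurable_const measurable_fst.snd).inter
      (measurableSet_lt measurable_const measurable_snd.snd)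
  · exact (measurable_fst.prodMk ((measurable_act δ).comp measurable_snd)) measurableSet_Bt₂

theorem op_mem_iff (δ : SL2) {x y : ℂ × ℝ} (hx : 0 < x.2) (hy : 0 < y.2) :
    act δ⁻¹ x ∈ Bt y ↔ act δ y ∈ Bt x := by
  rw [← mem_Bt_act δ hy, act_act_inv δ hx]
  exact ⟨fun h => ⟨act_pos δ hy, (tt_comm _ _).trans_le h.2⟩,
    fun h => ⟨hx, (tt_comm _ _).trans_le h.2⟩⟩

theorem opK_herm (h9 : (9 : O) ∣ m) (x y : ℂ × ℝ) : opK m y x = conj (opK m x y) := by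
  unfold opK
  by_cases h : 0 < x.2 ∧ 0 < y.2
  · rw [if_pos h, if_pos h.symm, Complex.conj_tsum, ← (Equiv.inv (Gam m)).tsum_eq]
    refine tsum_congr fun δ => ?_
    rw [Equiv.inv_apply, Subgroup.coe_inv, kap_inv (Gam_mono h9 δ.2)]
    by_cases k : act δ y ∈ Bt x
    · rw [if_pos k, if_pos ((op_mem_iff _ h.1 h.2).2 k)]
    · rw [if_neg k, if_neg fun k' => k ((op_mem_iff _ h.1 h.2).1 k'), map_zero]
  · rw [if_neg h, if_neg fun k => h k.symm, map_zero]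

theorem opK_le (m : O) (x y : ℂ × ℝ) :
    ‖opK m x y‖ₑ ≤ ∑' δ : Gam m, (Bt x).indicator (fun _ => (1 : ℝ≥0∞)) (act δ y) := by
  unfold opK
  split_ifs
  · refine enorm_tsum_le_tsum_enorm.trans (ENNReal.tsum_le_tsum fun δ => ?_)
    by_cases k : act δ y ∈ Bt x
    · rw [if_pos k, indicator_of_mem k, ← ofReal_norm, Complex.norm_conj, norm_kap,
        ENNReal.ofReal_one]
    · rw [if_neg k, enorm_zero]
      exact zero_le
  · rw [enorm_zero]
    exact zero_le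

theorem exists_op (h9 : (9 : O) ∣ m) (hν : IsWt (Gam m) ν) :
    ∃ L : Lp ℂ 2 ν →L[ℂ] Lp ℂ 2 ν, IsSelfAdjoint L ∧ ∀ f, AutF m f →
      (L (cl ν f) : ℂ × ℝ → ℂ) =ᵐ[ν] fun w => ∫ w' in Bt w, f w' ∂hmu := by
  have := hν.1
  obtain ⟨M, hM⟩ := hmu_Bt
  obtain ⟨L, h1, h2⟩ := exists_schur ν (opK m) (measurable_opK m) (opK_herm h9) M fun x => by
    by_cases hx : 0 < x.2
    · refine (lintegral_mono (opK_le m x)).trans ?_
      rw [← hν.lintegral (measurable_const.indicator (measurableSet_Bt x)),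
        lintegral_indicator_const (measurableSet_Bt x), one_mul]
      exact hM x hx
    · simp [opK, hx]
  refine ⟨L, h1, fun f hf => (h2 _).trans (hν.ae_pos.mono fun x hx => ?_)⟩
  have hc := cl_ae (hf.memLp hν)
  obtain ⟨h3, ⟨M', h4⟩, h5⟩ := hf
  have hm := h3.indicator (measurableSet_Bt x)
  have hi : Integrable ((Bt x).indicator f) hmu :=
    integrable_of_siegel hm.aestronglyMeasurable (R := ‖x.1‖ + 2 * x.2) (a := x.2 / 4) (M := M')
      (by positivity) fun w hw => ⟨(norm_indicator_le_norm_self _ _).trans (h4 w hw), fun k => by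
        have b := Bt_bounds hx (mem_of_indicator_ne_zero k)
        have c := norm_sub_norm_le w.1 x.1
        exact ⟨by linarith [b.1], b.2.1⟩⟩
  beta_reduce
  rw [← integral_indicator (measurableSet_Bt x), hν.integral hm hi]
  refine integral_congr_ae ?_
  filter_upwards [hc, hν.ae_pos] with y e hy
  rw [e, opK, if_pos ⟨hx, hy⟩, ← tsum_mul_right]
  refine tsum_congr fun δ => ?_
  by_cases k : act δ y ∈ Bt x
  · rw [if_pos k, indicator_of_mem k, h5 δ δ.2 y hy]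
  · rw [if_neg k, indicator_of_notMem k, zero_mul]

end Vale.Agent.P026
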