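import Vale.Agent.P026.ThHat

/-! TH-B: the one-dimensional profiles.
Plan.  `gP s v = ∫ omg x * c(v,x) * (v x)^s`, `c = 1[vx ≤ 1] - 1[v ≤ 1]` for `v > 0` (`(v x)^s = v^s x^s`, `Complex.mul_cpow_ofReal_nonneg`);
it vanishes unless `1/4 ≤ v ≤ 4`, and then `y = log (v x)` has `|y| ≤ log 16 ≤ 3` on the support of `omg`.  Use
`‖exp(s y) - exp(s₀ y) - (s - s₀) y exp(s₀ y)‖ ≤ exp(|re s₀| |y|) ‖(s-s₀) y‖²` for `‖(s-s₀) y‖ ≤ 1` (`Complex.norm_exp_sub_one_sub_id_le`),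
`integrable_omg_mul`, and `1 ≤ 64 min 1 (v³)` for `v ≥ 1/4`. -/

namespace Vale.Agent.P026

open scoped ComplexConjugate Real Topology ENNReal NNReal InnerProductSpace
open MeasureTheory Filter Set

/-- admissible profiles -/
def Prof (ψ : ℝ → ℂ) : Prop :=
  Measurable ψ ∧ ∃ M σ : ℝ, 0 ≤ M ∧ 2 < σ ∧ ∀ v, 0 < v → ‖ψ v‖ ≤ M * min 1 (v ^ σ)

/-- uniformly differentiable families of profiles -/
def UD (p : ℂ → ℝ → ℂ) : Prop :=
  (∀ s, Measurable (p s)) ∧ ∀ s₀, ∃ (p' : ℝ → ℂ) (C δ : ℝ), 0 ≤ C ∧ 0 < δ ∧ Measurable p' ∧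
    ∀ v, 0 < v → ‖p s₀ v‖ ≤ C * min 1 (v ^ (3 : ℝ)) ∧ ‖p' v‖ ≤ C * min 1 (v ^ (3 : ℝ)) ∧
      ∀ s, ‖s - s₀‖ ≤ δ →
        ‖p s v - p s₀ v - (s - s₀) * p' v‖ ≤ C * ‖s - s₀‖ ^ 2 * min 1 (v ^ (3 : ℝ))

noncomputable def lowP (s : ℂ) (v : ℝ) : ℂ := if 0 < v ∧ v ≤ 1 then (v : ℂ) ^ s else 0
noncomputable def hiP (b : ℝ) (s : ℂ) (v : ℝ) : ℂ := if 1 < v ∧ v ≤ b then (v : ℂ) ^ s else 0
noncomputable def gP (s : ℂ) (v : ℝ) : ℂ := conv (lowP s) v - hhat s * lowP s v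

theorem UD.prof {p : ℂ → ℝ → ℂ} (h : UD p) (s : ℂ) : Prof (p s) := by
  obtain ⟨p', C, δ, hC, -, -, k⟩ := h.2 s
  exact ⟨h.1 s, C, 3, hC, by norm_num, fun v hv => (k v hv).1⟩

theorem pf_min_nonneg {v : ℝ} (hv : 0 < v) (σ : ℝ) : 0 ≤ min 1 (v ^ σ) :=
  le_min zero_le_one (Real.rpow_nonneg hv.le σ)

theorem pf_one_le {K v : ℝ} (hK : 1 ≤ K) (h : 1 ≤ K * v) : 1 ≤ K ^ 3 * min 1 (v ^ (3 : ℝ)) := by
  rw [mul_min_of_nonneg _ _ (by positivity), Real.rpow_ofNat, ← mul_pow, mul_one]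
  exact le_min (one_le_pow₀ hK) (one_le_pow₀ h)

theorem Test1.prof {ψ : ℝ → ℂ} (h : Test1 ψ) : Prof ψ := by
  obtain ⟨h1, M, hM, h⟩ := h
  refine ⟨h1, M * (M + 1) ^ 3, 3, by positivity, by norm_num, fun v hv => ?_⟩
  by_cases k : ψ v = 0
  · rw [k, norm_zero]
    exact mul_nonneg (by positivity) (pf_min_nonneg hv _)
  · have a := ((h v).2 k).1
    rw [div_le_iff₀ hM] at a
    rw [mul_assoc]
    exact (h v).1.trans (le_mul_of_one_le_right hM.le (pf_one_le (by linarith) (by nlinarith)))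

theorem Test1.conj {ψ : ℝ → ℂ} (h : Test1 ψ) : Test1 fun v => conj (ψ v) := by
  obtain ⟨h1, M, hM, h⟩ := h
  exact ⟨Complex.continuous_conj.measurable.comp h1, M, hM, fun v =>
    ⟨(Complex.norm_conj _).trans_le (h v).1, fun k => (h v).2 fun e => k (by simp [e])⟩⟩

theorem Prof.bdd {ψ : ℝ → ℂ} (h : Prof ψ) : ∃ M : ℝ, ∀ v, 0 < v → ‖ψ v‖ ≤ M := by
  obtain ⟨-, M, σ, hM, -, h⟩ := h
  exact ⟨M, fun v hv => (h v hv).trans (mul_le_of_le_one_right hM (min_le_left _ _))⟩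

theorem Prof.conv {ψ : ℝ → ℂ} (h : Prof ψ) : Prof (conv ψ) := by
  obtain ⟨h1, M, σ, hM, hσ, h⟩ := h
  refine ⟨measurable_conv h1, 768 * π * (M * 4 ^ σ), σ, by positivity, hσ, fun v hv => ?_⟩
  rw [mul_assoc (768 * π)]
  refine (integrable_omg_mul (h1.fun_comp (measurable_const_mul v)) fun x x1 x2 => ?_).2
  have x0 : 0 < x := by linarith
  refine (h _ (mul_pos hv x0)).trans ?_
  rw [mul_assoc, mul_min_of_nonneg (a := (4 : ℝ) ^ σ) _ _ (by positivity), mul_one]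
  refine mul_le_mul_of_nonneg_left (min_le_min (Real.one_le_rpow (by norm_num) (by linarith)) ?_) hM
  rw [← Real.mul_rpow (by norm_num) hv.le]
  exact Real.rpow_le_rpow (mul_pos hv x0).le (by nlinarith) (by linarith)

theorem pf_meas_cpow (s : ℂ) : Measurable fun v : ℝ => (v : ℂ) ^ s :=
  Complex.measurable_ofReal.pow_const s

theorem measurable_lowP (s : ℂ) : Measurable (lowP s) :=
  Measurable.ite measurableSet_Ioc (pf_meas_cpow s) measurable_const

theorem prof_lowP {s : ℂ} (hs : 2 < s.re) : Prof (lowP s) := by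
  refine ⟨measurable_lowP s, 1, s.re, zero_le_one, hs, fun v hv => ?_⟩
  rw [lowP, one_mul]
  split_ifs with k
  · rw [Complex.norm_cpow_eq_rpow_re_of_pos hv]
    exact le_min (Real.rpow_le_one hv.le k.2 (by linarith)) le_rfl
  · rw [norm_zero]
    exact pf_min_nonneg hv _

theorem lowP_add_hiP {b v : ℝ} (hv : 0 < v) (hb : v ≤ b) (s : ℂ) :
    lowP s v + hiP b s v = (v : ℂ) ^ s := by
  unfold lowP hiP
  rcases le_or_gt v 1 with h | h
  · rw [if_pos ⟨hv, h⟩, if_neg fun k => absurd h (not_le.2 k.1), add_zero]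
  · rw [if_neg fun k => absurd k.2 (not_le.2 h), if_pos ⟨h, hb⟩, zero_add]

theorem pf_cpow {v : ℝ} (hv : 0 < v) (s : ℂ) : (v : ℂ) ^ s = Complex.exp (Real.log v * s) := by
  rw [Complex.cpow_def_of_ne_zero (Complex.ofReal_ne_zero.2 hv.ne'), Complex.ofReal_log hv.le]

theorem pf_norm_cpow {v L : ℝ} (hv : 0 < v) (hL : |Real.log v| ≤ L) (s : ℂ) :
    ‖(v : ℂ) ^ s‖ ≤ Real.exp (L * ‖s‖) := by
  rw [pf_cpow hv]
  refine (Complex.norm_exp_le_exp_norm _).trans (Real.exp_le_exp.2 ?_)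
  rw [norm_mul, Complex.norm_real, Real.norm_eq_abs]
  exact mul_le_mul_of_nonneg_right hL (norm_nonneg _)

theorem pf_taylor {v L : ℝ} (hv : 0 < v) (h1 : 1 ≤ L) (hL : |Real.log v| ≤ L) (s₀ : ℂ) :
    ‖(v : ℂ) ^ s₀‖ ≤ Real.exp (L * ‖s₀‖) * L ^ 2 ∧
      ‖(Real.log v : ℂ) * (v : ℂ) ^ s₀‖ ≤ Real.exp (L * ‖s₀‖) * L ^ 2 ∧
      ∀ s, ‖s - s₀‖ ≤ 1 / L → ‖(v : ℂ) ^ s - (v : ℂ) ^ s₀ - (s - s₀) * (Real.log v * (v : ℂ) ^ s₀)‖ ≤
        Real.exp (L * ‖s₀‖) * L ^ 2 * ‖s - s₀‖ ^ 2 := by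
  have a1 := pf_norm_cpow hv hL s₀
  have p := Real.exp_pos (L * ‖s₀‖)
  refine ⟨a1.trans (le_mul_of_one_le_right p.le (one_le_pow₀ h1)), ?_, fun s hs => ?_⟩
  · rw [norm_mul, Complex.norm_real, Real.norm_eq_abs, mul_comm]
    exact mul_le_mul a1 (hL.trans (by nlinarith)) (abs_nonneg _) p.le
  · have a2 : ‖(Real.log v : ℂ) * (s - s₀)‖ ≤ L * ‖s - s₀‖ := by
      rw [norm_mul, Complex.norm_real, Real.norm_eq_abs]
      exact mul_le_mul_of_nonneg_right hL (norm_nonneg _)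
    have a3 : L * ‖s - s₀‖ ≤ 1 := by rwa [le_div_iff₀ (by linarith), mul_comm] at hs
    have e : (v : ℂ) ^ s - (v : ℂ) ^ s₀ - (s - s₀) * (Real.log v * (v : ℂ) ^ s₀) = (v : ℂ) ^ s₀ *
        (Complex.exp (Real.log v * (s - s₀)) - 1 - Real.log v * (s - s₀)) := by
      have : (v : ℂ) ^ s = (v : ℂ) ^ s₀ * Complex.exp (Real.log v * (s - s₀)) := by
        rw [pf_cpow hv, pf_cpow hv, ← Complex.exp_add]
        congr 1
        ring
      rw [this]
      ring
    rw [e, norm_mul, mul_assoc, ← mul_pow]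
    exact mul_le_mul a1 ((Complex.norm_exp_sub_one_sub_id_le (a2.trans a3)).trans
      (pow_le_pow_left₀ (norm_nonneg _) a2 2)) (norm_nonneg _) p.le

theorem pf_meas_log (s : ℂ) : Measurable fun v : ℝ => (Real.log v : ℂ) * (v : ℂ) ^ s :=
  (Complex.measurable_ofReal.comp Real.measurable_log).mul (pf_meas_cpow s)

theorem ud_hiP (b : ℝ) : UD (hiP b) := by
  refine ⟨fun s => Measurable.ite measurableSet_Ioc (pf_meas_cpow s) measurable_const, fun s₀ => ?_⟩
  have h1 : 1 ≤ max b 1 := le_max_right _ _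
  refine ⟨fun v => if 1 < v ∧ v ≤ b then (Real.log v : ℂ) * (v : ℂ) ^ s₀ else 0,
    Real.exp (max b 1 * ‖s₀‖) * max b 1 ^ 2, 1 / max b 1, by positivity, by positivity,
    Measurable.ite measurableSet_Ioc (pf_meas_log s₀) measurable_const, fun v hv => ?_⟩
  have m0 := pf_min_nonneg hv 3
  unfold hiP
  by_cases k : 1 < v ∧ v ≤ b
  · simp only [if_pos k]
    rw [min_eq_left (Real.one_le_rpow k.1.le (by norm_num))]
    simp only [mul_one]
    refine pf_taylor hv h1 ?_ s₀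
    rw [abs_of_nonneg (Real.log_nonneg k.1.le)]
    linarith [Real.log_le_sub_one_of_pos hv, le_max_left b 1, k.2]
  · simp only [if_neg k, mul_zero, sub_zero, norm_zero]
    exact ⟨by positivity, by positivity, fun _ _ => by positivity⟩

/-- the sign in the integral formula for `gP` -/
noncomputable def pfC (v x : ℝ) : ℂ :=
  (if 0 < v * x ∧ v * x ≤ 1 then 1 else 0) - if 0 < v ∧ v ≤ 1 then 1 else 0

theorem measurable_pfC : Measurable fun p : ℝ × ℝ => pfC p.1 p.2 :=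
  (Measurable.ite ((measurable_fst.mul measurable_snd) measurableSet_Ioc) measurable_const
    measurable_const).sub (Measurable.ite (measurable_fst measurableSet_Ioc) measurable_const
      measurable_const)

theorem pf_log_le {x : ℝ} (h1 : 1 / 4 ≤ x) (h2 : x ≤ 4) : |Real.log x| ≤ 3 := by
  have x0 : 0 < x := by linarith
  have a1 := Real.log_le_sub_one_of_pos x0
  have a2 := Real.log_le_sub_one_of_pos (inv_pos.2 x0)
  have a3 : x⁻¹ ≤ 4 := by
    rw [inv_le_iff_one_le_mul₀ x0]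
    linarith
  rw [Real.log_inv] at a2
  exact abs_le.2 ⟨by linarith, by linarith⟩

theorem pf_log_mul {v x : ℝ} (hv : 0 < v) (h1 : 1 / 4 ≤ x) (h2 : x ≤ 4) :
    |Real.log (v * x)| ≤ |Real.log v| + 3 := by
  rw [Real.log_mul hv.ne' (by linarith)]
  exact (abs_add_le _ _).trans (by linarith [pf_log_le h1 h2])

/-- integrals against `omg * pfC` -/
theorem pf_int {T : ℝ → ℂ} (hT : Measurable T) {v K : ℝ} (hv : 0 < v)
    (h : ∀ y, 0 < y → |Real.log y| ≤ 6 → ‖T y‖ ≤ K) :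
    IntegrableOn (fun x => (omg x : ℂ) * (pfC v x * T (v * x))) (Ioi 0) ∧
      ‖∫ x in Ioi (0 : ℝ), (omg x : ℂ) * (pfC v x * T (v * x))‖ ≤
        768 * π * if 1 / 4 ≤ v ∧ v ≤ 4 then K else 0 := by
  have hm : Measurable fun x => pfC v x * T (v * x) :=
    (measurable_pfC.fun_comp measurable_prodMk_left).mul (hT.fun_comp (measurable_const_mul v))
  refine integrable_omg_mul hm fun x x1 x2 => ?_
  have x0 : 0 < x := by linarith
  split_ifs with k
  · rw [norm_mul]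
    refine (mul_le_of_le_one_left (norm_nonneg _) ?_).trans (h _ (mul_pos hv x0) ?_)
    · unfold pfC
      split_ifs <;> simp
    · linarith [pf_log_mul hv x1 x2, pf_log_le k.1 k.2]
  · have e : pfC v x = 0 := by
      unfold pfC
      rcases not_and_or.1 k with k | k
      · rw [if_pos ⟨mul_pos hv x0, by nlinarith⟩, if_pos ⟨hv, by linarith⟩, sub_self]
      · rw [if_neg fun a => by nlinarith [a.2], if_neg fun a => by linarith [a.2], sub_self]
    rw [e, zero_mul, norm_zero]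

theorem pf_ite_le {v K : ℝ} (hv : 0 < v) (hK : 0 ≤ K) :
    (768 * π * if 1 / 4 ≤ v ∧ v ≤ 4 then K else 0) ≤
      768 * π * 4 ^ 3 * K * min 1 (v ^ (3 : ℝ)) := by
  have m0 := pf_min_nonneg hv 3
  split_ifs with k
  · exact (le_mul_of_one_le_right (by positivity)
      (pf_one_le (K := 4) (v := v) (by norm_num) (by linarith [k.1]))).trans_eq (by ring)
  · rw [mul_zero]
    positivity

theorem gP_eq (s : ℂ) {v : ℝ} (hv : 0 < v) :
    gP s v = ∫ x in Ioi (0 : ℝ), (omg x : ℂ) * (pfC v x * ((v * x : ℝ) : ℂ) ^ s) := by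
  have i1 := (integrable_omg_mul ((measurable_lowP s).fun_comp (measurable_const_mul v))
    (M := Real.exp ((|Real.log v| + 3) * ‖s‖)) fun x x1 x2 => by
      rw [lowP]
      split_ifs with k
      · exact pf_norm_cpow k.1 (pf_log_mul hv x1 x2) s
      · rw [norm_zero]
        positivity).1
  have i2 := (integrable_omg_mul (pf_meas_cpow s) (M := Real.exp (3 * ‖s‖)) fun x x1 x2 =>
    pf_norm_cpow (by linarith) (pf_log_le x1 x2) s).1
  rw [gP, conv, hhat, ← integral_mul_const, ← integral_sub i1 (i2.mul_const _)]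
  refine setIntegral_congr_fun measurableSet_Ioi fun x hx => ?_
  have e : ((v * x : ℝ) : ℂ) ^ s = (v : ℂ) ^ s * (x : ℂ) ^ s := by
    rw [Complex.ofReal_mul, Complex.mul_cpow_ofReal_nonneg hv.le (le_of_lt hx)]
  unfold lowP pfC
  rw [e]
  split_ifs <;> ring

theorem measurable_gP (s : ℂ) : Measurable (gP s) :=
  (measurable_conv (measurable_lowP s)).sub ((measurable_lowP s).const_mul _)

theorem ud_gP : UD gP := by
  refine ⟨measurable_gP, fun s₀ => ⟨fun v => ∫ x in Ioi (0 : ℝ), (omg x : ℂ) *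
    (pfC v x * ((Real.log (v * x) : ℂ) * ((v * x : ℝ) : ℂ) ^ s₀)),
    768 * π * 4 ^ 3 * (Real.exp (6 * ‖s₀‖) * 6 ^ 2), 1 / 6, by positivity, by norm_num,
    measurable_omg_int (F := fun p => pfC p.1 p.2 * ((Real.log (p.1 * p.2) : ℂ) *
      ((p.1 * p.2 : ℝ) : ℂ) ^ s₀)) (measurable_pfC.mul ((pf_meas_log s₀).fun_comp
        (measurable_fst.mul measurable_snd))), fun v hv => ?_⟩⟩
  have t := fun y hy hL => pf_taylor (v := y) (L := 6) hy (by norm_num) hL s₀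
  obtain ⟨i1, b1⟩ := pf_int (pf_meas_cpow s₀) hv fun y hy hL => (t y hy hL).1
  obtain ⟨i2, b2⟩ := pf_int (pf_meas_log s₀) hv fun y hy hL => (t y hy hL).2.1
  rw [gP_eq s₀ hv]
  refine ⟨b1.trans (pf_ite_le hv (by positivity)), b2.trans (pf_ite_le hv (by positivity)),
    fun s hs => ?_⟩
  have i3 := (pf_int (pf_meas_cpow s) hv fun y hy hL => pf_norm_cpow hy hL s).1
  have b3 := (pf_int (((pf_meas_cpow s).sub (pf_meas_cpow s₀)).sub
    ((pf_meas_log s₀).const_mul (s - s₀))) hv fun y hy hL => (t y hy hL).2.2 s hs).2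
  have i4 : IntegrableOn (fun x => (omg x : ℂ) * (pfC v x * ((v * x : ℝ) : ℂ) ^ s) -
    (omg x : ℂ) * (pfC v x * ((v * x : ℝ) : ℂ) ^ s₀)) (Ioi 0) := i3.sub i1
  rw [gP_eq s hv, ← integral_sub i3 i1, ← integral_const_mul, ← integral_sub i4 (i2.const_mul _)]
  refine le_trans (le_of_eq (congrArg _ (integral_congr_ae (Eventually.of_forall fun x => ?_))))
    (b3.trans ((pf_ite_le hv (by positivity)).trans_eq (by ring)))
  simp only [Pi.sub_apply]
  ring

theorem test1_gP (s : ℂ) : Test1 (gP s) := by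
  refine ⟨measurable_gP s, max 4 (768 * π * Real.exp (6 * ‖s‖)), by positivity, fun v => ?_⟩
  rcases le_or_gt v 0 with hv | hv
  · have e : gP s v = 0 := by
      rw [gP, conv, setIntegral_congr_fun (g := fun _ => 0) measurableSet_Ioi fun x hx => by
        beta_reduce
        rw [lowP, if_neg fun k => by nlinarith [k.1, mem_Ioi.1 hx], mul_zero], lowP,
        if_neg fun k => by linarith [k.1]]
      simp
    rw [e, norm_zero]
    exact ⟨by positivity, fun k => absurd rfl k⟩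
  · have b := (pf_int (pf_meas_cpow s) hv fun y hy hL => pf_norm_cpow hy hL s).2
    rw [← gP_eq s hv] at b
    split_ifs at b with k
    · exact ⟨b.trans (le_max_right _ _), fun _ => ⟨(one_div_le_one_div_of_le (by norm_num)
        (le_max_left _ _)).trans k.1, k.2.trans (le_max_left _ _)⟩⟩
    · rw [mul_zero, norm_le_zero_iff] at b
      rw [b, norm_zero]
      exact ⟨by positivity, fun k => absurd rfl k⟩

end Vale.Agent.P026
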