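import Vale.Agent.P026.VorDualA
import Vale.Agent.P026.VorWh
import Vale.Agent.P026.Sym

/-! VOR part 4b: mean square of the dual sums.
Plan. First for a finite set `s` of `ν ≠ 0` with `τ ν ≠ 0` in place of `∑'` (`dual_fin`), then pass to the limit (the series is summable for every `k`:
`‖τ ν y ν‖ ≤ C (1+N)^(1/3) (1+N/L)^(-2)`, `ThCoef.grow`; `HasSum` is a limit along finsets, `le_of_tendsto'`; drop the zero terms by `Finset.sum_filter_ne_zero`).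
Write `ν = u λ^j c d³`, `c = (-2)^a n`, `a ∈ {0,1}`, `n ∈ S`; choose `P ν = (u, j, a, d)` and split `s` into the fibres of `P`.
On a fibre `ν = m n`, `m = u λ^j (-2)^a d³`, `quad ν k = quad m k * quad n k`, `‖quad m k‖ ≤ 1`, `D = nm m ≥ 3^j N(d)³`, `L' = L/D`,
`‖τ ν y ν‖² ≤ C₀² 3^(2j/3) N(n)^(-1/3) (1+N n/L')^(-4)`.  `qls_weighted` and `sum_weight` (`θ = δ - 1/3`, `θ = δ - 1/3 + 41/25`) bound the fibre by
`C C₀² 3^(2j/3) D^(-2/3-δ) E ≤ C C₀² w² E`, `w = 3^(-jδ/2) N(d)^(-1-3δ/2)`, `E = L^(2/3+δ) (K^(6/5) + L^(41/25))`.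
Finally `‖∑_p T_p‖² ≤ (∑ w_p) ∑ ‖T_p‖²/w_p`, and `∑ w_p ≤ 6 * 2 * (∑_j 3^(-jδ/2)) ∑_d N(d)^(-1-3δ/2)` (`isUnit_iff`, `summable_rpow`). -/

namespace Vale.Agent.P026

open scoped ComplexConjugate Real

theorem db_mink {ι κ : Type*} (S : Finset κ) (t : Finset ι) (T : ι → κ → ℂ) (w : ι → ℝ) {Y : ℝ}
    (hw : ∀ p ∈ t, 0 < w p) (h : ∀ p ∈ t, ∑ k ∈ S, ‖T p k‖ ^ 2 ≤ w p ^ 2 * Y) :
    ∑ k ∈ S, ‖∑ p ∈ t, T p k‖ ^ 2 ≤ (∑ p ∈ t, w p) ^ 2 * Y := by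
  calc _ ≤ ∑ k ∈ S, (∑ p ∈ t, w p) * ∑ p ∈ t, ‖T p k‖ ^ 2 / w p := by
        refine Finset.sum_le_sum fun k _ => ?_
        refine (pow_le_pow_left₀ (norm_nonneg _) (norm_sum_le _ _) 2).trans ?_
        refine Finset.sum_sq_le_sum_mul_sum_of_sq_le_mul t (fun p hp => (hw p hp).le)
          (fun p hp => div_nonneg (by positivity) (hw p hp).le) fun p hp => le_of_eq ?_
        rw [mul_div_cancel₀ _ (hw p hp).ne']
    _ = (∑ p ∈ t, w p) * ∑ p ∈ t, (∑ k ∈ S, ‖T p k‖ ^ 2) / w p := by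
        rw [← Finset.mul_sum, Finset.sum_comm]
        simp only [Finset.sum_div]
    _ ≤ (∑ p ∈ t, w p) * ∑ p ∈ t, w p * Y := by
        refine mul_le_mul_of_nonneg_left (Finset.sum_le_sum fun p hp => ?_)
          (Finset.sum_nonneg fun p hp => (hw p hp).le)
        rw [div_le_iff₀ (hw p hp)]
        exact (h p hp).trans_eq (by ring)
    _ = _ := by rw [← Finset.sum_mul]; ring

theorem db_fibre (hq : QLSStmt) {δ : ℝ} (hδ : 0 < δ) (hδ' : δ ≤ 1 / 3) : ∃ C : ℝ, 0 < C ∧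
    ∀ (K L A : ℝ) (m : O) (c : O → ℂ) (n : O → O) (s : Finset O), 1 ≤ K → 0 < L → m ≠ 0 →
      (∀ ν ∈ s, IsS (n ν) ∧ ν = m * n ν ∧
        ‖c ν‖ ≤ A * (nm (n ν) : ℝ) ^ (-1 / 6 : ℝ) / (1 + nm ν / L) ^ 2) →
      ∑ k ∈ sball K, ‖∑ ν ∈ s, c ν * quad ν k‖ ^ 2 ≤ C * A ^ 2 * (nm m : ℝ) ^ (-(2 / 3 + δ)) *
        (L ^ (2 / 3 + δ) * (K ^ (6 / 5 : ℝ) + L ^ (41 / 25 : ℝ))) := by
  classical
  obtain ⟨CQ, hCQ, hQ⟩ := qls_weighted hq hδ
  obtain ⟨C1, hC1, h1⟩ := sum_weight (θ := δ - 1 / 3) (by linarith) (by linarith)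
  obtain ⟨C2, hC2, h2⟩ := sum_weight (θ := δ - 1 / 3 + 41 / 25) (by linarith) (by linarith)
  refine ⟨CQ * (C1 + C2), by positivity, fun K L A m c n s hK hL hm hs => ?_⟩
  have hD : (1 : ℝ) ≤ nm m := one_le_nm hm
  have hD0 : (0 : ℝ) < nm m := by linarith
  have hinj : Set.InjOn n s := fun a ha b hb h => by rw [(hs a ha).2.1, (hs b hb).2.1, h]
  have hS : ∀ x ∈ s.image n, IsS x := fun x hx => by
    obtain ⟨ν, hν, rfl⟩ := Finset.mem_image.1 hx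
    exact (hs ν hν).1
  have h0 : ∀ x ∈ s.image n, x ≠ 0 := fun x hx => (hS x hx).1.1.ne_zero
  set L' := L / nm m with hL'
  have hL'0 : 0 < L' := by positivity
  have h3 := h1 L' _ hL'0 h0
  have h4 := h2 L' _ hL'0 h0
  have h5 : L' ^ (2 / 3 + δ) = (nm m : ℝ) ^ (-(2 / 3 + δ)) * L ^ (2 / 3 + δ) := by
    rw [hL', Real.div_rpow hL.le hD0.le, Real.rpow_neg hD0.le, div_eq_inv_mul]
  have h6 : L' ^ (41 / 25 : ℝ) ≤ L ^ (41 / 25 : ℝ) :=
    Real.rpow_le_rpow hL'0.le (div_le_self hL.le hD) (by norm_num)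
  rw [show 1 + (δ - 1 / 3) = 2 / 3 + δ by ring] at h3
  rw [show 1 + (δ - 1 / 3 + 41 / 25) = 2 / 3 + δ + 41 / 25 by ring, Real.rpow_add hL'0] at h4
  calc _ ≤ ∑ k ∈ sball K, ‖∑ x ∈ s.image n, c (m * x) * quad x k‖ ^ 2 := by
        refine Finset.sum_le_sum fun k hk => ?_
        have hk2 := (mem_sball.1 hk).1.1.2
        have : ∑ ν ∈ s, c ν * quad ν k = quad m k * ∑ x ∈ s.image n, c (m * x) * quad x k := by
          rw [Finset.sum_image hinj, Finset.mul_sum]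
          refine Finset.sum_congr rfl fun ν hν => ?_
          rw [← (hs ν hν).2.1]
          conv_lhs => rw [(hs ν hν).2.1, quad_mul_left hk2, ← (hs ν hν).2.1]
          ring
        rw [this, norm_mul]
        gcongr
        exact mul_le_of_le_one_left (norm_nonneg _) (norm_quad_le _ _)
    _ ≤ _ := hQ K _ _ hK hS
    _ ≤ CQ * ∑ x ∈ s.image n, A ^ 2 * (K ^ (6 / 5 : ℝ) *
          ((nm x : ℝ) ^ (δ - 1 / 3) / (1 + nm x / L') ^ 4) +
          (nm x : ℝ) ^ (δ - 1 / 3 + 41 / 25) / (1 + nm x / L') ^ 4) := by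
        refine mul_le_mul_of_nonneg_left (Finset.sum_le_sum fun x hx => ?_) hCQ.le
        obtain ⟨ν, hν, rfl⟩ := Finset.mem_image.1 hx
        have hx0 : (0 : ℝ) < nm (n ν) := by exact_mod_cast nm_pos (h0 _ hx)
        obtain ⟨-, e1, e2⟩ := hs ν hν
        have e3 : (nm ν : ℝ) / L = nm (n ν) / L' := by
          conv_lhs => rw [e1, nm_mul]
          rw [hL']
          push_cast
          field_simp
        rw [← e1]
        rw [e3] at e2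
        have e4 : ((nm (n ν) : ℝ) ^ (-1 / 6 : ℝ)) ^ 2 * (nm (n ν) : ℝ) ^ δ =
            (nm (n ν) : ℝ) ^ (δ - 1 / 3) := by
          rw [← Real.rpow_natCast, ← Real.rpow_mul hx0.le, ← Real.rpow_add hx0]
          congr 1
          push_cast
          ring
        calc _ ≤ (A * (nm (n ν) : ℝ) ^ (-1 / 6 : ℝ) / (1 + nm (n ν) / L') ^ 2) ^ 2 *
              ((K ^ (6 / 5 : ℝ) + (nm (n ν) : ℝ) ^ (41 / 25 : ℝ)) * (nm (n ν) : ℝ) ^ δ) := by
              gcongr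
          _ = _ := by
              rw [Real.rpow_add hx0, ← e4]
              generalize 1 + (nm (n ν) : ℝ) / L' = r
              ring
    _ ≤ CQ * (A ^ 2 * (K ^ (6 / 5 : ℝ) * (C1 * L' ^ (2 / 3 + δ)) +
          C2 * (L' ^ (2 / 3 + δ) * L ^ (41 / 25 : ℝ)))) := by
        rw [← Finset.mul_sum, Finset.sum_add_distrib, ← Finset.mul_sum]
        gcongr
        exact h4.trans (by gcongr)
    _ ≤ CQ * (A ^ 2 * (K ^ (6 / 5 : ℝ) * ((C1 + C2) * L' ^ (2 / 3 + δ)) +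
          (C1 + C2) * (L' ^ (2 / 3 + δ) * L ^ (41 / 25 : ℝ)))) := by
        gcongr <;> linarith
    _ = _ := by rw [h5]; ring

theorem db_decomp {C₀ : ℝ} {τ : O → ℂ} (h : ThCoef C₀ τ) (ν : O) : ∃ (p : O × ℕ × O) (n : O),
    ν ≠ 0 → τ ν ≠ 0 → p.1 ≠ 0 ∧ nm p.1 ≤ 4 ∧ p.2.2 ≠ 0 ∧ IsS n ∧
      ν = p.1 * lam ^ p.2.1 * p.2.2 ^ 3 * n ∧
      ‖τ ν‖ ≤ |C₀| * 3 ^ (p.2.1 / 3 : ℝ) * (nm n : ℝ) ^ (-1 / 6 : ℝ) := by
  by_cases h0 : ν ≠ 0 ∧ τ ν ≠ 0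
  swap
  · exact ⟨0, 0, fun a b => absurd ⟨a, b⟩ h0⟩
  obtain ⟨u, j, c, d, hu, hc, hs, hd, e, hb⟩ := h ν h0.1 h0.2
  have hb' : ‖τ ν‖ ≤ |C₀| * 3 ^ (j / 3 : ℝ) * (nm c : ℝ) ^ (-1 / 6 : ℝ) :=
    hb.trans (by gcongr; exact le_abs_self _)
  have hu1 := isUnit_iff_nm.1 hu
  by_cases h2 : (2 : O) ∣ c
  · obtain ⟨n, rfl⟩ : ∃ n, c = -2 * n := by
      obtain ⟨n, hn⟩ := h2
      exact ⟨-n, by rw [hn]; ring⟩
    have hn := prim_neg_two.of_mul hc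
    have h4 : nm (-2 : O) = 4 := by decide
    refine ⟨(u * -2, j, d), n, fun _ _ => ⟨mul_ne_zero hu.ne_zero prim_neg_two.ne_zero,
      by simp only [nm_mul, hu1, h4, one_mul, le_refl], hd.ne_zero,
      ⟨⟨hn, fun h2 => ?_⟩, hs.of_mul_right⟩, by rw [e]; ring, hb'.trans ?_⟩⟩
    · exact prime_two.not_isUnit (hs 2 (mul_dvd_mul ⟨-1, by ring⟩ h2))
    · have hn0 : (0 : ℝ) < nm n := by exact_mod_cast nm_pos hn.ne_zero
      refine mul_le_mul_of_nonneg_left ?_ (by positivity)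
      refine Real.rpow_le_rpow_of_nonpos hn0 ?_ (by norm_num)
      rw [nm_mul, h4]
      push_cast
      linarith
  · exact ⟨(u, j, d), c, fun _ _ => ⟨hu.ne_zero, by simp only [hu1]; norm_num, hd.ne_zero,
      ⟨⟨hc, h2⟩, hs⟩, by rw [e]; ring, hb'⟩⟩

theorem dual_bound (hq : QLSStmt) {δ : ℝ} (hδ : 0 < δ) (hδ' : δ ≤ 1 / 3) : ∃ C : ℝ, 0 < C ∧
    ∀ (K L C₀ : ℝ) (τ y : O → ℂ), 1 ≤ K → 0 < L → ThCoef C₀ τ → y 0 = 0 →
      (∀ ν, ‖y ν‖ ≤ 1 / (1 + nm ν / L) ^ 2) →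
      ∑ k ∈ sball K, ‖∑' ν, τ ν * y ν * quad ν k‖ ^ 2 ≤
        C * C₀ ^ 2 * L ^ (2 / 3 + δ) * (K ^ (6 / 5 : ℝ) + L ^ (41 / 25 : ℝ)) := by
  classical
  obtain ⟨C, hC, hF⟩ := db_fibre hq hδ hδ'
  let w : O × ℕ × O → ℝ := fun p => (nm p.1 : ℝ) ^ (-2 : ℝ) *
    (((3 : ℝ) ^ (-δ / 2)) ^ p.2.1 * (nm p.2.2 : ℝ) ^ (-(1 + 3 * δ / 2)))
  have hw : Summable w := by
    refine (summable_rpow (σ := 2) (by norm_num)).mul_of_nonneg
      (Summable.mul_of_nonneg (summable_geometric_of_lt_one (by positivity) ?_)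
        (summable_rpow (by linarith)) (fun _ => by positivity) fun _ => by positivity)
      (fun _ => by positivity) fun _ => by positivity
    exact Real.rpow_lt_one_of_one_lt_of_neg (by norm_num) (by linarith)
  refine ⟨256 * C * ((∑' p, w p) ^ 2 + 1), by positivity, fun K L C₀ τ y hK hL hτ hy0 hy => ?_⟩
  choose P n hP using db_decomp hτ
  set E := L ^ (2 / 3 + δ) * (K ^ (6 / 5 : ℝ) + L ^ (41 / 25 : ℝ)) with hE
  have hE0 : 0 ≤ E := by positivity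
  have hfin : ∀ s : Finset O, ∑ k ∈ sball K, ‖∑ ν ∈ s, τ ν * y ν * quad ν k‖ ^ 2 ≤
      (∑' p, w p) ^ 2 * (256 * C * C₀ ^ 2 * E) := fun s => by
    set s' := s.filter fun ν => ν ≠ 0 ∧ τ ν ≠ 0 with hs'
    have e1 : ∀ k, ∑ ν ∈ s, τ ν * y ν * quad ν k =
        ∑ p ∈ s'.image P, ∑ ν ∈ s' with P ν = p, τ ν * y ν * quad ν k := fun k => by
      rw [Finset.sum_fiberwise_of_maps_to fun ν hν => Finset.mem_image_of_mem P hν, hs',
        Finset.sum_filter_of_ne]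
      intro ν _ h
      exact ⟨fun h0 => h (by simp [h0, hy0]), fun h0 => h (by simp [h0])⟩
    have e2 : ∀ p ∈ s'.image P, p.1 ≠ 0 ∧ nm p.1 ≤ 4 ∧ p.2.2 ≠ 0 := fun p hp => by
      obtain ⟨ν, hν, rfl⟩ := Finset.mem_image.1 hp
      obtain ⟨a, b, c, -⟩ := hP ν (Finset.mem_filter.1 hν).2.1 (Finset.mem_filter.1 hν).2.2
      exact ⟨a, b, c⟩
    simp only [e1]
    refine (db_mink _ _ _ w (Y := 256 * C * C₀ ^ 2 * E) (fun p hp => ?_) fun p hp => ?_).trans ?_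
    · have a1 := one_le_nm (e2 p hp).1
      have a2 := one_le_nm (e2 p hp).2.2
      positivity
    · obtain ⟨a1, a2, a3⟩ := e2 p hp
      have hm : p.1 * lam ^ p.2.1 * p.2.2 ^ 3 ≠ 0 :=
        mul_ne_zero (mul_ne_zero a1 (pow_ne_zero _ prime_lam.ne_zero)) (pow_ne_zero _ a3)
      refine (hF K L (|C₀| * 3 ^ (p.2.1 / 3 : ℝ)) _ (fun ν => τ ν * y ν) n _ hK hL hm
        fun ν hν => ?_).trans ?_
      · obtain ⟨hν', rfl⟩ := Finset.mem_filter.1 hν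
        obtain ⟨-, -, -, b1, b2, b3⟩ :=
          hP ν (Finset.mem_filter.1 hν').2.1 (Finset.mem_filter.1 hν').2.2
        refine ⟨b1, b2, ?_⟩
        rw [norm_mul, div_eq_mul_one_div]
        gcongr
        exact hy ν
      · have b1 := one_le_nm a1
        have b2 := one_le_nm a3
        have b3 : (1 : ℝ) ≤ 16 * (nm p.1 : ℝ) ^ (-2 : ℝ) := by
          have : (nm p.1 : ℝ) ≤ 4 := by exact_mod_cast a2
          rw [Real.rpow_neg (by positivity), ← div_eq_mul_inv, one_le_div (by positivity),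
            Real.rpow_two]
          nlinarith
        have b4 : (nm (p.1 * lam ^ p.2.1 * p.2.2 ^ 3) : ℝ) ^ (-(2 / 3 + δ)) ≤
            (3 ^ p.2.1 * (nm p.2.2 : ℝ) ^ 3) ^ (-(2 / 3 + δ)) := by
          refine Real.rpow_le_rpow_of_nonpos (by positivity) ?_ (by linarith)
          rw [nm_mul, nm_mul, nm_pow, nm_pow, nm_lam]
          push_cast
          rw [mul_assoc]
          exact le_mul_of_one_le_left (by positivity) b1
        have b5 : ((3 : ℝ) ^ (p.2.1 / 3 : ℝ)) ^ 2 *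
            (3 ^ p.2.1 * (nm p.2.2 : ℝ) ^ 3) ^ (-(2 / 3 + δ)) =
            (((3 : ℝ) ^ (-δ / 2)) ^ p.2.1 * (nm p.2.2 : ℝ) ^ (-(1 + 3 * δ / 2))) ^ 2 := by
          have h3 : (0 : ℝ) < 3 := by norm_num
          have hd : (0 : ℝ) < nm p.2.2 := by linarith
          rw [Real.mul_rpow (by positivity) (by positivity), mul_pow, ← mul_assoc]
          simp only [← Real.rpow_natCast, ← Real.rpow_mul h3.le, ← Real.rpow_mul hd.le,
            ← Real.rpow_add h3]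
          congr 2 <;> push_cast <;> ring
        calc _ ≤ C * (|C₀| * 3 ^ (p.2.1 / 3 : ℝ)) ^ 2 *
              (3 ^ p.2.1 * (nm p.2.2 : ℝ) ^ 3) ^ (-(2 / 3 + δ)) * E := by gcongr
          _ = 1 ^ 2 * (((3 : ℝ) ^ (-δ / 2)) ^ p.2.1 * (nm p.2.2 : ℝ) ^ (-(1 + 3 * δ / 2))) ^ 2 *
              (C * C₀ ^ 2 * E) := by rw [← b5, mul_pow, sq_abs]; ring
          _ ≤ (16 * (nm p.1 : ℝ) ^ (-2 : ℝ)) ^ 2 *
              (((3 : ℝ) ^ (-δ / 2)) ^ p.2.1 * (nm p.2.2 : ℝ) ^ (-(1 + 3 * δ / 2))) ^ 2 *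
              (C * C₀ ^ 2 * E) := by gcongr
          _ = _ := by simp only [w]; ring
    · gcongr
      exact hw.sum_le_tsum _ fun _ _ => by positivity
  have hlim : ∑ k ∈ sball K, ‖∑' ν, τ ν * y ν * quad ν k‖ ^ 2 ≤
      (∑' p, w p) ^ 2 * (256 * C * C₀ ^ 2 * E) := by
    rw [← Finset.sum_filter_of_ne (p := fun k => Summable fun ν => τ ν * y ν * quad ν k)
      fun k _ h => by_contra fun h' => h (by simp [tsum_eq_zero_of_not_summable h'])]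
    refine le_of_tendsto' (tendsto_finsetSum _ fun k hk =>
      ((Finset.mem_filter.1 hk).2.hasSum.norm).pow 2) fun s => le_trans ?_ (hfin s)
    exact Finset.sum_le_sum_of_subset_of_nonneg (Finset.filter_subset _ _) fun _ _ _ => by positivity
  calc _ ≤ _ := hlim
    _ ≤ ((∑' p, w p) ^ 2 + 1) * (256 * C * C₀ ^ 2 * E) := by gcongr; linarith
    _ = _ := by rw [hE]; ring

end Vale.Agent.P026
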