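import Vale.Agent.P026.VorFourB

/-! VOR part 3: the weighted sum as an integral of `th`, and Minkowski.
Plan. `vor_rep`: `v = ‖η‖`; exchange `∑'` and `∫` (`hasSum_integral_of_summable_integral_norm`, `Grow.summable`, `f` integrable by
`integrable_rpow_neg_one_add_norm_sq`); with `m = ν η`, `‖m‖² = N(ν) v²`, `b ‖m‖² = N(ν)/N`, the term of `ν` is
`τ ν v^(2/3) m exp((it - 1/3) log ‖m‖²) V(N ν/N) = v^(1+2it) (η/v) τ ν ang ν N(ν)^(1/6) V nt`; it vanishes outside `ball (B N)` (and at `ν = 0`, where `V 0 = 0`).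
`vor_mink`: `I k = ∫ f k * G k = (1/2) ∫ f k ξ (G k ξ - G k (-ξ))` (oddness, `integral_neg_eq_self`); `S = ∑ ‖I k‖² = ∫ ∑ conj (I k) * f k * H k / 2`, and the
integrand has norm at most `F (1+|ξ|²)^(-4) √S √E (1+|ξ|²)²/2` (finite Cauchy-Schwarz); `norm_integral_le_of_norm_le`. -/

namespace Vale.Agent.P026

open scoped ComplexConjugate Real ContDiff

open MeasureTheory

theorem vr_int {n : ℕ} (hn : 2 ≤ n) (F : ℝ) : Integrable fun ξ : ℂ => F / (1 + ‖ξ‖ ^ 2) ^ n := by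
  have h2 : (2 : ℝ) ≤ n := by exact_mod_cast hn
  have := (integrable_rpow_neg_one_add_norm_sq (E := ℂ) (μ := volume) (r := 2 * n)
    (by rw [Complex.finrank_real_complex]; push_cast; linarith)).const_mul F
  refine this.congr (Filter.Eventually.of_forall fun ξ => ?_)
  simp only
  rw [show -(2 * (n : ℝ)) / 2 = -n by ring, Real.rpow_neg (by positivity), Real.rpow_natCast,
    div_eq_mul_inv]

theorem vr_term {V : ℝ → ℝ} {N t : ℝ} (hN : 0 < N) {η : ℂ} (hη : η ≠ 0) (ν : O) :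
    Wh (4 / 3) ν ‖η‖ * (toC ν * η *
      Complex.exp ((Complex.I * t - 1 / 3) * Real.log (‖toC ν * η‖ ^ 2)) *
        (V (1 / (N * ‖η‖ ^ 2) * ‖toC ν * η‖ ^ 2) : ℝ) / (Wf (‖toC ν * η‖ ^ 2) : ℝ)) =
      η * Complex.exp (Complex.I * t * Real.log (‖η‖ ^ 2)) *
        (ang ν * ((nm ν : ℝ) ^ (1 / 6 : ℝ) : ℝ) * V (nm ν / N) * nt ν t) := by
  rcases eq_or_ne ν 0 with rfl | hν
  · simp [ang]
  have hv : 0 < ‖η‖ := norm_pos_iff.2 hη
  have hn : (0 : ℝ) < nm ν := by exact_mod_cast nm_pos hν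
  have h1 : ‖toC ν * η‖ ^ 2 = nm ν * ‖η‖ ^ 2 := by rw [norm_mul, mul_pow, norm_toC_sq]
  have h2 : 1 / (N * ‖η‖ ^ 2) * (nm ν * ‖η‖ ^ 2) = nm ν / N := by field_simp
  have h3 : ((Wf (nm ν * ‖η‖ ^ 2) : ℝ) : ℂ) ≠ 0 := by
    exact_mod_cast (Wf_pos (by positivity)).ne'
  have h4 : toC ν = ang ν * (√(nm ν) : ℝ) := by
    have : ((√(nm ν) : ℝ) : ℂ) ≠ 0 := by exact_mod_cast (Real.sqrt_pos.2 hn).ne'
    rw [ang, div_mul_cancel₀ _ this]
  have h5 : ‖η‖ ^ (2 / 3 : ℝ) * √(nm ν) * Real.exp (-(1 / 3) * Real.log (nm ν * ‖η‖ ^ 2)) =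
      (nm ν : ℝ) ^ (1 / 6 : ℝ) := by
    rw [Real.sqrt_eq_rpow, Real.rpow_def_of_pos hv, Real.rpow_def_of_pos hn,
      Real.rpow_def_of_pos hn, ← Real.exp_add, ← Real.exp_add,
      Real.log_mul hn.ne' (by positivity), Real.log_pow]
    congr 1
    push_cast
    ring
  have h6 : Complex.exp ((Complex.I * t - 1 / 3) * Real.log (nm ν * ‖η‖ ^ 2)) =
      nt ν t * Complex.exp (Complex.I * t * Real.log (‖η‖ ^ 2)) *
        (Real.exp (-(1 / 3) * Real.log (nm ν * ‖η‖ ^ 2)) : ℝ) := by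
    rw [nt, Complex.ofReal_exp, ← Complex.exp_add, ← Complex.exp_add,
      Real.log_mul hn.ne' (by positivity)]
    congr 1
    push_cast
    ring
  rw [h1, h2, Wh_eq_Wf ν hv, h6, ← h5, h4]
  simp only [Complex.ofReal_mul]
  field_simp

theorem vor_rep {B : ℝ} {V : ℝ → ℝ} (hV : Adm B V) {τ : O → ℂ} (hτ : Grow τ) {N t F : ℝ}
    (hN : 0 < N) {η : ℂ} (hη : η ≠ 0) {f : ℂ → ℂ} (hf : Continuous f)
    (hb : ∀ ξ, ‖f ξ‖ ≤ F / (1 + ‖ξ‖ ^ 2) ^ 4) (hr : Repr V t (1 / (N * ‖η‖ ^ 2)) f) :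
    ‖∑ ν ∈ ball (B * N), τ ν * ang ν * ((nm ν : ℝ) ^ (1 / 6 : ℝ) : ℝ) * V (nm ν / N) * nt ν t‖ =
      ‖η‖⁻¹ * ‖∫ ξ, f ξ * th τ (η * ξ, ‖η‖)‖ := by
  have : Countable O := (QuadraticAlgebra.equivProd (-1 : ℤ) (-1)).injective.countable
  have hv : 0 < ‖η‖ := norm_pos_iff.2 hη
  have hfi : Integrable f :=
    (vr_int (n := 4) (by norm_num) F).mono' hf.aestronglyMeasurable (.of_forall hb)
  have h1 : ∫ ξ, f ξ * th τ (η * ξ, ‖η‖) =
      ∑' ν, ∫ ξ, τ ν * Wh (4 / 3) ν ‖η‖ * (f ξ * ec (toC ν * η * ξ / 9)) := by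
    rw [integral_tsum_of_summable_integral_norm]
    · congr 1
      funext ξ
      simp only [th, ← tsum_mul_left]
      exact tsum_congr fun ν => by rw [mul_assoc (toC ν)]; ring
    · intro ν
      refine (hfi.mul_bdd (c := 1) ?_ (.of_forall fun ξ => (norm_ec _).le)).const_mul _
      exact (continuous_ec.comp (by fun_prop)).aestronglyMeasurable
    · simp only [norm_mul (τ _ * _), norm_mul (f _), norm_ec, mul_one, integral_const_mul]
      exact (hτ.summable hv).mul_right _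
  have h2 : ∀ ν, ∫ ξ, τ ν * Wh (4 / 3) ν ‖η‖ * (f ξ * ec (toC ν * η * ξ / 9)) =
      η * Complex.exp (Complex.I * t * Real.log (‖η‖ ^ 2)) *
        (τ ν * ang ν * ((nm ν : ℝ) ^ (1 / 6 : ℝ) : ℝ) * V (nm ν / N) * nt ν t) := fun ν => by
    rw [integral_const_mul, hr, mul_assoc (τ ν), vr_term hN hη]
    ring
  simp only [h2] at h1
  rw [h1, tsum_mul_left, tsum_eq_sum (s := ball (B * N)), norm_mul, norm_mul,
    show Complex.I * t * Real.log (‖η‖ ^ 2) = ((t * Real.log (‖η‖ ^ 2) : ℝ) : ℂ) * Complex.I by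
      push_cast; ring, Complex.norm_exp_ofReal_mul_I, mul_one, inv_mul_cancel_left₀ hv.ne']
  intro ν hν
  have : V (nm ν / N) = 0 := by_contra fun h => hν (mem_ball.2 (by
    have := (hV.2.2 _ h).2
    rwa [div_le_iff₀ hN] at this))
  simp [this]

theorem vor_mink : ∃ C : ℝ, 0 < C ∧ ∀ (s : Finset O) (f G : O → ℂ → ℂ) (F E : ℝ), 0 ≤ E →
    (∀ k ∈ s, Continuous (f k) ∧ (∀ ξ, f k (-ξ) = -f k ξ) ∧
      (∀ ξ, ‖f k ξ‖ ≤ F / (1 + ‖ξ‖ ^ 2) ^ 4) ∧ Continuous (G k) ∧ ∃ M : ℝ, ∀ ξ, ‖G k ξ‖ ≤ M) →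
    (∀ ξ, ∑ k ∈ s, ‖G k ξ - G k (-ξ)‖ ^ 2 ≤ E * (1 + ‖ξ‖ ^ 2) ^ 4) →
    ∑ k ∈ s, ‖∫ ξ, f k ξ * G k ξ‖ ^ 2 ≤ C * F ^ 2 * E := by
  set J := ∫ ξ : ℂ, 1 / (1 + ‖ξ‖ ^ 2) ^ 2 with hJ
  have hJ0 : 0 ≤ J := integral_nonneg fun ξ => by positivity
  refine ⟨J ^ 2 + 1, by positivity, fun s f G F E hE h hG => ?_⟩
  rcases s.eq_empty_or_nonempty with rfl | ⟨k₀, hk₀⟩
  · rw [Finset.sum_empty]; positivity
  have hF : 0 ≤ F := by simpa using (norm_nonneg _).trans ((h k₀ hk₀).2.2.1 0)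
  set I : O → ℂ := fun k => ∫ ξ, f k ξ * G k ξ with hI
  have hint : ∀ k ∈ s, Integrable (fun ξ => f k ξ * G k ξ) ∧
      Integrable fun ξ => f k ξ * G k (-ξ) := fun k hk => by
    obtain ⟨a1, -, a3, a4, M, a5⟩ := h k hk
    have hfi : Integrable (f k) :=
      (vr_int (n := 4) (by norm_num) F).mono' a1.aestronglyMeasurable (.of_forall a3)
    exact ⟨hfi.mul_bdd a4.aestronglyMeasurable (.of_forall a5),
      hfi.mul_bdd (a4.comp continuous_neg).aestronglyMeasurable (.of_forall fun ξ => a5 _)⟩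
  have h2 : ∀ k ∈ s, ∫ ξ, f k ξ * (G k ξ - G k (-ξ)) = 2 * I k := fun k hk => by
    have : ∫ ξ, f k ξ * G k (-ξ) = -I k := by
      rw [← integral_neg_eq_self, hI, ← integral_neg]
      simp only [neg_neg, (h k hk).2.1, neg_mul]
    simp only [mul_sub]
    rw [integral_sub (hint k hk).1 (hint k hk).2, this]
    ring
  set S := ∑ k ∈ s, ‖I k‖ ^ 2 with hS
  have hS0 : 0 ≤ S := by positivity
  have h3 : ((2 * S : ℝ) : ℂ) = ∫ ξ, ∑ k ∈ s, conj (I k) * (f k ξ * (G k ξ - G k (-ξ))) := by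
    rw [integral_finsetSum _ fun k hk => ?_]
    · rw [hS, Finset.mul_sum, Complex.ofReal_sum]
      refine Finset.sum_congr rfl fun k hk => ?_
      rw [integral_const_mul, h2 k hk, mul_left_comm, Complex.conj_mul']
      push_cast
      ring
    · simp only [mul_sub (f k _)]
      exact ((hint k hk).1.sub (hint k hk).2).const_mul _
  have h4 : 2 * S ≤ F * (√S * √E) * J := by
    rw [← Real.norm_of_nonneg (by positivity : 0 ≤ 2 * S), ← Complex.norm_real, h3, hJ,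
      ← integral_const_mul]
    refine norm_integral_le_of_norm_le ((vr_int le_rfl 1).const_mul _) (.of_forall fun ξ => ?_)
    have hu : 0 < 1 + ‖ξ‖ ^ 2 := by positivity
    calc _ ≤ ∑ k ∈ s, F / (1 + ‖ξ‖ ^ 2) ^ 4 * (‖I k‖ * ‖G k ξ - G k (-ξ)‖) := by
          refine (norm_sum_le _ _).trans (Finset.sum_le_sum fun k hk => ?_)
          rw [norm_mul, norm_mul, RCLike.norm_conj, mul_left_comm]
          gcongr
          exact (h k hk).2.2.1 ξ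
      _ ≤ F / (1 + ‖ξ‖ ^ 2) ^ 4 * (√S * √(E * (1 + ‖ξ‖ ^ 2) ^ 4)) := by
          rw [← Finset.mul_sum]
          gcongr
          refine (Real.sum_mul_le_sqrt_mul_sqrt _ _ _).trans ?_
          gcongr
          exact hG ξ
      _ = _ := by
          rw [Real.sqrt_mul hE, show (1 + ‖ξ‖ ^ 2) ^ 4 = ((1 + ‖ξ‖ ^ 2) ^ 2) ^ 2 by ring,
            Real.sqrt_sq (by positivity)]
          field_simp
  have h5 := Real.sq_sqrt hS0
  have h6 := Real.sq_sqrt hE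
  have h7 : 0 ≤ F ^ 2 * E := by positivity
  have h8 : (F * √E * J) ^ 2 = J ^ 2 * F ^ 2 * E := by rw [mul_pow, mul_pow, h6]; ring
  nlinarith [sq_nonneg (√S - F * √E * J)]

end Vale.Agent.P026
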