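import Vale.Agent.P026.VorArithB
import Vale.Agent.P026.VorDualB
import Vale.Agent.P026.VorRep

/-! VOR part 6: the Voronoi bound for the coefficients `ρ Ψ`.
Plan. Cells: `k ≡ k₀ mod Q`, `K'/2 ≤ N k < K'`.  `η_k = K'/(k² √N)`, `b_k = (N k/K')²`; `dual (k C) (η_k ξ) ‖η_k‖` does not depend on `k`.
`G_k ξ - G_k (-ξ) = ∑_a ζ (th - th)`, the term `ν = 0` cancels, `dual_bound` with `L = v'^(-2) ≤ L₀ (1+|ξ|²)²`, `L₀ = (K' N R)²/N`; `sum_norm_fhat_le`; `vor_mink`; `vor_rep`. -/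

namespace Vale.Agent.P026

open scoped ComplexConjugate Real

theorem vc_dual (hq : QLSStmt) {δ : ℝ} (hδ : 0 < δ) (hδ' : δ ≤ 1 / 3) : ∃ C : ℝ, 0 < C ∧
    ∀ (K C₀ : ℝ) (τ e : O → ℂ) (z : ℂ) (v : ℝ), 1 ≤ K → 0 < v → ThCoef C₀ τ → (∀ ν, ‖e ν‖ ≤ 1) →
      ∑ k ∈ sball K, ‖th (fun ν => τ ν * (e ν * quad ν k)) (z, v) -
          th (fun ν => τ ν * (e ν * quad ν k)) (-z, v)‖ ^ 2 ≤
        C * C₀ ^ 2 * (1 / v ^ 2) ^ δ * (K ^ (6 / 5 : ℝ) + (1 / v ^ 2) ^ (41 / 25 : ℝ)) := by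
  obtain ⟨CD, hCD, hD⟩ := dual_bound hq hδ hδ'
  obtain ⟨CW, hCW, hW⟩ := Wf_le
  refine ⟨4 * CW ^ 2 * CD, by positivity, fun K C₀ τ e z v hK hv hτ he => ?_⟩
  let y : O → ℂ := fun ν => e ν * (Wf (nm ν * v ^ 2) : ℝ) *
    (ec (toC ν * z / 9) - ec (toC ν * (-z) / 9)) / (2 * CW : ℝ)
  have hy0 : y 0 = 0 := by simp [y]
  have hy : ∀ ν, ‖y ν‖ ≤ 1 / (1 + nm ν / (1 / v ^ 2)) ^ 2 := fun ν => by
    have h0 : (0 : ℝ) ≤ nm ν * v ^ 2 := by positivity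
    have h1 := hW _ h0
    have h2 := (Wf_pos h0).le
    have h3 : ‖ec (toC ν * z / 9) - ec (toC ν * (-z) / 9)‖ ≤ 2 :=
      (norm_sub_le _ _).trans (by rw [norm_ec, norm_ec]; norm_num)
    simp only [y, norm_div, norm_mul, Complex.norm_real, Real.norm_eq_abs, abs_of_nonneg h2,
      abs_of_pos hCW, abs_two]
    rw [div_le_iff₀ (by positivity), div_div_eq_mul_div, div_one]
    calc _ ≤ 1 * (CW / (1 + nm ν * v ^ 2) ^ 2) * 2 := by gcongr; exact he ν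
      _ = _ := by ring
  have h := hD K (1 / v ^ 2) C₀ τ y hK (by positivity) hτ hy0 hy
  have hk : ∀ k, th (fun ν => τ ν * (e ν * quad ν k)) (z, v) -
      th (fun ν => τ ν * (e ν * quad ν k)) (-z, v) =
      ((2 * CW * v ^ (2 / 3 : ℝ) : ℝ) : ℂ) * ∑' ν, τ ν * y ν * quad ν k := fun k => by
    have hg : Grow fun ν => τ ν * (e ν * quad ν k) := hτ.grow.mul_bdd (M := 1) fun ν => by
      rw [norm_mul]; exact mul_le_one₀ (he ν) (norm_nonneg _) (norm_quad_le _ _)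
    simp only [th]
    rw [← (hg.summable_th z hv).tsum_sub (hg.summable_th (-z) hv), ← tsum_mul_left]
    refine tsum_congr fun ν => ?_
    have : (CW : ℂ) ≠ 0 := by exact_mod_cast hCW.ne'
    simp only [y, Wh_eq_Wf ν hv]
    push_cast
    field_simp
  have hv43 : (v ^ (2 / 3 : ℝ)) ^ 2 * (1 / v ^ 2) ^ (2 / 3 + δ) = (1 / v ^ 2) ^ δ := by
    rw [Real.rpow_add (by positivity), ← mul_assoc, one_div, Real.inv_rpow (by positivity),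
      ← Real.rpow_natCast v 2, ← Real.rpow_mul hv.le, ← Real.rpow_natCast _ 2,
      ← Real.rpow_mul hv.le, mul_comm (2 / 3 : ℝ), mul_inv_cancel₀ (by positivity), one_mul]
  simp only [hk, norm_mul, mul_pow, Complex.norm_real, Real.norm_eq_abs, sq_abs, ← Finset.mul_sum]
  calc _ ≤ 2 ^ 2 * CW ^ 2 * (v ^ (2 / 3 : ℝ)) ^ 2 * (CD * C₀ ^ 2 * (1 / v ^ 2) ^ (2 / 3 + δ) *
        (K ^ (6 / 5 : ℝ) + (1 / v ^ 2) ^ (41 / 25 : ℝ))) := by gcongr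
    _ = _ := by rw [← hv43]; ring

theorem vc_point {k C : O} (hk : k ≠ 0) (hC : C ≠ 0) {K N : ℝ} (hK : 0 < K) (hN : 0 < N) (ξ : ℂ) :
    dual (k * C) ((K : ℂ) / (toC k ^ 2 * (√N : ℝ)) * ξ) ‖(K : ℂ) / (toC k ^ 2 * (√N : ℝ))‖ =
      (-(conj ξ * (√N : ℝ) / (K * toC C ^ 2 * ((1 + ‖ξ‖ ^ 2 : ℝ) : ℂ))),
        √N / (K * nm C * (1 + ‖ξ‖ ^ 2))) := by
  have hs : 0 < √N := Real.sqrt_pos.2 hN
  have hk' : toC k ≠ 0 := mt toC_eq_zero.1 hk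
  have hC' : toC C ≠ 0 := mt toC_eq_zero.1 hC
  have hnk : (0 : ℝ) < nm k := by exact_mod_cast nm_pos hk
  have hnC : (0 : ℝ) < nm C := by exact_mod_cast nm_pos hC
  have hn : ‖(K : ℂ) / (toC k ^ 2 * (√N : ℝ))‖ = K / (nm k * √N) := by
    rw [norm_div, norm_mul, norm_pow, norm_toC_sq, Complex.norm_real, Complex.norm_real,
      Real.norm_of_nonneg hK.le, Real.norm_of_nonneg hs.le]
  have hu : (0 : ℝ) < 1 + ‖ξ‖ ^ 2 := by positivity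
  have hρ : ‖(K : ℂ) / (toC k ^ 2 * (√N : ℝ)) * ξ‖ ^ 2 + ‖(K : ℂ) / (toC k ^ 2 * (√N : ℝ))‖ ^ 2 =
      (K / (nm k * √N)) ^ 2 * (1 + ‖ξ‖ ^ 2) := by
    rw [norm_mul, hn]; ring
  simp only [dual]
  rw [hρ, hn]
  refine Prod.ext ?_ ?_
  · have h1 : (nm k : ℂ) = toC k * conj (toC k) := by
      rw [Complex.mul_conj, Complex.normSq_eq_norm_sq, norm_toC_sq]; simp
    have h2 : conj (toC k) ≠ 0 := by simpa using hk'
    have h3 : ((√N : ℝ) : ℂ) ≠ 0 := by exact_mod_cast hs.ne'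
    have h4 : (K : ℂ) ≠ 0 := by exact_mod_cast hK.ne'
    have h5 : ((1 + ‖ξ‖ ^ 2 : ℝ) : ℂ) ≠ 0 := by exact_mod_cast hu.ne'
    simp only [map_mul, map_div₀, map_pow, Complex.conj_ofReal, Complex.ofReal_mul,
      Complex.ofReal_pow (K / _), Complex.ofReal_div, Complex.ofReal_natCast, h1]
    field_simp
  · simp only [nm_mul, Nat.cast_mul]
    field_simp

theorem vc_num {δ K L L₀ u : ℝ} (hδ : 0 < δ) (hδ' : δ ≤ 1 / 3) (hK : 0 ≤ K) (hL : 0 ≤ L)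
    (hL₀ : 0 ≤ L₀) (hu : 1 ≤ u) (h : L ≤ L₀ * u ^ 2) :
    L ^ δ * (K + L ^ (41 / 25 : ℝ)) ≤ L₀ ^ δ * (K + L₀ ^ (41 / 25 : ℝ)) * u ^ 4 := by
  have hu0 : 0 < u := by linarith
  have h1 : ∀ a : ℝ, 0 ≤ a → L ^ a ≤ L₀ ^ a * u ^ (2 * a) := fun a ha => by
    rw [Real.rpow_mul hu0.le, Real.rpow_two, ← Real.mul_rpow hL₀ (by positivity)]
    exact Real.rpow_le_rpow hL h ha
  have h2 : u ^ (2 * δ) * u ^ (2 * (41 / 25) : ℝ) ≤ u ^ 4 := by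
    rw [← Real.rpow_add hu0, ← Real.rpow_natCast]
    exact Real.rpow_le_rpow_of_exponent_le hu (by push_cast; linarith)
  have h3 : 1 ≤ u ^ (2 * (41 / 25) : ℝ) := Real.one_le_rpow hu (by norm_num)
  calc _ ≤ (L₀ ^ δ * u ^ (2 * δ)) * (K * u ^ (2 * (41 / 25) : ℝ) +
        L₀ ^ (41 / 25 : ℝ) * u ^ (2 * (41 / 25) : ℝ)) := by
        gcongr
        · exact h1 δ hδ.le
        · exact le_mul_of_one_le_right hK h3
        · exact h1 _ (by norm_num)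
    _ = L₀ ^ δ * (K + L₀ ^ (41 / 25 : ℝ)) * (u ^ (2 * δ) * u ^ (2 * (41 / 25) : ℝ)) := by ring
    _ ≤ _ := by gcongr

theorem vc_cs {ι : Type*} (s : Finset ι) (ζ D : ι → ℂ) (w : ι → ℝ) (h : ∀ i, ‖ζ i‖ ≤ w i) :
    ‖∑ i ∈ s, ζ i * D i‖ ^ 2 ≤ (∑ i ∈ s, w i) * ∑ i ∈ s, w i * ‖D i‖ ^ 2 := by
  have hw : ∀ i, 0 ≤ w i := fun i => (norm_nonneg _).trans (h i)
  calc _ ≤ (∑ i ∈ s, w i * ‖D i‖) ^ 2 := by
        gcongr
        refine (norm_sum_le _ _).trans (Finset.sum_le_sum fun i _ => ?_)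
        rw [norm_mul]
        gcongr
        exact h i
    _ ≤ _ := Finset.sum_sq_le_sum_mul_sum_of_sq_le_mul s (fun i _ => hw i)
        (fun i _ => mul_nonneg (hw i) (by positivity)) fun i _ => le_of_eq (by ring)

theorem vc_cell (hq : QLSStmt) {ρ : (O × O → ℂ) → O → ℂ} (hρ : VAut ρ) {C₀ : ℝ}
    (hc : ∀ Ψ, Cls 9 Ψ → ThCoef C₀ (ρ Ψ)) {Q : O} (h9 : (9 : O) ∣ Q) {B : ℝ}
    {V : ℝ → ℝ} (hV : Adm B V) {δ : ℝ} (hδ : 0 < δ) (hδ' : δ ≤ 1 / 3) :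
    ∃ C : ℝ, 0 < C ∧ ∀ (Ψ : O × O → ℂ) (N K t : ℝ) (R k₀ : O) (φ : O → ℂ) (s : Finset O),
      Cls 9 Ψ → 0 < N → 1 ≤ K → R ≠ 0 → Q ∣ R → Per R φ → (∀ n, ‖φ n‖ ≤ 1) →
      (∀ w, Q ∣ w - 1 → IsCoprime w R → ∃ η : ℂ, ‖η‖ = 1 ∧ ∀ n, φ (w * n) = η * φ n) →
      IsCoprime k₀ R →
      (∀ k ∈ s, k ∈ sball K ∧ IsCoprime k R ∧ Q ∣ k - k₀ ∧ K ≤ 2 * nm k) →
      ∑ k ∈ s, ‖∑ ν ∈ ball (B * N),
          ρ Ψ ν * (φ ν * (quad ν k * cub ν k)) * ang ν * ((nm ν : ℝ) ^ (1 / 6 : ℝ) : ℝ) *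
            V (nm ν / N) * nt ν t‖ ^ 2 ≤
        C * (1 + |t|) ^ 16 * nm R * N * ((K ^ 2 * (nm R : ℝ) ^ 2 / N) ^ δ *
          (K ^ (6 / 5 : ℝ) + (K ^ 2 * (nm R : ℝ) ^ 2 / N) ^ (41 / 25 : ℝ))) := by
  obtain ⟨CD, hCD, hD⟩ := vc_dual hq hδ hδ'
  obtain ⟨CF, hCF, hF⟩ := vor_fourier hV
  obtain ⟨CM, hCM, hM⟩ := vor_mink
  refine ⟨CM * CF ^ 2 * CD * (C₀ ^ 2 + 1), by positivity,
    fun Ψ N K t R k₀ φ s hΨ hN hK hR hQ hφ hφ1 he hk₀ hs => ?_⟩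
  have hK0 : 0 < K := by linarith
  have hsN : 0 < √N := Real.sqrt_pos.2 hN
  obtain ⟨C, y, Φ, hCΦ, hk⟩ := vor_arith hρ (fun Ψ h => (hc Ψ h).grow) hΨ h9 hQ hR hφ hφ1 he hk₀
  let η : O → ℂ := fun k => (K : ℂ) / (toC k ^ 2 * (√N : ℝ))
  let τ : O → O → ℂ := fun k ν => ρ Ψ ν * (φ ν * (quad ν k * cub ν k))
  have hτ : ∀ k, Grow (τ k) := fun k => (hc Ψ hΨ).grow.mul_bdd (M := 1) fun ν => by
    rw [norm_mul, norm_mul]
    exact mul_le_one₀ (hφ1 ν) (by positivity)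
      (mul_le_one₀ (norm_quad_le _ _) (norm_nonneg _) (norm_cub_le _ _))
  have hk0 : ∀ k ∈ s, k ≠ 0 := fun k h => (mem_sball.1 (hs k h).1).1.1.1.ne_zero
  have hnη : ∀ k, ‖η k‖ = K / (nm k * √N) := fun k => by
    simp only [η]
    rw [norm_div, norm_mul, norm_pow, norm_toC_sq, Complex.norm_real, Complex.norm_real,
      Real.norm_of_nonneg hK0.le, Real.norm_of_nonneg hsN.le]
  have hηpos : ∀ k ∈ s, 0 < ‖η k‖ := fun k h => by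
    have : (0 : ℝ) < nm k := by exact_mod_cast nm_pos (hk0 k h)
    rw [hnη]; positivity
  have hf : ∀ k, ∃ f : ℂ → ℂ, k ∈ s → Continuous f ∧ (∀ ξ, f (-ξ) = -f ξ) ∧
      (∀ ξ, ‖f ξ‖ ≤ CF * (1 + |t|) ^ 8 / (1 + ‖ξ‖ ^ 2) ^ 4) ∧
        Repr V t (1 / (N * ‖η k‖ ^ 2)) f := fun k => by
    by_cases h : k ∈ s
    · have h1 := (mem_sball.1 (hs k h).1).2
      have h2 := (hs k h).2.2.2
      have h3 : (0 : ℝ) < nm k := by exact_mod_cast nm_pos (hk0 k h)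
      have h4 : 1 / (N * ‖η k‖ ^ 2) = (nm k / K) ^ 2 := by
        rw [hnη, div_pow, mul_pow, Real.sq_sqrt hN.le]
        field_simp
      have h5 : 1 / 2 ≤ nm k / K := by rw [le_div_iff₀ hK0]; linarith
      have h6 : nm k / K ≤ 1 := by rwa [div_le_one hK0]
      obtain ⟨f, hf⟩ := hF t (1 / (N * ‖η k‖ ^ 2)) (by rw [h4]; nlinarith) (by rw [h4]; nlinarith)
      exact ⟨f, fun _ => hf⟩
    · exact ⟨0, fun h' => absurd h' h⟩
  choose f hf using hf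
  set L₀ := K ^ 2 * (nm R : ℝ) ^ 2 / N with hL₀
  have hL₀0 : 0 ≤ L₀ := by positivity
  set X := L₀ ^ δ * (K ^ (6 / 5 : ℝ) + L₀ ^ (41 / 25 : ℝ)) with hX
  have hX0 : 0 ≤ X := by positivity
  have hζ : ∀ k, ∃ ζ : O → ℂ, k ∈ s → (∀ a, ‖ζ a‖ ≤ ‖fhat R φ a‖) ∧
      ∀ (z : ℂ) (v : ℝ), 0 < v → th (τ k) (z, v) =
        ∑ a ∈ res R, ζ a * th (fun ν => ρ (Φ a) ν * (eq (-(ν * y a)) (9 * C a) * quad ν k))
          (dual (k * C a) z v) := fun k => by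
    by_cases h : k ∈ s
    · obtain ⟨ζ, hζ⟩ := hk k (mem_sball.1 (hs k h).1).1 (hs k h).2.1 (hs k h).2.2.1
      exact ⟨ζ, fun _ => hζ⟩
    · exact ⟨0, fun h' => absurd h' h⟩
  choose ζ hζ using hζ
  have hmain := hM s f (fun k ξ => th (τ k) (η k * ξ, ‖η k‖)) (CF * (1 + |t|) ^ 8)
    (nm R * (CD * C₀ ^ 2 * X)) (by positivity) (fun k h => by
      obtain ⟨M, hM⟩ := (hτ k).bdd_th (hηpos k h)
      exact ⟨(hf k h).1, (hf k h).2.1, (hf k h).2.2.1,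
        ((hτ k).continuous_th (hηpos k h)).comp (continuous_const.mul continuous_id),
        M, fun ξ => hM _⟩) fun ξ => by
    have hu : (1 : ℝ) ≤ 1 + ‖ξ‖ ^ 2 := by nlinarith [sq_nonneg ‖ξ‖]
    have hC0 : ∀ a, C a ≠ 0 := fun a h => hR (zero_dvd_iff.1 (h ▸ (hCΦ a).1))
    let z : O → ℂ := fun a => -(conj ξ * (√N : ℝ) / (K * toC (C a) ^ 2 * ((1 + ‖ξ‖ ^ 2 : ℝ) : ℂ)))
    let v : O → ℝ := fun a => √N / (K * nm (C a) * (1 + ‖ξ‖ ^ 2))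
    let D : O → O → ℂ := fun a k =>
      th (fun ν => ρ (Φ a) ν * (eq (-(ν * y a)) (9 * C a) * quad ν k)) (z a, v a) -
        th (fun ν => ρ (Φ a) ν * (eq (-(ν * y a)) (9 * C a) * quad ν k)) (-z a, v a)
    have h1 : ∀ k ∈ s, th (τ k) (η k * ξ, ‖η k‖) - th (τ k) (η k * -ξ, ‖η k‖) =
        ∑ a ∈ res R, ζ k a * D a k := fun k h => by
      rw [(hζ k h).2 _ _ (hηpos k h), (hζ k h).2 _ _ (hηpos k h), ← Finset.sum_sub_distrib]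
      refine Finset.sum_congr rfl fun a _ => ?_
      simp only [η, D, z, v]
      rw [vc_point (hk0 k h) (hC0 a) hK0 hN, vc_point (hk0 k h) (hC0 a) hK0 hN, mul_sub,
        norm_neg, map_neg, neg_mul, neg_div]
    have h2 : ∀ a, ∑ k ∈ s, ‖D a k‖ ^ 2 ≤ CD * C₀ ^ 2 * X * (1 + ‖ξ‖ ^ 2) ^ 4 := fun a => by
      have hnC : (0 : ℝ) < nm (C a) := by exact_mod_cast nm_pos (hC0 a)
      have hnC' : (nm (C a) : ℝ) ≤ nm R := by exact_mod_cast nm_le_of_dvd hR (hCΦ a).1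
      have hv : 0 < v a := by positivity
      have h3 := hD K C₀ (ρ (Φ a)) (fun ν => eq (-(ν * y a)) (9 * C a)) (z a) (v a) hK hv
        (hc _ (hCΦ a).2) fun ν => (norm_eq _ _).le
      have h4 : 1 / v a ^ 2 ≤ L₀ * (1 + ‖ξ‖ ^ 2) ^ 2 := by
        simp only [v, hL₀]
        rw [div_pow, Real.sq_sqrt hN.le, one_div_div, div_mul_eq_mul_div, mul_pow, mul_pow]
        gcongr
      have h5 := vc_num hδ hδ' (by positivity : 0 ≤ K ^ (6 / 5 : ℝ)) (by positivity) hL₀0 hu h4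
      calc _ ≤ ∑ k ∈ sball K, ‖D a k‖ ^ 2 :=
            Finset.sum_le_sum_of_subset_of_nonneg (fun k h => (hs k h).1) fun _ _ _ => by positivity
        _ ≤ _ := h3
        _ = CD * C₀ ^ 2 * ((1 / v a ^ 2) ^ δ *
            (K ^ (6 / 5 : ℝ) + (1 / v a ^ 2) ^ (41 / 25 : ℝ))) := by ring
        _ ≤ CD * C₀ ^ 2 * (X * (1 + ‖ξ‖ ^ 2) ^ 4) := by gcongr
        _ = _ := by ring
    have h3 := sum_norm_fhat_le hR hφ1
    have h4 : 0 ≤ ∑ a ∈ res R, ‖fhat R φ a‖ := by positivity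
    calc _ ≤ ∑ k ∈ s, (∑ a ∈ res R, ‖fhat R φ a‖) * ∑ a ∈ res R, ‖fhat R φ a‖ * ‖D a k‖ ^ 2 :=
          Finset.sum_le_sum fun k h => by
            rw [h1 k h]
            exact vc_cs _ _ _ _ (hζ k h).1
      _ = (∑ a ∈ res R, ‖fhat R φ a‖) * ∑ a ∈ res R, ‖fhat R φ a‖ * ∑ k ∈ s, ‖D a k‖ ^ 2 := by
          rw [← Finset.mul_sum, Finset.sum_comm]
          simp only [Finset.mul_sum]
      _ ≤ (∑ a ∈ res R, ‖fhat R φ a‖) *
          ∑ a ∈ res R, ‖fhat R φ a‖ * (CD * C₀ ^ 2 * X * (1 + ‖ξ‖ ^ 2) ^ 4) := by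
          gcongr with a
          exact h2 a
      _ = (∑ a ∈ res R, ‖fhat R φ a‖) ^ 2 * (CD * C₀ ^ 2 * X * (1 + ‖ξ‖ ^ 2) ^ 4) := by
          rw [← Finset.sum_mul]; ring
      _ ≤ √(nm R) ^ 2 * (CD * C₀ ^ 2 * X * (1 + ‖ξ‖ ^ 2) ^ 4) := by gcongr
      _ = _ := by rw [Real.sq_sqrt (by positivity)]; ring
  calc _ ≤ ∑ k ∈ s, N * ‖∫ ξ, f k ξ * th (τ k) (η k * ξ, ‖η k‖)‖ ^ 2 := by
        refine Finset.sum_le_sum fun k h => ?_
        have h1 := vor_rep hV (hτ k) hN (norm_pos_iff.1 (hηpos k h)) (hf k h).1 (hf k h).2.2.1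
          (hf k h).2.2.2
        simp only [τ] at h1 ⊢
        rw [h1, mul_pow]
        gcongr
        have h2 := (mem_sball.1 (hs k h).1).2
        rw [hnη, inv_div, div_pow, mul_pow, Real.sq_sqrt hN.le, div_le_iff₀ (by positivity),
          mul_comm]
        gcongr
    _ ≤ N * (CM * (CF * (1 + |t|) ^ 8) ^ 2 * (nm R * (CD * C₀ ^ 2 * X))) := by
        rw [← Finset.mul_sum]
        gcongr
    _ ≤ N * (CM * (CF * (1 + |t|) ^ 8) ^ 2 * (nm R * (CD * (C₀ ^ 2 + 1) * X))) := by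
        gcongr
        linarith
    _ = _ := by ring

theorem vc_log {δ : ℝ} (hδ : 0 < δ) : ∃ C : ℝ, 0 < C ∧ ∀ K : ℝ, 1 ≤ K →
    ((Nat.log 2 ⌊K⌋₊ + 1 : ℕ) : ℝ) ≤ C * K ^ δ := by
  have hl : 0 < Real.log 2 := Real.log_pos one_lt_two
  refine ⟨1 + 1 / (δ * Real.log 2), by positivity, fun K hK => ?_⟩
  have h1 := pow_log_floor_le hK
  generalize Nat.log 2 ⌊K⌋₊ = i at h1
  have h2 : 1 + i * (δ * Real.log 2) ≤ K ^ δ := by
    calc _ ≤ Real.exp (i * (δ * Real.log 2)) := by linarith [Real.add_one_le_exp (i * (δ * Real.log 2))]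
      _ = ((2 : ℝ) ^ i) ^ δ := by
          rw [Real.rpow_def_of_pos (by positivity), Real.log_pow]; ring_nf
      _ ≤ _ := Real.rpow_le_rpow (by positivity) h1 hδ.le
  have h3 : 1 ≤ K ^ δ := Real.one_le_rpow hK hδ.le
  have h4 : (i : ℝ) ≤ 1 / (δ * Real.log 2) * K ^ δ := by
    rw [one_div, ← div_eq_inv_mul, le_div_iff₀ (by positivity)]
    linarith
  push_cast
  linarith

open Classical in
theorem vor_core (hq : QLSStmt) {ρ : (O × O → ℂ) → O → ℂ} (hρ : VAut ρ) {C₀ : ℝ}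
    (hc : ∀ Ψ, Cls 9 Ψ → ThCoef C₀ (ρ Ψ)) {Q : O} (hQ0 : Q ≠ 0) (h9 : (9 : O) ∣ Q) {B : ℝ}
    {V : ℝ → ℝ} (hV : Adm B V) {B' : ℝ} (hB' : 1 ≤ B') {ε : ℝ} (hε : 0 < ε) :
    ∃ C : ℝ, 0 < C ∧ ∀ (Ψ : O × O → ℂ) (N K t : ℝ) (R : O) (φ : O → ℂ), Cls 9 Ψ → 1 / B' ≤ N →
      1 ≤ K → R ≠ 0 → Q ∣ R → Per R φ → (∀ n, ‖φ n‖ ≤ 1) →
      (∀ w, Q ∣ w - 1 → IsCoprime w R → ∃ η : ℂ, ‖η‖ = 1 ∧ ∀ n, φ (w * n) = η * φ n) →
      ∑ k ∈ (sball K).filter (fun k => IsCoprime k R), ‖∑ ν ∈ ball (B * N),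
          ρ Ψ ν * (φ ν * (quad ν k * cub ν k)) * ang ν * ((nm ν : ℝ) ^ (1 / 6 : ℝ) : ℝ) *
            V (nm ν / N) * nt ν t‖ ^ 2 ≤
        C * (1 + |t|) ^ 16 * (K * nm R) ^ ε * nm R * N *
          (K ^ (6 / 5 : ℝ) + (K ^ 2 * (nm R : ℝ) ^ 2 / N) ^ (41 / 25 : ℝ)) := by
  set δ := min (1 / 3) (ε / 3) with hδdef
  have hδ : 0 < δ := lt_min (by norm_num) (by positivity)
  have hδ' : δ ≤ 1 / 3 := min_le_left _ _
  have hδε : δ ≤ ε / 3 := min_le_right _ _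
  obtain ⟨C1, hC1, h1⟩ := vc_cell hq hρ hc h9 hV hδ hδ'
  obtain ⟨C2, hC2, h2⟩ := vc_log hδ
  have hnQ : (0 : ℝ) < nm Q := by exact_mod_cast nm_pos hQ0
  refine ⟨nm Q * C2 * C1 * (64 * B'), by positivity,
    fun Ψ N K t R φ hΨ hN hK hR hQ hφ hφ1 he => ?_⟩
  have hN0 : 0 < N := lt_of_lt_of_le (by positivity) hN
  have hnR : (1 : ℝ) ≤ nm R := one_le_nm hR
  have hK0 : 0 < K := by linarith
  choose rep hrep using fun x => (res_spec hQ0 x).exists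
  set L := K ^ 2 * (nm R : ℝ) ^ 2 / N with hL
  have hL0 : 0 ≤ L := by positivity
  set Y := K ^ (6 / 5 : ℝ) + L ^ (41 / 25 : ℝ) with hY
  have hY0 : 0 ≤ Y := by positivity
  have hKR : 1 ≤ K * nm R := one_le_mul_of_one_le_of_one_le hK hnR
  have hLδ : L ^ δ ≤ B' * (K * nm R) ^ (2 * δ) := by
    have : L ≤ B' * (K * nm R) ^ 2 := by
      rw [hL, div_le_iff₀ hN0]
      rw [div_le_iff₀ (by positivity)] at hN
      nlinarith [sq_nonneg (K * nm R)]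
    calc _ ≤ (B' * (K * nm R) ^ 2) ^ δ := Real.rpow_le_rpow hL0 this hδ.le
      _ = B' ^ δ * (K * nm R) ^ (2 * δ) := by
          rw [Real.mul_rpow (by positivity) (by positivity), Real.rpow_mul (by positivity),
            Real.rpow_two]
      _ ≤ _ := by
          gcongr
          exact Real.rpow_le_self_of_one_le hB' (by linarith)
  have hmaps : ∀ k ∈ (sball K).filter (fun k => IsCoprime k R),
      (rep k, Nat.log 2 (nm k)) ∈ res Q ×ˢ Finset.range (Nat.log 2 ⌊K⌋₊ + 1) := fun k hk =>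
    Finset.mem_product.2 ⟨(hrep k).1,
      log_mem_range (mem_ball.2 (mem_sball.1 (Finset.mem_filter.1 hk).1).2)⟩
  rw [← Finset.sum_fiberwise_of_maps_to hmaps]
  refine (Finset.sum_le_card_nsmul _ _
    (C1 * (1 + |t|) ^ 16 * nm R * N * (64 * (L ^ δ * Y))) fun p _ => ?_).trans ?_
  · rcases (((sball K).filter fun k => IsCoprime k R).filter
      fun k => (rep k, Nat.log 2 (nm k)) = p).eq_empty_or_nonempty with h | ⟨k₀, hk₀⟩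
    · rw [h, Finset.sum_empty]; positivity
    simp only [Finset.mem_filter] at hk₀
    have hlow : ∀ k : O, k ≠ 0 → (2 : ℝ) ^ Nat.log 2 (nm k) ≤ nm k := fun k hk => by
      exact_mod_cast Nat.pow_log_le_self 2 (nm_pos hk).ne'
    have hup : ∀ k : O, (nm k : ℝ) ≤ 2 ^ (Nat.log 2 (nm k) + 1) := fun k => by
      exact_mod_cast (Nat.lt_pow_succ_log_self one_lt_two (nm k)).le
    set K' : ℝ := 2 ^ (p.2 + 1) with hK'
    have hK'1 : 1 ≤ K' := one_le_pow₀ one_le_two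
    have hK'2 : K' ≤ 2 * K := by
      have h3 := hlow k₀ (mem_sball.1 hk₀.1.1).1.1.1.ne_zero
      have h4 := (mem_sball.1 hk₀.1.1).2
      rw [hK', ← hk₀.2, pow_succ]
      linarith
    refine (h1 Ψ N K' t R k₀ φ _ hΨ hN0 hK'1 hR hQ hφ hφ1 he hk₀.1.2 fun k hk => ?_).trans ?_
    · simp only [Finset.mem_filter] at hk
      have hkS := (mem_sball.1 hk.1.1).1
      refine ⟨mem_sball.2 ⟨hkS, ?_⟩, hk.1.2, ?_, ?_⟩
      · rw [hK', ← hk.2]; exact hup k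
      · have h3 : rep k = rep k₀ := congrArg Prod.fst (hk.2.trans hk₀.2.symm)
        have := dvd_sub (hrep k).2 (hrep k₀).2
        rwa [h3, sub_sub_sub_cancel_right] at this
      · have h3 := hlow k hkS.1.1.ne_zero
        rw [hK', ← hk.2, pow_succ]
        linarith
    · have h3 : K' ^ 2 * (nm R : ℝ) ^ 2 / N ≤ L * 2 ^ 2 := by
        rw [hL, div_mul_eq_mul_div, mul_right_comm, ← mul_pow K, mul_comm K]
        gcongr
      have h4 := vc_num hδ hδ' (by positivity : 0 ≤ K' ^ (6 / 5 : ℝ)) (by positivity) hL0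
        one_le_two h3
      have h5 : K' ^ (6 / 5 : ℝ) ≤ 4 * K ^ (6 / 5 : ℝ) := by
        calc _ ≤ (2 * K) ^ (6 / 5 : ℝ) := by gcongr
          _ = 2 ^ (6 / 5 : ℝ) * K ^ (6 / 5 : ℝ) := Real.mul_rpow zero_le_two hK0.le
          _ ≤ 2 ^ (2 : ℝ) * K ^ (6 / 5 : ℝ) := by gcongr <;> norm_num
          _ = _ := by norm_num
      have h6 : K' ^ (6 / 5 : ℝ) + L ^ (41 / 25 : ℝ) ≤ 4 * Y := by
        have : 0 ≤ L ^ (41 / 25 : ℝ) := by positivity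
        rw [hY]; linarith
      gcongr C1 * (1 + |t|) ^ 16 * nm R * N * ?_
      calc _ ≤ _ := h4
        _ ≤ L ^ δ * (4 * Y) * 2 ^ 4 := by gcongr
        _ = _ := by ring
  · rw [Finset.card_product, card_res hQ0, Finset.card_range, nsmul_eq_mul, Nat.cast_mul]
    have h3 : K ^ δ * (K * nm R) ^ (2 * δ) ≤ (K * nm R) ^ ε := by
      calc _ ≤ (K * nm R) ^ δ * (K * nm R) ^ (2 * δ) := by
            gcongr
            exact le_mul_of_one_le_right hK0.le hnR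
        _ = (K * nm R) ^ (δ + 2 * δ) := (Real.rpow_add (by positivity) _ _).symm
        _ ≤ _ := Real.rpow_le_rpow_of_exponent_le hKR (by linarith)
    calc _ ≤ nm Q * (C2 * K ^ δ) *
          (C1 * (1 + |t|) ^ 16 * nm R * N * (64 * (B' * (K * nm R) ^ (2 * δ) * Y))) := by
          gcongr
          exact h2 K hK
      _ = nm Q * C2 * C1 * (64 * B') * (1 + |t|) ^ 16 * (K ^ δ * (K * nm R) ^ (2 * δ)) *
          nm R * N * Y := by ring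
      _ ≤ _ := by gcongr

end Vale.Agent.P026
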