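import Vale.Agent.P026.Count

/-! VOR part 4a: weighted form of the quadratic large sieve; a lattice sum.
Plan. `qls_weighted`: split `s` by `i = Nat.log 2 (nm n)` (`Finset.sum_fiberwise_of_maps_to`); Cauchy-Schwarz with weights `2^(-iδ)`
(`∑ 2^(-iδ) ≤ 1/(1-2^(-δ))`); each piece by `QLSStmt` with `X = 2^(i+1) ≤ 2 nm n` and `a` extended by zero; `2^i ≤ nm n`.
`sum_weight`: for `nm n ≤ L` use `N^θ ≤ L^(θ+1/2) N^(-1/2)` and `sum_rpow_le`; for `nm n > L` use `(1+N/L)^(-4) ≤ L^4 N^(-4)` and `sum_rpow_tail`. -/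

namespace Vale.Agent.P026

open scoped ComplexConjugate Real

theorem qls_weighted (hq : QLSStmt) {δ : ℝ} (hδ : 0 < δ) : ∃ C : ℝ, 0 < C ∧
    ∀ (K : ℝ) (a : O → ℂ) (s : Finset O), 1 ≤ K → (∀ n ∈ s, IsS n) →
      ∑ k ∈ sball K, ‖∑ n ∈ s, a n * quad n k‖ ^ 2 ≤
        C * ∑ n ∈ s, ‖a n‖ ^ 2 *
          ((K ^ (6 / 5 : ℝ) + (nm n : ℝ) ^ (41 / 25 : ℝ)) * (nm n : ℝ) ^ δ) := by
  classical
  obtain ⟨C, hC, h⟩ := hq
  obtain ⟨r, hr0, hr1, hr⟩ : ∃ r : ℝ, 0 < r ∧ r < 1 ∧ r = 2 ^ (-δ) :=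
    ⟨_, by positivity, Real.rpow_lt_one_of_one_lt_of_neg one_lt_two (by linarith), rfl⟩
  have hr' : 0 < (1 - r)⁻¹ := inv_pos.2 (by linarith)
  refine ⟨(1 - r)⁻¹ * (4 * C), by positivity, fun K a s hK hs => ?_⟩
  let g : O → ℕ := fun n => Nat.log 2 (nm n)
  have hg : ∀ n ∈ s, g n ∈ s.image g := fun n hn => Finset.mem_image_of_mem g hn
  have h1 : ∀ k, ‖∑ n ∈ s, a n * quad n k‖ ^ 2 ≤ (1 - r)⁻¹ *
      ∑ j ∈ s.image g, ‖∑ n ∈ s with g n = j, a n * quad n k‖ ^ 2 / r ^ j := fun k => by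
    rw [← Finset.sum_fiberwise_of_maps_to hg]
    refine (pow_le_pow_left₀ (norm_nonneg _) (norm_sum_le _ _) 2).trans
      ((Finset.sum_sq_le_sum_mul_sum_of_sq_le_mul _ (f := fun j => r ^ j)
        (g := fun j => ‖∑ n ∈ s with g n = j, a n * quad n k‖ ^ 2 / r ^ j)
        (fun _ _ => by positivity) (fun _ _ => by positivity) fun j _ => ?_).trans ?_)
    · rw [mul_div_cancel₀ _ (by positivity)]
    · gcongr
      exact sum_le_hasSum _ (fun _ _ => by positivity) (hasSum_geometric_of_lt_one hr0.le hr1)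
  refine (Finset.sum_le_sum fun k _ => h1 k).trans ?_
  rw [← Finset.mul_sum, mul_assoc, Finset.sum_comm, ← Finset.sum_fiberwise_of_maps_to hg,
    Finset.mul_sum _ _ (4 * C)]
  gcongr with j hj
  have hsub : s.filter (g · = j) ⊆ sball (2 ^ (j + 1)) := fun n hn => by
    obtain ⟨h2, rfl⟩ := Finset.mem_filter.1 hn
    exact mem_sball.2 ⟨hs n h2, by exact_mod_cast (Nat.lt_pow_succ_log_self one_lt_two _).le⟩
  have h2 := h K (2 ^ (j + 1)) (fun n => if n ∈ s.filter (g · = j) then a n else 0) hK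
    (one_le_pow₀ one_le_two)
  simp only [ite_mul, zero_mul, apply_ite norm, norm_zero, ite_pow, zero_pow two_ne_zero,
    Finset.sum_ite_mem, Finset.inter_eq_right.2 hsub] at h2
  rw [← Finset.sum_div]
  refine (div_le_div_of_nonneg_right h2 (by positivity)).trans ?_
  rw [Finset.mul_sum, Finset.sum_div, Finset.mul_sum]
  refine Finset.sum_le_sum fun n hn => ?_
  obtain ⟨h3, rfl⟩ := Finset.mem_filter.1 hn
  have h4 : (2 : ℝ) ^ g n ≤ nm n := by
    exact_mod_cast Nat.pow_log_le_self 2 (nm_pos (hs n h3).1.1.ne_zero).ne'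
  have h5 : (r ^ g n)⁻¹ ≤ (nm n : ℝ) ^ δ := by
    rw [hr, rpow_pow_comm, Real.rpow_neg (by positivity), inv_inv]
    gcongr
  have h6 : ((2 : ℝ) ^ (g n + 1)) ^ (41 / 25 : ℝ) ≤ 4 * (nm n : ℝ) ^ (41 / 25 : ℝ) := by
    rw [pow_succ', Real.mul_rpow two_pos.le (by positivity)]
    gcongr
    calc (2 : ℝ) ^ (41 / 25 : ℝ) ≤ 2 ^ (2 : ℝ) := by gcongr <;> norm_num
      _ = 4 := by norm_num
  have h7 : 0 ≤ K ^ (6 / 5 : ℝ) := by positivity
  calc _ = C * ‖a n‖ ^ 2 * ((K ^ (6 / 5 : ℝ) + (2 ^ (g n + 1)) ^ (41 / 25 : ℝ)) * (r ^ g n)⁻¹) := by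
        ring
    _ ≤ C * ‖a n‖ ^ 2 * ((4 * K ^ (6 / 5 : ℝ) + 4 * (nm n : ℝ) ^ (41 / 25 : ℝ)) *
        (nm n : ℝ) ^ δ) := by gcongr; linarith
    _ = _ := by ring

theorem sum_weight {θ : ℝ} (h1 : -1 / 2 ≤ θ) (h2 : θ < 3) : ∃ C : ℝ, 0 < C ∧
    ∀ (L : ℝ) (s : Finset O), 0 < L → (∀ n ∈ s, n ≠ 0) →
      ∑ n ∈ s, (nm n : ℝ) ^ θ / (1 + nm n / L) ^ 4 ≤ C * L ^ (1 + θ) := by
  classical
  obtain ⟨C, hC, h⟩ := sum_rpow_le (σ := 1 / 2) (by norm_num) (by norm_num)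
  obtain ⟨D, hD, h'⟩ := sum_rpow_tail (σ := 4 - θ) (by linarith)
  refine ⟨C + D, by positivity, fun L s hL hs => ?_⟩
  rw [← Finset.sum_filter_add_sum_filter_not s (fun n => (nm n : ℝ) ≤ L), add_mul]
  refine add_le_add ?_ ?_
  · calc _ ≤ ∑ n ∈ s with (nm n : ℝ) ≤ L, L ^ (θ + 1 / 2) * (nm n : ℝ) ^ (-(1 / 2) : ℝ) := by
          refine Finset.sum_le_sum fun n hn => ?_
          obtain ⟨h3, h4⟩ := Finset.mem_filter.1 hn
          have h5 : (0 : ℝ) < nm n := one_pos.trans_le (one_le_nm (hs n h3))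
          refine (div_le_self (by positivity) (one_le_pow₀ (le_add_of_nonneg_right
            (by positivity)))).trans ?_
          rw [show (nm n : ℝ) ^ θ = nm n ^ (θ + 1 / 2) * nm n ^ (-(1 / 2) : ℝ) by
            rw [← Real.rpow_add h5]; congr 1; ring]
          gcongr
          linarith
      _ ≤ L ^ (θ + 1 / 2) * (C * L ^ (1 - 1 / 2 : ℝ)) := by
          rw [← Finset.mul_sum]
          gcongr
          exact (Finset.sum_le_sum_of_subset_of_nonneg (fun n hn => mem_ball.2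
            (Finset.mem_filter.1 hn).2) fun _ _ _ => by positivity).trans (h L hL)
      _ = _ := by
          rw [mul_left_comm, ← Real.rpow_add hL]
          congr 2; ring
  · calc _ ≤ ∑ n ∈ s with ¬(nm n : ℝ) ≤ L, L ^ (4 : ℝ) * (nm n : ℝ) ^ (-(4 - θ)) := by
          refine Finset.sum_le_sum fun n hn => ?_
          have h5 : (0 : ℝ) < nm n := one_pos.trans_le (one_le_nm (hs n (Finset.mem_filter.1 hn).1))
          calc _ ≤ (nm n : ℝ) ^ θ / (nm n / L) ^ 4 := by gcongr; linarith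
            _ = _ := by
              rw [neg_sub, Real.rpow_sub h5, show (4 : ℝ) = (4 : ℕ) by norm_num, Real.rpow_natCast,
                Real.rpow_natCast]
              field_simp
      _ ≤ L ^ (4 : ℝ) * (D * L ^ (1 - (4 - θ))) := by
          rw [← Finset.mul_sum]
          gcongr
          exact h' L _ hL fun n hn => not_le.1 (Finset.mem_filter.1 hn).2
      _ = _ := by
          rw [mul_left_comm, ← Real.rpow_add hL]
          congr 2; ring

end Vale.Agent.P026
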