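import Mathlib

/-! VOR part 2a: uniform decay of a family of Fourier transforms on `ℂ = ℝ²`.
Plan. Put `Φ p = exp (I t L p) * F (b, p)`; it is smooth with support in the closed ball of radius `M`.
Mathlib: `Real.pow_mul_norm_iteratedFDeriv_fourier_le` (with `k = 0`) bounds `‖ξ‖^n ‖𝓕 Φ ξ‖` by a constant times
`∑_{i ≤ n} ∫ ‖iteratedFDeriv ℝ i Φ‖`; use `n = 0` and `n = 8`, `(1+x²)^4 ≤ 8 (1 + x^8)`.
`‖iteratedFDeriv i Φ p‖ ≤ C (1+|t|)^8` for `i ≤ 8`, zero outside the ball (`support_iteratedFDeriv_subset` / `tsupport`):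
`norm_iteratedFDeriv_mul_le`; for the first factor `norm_iteratedFDeriv_comp_le` with `g x = exp (I x)` (all derivatives have norm 1)
and `f = t • L`, `D = D₀ (1+|t|)`; for the second factor `p ↦ F (b, p)` is `F` composed with an affine map, so its derivatives are bounded by those of `F`
at `(b, p)` (`iteratedFDeriv_comp_add_left`, `ContinuousLinearMap.iteratedFDeriv_comp_right`), continuous on the compact `Icc × closedBall`. -/

namespace Vale.Agent.P026

open scoped ContDiff FourierTransform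

theorem four_iter_exp (c : ℂ) (n : ℕ) :
    iteratedDeriv n (fun x : ℝ => Complex.exp (c * x)) = fun x : ℝ => c ^ n * Complex.exp (c * x) := by
  induction n with
  | zero => simp
  | succ n ih =>
    rw [iteratedDeriv_succ, ih]
    funext x
    have h := (((hasDerivAt_id (x : ℂ)).const_mul c).cexp.const_mul (c ^ n)).comp_ofReal
    refine h.deriv.trans ?_
    simp only [id]
    ring

theorem four_bound {E G : Type*} [NormedAddCommGroup E] [NormedSpace ℝ E] [NormedAddCommGroup G]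
    [NormedSpace ℝ G] {f : E → G} (hf : ContDiff ℝ ∞ f) {K : Set E} (hK : IsCompact K) :
    ∃ D : ℝ, 1 ≤ D ∧ ∀ i ≤ 8, ∀ x ∈ K, ‖iteratedFDeriv ℝ i f x‖ ≤ D := by
  obtain ⟨D, hD⟩ := hK.exists_bound_of_continuousOn
    (f := fun x => ∑ i ∈ Finset.range 9, ‖iteratedFDeriv ℝ i f x‖)
    (continuous_finsetSum _ fun i _ =>
      (hf.continuous_iteratedFDeriv (by exact_mod_cast le_top)).norm).continuousOn
  refine ⟨max 1 D, le_max_left _ _, fun i hi x hx => le_max_of_le_right
    (le_trans ?_ ((le_abs_self _).trans (hD x hx)))⟩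
  exact Finset.single_le_sum (f := fun i => ‖iteratedFDeriv ℝ i f x‖) (fun _ _ => norm_nonneg _)
    (Finset.mem_range.2 (by omega))

theorem fourier_decay (F : ℝ × ℂ → ℂ) (L : ℂ → ℝ) (hF : ContDiff ℝ ∞ F) (hL : ContDiff ℝ ∞ L)
    (M : ℝ) (hs : ∀ b ∈ Set.Icc (1 / 4 : ℝ) 1, ∀ p, F (b, p) ≠ 0 → ‖p‖ ≤ M) :
    ∃ C : ℝ, 0 < C ∧ ∀ (t : ℝ), ∀ b ∈ Set.Icc (1 / 4 : ℝ) 1, ∀ ξ : ℂ,
      ‖𝓕 (fun p : ℂ => Complex.exp (Complex.I * t * L p) * F (b, p)) ξ‖ ≤
        C * (1 + |t|) ^ 8 / (1 + ‖ξ‖ ^ 2) ^ 4 := by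
  obtain ⟨D, hD1, hD⟩ := four_bound hL (isCompact_closedBall (0 : ℂ) M)
  obtain ⟨D', hD1', hD'⟩ := four_bound hF
    ((isCompact_Icc (a := (1 / 4 : ℝ)) (b := 1)).prod (isCompact_closedBall (0 : ℂ) M))
  let A : ℝ := 9 * (2 ^ 8 * (Nat.factorial 8 * D ^ 8) * D')
  let W : ℝ := MeasureTheory.volume.real (Metric.closedBall (0 : ℂ) M)
  have hW : 0 ≤ W := MeasureTheory.measureReal_nonneg
  have hA : 0 < A := by positivity
  refine ⟨8 * (1 + 2 ^ 8 * 9) * A * (W + 1), by positivity, fun t b hb ξ => ?_⟩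
  have top : ∀ n : ℕ, (n : WithTop ℕ∞) ≤ ∞ := fun n => by exact_mod_cast le_top
  have hg : ContDiff ℝ ∞ fun x : ℝ => Complex.exp (Complex.I * t * x) :=
    (contDiff_const.mul Complex.ofRealCLM.contDiff).cexp
  have hFb : ContDiff ℝ ∞ fun p : ℂ => F (b, p) := hF.comp (contDiff_prodMk_right b)
  have hT : 1 ≤ 1 + |t| := by simp
  set Φ := fun p : ℂ => Complex.exp (Complex.I * t * L p) * F (b, p) with hΦ
  have hΦs : ContDiff ℝ ∞ Φ := (hg.comp hL).mul hFb
  have hsupp : tsupport Φ ⊆ Metric.closedBall 0 M :=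
    closure_minimal (fun p hp => mem_closedBall_zero_iff.2
      (hs b hb p (right_ne_zero_of_mul hp))) Metric.isClosed_closedBall
  have hc : HasCompactSupport Φ :=
    (isCompact_closedBall 0 M).of_isClosed_subset (isClosed_tsupport _) hsupp
  have h1 : ∀ i ≤ 8, ∀ p ∈ Metric.closedBall (0 : ℂ) M,
      ‖iteratedFDeriv ℝ i (fun p => Complex.exp (Complex.I * t * L p)) p‖ ≤
        Nat.factorial 8 * D ^ 8 * (1 + |t|) ^ 8 := by
    intro i hi p hp
    refine (norm_iteratedFDeriv_comp_le hg hL (top i) p (C := (1 + |t|) ^ 8) (D := D)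
      (fun j hj => ?_) fun j hj1 hj => ?_).trans ?_
    · rw [norm_iteratedFDeriv_eq_norm_iteratedDeriv, four_iter_exp, norm_mul, norm_pow, mul_assoc,
        ← Complex.ofReal_mul, Complex.norm_exp_I_mul_ofReal, mul_one, norm_mul, Complex.norm_I,
        one_mul, Complex.norm_real, Real.norm_eq_abs]
      calc |t| ^ j ≤ (1 + |t|) ^ j := by gcongr; linarith
        _ ≤ _ := pow_le_pow_right₀ hT (hj.trans hi)
    · exact (hD j (hj.trans hi) p hp).trans (le_self_pow₀ hD1 (by omega))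
    · rw [mul_right_comm]
      gcongr
  have h2 : ∀ i ≤ 8, ∀ p ∈ Metric.closedBall (0 : ℂ) M,
      ‖iteratedFDeriv ℝ i (fun p : ℂ => F (b, p)) p‖ ≤ D' := by
    intro i hi p hp
    have e : (fun p : ℂ => F (b, p)) =
        (fun x => F ((b, 0) + x)) ∘ ContinuousLinearMap.inr ℝ ℝ ℂ := by
      funext p
      simp
    rw [e, ContinuousLinearMap.iteratedFDeriv_comp_right _ (f := fun x => F ((b, 0) + x))
      (hF.comp (contDiff_const.add contDiff_id)) p (top i), iteratedFDeriv_comp_add_left]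
    refine (ContinuousMultilinearMap.norm_compContinuousLinearMap_le _ _).trans ?_
    refine (mul_le_of_le_one_right (norm_nonneg _) (Finset.prod_le_one (fun _ _ => norm_nonneg _)
      fun _ _ => ContinuousLinearMap.norm_inr_le_one ..)).trans (hD' i hi _ ?_)
    exact ⟨by simpa using hb, by simpa using hp⟩
  have h3 : ∀ i ≤ 8, ∀ p ∈ Metric.closedBall (0 : ℂ) M,
      ‖iteratedFDeriv ℝ i Φ p‖ ≤ A * (1 + |t|) ^ 8 := by
    intro i hi p hp
    refine (norm_iteratedFDeriv_mul_le (hg.comp hL) hFb p (top i)).trans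
      ((Finset.sum_le_card_nsmul _ _ (2 ^ 8 * (Nat.factorial 8 * D ^ 8 * (1 + |t|) ^ 8) * D')
        fun j hj => ?_).trans ?_)
    · have hj' := Finset.mem_range.1 hj
      gcongr
      · exact_mod_cast (Nat.choose_le_two_pow i j).trans (Nat.pow_le_pow_right two_pos hi)
      · exact h1 j (by omega) p hp
      · exact h2 _ (by omega) p hp
    · rw [Finset.card_range, nsmul_eq_mul]
      calc _ ≤ 9 * (2 ^ 8 * (Nat.factorial 8 * D ^ 8 * (1 + |t|) ^ 8) * D') := by
            gcongr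
            exact_mod_cast Nat.succ_le_succ hi
        _ = _ := by simp only [A]; ring
  have h4 : ∀ i ≤ 8, ∫ p, ‖iteratedFDeriv ℝ i Φ p‖ ≤ A * (1 + |t|) ^ 8 * (W + 1) := by
    intro i hi
    rw [← MeasureTheory.setIntegral_eq_integral_of_forall_compl_eq_zero
      (s := Metric.closedBall (0 : ℂ) M) fun p hp => by
        rw [norm_eq_zero]
        by_contra h
        exact hp (hsupp (support_iteratedFDeriv_subset i h))]
    refine (le_abs_self _).trans ((MeasureTheory.norm_setIntegral_le_of_norm_le_const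
      MeasureTheory.measure_closedBall_lt_top fun p hp => (norm_norm _).trans_le
        (h3 i hi p hp)).trans ?_)
    gcongr
    exact le_add_of_nonneg_right zero_le_one
  have h5 : ∀ n : ℕ, n ≤ 8 →
      ‖ξ‖ ^ n * ‖𝓕 Φ ξ‖ ≤ 2 ^ n * ((n + 1) * (A * (1 + |t|) ^ 8 * (W + 1))) := by
    intro n hn
    have h := Real.pow_mul_norm_iteratedFDeriv_fourier_le (K := 0) (N := ⊤) hΦs
      (fun k n _ _ => Continuous.integrable_of_hasCompactSupport
        ((continuous_norm.pow k).mul (hΦs.continuous_iteratedFDeriv (top n)).norm)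
        (hc.iteratedFDeriv n).norm.mul_left) (k := 0) (n := n) le_rfl le_top ξ
    rw [norm_iteratedFDeriv_zero] at h
    refine h.trans ?_
    simp only [pow_zero, one_mul, Nat.cast_zero, mul_zero, zero_add, Finset.sum_product,
      Finset.range_one, Finset.sum_singleton]
    gcongr
    refine (Finset.sum_le_card_nsmul _ _ _ fun j hj => h4 j ?_).trans (by simp)
    have := Finset.mem_range.1 hj
    omega
  have h6 := h5 0 (by norm_num)
  have h7 := h5 8 le_rfl
  have h8 : (1 + ‖ξ‖ ^ 2) ^ 4 ≤ 8 * (1 + ‖ξ‖ ^ 8) := by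
    have := add_pow_le (zero_le_one' ℝ) (sq_nonneg ‖ξ‖) 4
    rw [← pow_mul] at this
    norm_num at this
    linarith
  rw [le_div_iff₀ (by positivity)]
  calc _ ≤ ‖𝓕 Φ ξ‖ * (8 * (1 + ‖ξ‖ ^ 8)) := by gcongr
    _ ≤ _ := by
      push_cast at h6 h7
      linarith

end Vale.Agent.P026
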