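import Vale.Agent.P026.VorFourA
import Vale.Agent.P026.VorWh

/-! VOR part 2b: the test function, by Fourier inversion on `ℂ = ℝ²`.
With `c = 2/(9√3)` and `p = i c m̄` one has `ec (m ξ/9) = exp (2 π i ⟪ξ, p⟫)`. -/

namespace Vale.Agent.P026

open scoped ComplexConjugate Real ContDiff FourierTransform RealInnerProductSpace

/-- `f` represents the weight attached to `(V, t, b)` -/
def Repr (V : ℝ → ℝ) (t b : ℝ) (f : ℂ → ℂ) : Prop :=
  ∀ m : ℂ, ∫ ξ, f ξ * ec (m * ξ / 9) =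
    m * Complex.exp ((Complex.I * t - 1 / 3) * Real.log (‖m‖ ^ 2)) * (V (b * ‖m‖ ^ 2) : ℝ) /
      (Wf (‖m‖ ^ 2) : ℝ)

theorem four_cut {B : ℝ} (hB : 1 ≤ B) {g : ℝ → ℝ} (hg : ContDiffOn ℝ ∞ g (Set.Ioi 0)) :
    ContDiff ℝ ∞ fun x => Real.smoothTransition (2 * B * x - 1) * g x := by
  have hs : ContDiff ℝ ∞ fun x => Real.smoothTransition (2 * B * x - 1) :=
    Real.smoothTransition.contDiff.comp ((contDiff_const.mul contDiff_id).sub contDiff_const)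
  refine contDiff_iff_contDiffAt.2 fun x => ?_
  rcases lt_or_ge 0 x with hx | hx
  · exact hs.contDiffAt.mul (hg.contDiffAt (Ioi_mem_nhds hx))
  · refine (contDiffAt_const (c := (0 : ℝ))).congr_of_eventuallyEq ?_
    have : x < 1 / (2 * B) := hx.trans_lt (by positivity)
    filter_upwards [Iio_mem_nhds this] with y hy
    have hy' : y * (2 * B) < 1 := (lt_div_iff₀ (by positivity)).1 hy
    rw [Real.smoothTransition.zero_of_nonpos (by linarith), zero_mul]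

theorem four_inv {Φ : ℂ → ℂ} (hc : Continuous Φ) (hs : HasCompactSupport Φ)
    (ho : ∀ p, Φ (-p) = -Φ p) {K : ℝ} (hK : ∀ ξ, ‖𝓕 Φ ξ‖ ≤ K / (1 + ‖ξ‖ ^ 2) ^ 4) :
    Continuous (𝓕 Φ) ∧ (∀ ξ, 𝓕 Φ (-ξ) = -𝓕 Φ ξ) ∧
      ∀ p, ∫ ξ, 𝓕 Φ ξ * Complex.exp (↑(2 * π * ⟪ξ, p⟫) * Complex.I) = Φ p := by
  have hi : MeasureTheory.Integrable Φ := hc.integrable_of_hasCompactSupport hs
  have hcont : Continuous (𝓕 Φ) :=
    VectorFourier.fourierIntegral_continuous Real.continuous_fourierChar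
      (by simpa using continuous_inner (𝕜 := ℝ) (E := ℂ)) hi
  have hi2 : MeasureTheory.Integrable (𝓕 Φ) := by
    refine ((integrable_rpow_neg_one_add_norm_sq (E := ℂ) (μ := MeasureTheory.volume) (r := 8)
      (by simp; norm_num)).const_mul K).mono' hcont.aestronglyMeasurable
      (Filter.Eventually.of_forall fun ξ => (hK ξ).trans_eq ?_)
    rw [show (-8 / 2 : ℝ) = -(4 : ℕ) by norm_num, Real.rpow_neg (by positivity), Real.rpow_natCast,
      div_eq_mul_inv]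
  refine ⟨hcont, fun ξ => ?_, fun p => ?_⟩
  · rw [← Real.fourierInv_eq_fourier_neg, Real.fourierInv_eq_fourier_comp_neg]
    simp only [ho, Real.fourier_eq, smul_neg, MeasureTheory.integral_neg]
  · rw [← congrFun (hc.fourierInv_fourier_eq hi hi2) p, Real.fourierInv_eq']
    simp only [smul_eq_mul, mul_comm]

theorem vor_fourier {B : ℝ} {V : ℝ → ℝ} (hV : Adm B V) : ∃ C : ℝ, 0 < C ∧ ∀ t b : ℝ,
    1 / 4 ≤ b → b ≤ 1 → ∃ f : ℂ → ℂ, Continuous f ∧ (∀ ξ, f (-ξ) = -f ξ) ∧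
      (∀ ξ, ‖f ξ‖ ≤ C * (1 + |t|) ^ 8 / (1 + ‖ξ‖ ^ 2) ^ 4) ∧ Repr V t b f := by
  obtain ⟨hB, hVs, hVB⟩ := hV
  obtain ⟨c, hc0, hc⟩ : ∃ c : ℝ, 0 < c ∧ c = 2 / (9 * √3) := ⟨_, by positivity, rfl⟩
  let x : ℂ → ℝ := fun p => ‖p‖ ^ 2 / c ^ 2
  have hx : ContDiff ℝ ∞ x := (contDiff_norm_sq ℝ).div_const _
  let l : ℝ → ℝ := fun y => Real.smoothTransition (2 * B * y - 1) * Real.log y
  let w : ℝ → ℝ := fun y => Real.smoothTransition (2 * B * y - 1) * (Wf y)⁻¹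
  have hl : ContDiff ℝ ∞ l :=
    four_cut hB (Real.contDiffOn_log.mono fun y hy => ne_of_gt hy)
  have hw : ContDiff ℝ ∞ w :=
    four_cut hB (Wf_smooth.inv fun y hy => (Wf_pos (le_of_lt hy)).ne')
  let F : ℝ × ℂ → ℂ := fun q => Complex.I * conj q.2 / c *
    Complex.exp (-1 / 3 * l (x q.2)) * V (q.1 * x q.2) * w (x q.2)
  have hx2 : ContDiff ℝ ∞ fun q : ℝ × ℂ => x q.2 := hx.comp contDiff_snd
  have hF : ContDiff ℝ ∞ F :=
    ((((contDiff_const.mul (Complex.conjCLE.contDiff.comp contDiff_snd)).div_const _).mul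
      (contDiff_const.mul (Complex.ofRealCLM.contDiff.comp (hl.comp hx2))).cexp).mul
      (Complex.ofRealCLM.contDiff.comp (hVs.comp (contDiff_fst.mul hx2)))).mul
      (Complex.ofRealCLM.contDiff.comp (hw.comp hx2))
  have hs : ∀ b ∈ Set.Icc (1 / 4 : ℝ) 1, ∀ p, F (b, p) ≠ 0 → ‖p‖ ≤ 1 + 4 * B * c ^ 2 := by
    intro b hb p hp
    have h1 : V (b * x p) ≠ 0 := fun h => hp (by simp [F, h])
    have h2 := (hVB _ h1).2
    have h3 : x p ≤ 4 * B := by
      have : 0 ≤ x p := by positivity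
      nlinarith [hb.1]
    have h4 : ‖p‖ ^ 2 ≤ 4 * B * c ^ 2 := (div_le_iff₀ (by positivity)).1 h3
    nlinarith [norm_nonneg p, sq_nonneg (‖p‖ - 1)]
  obtain ⟨C, hC, h⟩ := fourier_decay F (fun p => l (x p)) hF (hl.comp hx) _ hs
  refine ⟨C, hC, fun t b hb1 hb2 => ?_⟩
  have hb : b ∈ Set.Icc (1 / 4 : ℝ) 1 := ⟨hb1, hb2⟩
  set Φ := fun p : ℂ => Complex.exp (Complex.I * t * l (x p)) * F (b, p) with hΦ
  have hcΦ : Continuous Φ :=
    (continuous_const.mul (Complex.continuous_ofReal.comp (hl.comp hx).continuous)).cexp.mul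
      (hF.continuous.comp (Continuous.prodMk_right b))
  have hsΦ : HasCompactSupport Φ :=
    HasCompactSupport.intro (isCompact_closedBall 0 (1 + 4 * B * c ^ 2)) fun p hp => by
      by_contra h0
      exact hp (mem_closedBall_zero_iff.2 (hs b hb p (right_ne_zero_of_mul h0)))
  have hoΦ : ∀ p, Φ (-p) = -Φ p := fun p => by
    simp only [hΦ, F, x, norm_neg, map_neg]
    ring
  obtain ⟨h1, h2, h3⟩ := four_inv hcΦ hsΦ hoΦ (h t b hb)
  refine ⟨𝓕 Φ, h1, h2, h t b hb, fun m => ?_⟩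
  have hc' : (c : ℂ) ≠ 0 := by exact_mod_cast hc0.ne'
  have e1 : ∀ ξ : ℂ, ec (m * ξ / 9) =
      Complex.exp (↑(2 * π * ⟪ξ, Complex.I * c * conj m⟫) * Complex.I) := fun ξ => by
    have : ⟪ξ, Complex.I * c * conj m⟫ = 2 * (m * ξ / 9).im / √3 := by
      rw [show 2 * (m * ξ / 9).im / √3 = c * (m * ξ).im by
        rw [hc, show (9 : ℂ) = (9 : ℝ) by norm_num, Complex.div_ofReal_im]; ring]
      simp [Complex.inner]
      ring
    rw [this, ec]
    congr 1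
    push_cast
    ring
  have e2 : x (Complex.I * c * conj m) = ‖m‖ ^ 2 := by
    simp only [x, norm_mul, Complex.norm_I, Complex.norm_real, Real.norm_eq_abs, one_mul,
      Complex.norm_conj, mul_pow, sq_abs]
    field_simp
  simp only [e1]
  rw [h3]
  simp only [hΦ, F, e2]
  by_cases h0 : V (b * ‖m‖ ^ 2) = 0
  · simp [h0]
  have h4 := (hVB _ h0).1
  have h5 : 1 ≤ 2 * B * ‖m‖ ^ 2 - 1 := by
    have h6 : 1 ≤ b * ‖m‖ ^ 2 * B := (div_le_iff₀ (by positivity)).1 h4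
    nlinarith [mul_nonneg (sub_nonneg.2 hb2) (mul_nonneg (sq_nonneg ‖m‖) (by linarith : 0 ≤ B))]
  simp only [l, w, Real.smoothTransition.one_of_one_le h5, one_mul]
  rw [sub_mul, sub_eq_add_neg, Complex.exp_add]
  simp only [map_mul, Complex.conj_I, Complex.conj_ofReal, Complex.conj_conj, Complex.ofReal_inv]
  rw [show -(1 / 3 * (Real.log (‖m‖ ^ 2) : ℂ)) = -1 / 3 * (Real.log (‖m‖ ^ 2) : ℂ) by ring]
  field_simp
  rw [Complex.I_sq]
  ring

end Vale.Agent.P026
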