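import Vale.Agent.P026.WhBasic
import Vale.Agent.P026.ThCRes
import Vale.Agent.P026.ThGeo

/-! # The series `th` and the transform `wI`.
Plan.  `measurable_Wh`: `StronglyMeasurable.integral_prod_right`.  `majorant`: `Wr_decay (k+2)`, `Wr_le` for `ν = 0`, `summable_rpow`.
`continuousOn_th`: `continuousOn_tsum` on boxes `a < v < b` (`continuousOn_of_locally_continuousOn` or pointwise `ContinuousAt`).
`measurable_th`: `Measurable.tsum`.  `hol_Wh`, `hol_wI`: `differentiableOn_integral_of_bound` (in `z`: bound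
`(v/(‖z‖²+v²))^σ₁ + (..)^σ₂`, `integrable_rpow_Wh`; in `v`: `norm_Wh_le`, bounded on `1/M ≤ v ≤ M`). -/

namespace Vale.Agent.P026

open scoped ComplexConjugate Real Topology
open MeasureTheory Filter Set

theorem WhTh_meas (s : ℂ) (ν : O) : Measurable fun p : ℝ × ℂ =>
    ((p.1 / (‖p.2‖ ^ 2 + p.1 ^ 2) : ℝ) : ℂ) ^ s * ec (-(toC ν * p.2 / 9)) :=
  (Measurable.pow_const (by fun_prop) s).mul (continuous_ec.measurable.comp (by fun_prop))

theorem measurable_Wh (s : ℂ) (ν : O) : Measurable (Wh s ν) :=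
  (WhTh_meas s ν).stronglyMeasurable.integral_prod_right'.measurable

/-- uniform majorant on `a ≤ v ≤ b` -/
theorem Poly.majorant {τ : O → ℂ} (h : Poly τ) {a : ℝ} (ha : 0 < a) (b : ℝ) :
    ∃ u : O → ℝ, Summable u ∧ ∀ ν v, a ≤ v → v ≤ b → ‖τ ν * Wh (4 / 3) ν v‖ ≤ u ν := by
  classical
  obtain ⟨C, k, h⟩ := h
  obtain ⟨D, hD, hd⟩ := Wr_decay (k + 2)
  have hC : 0 ≤ C := by simpa using (norm_nonneg _).trans (h 1 one_ne_zero)
  refine ⟨fun ν => C * D * b ^ (2 / 3 : ℝ) / (a ^ 2) ^ (k + 2) * (nm ν : ℝ) ^ (-2 : ℝ) +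
    if ν = 0 then ‖τ 0‖ * (3 * π * b ^ (2 / 3 : ℝ)) else 0,
    ((summable_rpow one_lt_two).mul_left _).add (hasSum_ite_eq 0 _).summable,
    fun ν v h1 h2 => ?_⟩
  have hv : 0 < v := ha.trans_le h1
  have hb : 0 < b := hv.trans_le h2
  rw [norm_mul, Wh_four_thirds ν hv, Complex.norm_real, Real.norm_of_nonneg (Wr_pos ν hv).le]
  beta_reduce
  split_ifs with k0
  · subst k0
    refine le_add_of_nonneg_of_le (by positivity) ?_
    rw [Wr_zero hv]
    gcongr
  · have h3 := one_le_nm k0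
    refine (mul_le_mul (h ν k0) ((hd ν v k0 hv).trans (b := _)
      (c := D * b ^ (2 / 3 : ℝ) / (nm ν * a ^ 2) ^ (k + 2)) (by gcongr)) (Wr_pos ν hv).le
      (by positivity)).trans_eq ?_
    rw [Real.rpow_neg (by positivity), Real.rpow_two, mul_pow]
    field_simp
    ring
theorem Poly.continuousOn_th {τ : O → ℂ} (h : Poly τ) :
    ContinuousOn (th τ) {w : ℂ × ℝ | 0 < w.2} := by
  intro w hw
  have hw : 0 < w.2 := hw
  obtain ⟨u, hu, h⟩ := h.majorant (half_pos hw) (2 * w.2)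
  have k : ContinuousOn (th τ) (Prod.snd ⁻¹' Icc (w.2 / 2) (2 * w.2)) := by
    refine continuousOn_tsum (fun ν => ?_) hu fun ν x hx => ?_
    · refine (continuousOn_const.mul ?_).mul (continuous_ec.comp (by fun_prop)).continuousOn
      have p : ∀ x ∈ Prod.snd ⁻¹' Icc (w.2 / 2) (2 * w.2), 0 < (x : ℂ × ℝ).2 := fun x hx =>
        (half_pos hw).trans_le hx.1
      exact (Complex.continuous_ofReal.comp_continuousOn ((continuousOn_Wr ν).comp
        continuousOn_snd p)).congr fun x hx => Wh_four_thirds ν (p x hx)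
    · rw [norm_mul, norm_ec, mul_one]
      exact h ν _ hx.1 hx.2
  exact (k.continuousAt (continuous_snd.continuousAt.preimage_mem_nhds
    (Icc_mem_nhds (by linarith) (by linarith)))).continuousWithinAt
theorem measurable_th (τ : O → ℂ) : Measurable (th τ) :=
  Measurable.tsum fun ν => (((measurable_Wh _ ν).fun_comp measurable_snd).const_mul _).mul
    (continuous_ec.measurable.comp (by fun_prop))
theorem th_add (τ : O → ℂ) (y : O) (w : ℂ × ℝ) : th τ (w.1 + toC (9 * y), w.2) = th τ w := by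
  refine tsum_congr fun ν => ?_
  have e : toC ν * (w.1 + toC (9 * y)) / 9 = toC ν * w.1 / 9 + toC (ν * y) := by
    rw [map_mul, map_mul, map_ofNat]
    ring
  simp only
  rw [e, ec_add, ec_toC, mul_one]

theorem WhTh_rpow {x a b c : ℝ} (hx : 0 < x) (h1 : a ≤ b) (h2 : b ≤ c) :
    x ^ b ≤ x ^ a + x ^ c := by
  rcases le_total x 1 with h | h
  · exact le_add_of_le_of_nonneg (Real.rpow_le_rpow_of_exponent_ge hx h h1) (by positivity)
  · exact le_add_of_nonneg_of_le (by positivity) (Real.rpow_le_rpow_of_exponent_le h h2)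

theorem WhTh_open : IsOpen {s : ℂ | 1 < s.re} := isOpen_lt continuous_const Complex.continuous_re

theorem WhTh_ball {s₀ s : ℂ} (h : s ∈ Metric.ball s₀ ((s₀.re - 1) / 2)) :
    (1 + s₀.re) / 2 ≤ s.re ∧ s.re ≤ 2 * s₀.re := by
  have k := abs_lt.1 ((Complex.abs_re_le_norm _).trans_lt (mem_ball_iff_norm.1 h))
  rw [Complex.sub_re] at k
  constructor <;> linarith [k.1, k.2]

theorem hol_Wh (ν : O) {v : ℝ} (hv : 0 < v) : Hol fun s => Wh s ν v := by
  have p : ∀ z : ℂ, 0 < v / (‖z‖ ^ 2 + v ^ 2) := fun z => by positivity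
  refine differentiableOn_integral_of_bound WhTh_open
    (fun s hs => (integrable_Wh hs ν hv).aestronglyMeasurable)
    (Eventually.of_forall fun z => ((differentiable_id.const_cpow
      (Or.inl (Complex.ofReal_ne_zero.2 (p z).ne'))).mul_const _).differentiableOn)
    fun s₀ hs₀ => ?_
  have hs₀ : 1 < s₀.re := hs₀
  refine ⟨(s₀.re - 1) / 2, _, by linarith, (integrable_rpow_Wh (σ := (1 + s₀.re) / 2)
    (by linarith) hv).add (integrable_rpow_Wh (σ := 2 * s₀.re) (by linarith) hv),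
    Eventually.of_forall fun z s hs => ?_⟩
  rw [norm_mul, norm_ec, mul_one, Complex.norm_cpow_eq_rpow_re_of_pos (p z)]
  exact WhTh_rpow (p z) (WhTh_ball hs).1 (WhTh_ball hs).2

theorem WhTh_bound {ψ : ℝ → ℂ} (hψ : Test1 ψ) (ν : O) {a : ℝ} (ha : 1 < a) (b : ℝ) :
    ∃ B : ℝ → ℝ, IntegrableOn B (Ioi 0) ∧ ∀ v ∈ Ioi (0 : ℝ), ∀ s : ℂ, a ≤ s.re → s.re ≤ b →
      ‖Wh s ν v * ψ v * ((1 / v ^ 3 : ℝ) : ℂ)‖ ≤ B v := by
  obtain ⟨-, M, hM, h⟩ := hψ
  have p : ∀ v ∈ Icc (1 / M) M, v ≠ 0 := fun v hv => ((one_div_pos.2 hM).trans_le hv.1).ne'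
  have a1 : 0 < a - 1 := by linarith
  refine ⟨(Icc (1 / M) M).indicator fun v =>
    π * (v ^ (2 - b) + v ^ (2 - a)) / (a - 1) * M * (1 / v ^ 3), Integrable.integrableOn
      ((integrable_indicator_iff measurableSet_Icc).2 (ContinuousOn.integrableOn_Icc ?_)),
      fun v hv s h1 h2 => ?_⟩
  · exact (((continuousOn_const.mul ((continuousOn_id.rpow_const fun v hv => Or.inl (p v hv)).add
      (continuousOn_id.rpow_const fun v hv => Or.inl (p v hv)))).div_const _).mul
      continuousOn_const).mul (continuousOn_const.div (continuousOn_pow 3) fun v hv =>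
        pow_ne_zero 3 (p v hv))
  · have hv := mem_Ioi.1 hv
    by_cases k : ψ v = 0
    · rw [k, mul_zero, zero_mul, norm_zero]
      exact indicator_apply_nonneg fun _ => by positivity
    · rw [indicator_of_mem (show v ∈ Icc (1 / M) M from (h v).2 k), norm_mul, norm_mul,
        Complex.norm_real, Real.norm_of_nonneg (by positivity)]
      have k1 := WhTh_rpow hv (sub_le_sub_left h2 2) (sub_le_sub_left h1 2)
      refine mul_le_mul_of_nonneg_right (mul_le_mul ((norm_Wh_le (by linarith) ν hv).trans ?_)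
        (h v).1 (norm_nonneg _) (by positivity)) (by positivity)
      gcongr

theorem WhTh_meas' {ψ : ℝ → ℂ} (hψ : Test1 ψ) (ν : O) (s : ℂ) :
    Measurable fun v => Wh s ν v * ψ v * ((1 / v ^ 3 : ℝ) : ℂ) :=
  ((measurable_Wh s ν).mul hψ.1).mul (by fun_prop)

theorem Test1.integrableOn_wI {ψ : ℝ → ℂ} (hψ : Test1 ψ) (ν : O) {s : ℂ} (hs : 1 < s.re) :
    IntegrableOn (fun v => Wh s ν v * ψ v * ((1 / v ^ 3 : ℝ) : ℂ)) (Ioi 0) := by
  obtain ⟨B, hB, h⟩ := WhTh_bound hψ ν hs s.re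
  exact hB.mono' (WhTh_meas' hψ ν s).aestronglyMeasurable
    ((ae_restrict_mem measurableSet_Ioi).mono fun v hv => h v hv s le_rfl le_rfl)
theorem hol_wI (ν : O) {ψ : ℝ → ℂ} (hψ : Test1 ψ) : Hol (wI ν ψ) := by
  refine differentiableOn_integral_of_bound WhTh_open
    (fun s _ => (WhTh_meas' hψ ν s).aestronglyMeasurable)
    ((ae_restrict_mem measurableSet_Ioi).mono fun v hv =>
      ((DifferentiableOn.mul_const (hol_Wh ν hv) _).mul_const _)) fun s₀ hs₀ => ?_
  have hs₀ : 1 < s₀.re := hs₀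
  obtain ⟨B, hB, h⟩ := WhTh_bound hψ ν (a := (1 + s₀.re) / 2) (by linarith) (2 * s₀.re)
  exact ⟨(s₀.re - 1) / 2, B, by linarith, hB, (ae_restrict_mem measurableSet_Ioi).mono
    fun v hv s hs => h v hv s (WhTh_ball hs).1 (WhTh_ball hs).2⟩

end Vale.Agent.P026
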